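import Vale.Agent.P226.FinMin

/-!
# P226: table of minorant constants (generated certificates)
-/

namespace Vale.Agent.P226

set_option linter.unusedVariables false

lemma mino_aux_0_0 {X Y U V : ℝ} (hX : 0 ≤ X) (hY : 0 ≤ Y) (hU : 0 ≤ U) (hV : 0 ≤ V) :
    0 ≤ V^5*((46875/64)*Y^3 + (263375/128)*X*Y^2 + (122475/64)*X^2*Y + (75325/128)*X^3) +
      U*V^4*((46875/64)*Y^3 + (245663/128)*X*Y^2 + (519767/320)*X^2*Y + (1399603/3200)*X^3) +
      U^2*V^3*((9375/32)*Y^3 + (44451/64)*X*Y^2 + (77659/160)*X^2*Y + (133581/1600)*X^3) +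
      U^3*V^2*((1875/32)*Y^3 + (9239/64)*X*Y^2 + (15551/160)*X^2*Y + (17559/1600)*X^3) +
      U^4*V*((375/64)*Y^3 + (3067/128)*X*Y^2 + (8643/320)*X^2*Y + (27537/3200)*X^3) +
      U^5*((15/64)*Y^3 + (67/128)*X*Y^2 + (187/320)*X^2*Y + (703/3200)*X^3) := by
  positivity

lemma mino_0 {q : ℝ} (h0 : 0 ≤ q) (h1 : q ≤ (1/2)) : Mino q ((22/125) * q) := by
  intro w hw0 hw1 hlin
  have hX : 0 ≤ q - 0 := by linarith
  have hY : 0 ≤ (1/2) - q := by linarith
  have hq0 : 0 ≤ q := by linarith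
  rcases eq_or_lt_of_le hq0 with hq | hq
  · rw [← hq]; norm_num
  have hwW : w ≤ (4/5) := by
    by_contra hcon
    push Not at hcon
    have h3 : ((22/125) * q) * (15 - q) * (4/5) < ((22/125) * q) * (15 - q) * w :=
      mul_lt_mul_of_pos_left hcon (mul_pos (by linarith) (by linarith))
    nlinarith
  have key := mino_aux_0_0 hX hY (U := w - 0) (V := (4/5) - w) (by linarith) (by linarith)
  have key2 := mul_nonneg hw0 (mul_nonneg hq0 key)
  refine sub_nonneg.1 (key2.trans (le_of_eq ?_))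
  ring

lemma mino_aux_4_0 {X Y U V : ℝ} (hX : 0 ≤ X) (hY : 0 ≤ Y) (hU : 0 ≤ U) (hV : 0 ≤ V) :
    0 ≤ V^5*((9804800/81)*Y^4 + (114579200/243)*X*Y^3 + (163580800/243)*X^2*Y^2 +
      (100816000/243)*X^3*Y + (22400000/243)*X^4) + U*V^4*((691132784/2025)*Y^4 +
      (7939534288/6075)*X*Y^3 + (11036031668/6075)*X^2*Y^2 + (260708336/243)*X^3*Y +
      (53909200/243)*X^4) + U^2*V^3*((248443712/675)*Y^4 + (8405337152/6075)*X*Y^3 +
      (11294926672/6075)*X^2*Y^2 + (250673344/243)*X^3*Y + (45636800/243)*X^4) +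
      U^3*V^2*((381996704/2025)*Y^4 + (4247205728/6075)*X*Y^3 + (5496590008/6075)*X^2*Y^2 +
      (111690016/243)*X^3*Y + (15855200/243)*X^4) + U^4*V*((93283136/2025)*Y^4 +
      (1045589152/6075)*X*Y^3 + (1323812672/6075)*X^2*Y^2 + (24498944/243)*X^3*Y +
      (2162800/243)*X^4) + U^5*((2973328/675)*Y^4 + (107379488/6075)*X*Y^3 +
      (142152268/6075)*X^2*Y^2 + (2656816/243)*X^3*Y + (192200/243)*X^4) := by
  positivity

lemma mino_aux_4_1 {X Y U V : ℝ} (hX : 0 ≤ X) (hY : 0 ≤ Y) (hU : 0 ≤ U) (hV : 0 ≤ V) :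
    0 ≤ V^5*((1672497/50)*Y^4 + (3355609/25)*X*Y^3 + (35538067/200)*X^2*Y^2 + (166051/2)*X^3*Y +
      (24025/4)*X^4) + U*V^4*((2277083/50)*Y^4 + (6180301/25)*X*Y^3 + (75515113/200)*X^2*Y^2 +
      (362969/2)*X^3*Y + (19975/4)*X^4) + U^2*V^3*((277681/25)*Y^4 + (6979614/25)*X*Y^3 +
      (63498891/100)*X^2*Y^2 + 454883*X^3*Y + (173325/2)*X^4) + U^3*V^2*((424279/25)*Y^4 +
      (9418126/25)*X*Y^3 + (92511669/100)*X^2*Y^2 + 772397*X^3*Y + (411175/2)*X^4) +
      U^4*V*((1440877/50)*Y^4 + (7229569/25)*X*Y^3 + (130779447/200)*X^2*Y^2 + (1101911/2)*X^3*Y +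
      (626525/4)*X^4) + U^5*((100299/10)*Y^4 + (375753/5)*X*Y^3 + (6334889/40)*X^2*Y^2 +
      (262285/2)*X^3*Y + (150875/4)*X^4) := by
  positivity

lemma mino_aux_4_2 {X Y U V : ℝ} (hX : 0 ≤ X) (hY : 0 ≤ Y) (hU : 0 ≤ U) (hV : 0 ≤ V) :
    0 ≤ V^5*((100299/10)*Y^4 + (375753/5)*X*Y^3 + (6334889/40)*X^2*Y^2 + (262285/2)*X^3*Y +
      (150875/4)*X^4) + U*V^4*((3574073/50)*Y^4 + (11558081/25)*X*Y^3 + (185965003/200)*X^2*Y^2 +
      (1520939/2)*X^3*Y + (882225/4)*X^4) + U^2*V^3*((4690671/25)*Y^4 + (26732174/25)*X*Y^3 +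
      (202882781/100)*X^2*Y^2 + 1610453*X^3*Y + (922575/2)*X^4) + U^3*V^2*((5037269/25)*Y^4 +
      (26320686/25)*X*Y^3 + (189195559/100)*X^2*Y^2 + 1447967*X^3*Y + (810425/2)*X^4) +
      U^4*V*((4249867/50)*Y^4 + (10234349/25)*X*Y^3 + (136817337/200)*X^2*Y^2 + (983081/2)*X^3*Y +
      (522775/4)*X^4) + U^5*((442493/50)*Y^4 + (878921/25)*X*Y^3 + (8798823/200)*X^2*Y^2 +
      (41719/2)*X^3*Y + (11725/4)*X^4) := by
  positivity

lemma mino_4 {q : ℝ} (h0 : 2 ≤ q) (h1 : q ≤ (5/2)) : Mino q ((-109/500) + (83/250) * q) := by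
  intro w hw0 hw1 hlin
  have hX : 0 ≤ q - 2 := by linarith
  have hY : 0 ≤ (5/2) - q := by linarith
  have hq0 : 0 ≤ q := by linarith
  have hwW : w ≤ (7/10) := by
    by_contra hcon
    push Not at hcon
    have h3 : ((-109/500) + (83/250) * q) * (15 - q) * (7/10) < ((-109/500) + (83/250) * q) * (15 - q) * w :=
      mul_lt_mul_of_pos_left hcon (mul_pos (by linarith) (by linarith))
    nlinarith [mul_nonneg hX hY]
  rcases le_total w (3/10) with hs0 | hs0
  · have key := mino_aux_4_0 hX hY (U := w - 0) (V := (3/10) - w) (by linarith) (by linarith)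
    have key2 := mul_nonneg hw0 key
    refine sub_nonneg.1 (key2.trans (le_of_eq ?_))
    ring
  rcases le_total w (1/2) with hs1 | hs1
  · have key := mino_aux_4_1 hX hY (U := w - (3/10)) (V := (1/2) - w) (by linarith) (by linarith)
    have key2 := mul_nonneg hw0 key
    refine sub_nonneg.1 (key2.trans (le_of_eq ?_))
    ring
  have key := mino_aux_4_2 hX hY (U := w - (1/2)) (V := (7/10) - w) (by linarith) (by linarith)
  have key2 := mul_nonneg hw0 key
  refine sub_nonneg.1 (key2.trans (le_of_eq ?_))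
  ring

lemma mino_aux_8_0 {X Y U V : ℝ} (hX : 0 ≤ X) (hY : 0 ≤ Y) (hU : 0 ≤ U) (hV : 0 ≤ V) :
    0 ≤ V^5*((1376256/125)*Y^4 + (2138112/25)*X*Y^3 + (19132416/125)*X^2*Y^2 +
      (11034624/125)*X^3*Y + (1216512/125)*X^4) + U*V^4*((126095104/15625)*Y^4 +
      (6341765888/15625)*X*Y^3 + (15904835776/15625)*X^2*Y^2 + (12934230912/15625)*X^3*Y +
      (3243386304/15625)*X^4) + U^2*V^3*((2624060416/15625)*Y^4 + (25923863552/15625)*X*Y^3 +
      (58183823104/15625)*X^2*Y^2 + (48503643648/15625)*X^3*Y + (13612905216/15625)*X^4) +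
      U^3*V^2*((6595930624/15625)*Y^4 + (44164195328/15625)*X*Y^3 + (89757974656/15625)*X^2*Y^2 +
      (72938825472/15625)*X^3*Y + (20739037824/15625)*X^4) + U^4*V*((5339900416/15625)*Y^4 +
      (30765263552/15625)*X*Y^3 + (58935563104/15625)*X^2*Y^2 + (46761003648/15625)*X^3*Y +
      (13244085216/15625)*X^4) + U^5*((1391967104/15625)*Y^4 + (7429735888/15625)*X*Y^3 +
      (13711002776/15625)*X^2*Y^2 + (10677918912/15625)*X^3*Y + (3003005304/15625)*X^4) := by
  positivity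

lemma mino_aux_8_1 {X Y U V : ℝ} (hX : 0 ≤ X) (hY : 0 ≤ Y) (hU : 0 ≤ U) (hV : 0 ≤ V) :
    0 ≤ V^5*((1425374314496/48828125)*Y^4 + (7608049549312/48828125)*X*Y^3 +
      (14040066842624/48828125)*X^2*Y^2 + (10934188965888/48828125)*X^3*Y +
      (3075077431296/48828125)*X^4) + U*V^4*((368015540224/1953125)*Y^4 +
      (1848440803328/1953125)*X*Y^3 + (3300529248256/1953125)*X^2*Y^2 +
      (2526221647872/1953125)*X^3*Y + (705687681024/1953125)*X^4) +
      U^2*V^3*((4239482175488/9765625)*Y^4 + (20280876967936/9765625)*X*Y^3 +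
      (35090691279872/9765625)*X^2*Y^2 + (26311735025664/9765625)*X^3*Y +
      (7257278757888/9765625)*X^4) + U^3*V^2*((4146328948736/9765625)*Y^4 +
      (19115305902592/9765625)*X*Y^3 + (32171030077184/9765625)*X^2*Y^2 +
      (23627333572608/9765625)*X^3*Y + (6419260705536/9765625)*X^4) +
      U^4*V*((1642147860992/9765625)*Y^4 + (7285872418624/9765625)*X*Y^3 +
      (11852441937248/9765625)*X^2*Y^2 + (8454206059776/9765625)*X^3*Y +
      (2242048826592/9765625)*X^4) + U^5*((832741247616/48828125)*Y^4 +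
      (3373778135952/48828125)*X*Y^3 + (4958835710904/48828125)*X^2*Y^2 +
      (3181060333248/48828125)*X^3*Y + (759391675416/48828125)*X^4) := by
  positivity

lemma mino_8 {q : ℝ} (h0 : 4 ≤ q) (h1 : q ≤ (9/2)) : Mino q ((-127/100) + (81/125) * q) := by
  intro w hw0 hw1 hlin
  have hX : 0 ≤ q - 4 := by linarith
  have hY : 0 ≤ (9/2) - q := by linarith
  have hq0 : 0 ≤ q := by linarith
  have hwW : w ≤ (9/16) := by
    by_contra hcon
    push Not at hcon
    have h3 : ((-127/100) + (81/125) * q) * (15 - q) * (9/16) < ((-127/100) + (81/125) * q) * (15 - q) * w :=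
      mul_lt_mul_of_pos_left hcon (mul_pos (by linarith) (by linarith))
    nlinarith [mul_nonneg hX hY]
  rcases le_total w (1/4) with hs0 | hs0
  · have key := mino_aux_8_0 hX hY (U := w - 0) (V := (1/4) - w) (by linarith) (by linarith)
    have key2 := mul_nonneg hw0 key
    refine sub_nonneg.1 (key2.trans (le_of_eq ?_))
    ring
  have key := mino_aux_8_1 hX hY (U := w - (1/4)) (V := (9/16) - w) (by linarith) (by linarith)
  have key2 := mul_nonneg hw0 key
  refine sub_nonneg.1 (key2.trans (le_of_eq ?_))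
  ring

lemma mino_aux_12_0 {X Y U V : ℝ} (hX : 0 ≤ X) (hY : 0 ≤ Y) (hU : 0 ≤ U) (hV : 0 ≤ V) :
    0 ≤ V^5*((36864/125)*Y^4 + (104448/25)*X*Y^3 + (1000192/125)*X^2*Y^2 + (109952/25)*X^3*Y +
      (34944/125)*X^4) + U*V^4*((1017141696/15625)*Y^4 + (918372864/3125)*X*Y^3 +
      (7521121568/15625)*X^2*Y^2 + (1064296256/3125)*X^3*Y + (1374842236/15625)*X^4) +
      U^2*V^3*((3302486784/15625)*Y^4 + (2882931456/3125)*X*Y^3 + (23224246272/15625)*X^2*Y^2 +
      (3279745024/3125)*X^3*Y + (4285688944/15625)*X^4) + U^3*V^2*((3490690176/15625)*Y^4 +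
      (2999117184/3125)*X*Y^3 + (23916249408/15625)*X^2*Y^2 + (3360897536/3125)*X^3*Y +
      (4391693416/15625)*X^4) + U^4*V*((1317446784/15625)*Y^4 + (1115151456/3125)*X*Y^3 +
      (8791876272/15625)*X^2*Y^2 + (1226025024/3125)*X^3*Y + (1595598944/15625)*X^4) +
      U^5*((89709696/15625)*Y^4 + (71898864/3125)*X*Y^3 + (539650568/15625)*X^2*Y^2 +
      (72320256/3125)*X^3*Y + (91495236/15625)*X^4) := by
  positivity

lemma mino_12 {q : ℝ} (h0 : 6 ≤ q) (h1 : q ≤ (13/2)) : Mino q ((-761/250) + (49/50) * q) := by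
  intro w hw0 hw1 hlin
  have hX : 0 ≤ q - 6 := by linarith
  have hY : 0 ≤ (13/2) - q := by linarith
  have hq0 : 0 ≤ q := by linarith
  have hwW : w ≤ (1/2) := by
    by_contra hcon
    push Not at hcon
    have h3 : ((-761/250) + (49/50) * q) * (15 - q) * (1/2) < ((-761/250) + (49/50) * q) * (15 - q) * w :=
      mul_lt_mul_of_pos_left hcon (mul_pos (by linarith) (by linarith))
    nlinarith [mul_nonneg hX hY]
  have key := mino_aux_12_0 hX hY (U := w - 0) (V := (1/2) - w) (by linarith) (by linarith)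
  have key2 := mul_nonneg hw0 key
  refine sub_nonneg.1 (key2.trans (le_of_eq ?_))
  ring

end Vale.Agent.P226
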