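import Vale.Agent.P226.FinMin

/-!
# P226: table of minorant constants (generated certificates)
-/

namespace Vale.Agent.P226

set_option linter.unusedVariables false

lemma mino_aux_1_0 {X Y U V : ℝ} (hX : 0 ≤ X) (hY : 0 ≤ Y) (hU : 0 ≤ U) (hV : 0 ≤ V) :
    0 ≤ V^5*((617062400/371293)*Y^4 + (2947686400/371293)*X*Y^3 + (4997939200/371293)*X^2*Y^2 +
      (3615948800/371293)*X^3*Y + (948633600/371293)*X^4) + U*V^4*((23778157568/9282325)*Y^4 +
      (110456921088/9282325)*X*Y^3 + (179720053504/9282325)*X^2*Y^2 +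
      (122658953216/9282325)*X^3*Y + (29615583232/9282325)*X^4) +
      U^2*V^3*((13855030272/9282325)*Y^4 + (61834084352/9282325)*X*Y^3 +
      (94019414016/9282325)*X^2*Y^2 + (57144612864/9282325)*X^3*Y + (11095932928/9282325)*X^4) +
      U^3*V^2*((3948945408/9282325)*Y^4 + (17133526528/9282325)*X*Y^3 +
      (24368321024/9282325)*X^2*Y^2 + (12553719296/9282325)*X^3*Y + (1357499392/9282325)*X^4) +
      U^4*V*((649522272/9282325)*Y^4 + (3016436352/9282325)*X*Y^3 + (4649410016/9282325)*X^2*Y^2 +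
      (2675516864/9282325)*X^3*Y + (384700928/9282325)*X^4) + U^5*((50510168/9282325)*Y^4 +
      (258994688/9282325)*X*Y^3 + (444469304/9282325)*X^2*Y^2 + (302974416/9282325)*X^3*Y +
      (64909632/9282325)*X^4) := by
  positivity

lemma mino_aux_1_1 {X Y U V : ℝ} (hX : 0 ≤ X) (hY : 0 ≤ Y) (hU : 0 ≤ U) (hV : 0 ≤ V) :
    0 ≤ V^5*((51722412032/4026275)*Y^4 + (265210560512/4026275)*X*Y^3 +
      (455136567296/4026275)*X^2*Y^2 + (310245801984/4026275)*X^3*Y + (66467463168/4026275)*X^4) +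
      U*V^4*((172621940736/4026275)*Y^4 + (953157451776/4026275)*X*Y^3 +
      (1749943543808/4026275)*X^2*Y^2 + (1299815493632/4026275)*X^3*Y +
      (319307300864/4026275)*X^4) + U^2*V^3*((258308250624/4026275)*Y^4 +
      (1511420329984/4026275)*X*Y^3 + (2916502326272/4026275)*X^2*Y^2 +
      (2320481650688/4026275)*X^3*Y + (633989963776/4026275)*X^4) +
      U^3*V^2*((204071659776/4026275)*Y^4 + (1215958716416/4026275)*X*Y^3 +
      (2371159964928/4026275)*X^2*Y^2 + (1949914394112/4026275)*X^3*Y +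
      (566638925824/4026275)*X^4) + U^4*V*((76514250464/4026275)*Y^4 +
      (440454887424/4026275)*X*Y^3 + (816170269792/4026275)*X^2*Y^2 +
      (661964360768/4026275)*X^3*Y + (197282887936/4026275)*X^4) + U^5*((8917216808/4026275)*Y^4 +
      (43331340928/4026275)*X*Y^3 + (58427633224/4026275)*X^2*Y^2 + (36584306096/4026275)*X^3*Y +
      (9990316992/4026275)*X^4) := by
  positivity

lemma mino_1 {q : ℝ} (h0 : (1/2) ≤ q) (h1 : q ≤ 1) : Mino q ((-3/250) + (1/5) * q) := by
  intro w hw0 hw1 hlin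
  have hX : 0 ≤ q - (1/2) := by linarith
  have hY : 0 ≤ 1 - q := by linarith
  have hq0 : 0 ≤ q := by linarith
  have hwW : w ≤ (63/80) := by
    by_contra hcon
    push Not at hcon
    have h3 : ((-3/250) + (1/5) * q) * (15 - q) * (63/80) < ((-3/250) + (1/5) * q) * (15 - q) * w :=
      mul_lt_mul_of_pos_left hcon (mul_pos (by linarith) (by linarith))
    nlinarith [mul_nonneg hX hY]
  rcases le_total w (13/20) with hs0 | hs0
  · have key := mino_aux_1_0 hX hY (U := w - 0) (V := (13/20) - w) (by linarith) (by linarith)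
    have key2 := mul_nonneg hw0 key
    refine sub_nonneg.1 (key2.trans (le_of_eq ?_))
    ring
  have key := mino_aux_1_1 hX hY (U := w - (13/20)) (V := (63/80) - w) (by linarith) (by linarith)
  have key2 := mul_nonneg hw0 key
  refine sub_nonneg.1 (key2.trans (le_of_eq ?_))
  ring

lemma mino_aux_5_0 {X Y U V : ℝ} (hX : 0 ≤ X) (hY : 0 ≤ Y) (hU : 0 ≤ U) (hV : 0 ≤ V) :
    0 ≤ V^5*(229376*Y^4 + (21704704/25)*X*Y^3 + (149131264/125)*X^2*Y^2 + (86974464/125)*X^3*Y +
      (3538944/25)*X^4) + U*V^4*((16279296/25)*Y^4 + (1516862208/625)*X*Y^3 +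
      (50558594496/15625)*X^2*Y^2 + (5564961792/3125)*X^3*Y + (200503296/625)*X^4) +
      U^2*V^3*((17373184/25)*Y^4 + (1601272832/625)*X*Y^3 + (51580297984/15625)*X^2*Y^2 +
      (5220231168/3125)*X^3*Y + (147677184/625)*X^4) + U^3*V^2*((8587776/25)*Y^4 +
      (800821248/625)*X*Y^3 + (25243406976/15625)*X^2*Y^2 + (2310538752/3125)*X^3*Y +
      (38347776/625)*X^4) + U^4*V*((1961184/25)*Y^4 + (199784832/625)*X*Y^3 +
      (6614757984/15625)*X^2*Y^2 + (601023168/3125)*X^3*Y + (6269184/625)*X^4) +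
      U^5*((176696/25)*Y^4 + (23391808/625)*X*Y^3 + (933337496/15625)*X^2*Y^2 +
      (106165392/3125)*X^3*Y + (2848896/625)*X^4) := by
  positivity

lemma mino_aux_5_1 {X Y U V : ℝ} (hX : 0 ≤ X) (hY : 0 ≤ Y) (hU : 0 ≤ U) (hV : 0 ≤ V) :
    0 ≤ V^5*((22087000/243)*Y^4 + (116959040/243)*X*Y^3 + (933337496/1215)*X^2*Y^2 +
      (35388464/81)*X^3*Y + (1582720/27)*X^4) + U*V^4*((29607200/243)*Y^4 +
      (336317824/243)*X*Y^3 + (17489225888/6075)*X^2*Y^2 + (814515392/405)*X^3*Y +
      (10572032/27)*X^4) + U^2*V^3*((10508800/243)*Y^4 + (599760896/243)*X*Y^3 +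
      (37901978752/6075)*X^2*Y^2 + (2069498368/405)*X^3*Y + (34812928/27)*X^4) +
      U^3*V^2*((31283200/243)*Y^4 + (774278144/243)*X*Y^3 + (48735785728/6075)*X^2*Y^2 +
      (2790909952/405)*X^3*Y + (51822592/27)*X^4) + U^4*V*((44460800/243)*Y^4 +
      (532170496/243)*X*Y^3 + (31254748352/6075)*X^2*Y^2 + (1786170368/405)*X^3*Y +
      (34254848/27)*X^4) + U^5*((15923200/243)*Y^4 + (137283584/243)*X*Y^3 +
      (7559085568/6075)*X^2*Y^2 + (425377792/405)*X^3*Y + (8224768/27)*X^4) := by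
  positivity

lemma mino_aux_5_2 {X Y U V : ℝ} (hX : 0 ≤ X) (hY : 0 ≤ Y) (hU : 0 ≤ U) (hV : 0 ≤ V) :
    0 ≤ V^5*((521771417600/115856201)*Y^4 + (4498508480512/115856201)*X*Y^3 +
      (247696115892224/2896405025)*X^2*Y^2 + (41816338464768/579281005)*X^3*Y +
      (2425582780416/115856201)*X^4) + U*V^4*((4576798310400/115856201)*Y^4 +
      (31127107534848/115856201)*X*Y^3 + (1604619096293376/2896405025)*X^2*Y^2 +
      (266300609789952/579281005)*X^3*Y + (15588567023616/115856201)*X^4) +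
      U^2*V^3*((14301305241600/115856201)*Y^4 + (81286001590272/115856201)*X*Y^3 +
      (3875305450635264/2896405025)*X^2*Y^2 + (618351823945728/579281005)*X^3*Y +
      (35560215281664/115856201)*X^4) + U^3*V^2*((16708634214400/115856201)*Y^4 +
      (86215160987648/115856201)*X*Y^3 + (3881767458635776/2896405025)*X^2*Y^2 +
      (596992142180352/579281005)*X^3*Y + (33543201816576/115856201)*X^4) +
      U^4*V*((7387205433600/115856201)*Y^4 + (35434950208512/115856201)*X*Y^3 +
      (1504340657958144/2896405025)*X^2*Y^2 + (220549226623488/579281005)*X^3*Y +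
      (11934222649344/115856201)*X^4) + U^5*((808993367000/115856201)*Y^4 +
      (3395229960640/115856201)*X*Y^3 + (24442027246936/579281005)*X^2*Y^2 +
      (2967745331472/115856201)*X^3*Y + (654785527680/115856201)*X^4) := by
  positivity

lemma mino_5 {q : ℝ} (h0 : (5/2) ≤ q) (h1 : q ≤ 3) : Mino q ((-189/500) + (99/250) * q) := by
  intro w hw0 hw1 hlin
  have hX : 0 ≤ q - (5/2) := by linarith
  have hY : 0 ≤ 3 - q := by linarith
  have hq0 : 0 ≤ q := by linarith
  have hwW : w ≤ (21/32) := by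
    by_contra hcon
    push Not at hcon
    have h3 : ((-189/500) + (99/250) * q) * (15 - q) * (21/32) < ((-189/500) + (99/250) * q) * (15 - q) * w :=
      mul_lt_mul_of_pos_left hcon (mul_pos (by linarith) (by linarith))
    nlinarith [mul_nonneg hX hY]
  rcases le_total w (1/4) with hs0 | hs0
  · have key := mino_aux_5_0 hX hY (U := w - 0) (V := (1/4) - w) (by linarith) (by linarith)
    have key2 := mul_nonneg hw0 key
    refine sub_nonneg.1 (key2.trans (le_of_eq ?_))
    ring
  rcases le_total w (2/5) with hs1 | hs1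
  · have key := mino_aux_5_1 hX hY (U := w - (1/4)) (V := (2/5) - w) (by linarith) (by linarith)
    have key2 := mul_nonneg hw0 key
    refine sub_nonneg.1 (key2.trans (le_of_eq ?_))
    ring
  have key := mino_aux_5_2 hX hY (U := w - (2/5)) (V := (21/32) - w) (by linarith) (by linarith)
  have key2 := mul_nonneg hw0 key
  refine sub_nonneg.1 (key2.trans (le_of_eq ?_))
  ring

lemma mino_aux_9_0 {X Y U V : ℝ} (hX : 0 ≤ X) (hY : 0 ≤ Y) (hU : 0 ≤ U) (hV : 0 ≤ V) :
    0 ≤ V^5*((46137344/273375)*Y^4 + (3783262208/2460375)*X*Y^3 + (6849298432/2460375)*X^2*Y^2 +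
      (2256535552/1476225)*X^3*Y + (33554432/295245)*X^4) + U*V^4*((240724164608/34171875)*Y^4 +
      (12412768452608/307546875)*X*Y^3 + (23482694975488/307546875)*X^2*Y^2 +
      (10973173645312/184528125)*X^3*Y + (606074568704/36905625)*X^4) +
      U^2*V^3*((1319944978432/34171875)*Y^4 + (56534156050432/307546875)*X*Y^3 +
      (97396036861952/307546875)*X^2*Y^2 + (43560345141248/184528125)*X^3*Y +
      (2382355234816/36905625)*X^4) + U^3*V^2*((1640041627648/34171875)*Y^4 +
      (66729175195648/307546875)*X*Y^3 + (111020283772928/307546875)*X^2*Y^2 +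
      (48533702991872/184528125)*X^3*Y + (2619441332224/36905625)*X^4) +
      U^4*V*((634847138432/34171875)*Y^4 + (24946761170432/307546875)*X*Y^3 +
      (40335787341952/307546875)*X^2*Y^2 + (17240566421248/184528125)*X^3*Y +
      (915047714816/36905625)*X^4) + U^5*((28125617608/34171875)*Y^4 +
      (922313348608/307546875)*X*Y^3 + (1208829384488/307546875)*X^2*Y^2 +
      (409884119312/184528125)*X^3*Y + (17032352704/36905625)*X^4) := by
  positivity

lemma mino_9 {q : ℝ} (h0 : (9/2) ≤ q) (h1 : q ≤ 5) : Mino q ((-779/500) + (89/125) * q) := by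
  intro w hw0 hw1 hlin
  have hX : 0 ≤ q - (9/2) := by linarith
  have hY : 0 ≤ 5 - q := by linarith
  have hq0 : 0 ≤ q := by linarith
  have hwW : w ≤ (9/16) := by
    by_contra hcon
    push Not at hcon
    have h3 : ((-779/500) + (89/125) * q) * (15 - q) * (9/16) < ((-779/500) + (89/125) * q) * (15 - q) * w :=
      mul_lt_mul_of_pos_left hcon (mul_pos (by linarith) (by linarith))
    nlinarith [mul_nonneg hX hY]
  have key := mino_aux_9_0 hX hY (U := w - 0) (V := (9/16) - w) (by linarith) (by linarith)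
  have key2 := mul_nonneg hw0 key
  refine sub_nonneg.1 (key2.trans (le_of_eq ?_))
  ring

lemma mino_aux_13_0 {X Y U V : ℝ} (hX : 0 ≤ X) (hY : 0 ≤ Y) (hU : 0 ≤ U) (hV : 0 ≤ V) :
    0 ≤ V^5*((34944/125)*Y^4 + (121344/25)*X*Y^3 + (1186944/125)*X^2*Y^2 + (658176/125)*X^3*Y +
      (43008/125)*X^4) + U*V^4*((1374842236/15625)*Y^4 + (6106146072/15625)*X*Y^3 +
      (9880387804/15625)*X^2*Y^2 + (6926314368/15625)*X^3*Y + (1776925696/15625)*X^4) +
      U^2*V^3*((4285688944/15625)*Y^4 + (18506184288/15625)*X*Y^3 + (29547871216/15625)*X^2*Y^2 +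
      (20702537472/15625)*X^3*Y + (5373942784/15625)*X^4) + U^3*V^2*((4391693416/15625)*Y^4 +
      (18710076432/15625)*X*Y^3 + (29624966824/15625)*X^2*Y^2 + (20682446208/15625)*X^3*Y +
      (5374034176/15625)*X^4) + U^4*V*((1595598944/15625)*Y^4 + (6705984288/15625)*X*Y^3 +
      (10510781216/15625)*X^2*Y^2 + (7290677472/15625)*X^3*Y + (1889062784/15625)*X^4) +
      U^5*((91495236/15625)*Y^4 + (360786072/15625)*X*Y^3 + (534540804/15625)*X^2*Y^2 +
      (354976368/15625)*X^3*Y + (89421696/15625)*X^4) := by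
  positivity

lemma mino_13 {q : ℝ} (h0 : (13/2) ≤ q) (h1 : q ≤ 7) : Mino q ((-77/20) + (138/125) * q) := by
  intro w hw0 hw1 hlin
  have hX : 0 ≤ q - (13/2) := by linarith
  have hY : 0 ≤ 7 - q := by linarith
  have hq0 : 0 ≤ q := by linarith
  have hwW : w ≤ (1/2) := by
    by_contra hcon
    push Not at hcon
    have h3 : ((-77/20) + (138/125) * q) * (15 - q) * (1/2) < ((-77/20) + (138/125) * q) * (15 - q) * w :=
      mul_lt_mul_of_pos_left hcon (mul_pos (by linarith) (by linarith))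
    nlinarith [mul_nonneg hX hY]
  have key := mino_aux_13_0 hX hY (U := w - 0) (V := (1/2) - w) (by linarith) (by linarith)
  have key2 := mul_nonneg hw0 key
  refine sub_nonneg.1 (key2.trans (le_of_eq ?_))
  ring

end Vale.Agent.P226
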