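import Vale.Agent.P226.FinMin

/-!
# P226: table of minorant constants (generated certificates)
-/

namespace Vale.Agent.P226

set_option linter.unusedVariables false

lemma mino_aux_2_0 {X Y U V : ℝ} (hX : 0 ≤ X) (hY : 0 ≤ Y) (hU : 0 ≤ U) (hV : 0 ≤ V) :
    0 ≤ V^5*((948633600/161051)*Y^4 + (4030464000/161051)*X*Y^3 + (6268108800/161051)*X^2*Y^2 +
      (4233216000/161051)*X^3*Y + (1046937600/161051)*X^4) + U*V^4*((43302293504/4026275)*Y^4 +
      (7168915456/161051)*X*Y^3 + (268671210752/4026275)*X^2*Y^2 + (6889956864/161051)*X^3*Y +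
      (39495769344/4026275)*X^4) + U^2*V^3*((28978774016/4026275)*Y^4 +
      (4633421824/161051)*X*Y^3 + (163961643008/4026275)*X^2*Y^2 + (3813267456/161051)*X^3*Y +
      (18216677376/4026275)*X^4) + U^3*V^2*((8911361024/4026275)*Y^4 + (1395252736/161051)*X*Y^3 +
      (46520064512/4026275)*X^2*Y^2 + (932381184/161051)*X^3*Y + (2744216064/4026275)*X^4) +
      U^4*V*((1445782016/4026275)*Y^4 + (248079424/161051)*X*Y^3 + (8927367008/4026275)*X^2*Y^2 +
      (191993856/161051)*X^3*Y + (618545376/4026275)*X^4) + U^5*((122970304/4026275)*Y^4 +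
      (25695056/161051)*X*Y^3 + (1097642152/4026275)*X^2*Y^2 + (29616864/161051)*X^3*Y +
      (159651144/4026275)*X^4) := by
  positivity

lemma mino_aux_2_1 {X Y U V : ℝ} (hX : 0 ≤ X) (hY : 0 ≤ Y) (hU : 0 ≤ U) (hV : 0 ≤ V) :
    0 ≤ V^5*((125921591296/35496425)*Y^4 + (26311737344/1419857)*X*Y^3 +
      (1123985563648/35496425)*X^2*Y^2 + (30327668736/1419857)*X^3*Y +
      (163482771456/35496425)*X^4) + U*V^4*((300861636608/35496425)*Y^4 +
      (84238938112/1419857)*X*Y^3 + (4259272546304/35496425)*X^2*Y^2 +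
      (134266134528/1419857)*X^3*Y + (888513804288/35496425)*X^4) +
      U^2*V^3*((610382569472/35496425)*Y^4 + (174708164608/1419857)*X*Y^3 +
      (9127587316736/35496425)*X^2*Y^2 + (304191025152/1419857)*X^3*Y +
      (2204546798592/35496425)*X^4) + U^3*V^2*((712927561728/35496425)*Y^4 +
      (182636385792/1419857)*X*Y^3 + (9110641668864/35496425)*X^2*Y^2 +
      (299698664448/1419857)*X^3*Y + (2202838564608/35496425)*X^4) +
      U^4*V*((326233652992/35496425)*Y^4 + (74474765888/1419857)*X*Y^3 +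
      (3398585118496/35496425)*X^2*Y^2 + (105124313472/1419857)*X^3*Y +
      (748171281312/35496425)*X^4) + U^5*((32846217024/35496425)*Y^4 +
      (5779629936/1419857)*X*Y^3 + (162963595512/35496425)*X^2*Y^2 + (2270551584/1419857)*X^3*Y +
      (1846799064/35496425)*X^4) := by
  positivity

lemma mino_2 {q : ℝ} (h0 : 1 ≤ q) (h1 : q ≤ (3/2)) : Mino q ((-13/250) + (6/25) * q) := by
  intro w hw0 hw1 hlin
  have hX : 0 ≤ q - 1 := by linarith
  have hY : 0 ≤ (3/2) - q := by linarith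
  have hq0 : 0 ≤ q := by linarith
  have hwW : w ≤ (61/80) := by
    by_contra hcon
    push Not at hcon
    have h3 : ((-13/250) + (6/25) * q) * (15 - q) * (61/80) < ((-13/250) + (6/25) * q) * (15 - q) * w :=
      mul_lt_mul_of_pos_left hcon (mul_pos (by linarith) (by linarith))
    nlinarith [mul_nonneg hX hY]
  rcases le_total w (11/20) with hs0 | hs0
  · have key := mino_aux_2_0 hX hY (U := w - 0) (V := (11/20) - w) (by linarith) (by linarith)
    have key2 := mul_nonneg hw0 key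
    refine sub_nonneg.1 (key2.trans (le_of_eq ?_))
    ring
  have key := mino_aux_2_1 hX hY (U := w - (11/20)) (V := (61/80) - w) (by linarith) (by linarith)
  have key2 := mul_nonneg hw0 key
  refine sub_nonneg.1 (key2.trans (le_of_eq ?_))
  ring

lemma mino_aux_6_0 {X Y U V : ℝ} (hX : 0 ≤ X) (hY : 0 ≤ Y) (hU : 0 ≤ U) (hV : 0 ≤ V) :
    0 ≤ V^5*((16384000/9)*Y^4 + (538419200/81)*X*Y^3 + (2082304000/243)*X^2*Y^2 +
      (119603200/27)*X^3*Y + (167014400/243)*X^4) + U*V^4*((55046144/9)*Y^4 +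
      (8991214592/405)*X*Y^3 + (169756490048/6075)*X^2*Y^2 + (27384694144/2025)*X^3*Y +
      (10107080512/6075)*X^4) + U^2*V^3*((71704576/9)*Y^4 + (11751098368/405)*X*Y^3 +
      (217633960192/6075)*X^2*Y^2 + (32508376576/2025)*X^3*Y + (7746722048/6075)*X^4) +
      U^3*V^2*((45220864/9)*Y^4 + (7596247552/405)*X*Y^3 + (140596540288/6075)*X^2*Y^2 +
      (729932032/75)*X^3*Y + (1932083072/6075)*X^4) + U^4*V*((13903616/9)*Y^4 +
      (2500991168/405)*X*Y^3 + (48350756192/6075)*X^2*Y^2 + (6878584576/2025)*X^3*Y +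
      (404590048/6075)*X^4) + U^5*((1714816/9)*Y^4 + (354798832/405)*X*Y^3 +
      (7644719848/6075)*X^2*Y^2 + (1254168544/2025)*X^3*Y + (279683912/6075)*X^4) := by
  positivity

lemma mino_aux_6_1 {X Y U V : ℝ} (hX : 0 ≤ X) (hY : 0 ≤ Y) (hU : 0 ≤ U) (hV : 0 ≤ V) :
    0 ≤ V^5*((361719/8)*Y^4 + (66524781/320)*X*Y^3 + (955589981/3200)*X^2*Y^2 +
      (117578301/800)*X^3*Y + (34960489/3200)*X^4) + U*V^4*((309663/8)*Y^4 +
      (150874653/320)*X*Y^3 + (3090090413/3200)*X^2*Y^2 + (511923773/800)*X^3*Y +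
      (340440697/3200)*X^4) + U^2*V^3*((77211/4)*Y^4 + (159170601/160)*X*Y^3 +
      (4028976921/1600)*X^2*Y^2 + (830582041/400)*X^3*Y + (851696949/1600)*X^4) +
      U^3*V^2*((532359/4)*Y^4 + (264108549/160)*X*Y^3 + (6186953429/1600)*X^2*Y^2 +
      (1309010309/400)*X^3*Y + (1474323201/1600)*X^4) + U^4*V*((1269027/8)*Y^4 +
      (400605297/320)*X*Y^3 + (8590443937/3200)*X^2*Y^2 + (1786112577/800)*X^3*Y +
      (2049111453/3200)*X^4) + U^5*((401571/8)*Y^4 + (104858889/320)*X*Y^3 +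
      (2116515289/3200)*X^2*Y^2 + (430891369/800)*X^3*Y + (494257141/3200)*X^4) := by
  positivity

lemma mino_aux_6_2 {X Y U V : ℝ} (hX : 0 ≤ X) (hY : 0 ≤ Y) (hU : 0 ≤ U) (hV : 0 ≤ V) :
    0 ≤ V^5*((1644834816/161051)*Y^4 + (53687751168/805255)*X*Y^3 + (541827913984/4026275)*X^2*Y^2 +
      (441232761856/4026275)*X^3*Y + (126529828096/4026275)*X^4) +
      U*V^4*((12385253376/161051)*Y^4 + (355515916032/805255)*X*Y^3 +
      (3410370212736/4026275)*X^2*Y^2 + (2724792538624/4026275)*X^3*Y +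
      (781254477184/4026275)*X^4) + U^2*V^3*((33126119424/161051)*Y^4 +
      (860390638848/805255)*X*Y^3 + (7825007167104/4026275)*X^2*Y^2 +
      (6065731559936/4026275)*X^3*Y + (1711989275776/4026275)*X^4) +
      U^3*V^2*((35565935616/161051)*Y^4 + (866850575232/805255)*X*Y^3 +
      (7556782732736/4026275)*X^2*Y^2 + (5688799098624/4026275)*X^3*Y +
      (1574282389184/4026275)*X^4) + U^4*V*((14925659904/161051)*Y^4 +
      (344068475808/805255)*X*Y^3 + (2860689199184/4026275)*X^2*Y^2 +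
      (2069833518656/4026275)*X^3*Y + (554774401296/4026275)*X^4) + U^5*((1559894400/161051)*Y^4 +
      (6390760560/161051)*X*Y^3 + (9233383256/161051)*X^2*Y^2 + (5719127904/161051)*X^3*Y +
      (1302831864/161051)*X^4) := by
  positivity

lemma mino_6 {q : ℝ} (h0 : 3 ≤ q) (h1 : q ≤ (7/2)) : Mino q ((-291/500) + (58/125) * q) := by
  intro w hw0 hw1 hlin
  have hX : 0 ≤ q - 3 := by linarith
  have hY : 0 ≤ (7/2) - q := by linarith
  have hq0 : 0 ≤ q := by linarith
  have hwW : w ≤ (5/8) := by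
    by_contra hcon
    push Not at hcon
    have h3 : ((-291/500) + (58/125) * q) * (15 - q) * (5/8) < ((-291/500) + (58/125) * q) * (15 - q) * w :=
      mul_lt_mul_of_pos_left hcon (mul_pos (by linarith) (by linarith))
    nlinarith [mul_nonneg hX hY]
  rcases le_total w (3/20) with hs0 | hs0
  · have key := mino_aux_6_0 hX hY (U := w - 0) (V := (3/20) - w) (by linarith) (by linarith)
    have key2 := mul_nonneg hw0 key
    refine sub_nonneg.1 (key2.trans (le_of_eq ?_))
    ring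
  rcases le_total w (7/20) with hs1 | hs1
  · have key := mino_aux_6_1 hX hY (U := w - (3/20)) (V := (7/20) - w) (by linarith) (by linarith)
    have key2 := mul_nonneg hw0 key
    refine sub_nonneg.1 (key2.trans (le_of_eq ?_))
    ring
  have key := mino_aux_6_2 hX hY (U := w - (7/20)) (V := (5/8) - w) (by linarith) (by linarith)
  have key2 := mul_nonneg hw0 key
  refine sub_nonneg.1 (key2.trans (le_of_eq ?_))
  ring

lemma mino_aux_10_0 {X Y U V : ℝ} (hX : 0 ≤ X) (hY : 0 ≤ Y) (hU : 0 ≤ U) (hV : 0 ≤ V) :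
    0 ≤ V^5*((1024/5)*Y^4 + (69376/25)*X*Y^3 + (659072/125)*X^2*Y^2 + (354688/125)*X^3*Y +
      (16896/125)*X^4) + U*V^4*((16511936/625)*Y^4 + (406656672/3125)*X*Y^3 +
      (3527580316/15625)*X^2*Y^2 + (2595376016/15625)*X^3*Y + (688125424/15625)*X^4) +
      U^2*V^3*((64767744/625)*Y^4 + (1479906688/3125)*X*Y^3 + (12356481264/15625)*X^2*Y^2 +
      (8978144064/15625)*X^3*Y + (2401381696/15625)*X^4) + U^3*V^2*((76511616/625)*Y^4 +
      (1696500032/3125)*X*Y^3 + (13887801896/15625)*X^2*Y^2 + (9975536096/15625)*X^3*Y +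
      (2656512544/15625)*X^4) + U^4*V*((32127744/625)*Y^4 + (697046688/3125)*X*Y^3 +
      (5610311264/15625)*X^2*Y^2 + (3980464064/15625)*X^3*Y + (1051571696/15625)*X^4) +
      U^5*((2999936/625)*Y^4 + (62218672/3125)*X*Y^3 + (480169316/15625)*X^2*Y^2 +
      (328532016/15625)*X^3*Y + (84302424/15625)*X^4) := by
  positivity

lemma mino_10 {q : ℝ} (h0 : 5 ≤ q) (h1 : q ≤ (11/2)) : Mino q ((-969/500) + (197/250) * q) := by
  intro w hw0 hw1 hlin
  have hX : 0 ≤ q - 5 := by linarith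
  have hY : 0 ≤ (11/2) - q := by linarith
  have hq0 : 0 ≤ q := by linarith
  have hwW : w ≤ (1/2) := by
    by_contra hcon
    push Not at hcon
    have h3 : ((-969/500) + (197/250) * q) * (15 - q) * (1/2) < ((-969/500) + (197/250) * q) * (15 - q) * w :=
      mul_lt_mul_of_pos_left hcon (mul_pos (by linarith) (by linarith))
    nlinarith [mul_nonneg hX hY]
  have key := mino_aux_10_0 hX hY (U := w - 0) (V := (1/2) - w) (by linarith) (by linarith)
  have key2 := mul_nonneg hw0 key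
  refine sub_nonneg.1 (key2.trans (le_of_eq ?_))
  ring

lemma mino_aux_14_0 {X Y U V : ℝ} (hX : 0 ≤ X) (hY : 0 ≤ Y) (hU : 0 ≤ U) (hV : 0 ≤ V) :
    0 ≤ V^5*((43008/125)*Y^4 + (143616/25)*X*Y^3 + (1375872/125)*X^2*Y^2 + (29184/5)*X^3*Y +
      (1152/5)*X^4) + U*V^4*((1776925696/15625)*Y^4 + (7791252608/15625)*X*Y^3 +
      (12477156316/15625)*X^2*Y^2 + (1734183576/3125)*X^3*Y + (88307964/625)*X^4) +
      U^2*V^3*((5373942784/15625)*Y^4 + (23007410432/15625)*X*Y^3 + (36458785264/15625)*X^2*Y^2 +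
      (5074334304/3125)*X^3*Y + (261791856/625)*X^4) + U^3*V^2*((5374034176/15625)*Y^4 +
      (22742315648/15625)*X*Y^3 + (35793257896/15625)*X^2*Y^2 + (4970301456/3125)*X^3*Y +
      (256967784/625)*X^4) + U^4*V*((1889062784/15625)*Y^4 + (7895110432/15625)*X*Y^3 +
      (12314615264/15625)*X^2*Y^2 + (1701134304/3125)*X^3*Y + (87821856/625)*X^4) +
      U^5*((89421696/15625)*Y^4 + (346462608/15625)*X*Y^3 + (506345316/15625)*X^2*Y^2 +
      (66723576/3125)*X^3*Y + (3356964/625)*X^4) := by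
  positivity

lemma mino_14 {q : ℝ} (h0 : 7 ≤ q) (h1 : q ≤ (15/2)) : Mino q ((-2429/500) + (156/125) * q) := by
  intro w hw0 hw1 hlin
  have hX : 0 ≤ q - 7 := by linarith
  have hY : 0 ≤ (15/2) - q := by linarith
  have hq0 : 0 ≤ q := by linarith
  have hwW : w ≤ (1/2) := by
    by_contra hcon
    push Not at hcon
    have h3 : ((-2429/500) + (156/125) * q) * (15 - q) * (1/2) < ((-2429/500) + (156/125) * q) * (15 - q) * w :=
      mul_lt_mul_of_pos_left hcon (mul_pos (by linarith) (by linarith))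
    nlinarith [mul_nonneg hX hY]
  have key := mino_aux_14_0 hX hY (U := w - 0) (V := (1/2) - w) (by linarith) (by linarith)
  have key2 := mul_nonneg hw0 key
  refine sub_nonneg.1 (key2.trans (le_of_eq ?_))
  ring

end Vale.Agent.P226
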