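import Vale.Agent.P226.FinMin

/-!
# P226: table of minorant constants (generated certificates)
-/

namespace Vale.Agent.P226

set_option linter.unusedVariables false

lemma mino_aux_3_0 {X Y U V : ℝ} (hX : 0 ≤ X) (hY : 0 ≤ Y) (hU : 0 ≤ U) (hV : 0 ≤ V) :
    0 ≤ V^5*(31950*Y^4 + (1029525/8)*X*Y^3 + (1523775/8)*X^2*Y^2 + (489825/4)*X^3*Y + 28725*X^4) +
      U*V^4*((31452759/400)*Y^4 + (4961571/16)*X*Y^3 + (712558207/1600)*X^2*Y^2 +
      (4384001/16)*X^3*Y + (24045799/400)*X^4) + U^2*V^3*((7377759/100)*Y^4 + (566973/2)*X*Y^3 +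
      (156170707/400)*X^2*Y^2 + (895751/4)*X^3*Y + (4320799/100)*X^4) +
      U^3*V^2*((6608277/200)*Y^4 + (990213/8)*X*Y^3 + (129524621/800)*X^2*Y^2 + (667003/8)*X^3*Y +
      (2437397/200)*X^4) + U^4*V*((726759/100)*Y^4 + (217227/8)*X*Y^3 + (13738957/400)*X^2*Y^2 +
      (31633/2)*X^3*Y + (134299/100)*X^4) + U^5*((269559/400)*Y^4 + (42747/16)*X*Y^3 +
      (5656607/1600)*X^2*Y^2 + (26929/16)*X^3*Y + (56999/400)*X^4) := by
  positivity

lemma mino_aux_3_1 {X Y U V : ℝ} (hX : 0 ≤ X) (hY : 0 ≤ Y) (hU : 0 ≤ U) (hV : 0 ≤ V) :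
    0 ≤ V^5*((17665818624/9282325)*Y^4 + (2801467392/371293)*X*Y^3 + (92677849088/9282325)*X^2*Y^2 +
      (1764818944/371293)*X^3*Y + (3735486464/9282325)*X^4) + U*V^4*((5302628352/9282325)*Y^4 +
      (2254491648/371293)*X*Y^3 + (108321025024/9282325)*X^2*Y^2 + (2518519808/371293)*X^3*Y +
      (5248233472/9282325)*X^4) + U^2*V^3*((29895303168/9282325)*Y^4 + (9993633792/371293)*X*Y^3 +
      (542591881216/9282325)*X^2*Y^2 + (17996644352/371293)*X^3*Y + (126236213248/9282325)*X^4) +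
      U^3*V^2*((72547909632/9282325)*Y^4 + (17269413888/371293)*X*Y^3 +
      (843881232384/9282325)*X^2*Y^2 + (27348031488/371293)*X^3*Y + (197846679552/9282325)*X^4) +
      U^4*V*((39701130048/9282325)*Y^4 + (8342495232/371293)*X*Y^3 +
      (378325875776/9282325)*X^2*Y^2 + (11735400832/371293)*X^3*Y + (83276860928/9282325)*X^4) +
      U^5*((3396767256/9282325)*Y^4 + (580011168/371293)*X*Y^3 + (20031308472/9282325)*X^2*Y^2 +
      (459997296/371293)*X^3*Y + (2430753216/9282325)*X^4) := by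
  positivity

lemma mino_3 {q : ℝ} (h0 : (3/2) ≤ q) (h1 : q ≤ 2) : Mino q ((-53/500) + (69/250) * q) := by
  intro w hw0 hw1 hlin
  have hX : 0 ≤ q - (3/2) := by linarith
  have hY : 0 ≤ 2 - q := by linarith
  have hq0 : 0 ≤ q := by linarith
  have hwW : w ≤ (29/40) := by
    by_contra hcon
    push Not at hcon
    have h3 : ((-53/500) + (69/250) * q) * (15 - q) * (29/40) < ((-53/500) + (69/250) * q) * (15 - q) * w :=
      mul_lt_mul_of_pos_left hcon (mul_pos (by linarith) (by linarith))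
    nlinarith [mul_nonneg hX hY]
  rcases le_total w (2/5) with hs0 | hs0
  · have key := mino_aux_3_0 hX hY (U := w - 0) (V := (2/5) - w) (by linarith) (by linarith)
    have key2 := mul_nonneg hw0 key
    refine sub_nonneg.1 (key2.trans (le_of_eq ?_))
    ring
  have key := mino_aux_3_1 hX hY (U := w - (2/5)) (V := (29/40) - w) (by linarith) (by linarith)
  have key2 := mul_nonneg hw0 key
  refine sub_nonneg.1 (key2.trans (le_of_eq ?_))
  ring

lemma mino_aux_7_0 {X Y U V : ℝ} (hX : 0 ≤ X) (hY : 0 ≤ Y) (hU : 0 ≤ U) (hV : 0 ≤ V) :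
    0 ≤ V^5*((167014400/243)*Y^4 + (655360000/243)*X*Y^3 + (858419200/243)*X^2*Y^2 +
      (404480000/243)*X^3*Y + (11468800/81)*X^4) + U*V^4*((10107080512/6075)*Y^4 +
      (9124349824/1215)*X*Y^3 + (64671526976/6075)*X^2*Y^2 + (6251845376/1215)*X^3*Y +
      (233178368/675)*X^4) + U^2*V^3*((7746722048/6075)*Y^4 + (10641399296/1215)*X*Y^3 +
      (92897307904/6075)*X^2*Y^2 + (10831381504/1215)*X^3*Y + (2234940416/2025)*X^4) +
      U^3*V^2*((1932083072/6075)*Y^4 + (8002098944/1215)*X*Y^3 + (90665961856/6075)*X^2*Y^2 +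
      (13263072256/1215)*X^3*Y + (4568410624/2025)*X^4) + U^4*V*((404590048/6075)*Y^4 +
      (4380023296/1215)*X*Y^3 + (55446391904/6075)*X^2*Y^2 + (9119837504/1215)*X^3*Y +
      (47873536/25)*X^4) + U^5*((279683912/6075)*Y^4 + (1165358624/1215)*X*Y^3 +
      (14417459176/6075)*X^2*Y^2 + (2451994576/1215)*X^3*Y + (1128619904/2025)*X^4) := by
  positivity

lemma mino_aux_7_1 {X Y U V : ℝ} (hX : 0 ≤ X) (hY : 0 ≤ Y) (hU : 0 ≤ U) (hV : 0 ≤ V) :
    0 ≤ V^5*((279683912/1476225)*Y^4 + (1165358624/295245)*X*Y^3 + (14417459176/1476225)*X^2*Y^2 +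
      (2451994576/295245)*X^3*Y + (1128619904/492075)*X^4) + U*V^4*((4379908096/1476225)*Y^4 +
      (10167102592/295245)*X*Y^3 + (122010007808/1476225)*X^2*Y^2 + (21680379008/295245)*X^3*Y +
      (10939128832/492075)*X^4) + U^2*V^3*((42717851264/1476225)*Y^4 +
      (48235152128/295245)*X*Y^3 + (461360313472/1476225)*X^2*Y^2 + (73934582272/295245)*X^3*Y +
      (35562572288/492075)*X^4) + U^3*V^2*((61979246336/1476225)*Y^4 +
      (61291715072/295245)*X*Y^3 + (542309571328/1476225)*X^2*Y^2 + (82727830528/295245)*X^3*Y +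
      (38567846912/492075)*X^4) + U^4*V*((27311696704/1476225)*Y^4 + (25237979008/295245)*X*Y^3 +
      (211789462592/1476225)*X^2*Y^2 + (30986139392/295245)*X^3*Y + (13985152768/492075)*X^4) +
      U^5*((2048699648/1476225)*Y^4 + (1620778496/295245)*X*Y^3 + (11284328704/1476225)*X^2*Y^2 +
      (1334754304/295245)*X^3*Y + (476527616/492075)*X^4) := by
  positivity

lemma mino_7 {q : ℝ} (h0 : (7/2) ≤ q) (h1 : q ≤ 4) : Mino q ((-459/500) + (14/25) * q) := by
  intro w hw0 hw1 hlin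
  have hX : 0 ≤ q - (7/2) := by linarith
  have hY : 0 ≤ 4 - q := by linarith
  have hq0 : 0 ≤ q := by linarith
  have hwW : w ≤ (3/5) := by
    by_contra hcon
    push Not at hcon
    have h3 : ((-459/500) + (14/25) * q) * (15 - q) * (3/5) < ((-459/500) + (14/25) * q) * (15 - q) * w :=
      mul_lt_mul_of_pos_left hcon (mul_pos (by linarith) (by linarith))
    nlinarith [mul_nonneg hX hY]
  rcases le_total w (3/20) with hs0 | hs0
  · have key := mino_aux_7_0 hX hY (U := w - 0) (V := (3/20) - w) (by linarith) (by linarith)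
    have key2 := mul_nonneg hw0 key
    refine sub_nonneg.1 (key2.trans (le_of_eq ?_))
    ring
  have key := mino_aux_7_1 hX hY (U := w - (3/20)) (V := (3/5) - w) (by linarith) (by linarith)
  have key2 := mul_nonneg hw0 key
  refine sub_nonneg.1 (key2.trans (le_of_eq ?_))
  ring

lemma mino_aux_11_0 {X Y U V : ℝ} (hX : 0 ≤ X) (hY : 0 ≤ Y) (hU : 0 ≤ U) (hV : 0 ≤ V) :
    0 ≤ V^5*((16896/125)*Y^4 + (395776/125)*X*Y^3 + (805888/125)*X^2*Y^2 + (463872/125)*X^3*Y +
      (36864/125)*X^4) + U*V^4*((688125424/15625)*Y^4 + (3214611424/15625)*X*Y^3 +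
      (5394533552/15625)*X^2*Y^2 + (3885382848/15625)*X^3*Y + (1017141696/15625)*X^4) +
      U^2*V^3*((2401381696/15625)*Y^4 + (10683725696/15625)*X*Y^3 + (17480774208/15625)*X^2*Y^2 +
      (12501691392/15625)*X^3*Y + (3302486784/15625)*X^4) + U^3*V^2*((2656512544/15625)*Y^4 +
      (11568228544/15625)*X*Y^3 + (18662481312/15625)*X^2*Y^2 + (13242617088/15625)*X^3*Y +
      (3490690176/15625)*X^4) + U^4*V*((1051571696/15625)*Y^4 + (4498365696/15625)*X*Y^3 +
      (7156844208/15625)*X^2*Y^2 + (5028271392/15625)*X^3*Y + (1317446784/15625)*X^4) +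
      U^5*((84302424/15625)*Y^4 + (343223424/15625)*X*Y^3 + (521714552/15625)*X^2*Y^2 +
      (352696848/15625)*X^3*Y + (89709696/15625)*X^4) := by
  positivity

lemma mino_11 {q : ℝ} (h0 : (11/2) ≤ q) (h1 : q ≤ 6) : Mino q ((-611/250) + (22/25) * q) := by
  intro w hw0 hw1 hlin
  have hX : 0 ≤ q - (11/2) := by linarith
  have hY : 0 ≤ 6 - q := by linarith
  have hq0 : 0 ≤ q := by linarith
  have hwW : w ≤ (1/2) := by
    by_contra hcon
    push Not at hcon
    have h3 : ((-611/250) + (22/25) * q) * (15 - q) * (1/2) < ((-611/250) + (22/25) * q) * (15 - q) * w :=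
      mul_lt_mul_of_pos_left hcon (mul_pos (by linarith) (by linarith))
    nlinarith [mul_nonneg hX hY]
  have key := mino_aux_11_0 hX hY (U := w - 0) (V := (1/2) - w) (by linarith) (by linarith)
  have key2 := mul_nonneg hw0 key
  refine sub_nonneg.1 (key2.trans (le_of_eq ?_))
  ring

end Vale.Agent.P226
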