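import Vale.Agent.P226.FinMain
import Vale.Agent.P226.FinMinoTab0
import Vale.Agent.P226.FinMinoTab1
import Vale.Agent.P226.FinMinoTab2
import Vale.Agent.P226.FinMinoTab3

/-!
# P226: generated certificate cells (7)
-/

namespace Vale.Agent.P226

set_option linter.unusedVariables false

noncomputable def lam7 (q : ℝ) : ℝ :=
  (19/125) * max ((1/2) - q) 0 + (16/125) * max (1 - q) 0 + (63/500) * max ((3/2) - q) 0 +
    (13/125) * max (2 - q) 0 + (12/125) * max ((5/2) - q) 0 + (11/125) * max (3 - q) 0 +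
    (9/125) * max ((7/2) - q) 0 + (7/100) * max (4 - q) 0 + (8/125) * max ((9/2) - q) 0 +
    (1/125) * max (5 - q) 0 + (1/500) * max ((11/2) - q) 0 + (21/125) * max (6 - q) 0

lemma continuous_lam7 : Continuous lam7 := by
  unfold lam7
  fun_prop

lemma lam7_nonneg (q : ℝ) : 0 ≤ lam7 q := by
  unfold lam7
  have h : ∀ x : ℝ, 0 ≤ max (x - q) 0 := fun x => le_max_right _ _

  have := h (1/2)
  have := h 1
  have := h (3/2)
  have := h 2
  have := h (5/2)
  have := h 3
  have := h (7/2)
  have := h 4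
  have := h (9/2)
  have := h 5
  have := h (11/2)
  have := h 6
  positivity

lemma lam7_mono (q q' : ℝ) (hq : 0 < q) (h : q ≤ q') :
    (3/4) * lam7 q + q * (1 - (3/100)) ≤ (3/4) * lam7 q' + q' * (1 - (3/100)) := by
  have key : ∀ x : ℝ, max (x - q) 0 ≤ max (x - q') 0 + (q' - q) := by
    intro x
    apply max_le
    · have := le_max_left (x - q') 0
      linarith
    · have := le_max_right (x - q') 0
      linarith
  unfold lam7

  have h0 := key (1/2)
  have h1 := key 1
  have h2 := key (3/2)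
  have h3 := key 2
  have h4 := key (5/2)
  have h5 := key 3
  have h6 := key (7/2)
  have h7 := key 4
  have h8 := key (9/2)
  have h9 := key 5
  have h10 := key (11/2)
  have h11 := key 6
  linarith

lemma cell7_0 {q : ℝ} (h0 : 0 ≤ q) (h1 : q ≤ (1/2)) :
    CellOk 7 (3/4) (9/8) (3/100) (193/20) (13/250) lam7 q := by
  have hl : lam7 q = (373/125) - (539/500) * q := by
    unfold lam7
    rw [max_eq_left (show (0 : ℝ) ≤ (1/2) - q by linarith)]
    rw [max_eq_left (show (0 : ℝ) ≤ 1 - q by linarith)]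
    rw [max_eq_left (show (0 : ℝ) ≤ (3/2) - q by linarith)]
    rw [max_eq_left (show (0 : ℝ) ≤ 2 - q by linarith)]
    rw [max_eq_left (show (0 : ℝ) ≤ (5/2) - q by linarith)]
    rw [max_eq_left (show (0 : ℝ) ≤ 3 - q by linarith)]
    rw [max_eq_left (show (0 : ℝ) ≤ (7/2) - q by linarith)]
    rw [max_eq_left (show (0 : ℝ) ≤ 4 - q by linarith)]
    rw [max_eq_left (show (0 : ℝ) ≤ (9/2) - q by linarith)]
    rw [max_eq_left (show (0 : ℝ) ≤ 5 - q by linarith)]
    rw [max_eq_left (show (0 : ℝ) ≤ (11/2) - q by linarith)]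
    rw [max_eq_left (show (0 : ℝ) ≤ 6 - q by linarith)]
    ring
  obtain ⟨X, hX⟩ : ∃ X, X = q - 0 := ⟨_, rfl⟩
  obtain ⟨Y, hY⟩ : ∃ Y, Y = (1/2) - q := ⟨_, rfl⟩
  have hX0 : 0 ≤ X := by rw [hX]; linarith
  have hY0 : 0 ≤ Y := by rw [hY]; linarith
  have hq0 : 0 ≤ q := by linarith
  constructor
  · exact lam7_nonneg q
  · refine Or.inr ⟨by linarith, (22/125) * q, by linarith, by linarith, mino_0 h0 h1, ?_⟩
    rw [hl]
    have key : 0 ≤ (3072/125)*Y^7 + (12096/125)*X*Y^6 + (2175488/15625)*X^2*Y^5 + (4754176/46875)*X^3*Y^4 +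
      (62343904/703125)*X^4*Y^3 + (1206067408/10546875)*X^5*Y^2 + (4261728296/52734375)*X^6*Y +
      (246151812116/11865234375)*X^7 := by positivity
    refine sub_nonneg.1 (key.trans (le_of_eq ?_))
    simp only [hX, hY]; ring
  · refine ⟨(181/500), (13/250) * q, by norm_num, by norm_num, by positivity, ?_, ?_, ?_, ?_, ?_⟩
    · have key : 0 ≤ (957/1000)*Y + (181/200)*X := by positivity
      refine sub_nonneg.1 (key.trans (le_of_eq ?_))
      simp only [hX, hY]; ring
    · have key : 0 ≤ (41587/62500)*Y^2 + (2863/2400)*X*Y + (27167/60000)*X^2 := by positivity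
      refine sub_nonneg.1 (key.trans (le_of_eq ?_))
      simp only [hX, hY, hl]; ring
    · have key : 0 ≤ (7/25000)*Y + (41/8000)*X := by positivity
      refine sub_nonneg.1 (key.trans (le_of_eq ?_))
      simp only [hX, hY, hl]; ring
    · have key : 0 ≤ q * ((889/62500)*Y + (1757/25000)*X) := by positivity
      refine sub_nonneg.1 (key.trans (le_of_eq ?_))
      simp only [hX, hY, hl]; ring
    · have key : 0 ≤ (519651/1000000)*Y^2 + (273573/250000)*X*Y + (571937/1000000)*X^2 := by positivity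
      refine sub_nonneg.1 (key.trans (le_of_eq ?_))
      simp only [hX, hY]; ring
  · rw [hl]
    have key : 0 ≤ (1254812467/625000)*Y^5 + (95805375051/10000000)*X*Y^4 + (4554442994801/250000000)*X^2*Y^3 +
      (1077918984389/62500000)*X^3*Y^2 + (4061854009331/500000000)*X^4*Y +
      (60877567241/40000000)*X^5 := by positivity
    refine sub_nonneg.1 (key.trans (le_of_eq ?_))
    simp only [hX, hY]; ring

lemma cell7_1 {q : ℝ} (h0 : (1/2) ≤ q) (h1 : q ≤ 1) :
    CellOk 7 (3/4) (9/8) (3/100) (193/20) (13/250) lam7 q := by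
  have hl : lam7 q = (727/250) - (463/500) * q := by
    unfold lam7
    rw [max_eq_right (show (1/2) - q ≤ (0 : ℝ) by linarith)]
    rw [max_eq_left (show (0 : ℝ) ≤ 1 - q by linarith)]
    rw [max_eq_left (show (0 : ℝ) ≤ (3/2) - q by linarith)]
    rw [max_eq_left (show (0 : ℝ) ≤ 2 - q by linarith)]
    rw [max_eq_left (show (0 : ℝ) ≤ (5/2) - q by linarith)]
    rw [max_eq_left (show (0 : ℝ) ≤ 3 - q by linarith)]
    rw [max_eq_left (show (0 : ℝ) ≤ (7/2) - q by linarith)]
    rw [max_eq_left (show (0 : ℝ) ≤ 4 - q by linarith)]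
    rw [max_eq_left (show (0 : ℝ) ≤ (9/2) - q by linarith)]
    rw [max_eq_left (show (0 : ℝ) ≤ 5 - q by linarith)]
    rw [max_eq_left (show (0 : ℝ) ≤ (11/2) - q by linarith)]
    rw [max_eq_left (show (0 : ℝ) ≤ 6 - q by linarith)]
    ring
  obtain ⟨X, hX⟩ : ∃ X, X = q - (1/2) := ⟨_, rfl⟩
  obtain ⟨Y, hY⟩ : ∃ Y, Y = 1 - q := ⟨_, rfl⟩
  have hX0 : 0 ≤ X := by rw [hX]; linarith
  have hY0 : 0 ≤ Y := by rw [hY]; linarith
  have hq0 : 0 ≤ q := by linarith
  constructor
  · exact lam7_nonneg q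
  · refine Or.inr ⟨by linarith, (-3/250) + (1/5) * q, by linarith, by linarith, mino_1 h0 h1, ?_⟩
    rw [hl]
    have key : 0 ≤ (246151812116/11865234375)*Y^7 + (920243633692/11865234375)*X*Y^6 +
      (386402449367/3955078125)*X^2*Y^5 + (113818084924/2373046875)*X^3*Y^4 +
      (94987629536/2373046875)*X^4*Y^3 + (322620256384/3955078125)*X^5*Y^2 +
      (789631335104/11865234375)*X^6*Y + (212733814912/11865234375)*X^7 := by positivity
    refine sub_nonneg.1 (key.trans (le_of_eq ?_))
    simp only [hX, hY]; ring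
  · refine ⟨(91/250), (7/125) * q, by norm_num, by norm_num, by positivity, ?_, ?_, ?_, ?_, ?_⟩
    · have key : 0 ≤ (449/500)*Y + (421/500)*X := by positivity
      refine sub_nonneg.1 (key.trans (le_of_eq ?_))
      simp only [hX, hY]; ring
    · have key : 0 ≤ (160727/300000)*Y^2 + (1425541/1500000)*X*Y + (259097/750000)*X^2 := by positivity
      refine sub_nonneg.1 (key.trans (le_of_eq ?_))
      simp only [hX, hY, hl]; ring
    · have key : 0 ≤ (9/8000)*Y + (939/100000)*X := by positivity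
      refine sub_nonneg.1 (key.trans (le_of_eq ?_))
      simp only [hX, hY, hl]; ring
    · have key : 0 ≤ q * ((281/12500)*Y + (2323/31250)*X) := by positivity
      refine sub_nonneg.1 (key.trans (le_of_eq ?_))
      simp only [hX, hY, hl]; ring
    · have key : 0 ≤ (72121/125000)*Y^2 + (301721/250000)*X*Y + (31339/50000)*X^2 := by positivity
      refine sub_nonneg.1 (key.trans (le_of_eq ?_))
      simp only [hX, hY]; ring
  · rw [hl]
    have key : 0 ≤ (60877567241/40000000)*Y^5 + (925004695907/125000000)*X*Y^4 +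
      (1792457144983/125000000)*X^2*Y^3 + (3459539600291/250000000)*X^3*Y^2 +
      (332387576319/50000000)*X^4*Y + (31778818423/25000000)*X^5 := by positivity
    refine sub_nonneg.1 (key.trans (le_of_eq ?_))
    simp only [hX, hY]; ring

lemma cell7_2 {q : ℝ} (h0 : 1 ≤ q) (h1 : q ≤ (3/2)) :
    CellOk 7 (3/4) (9/8) (3/100) (193/20) (13/250) lam7 q := by
  have hl : lam7 q = (139/50) - (399/500) * q := by
    unfold lam7
    rw [max_eq_right (show (1/2) - q ≤ (0 : ℝ) by linarith)]
    rw [max_eq_right (show 1 - q ≤ (0 : ℝ) by linarith)]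
    rw [max_eq_left (show (0 : ℝ) ≤ (3/2) - q by linarith)]
    rw [max_eq_left (show (0 : ℝ) ≤ 2 - q by linarith)]
    rw [max_eq_left (show (0 : ℝ) ≤ (5/2) - q by linarith)]
    rw [max_eq_left (show (0 : ℝ) ≤ 3 - q by linarith)]
    rw [max_eq_left (show (0 : ℝ) ≤ (7/2) - q by linarith)]
    rw [max_eq_left (show (0 : ℝ) ≤ 4 - q by linarith)]
    rw [max_eq_left (show (0 : ℝ) ≤ (9/2) - q by linarith)]
    rw [max_eq_left (show (0 : ℝ) ≤ 5 - q by linarith)]
    rw [max_eq_left (show (0 : ℝ) ≤ (11/2) - q by linarith)]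
    rw [max_eq_left (show (0 : ℝ) ≤ 6 - q by linarith)]
    ring
  obtain ⟨X, hX⟩ : ∃ X, X = q - 1 := ⟨_, rfl⟩
  obtain ⟨Y, hY⟩ : ∃ Y, Y = (3/2) - q := ⟨_, rfl⟩
  have hX0 : 0 ≤ X := by rw [hX]; linarith
  have hY0 : 0 ≤ Y := by rw [hY]; linarith
  have hq0 : 0 ≤ q := by linarith
  constructor
  · exact lam7_nonneg q
  · refine Or.inr ⟨by linarith, (-13/250) + (6/25) * q, by linarith, by linarith, mino_2 h0 h1, ?_⟩
    rw [hl]
    have key : 0 ≤ (212733814912/11865234375)*Y^7 + (772175426624/11865234375)*X*Y^6 +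
      (912512927872/11865234375)*X^2*Y^5 + (2867860576/87890625)*X^3*Y^4 +
      (347750676/9765625)*X^4*Y^3 + (3927863241/48828125)*X^5*Y^2 + (3174429882/48828125)*X^6*Y +
      (845032521/48828125)*X^7 := by positivity
    refine sub_nonneg.1 (key.trans (le_of_eq ?_))
    simp only [hX, hY]; ring
  · refine ⟨(46/125), (31/500) * q, by norm_num, by norm_num, by positivity, ?_, ?_, ?_, ?_, ?_⟩
    · have key : 0 ≤ (103/125)*Y + (381/500)*X := by positivity
      refine sub_nonneg.1 (key.trans (le_of_eq ?_))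
      simp only [hX, hY]; ring
    · have key : 0 ≤ (402449/750000)*Y^2 + (1464571/1500000)*X*Y + (186907/500000)*X^2 := by positivity
      refine sub_nonneg.1 (key.trans (le_of_eq ?_))
      simp only [hX, hY, hl]; ring
    · have key : 0 ≤ (139/100000)*Y + (2507/200000)*X := by positivity
      refine sub_nonneg.1 (key.trans (le_of_eq ?_))
      simp only [hX, hY, hl]; ring
    · have key : 0 ≤ q * ((1259/125000)*Y + (14887/250000)*X) := by positivity
      refine sub_nonneg.1 (key.trans (le_of_eq ?_))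
      simp only [hX, hY, hl]; ring
    · have key : 0 ≤ (12781/20000)*Y^2 + (1328289/1000000)*X*Y + (137079/200000)*X^2 := by positivity
      refine sub_nonneg.1 (key.trans (le_of_eq ?_))
      simp only [hX, hY]; ring
  · rw [hl]
    have key : 0 ≤ (31778818423/25000000)*Y^5 + (1577737390657/250000000)*X*Y^4 +
      (3120742870587/250000000)*X^2*Y^3 + (768437639343/62500000)*X^3*Y^2 +
      (753633716921/125000000)*X^4*Y + (1177243292623/1000000000)*X^5 := by positivity
    refine sub_nonneg.1 (key.trans (le_of_eq ?_))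
    simp only [hX, hY]; ring

lemma cell7_3 {q : ℝ} (h0 : (3/2) ≤ q) (h1 : q ≤ 2) :
    CellOk 7 (3/4) (9/8) (3/100) (193/20) (13/250) lam7 q := by
  have hl : lam7 q = (2591/1000) - (84/125) * q := by
    unfold lam7
    rw [max_eq_right (show (1/2) - q ≤ (0 : ℝ) by linarith)]
    rw [max_eq_right (show 1 - q ≤ (0 : ℝ) by linarith)]
    rw [max_eq_right (show (3/2) - q ≤ (0 : ℝ) by linarith)]
    rw [max_eq_left (show (0 : ℝ) ≤ 2 - q by linarith)]
    rw [max_eq_left (show (0 : ℝ) ≤ (5/2) - q by linarith)]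
    rw [max_eq_left (show (0 : ℝ) ≤ 3 - q by linarith)]
    rw [max_eq_left (show (0 : ℝ) ≤ (7/2) - q by linarith)]
    rw [max_eq_left (show (0 : ℝ) ≤ 4 - q by linarith)]
    rw [max_eq_left (show (0 : ℝ) ≤ (9/2) - q by linarith)]
    rw [max_eq_left (show (0 : ℝ) ≤ 5 - q by linarith)]
    rw [max_eq_left (show (0 : ℝ) ≤ (11/2) - q by linarith)]
    rw [max_eq_left (show (0 : ℝ) ≤ 6 - q by linarith)]
    ring
  obtain ⟨X, hX⟩ : ∃ X, X = q - (3/2) := ⟨_, rfl⟩
  obtain ⟨Y, hY⟩ : ∃ Y, Y = 2 - q := ⟨_, rfl⟩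
  have hX0 : 0 ≤ X := by rw [hX]; linarith
  have hY0 : 0 ≤ Y := by rw [hY]; linarith
  have hq0 : 0 ≤ q := by linarith
  constructor
  · exact lam7_nonneg q
  · refine Or.inr ⟨by linarith, (-53/500) + (69/250) * q, by linarith, by linarith, mino_3 h0 h1, ?_⟩
    rw [hl]
    have key : 0 ≤ (845032521/48828125)*Y^7 + (3174784869/48828125)*X*Y^6 + (16348706721/195312500)*X^2*Y^5 +
      (894781551/19531250)*X^3*Y^4 + (3601156546/87890625)*X^4*Y^3 +
      (868915130804/11865234375)*X^5*Y^2 + (679197642556/11865234375)*X^6*Y +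
      (179912964776/11865234375)*X^7 := by positivity
    refine sub_nonneg.1 (key.trans (le_of_eq ?_))
    simp only [hX, hY]; ring
  · refine ⟨(187/500), (17/250) * q, by norm_num, by norm_num, by positivity, ?_, ?_, ?_, ?_, ?_⟩
    · have key : 0 ≤ (147/200)*Y + (667/1000)*X := by positivity
      refine sub_nonneg.1 (key.trans (le_of_eq ?_))
      simp only [hX, hY]; ring
    · have key : 0 ≤ (63179/100000)*Y^2 + (898213/750000)*X*Y + (757349/1500000)*X^2 := by positivity
      refine sub_nonneg.1 (key.trans (le_of_eq ?_))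
      simp only [hX, hY, hl]; ring
    · have key : 0 ≤ (107/200000)*Y + (2903/200000)*X := by positivity
      refine sub_nonneg.1 (key.trans (le_of_eq ?_))
      simp only [hX, hY, hl]; ring
    · have key : 0 ≤ q * ((479/125000)*Y + (6191/125000)*X) := by positivity
      refine sub_nonneg.1 (key.trans (le_of_eq ?_))
      simp only [hX, hY, hl]; ring
    · have key : 0 ≤ (700893/1000000)*Y^2 + (22593/15625)*X*Y + (148087/200000)*X^2 := by positivity
      refine sub_nonneg.1 (key.trans (le_of_eq ?_))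
      simp only [hX, hY]; ring
  · rw [hl]
    have key : 0 ≤ (1177243292623/1000000000)*Y^5 + (5979933812919/1000000000)*X*Y^4 +
      (6046407685633/500000000)*X^2*Y^3 + (1217172262427/100000000)*X^3*Y^2 +
      (152461526269/25000000)*X^4*Y + (152108086879/125000000)*X^5 := by positivity
    refine sub_nonneg.1 (key.trans (le_of_eq ?_))
    simp only [hX, hY]; ring

lemma cell7_4 {q : ℝ} (h0 : 2 ≤ q) (h1 : q ≤ (5/2)) :
    CellOk 7 (3/4) (9/8) (3/100) (193/20) (13/250) lam7 q := by
  have hl : lam7 q = (2383/1000) - (71/125) * q := by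
    unfold lam7
    rw [max_eq_right (show (1/2) - q ≤ (0 : ℝ) by linarith)]
    rw [max_eq_right (show 1 - q ≤ (0 : ℝ) by linarith)]
    rw [max_eq_right (show (3/2) - q ≤ (0 : ℝ) by linarith)]
    rw [max_eq_right (show 2 - q ≤ (0 : ℝ) by linarith)]
    rw [max_eq_left (show (0 : ℝ) ≤ (5/2) - q by linarith)]
    rw [max_eq_left (show (0 : ℝ) ≤ 3 - q by linarith)]
    rw [max_eq_left (show (0 : ℝ) ≤ (7/2) - q by linarith)]
    rw [max_eq_left (show (0 : ℝ) ≤ 4 - q by linarith)]
    rw [max_eq_left (show (0 : ℝ) ≤ (9/2) - q by linarith)]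
    rw [max_eq_left (show (0 : ℝ) ≤ 5 - q by linarith)]
    rw [max_eq_left (show (0 : ℝ) ≤ (11/2) - q by linarith)]
    rw [max_eq_left (show (0 : ℝ) ≤ 6 - q by linarith)]
    ring
  obtain ⟨X, hX⟩ : ∃ X, X = q - 2 := ⟨_, rfl⟩
  obtain ⟨Y, hY⟩ : ∃ Y, Y = (5/2) - q := ⟨_, rfl⟩
  have hX0 : 0 ≤ X := by rw [hX]; linarith
  have hY0 : 0 ≤ Y := by rw [hY]; linarith
  have hq0 : 0 ≤ q := by linarith
  constructor
  · exact lam7_nonneg q
  · refine Or.inr ⟨by linarith, (-109/500) + (83/250) * q, by linarith, by linarith, mino_4 h0 h1, ?_⟩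
    rw [hl]
    have key : 0 ≤ (179912964776/11865234375)*Y^7 + (660921796244/11865234375)*X*Y^6 +
      (809996727284/11865234375)*X^2*Y^5 + (3167095634/94921875)*X^3*Y^4 +
      (260092861/7593750)*X^4*Y^3 + (41377157/607500)*X^5*Y^2 + (108683/2025)*X^6*Y +
      (47833/3375)*X^7 := by positivity
    refine sub_nonneg.1 (key.trans (le_of_eq ?_))
    simp only [hX, hY]; ring
  · refine ⟨(19/50), (9/125) * q, by norm_num, by norm_num, by positivity, ?_, ?_, ?_, ?_, ?_⟩
    · have key : 0 ≤ (321/500)*Y + (57/100)*X := by positivity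
      refine sub_nonneg.1 (key.trans (le_of_eq ?_))
      simp only [hX, hY]; ring
    · have key : 0 ≤ (360683/500000)*Y^2 + (347701/250000)*X*Y + (61491/100000)*X^2 := by positivity
      refine sub_nonneg.1 (key.trans (le_of_eq ?_))
      simp only [hX, hY, hl]; ring
    · have key : 0 ≤ (503/200000)*Y + (3767/200000)*X := by positivity
      refine sub_nonneg.1 (key.trans (le_of_eq ?_))
      simp only [hX, hY, hl]; ring
    · have key : 0 ≤ q * ((1177/62500)*Y + (3733/62500)*X) := by positivity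
      refine sub_nonneg.1 (key.trans (le_of_eq ?_))
      simp only [hX, hY, hl]; ring
    · have key : 0 ≤ (187929/250000)*Y^2 + (15381/10000)*X*Y + (1953/2500)*X^2 := by positivity
      refine sub_nonneg.1 (key.trans (le_of_eq ?_))
      simp only [hX, hY]; ring
  · rw [hl]
    have key : 0 ≤ (152108086879/125000000)*Y^5 + (782711920031/125000000)*X*Y^4 +
      (6410853062887/500000000)*X^2*Y^3 + (6532074074473/500000000)*X^3*Y^2 +
      (1325116422123/200000000)*X^4*Y + (53532443083/40000000)*X^5 := by positivity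
    refine sub_nonneg.1 (key.trans (le_of_eq ?_))
    simp only [hX, hY]; ring

lemma cell7_5 {q : ℝ} (h0 : (5/2) ≤ q) (h1 : q ≤ 3) :
    CellOk 7 (3/4) (9/8) (3/100) (193/20) (13/250) lam7 q := by
  have hl : lam7 q = (2143/1000) - (59/125) * q := by
    unfold lam7
    rw [max_eq_right (show (1/2) - q ≤ (0 : ℝ) by linarith)]
    rw [max_eq_right (show 1 - q ≤ (0 : ℝ) by linarith)]
    rw [max_eq_right (show (3/2) - q ≤ (0 : ℝ) by linarith)]
    rw [max_eq_right (show 2 - q ≤ (0 : ℝ) by linarith)]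
    rw [max_eq_right (show (5/2) - q ≤ (0 : ℝ) by linarith)]
    rw [max_eq_left (show (0 : ℝ) ≤ 3 - q by linarith)]
    rw [max_eq_left (show (0 : ℝ) ≤ (7/2) - q by linarith)]
    rw [max_eq_left (show (0 : ℝ) ≤ 4 - q by linarith)]
    rw [max_eq_left (show (0 : ℝ) ≤ (9/2) - q by linarith)]
    rw [max_eq_left (show (0 : ℝ) ≤ 5 - q by linarith)]
    rw [max_eq_left (show (0 : ℝ) ≤ (11/2) - q by linarith)]
    rw [max_eq_left (show (0 : ℝ) ≤ 6 - q by linarith)]
    ring
  obtain ⟨X, hX⟩ : ∃ X, X = q - (5/2) := ⟨_, rfl⟩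
  obtain ⟨Y, hY⟩ : ∃ Y, Y = 3 - q := ⟨_, rfl⟩
  have hX0 : 0 ≤ X := by rw [hX]; linarith
  have hY0 : 0 ≤ Y := by rw [hY]; linarith
  have hq0 : 0 ≤ q := by linarith
  constructor
  · exact lam7_nonneg q
  · refine Or.inr ⟨by linarith, (-189/500) + (99/250) * q, by linarith, by linarith, mino_5 h0 h1, ?_⟩
    rw [hl]
    have key : 0 ≤ (47833/3375)*Y^7 + (7193/135)*X*Y^6 + (4719773/67500)*X^2*Y^5 + (6092066/140625)*X^3*Y^4 +
      (51287264/1171875)*X^4*Y^3 + (3368914112/48828125)*X^5*Y^2 + (496559424/9765625)*X^6*Y +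
      (25605312/1953125)*X^7 := by positivity
    refine sub_nonneg.1 (key.trans (le_of_eq ?_))
    simp only [hX, hY]; ring
  · refine ⟨(97/250), (39/500) * q, by norm_num, by norm_num, by positivity, ?_, ?_, ?_, ?_, ?_⟩
    · have key : 0 ≤ (66/125)*Y + (9/20)*X := by positivity
      refine sub_nonneg.1 (key.trans (le_of_eq ?_))
      simp only [hX, hY]; ring
    · have key : 0 ≤ (473383/500000)*Y^2 + (469221/250000)*X*Y + (88103/100000)*X^2 := by positivity
      refine sub_nonneg.1 (key.trans (le_of_eq ?_))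
      simp only [hX, hY, hl]; ring
    · have key : 0 ≤ (567/200000)*Y + (4263/200000)*X := by positivity
      refine sub_nonneg.1 (key.trans (le_of_eq ?_))
      simp only [hX, hY, hl]; ring
    · have key : 0 ≤ q * ((3803/250000)*Y + (13007/250000)*X) := by positivity
      refine sub_nonneg.1 (key.trans (le_of_eq ?_))
      simp only [hX, hY, hl]; ring
    · have key : 0 ≤ (794601/1000000)*Y^2 + (1610847/1000000)*X*Y + (405081/500000)*X^2 := by positivity
      refine sub_nonneg.1 (key.trans (le_of_eq ?_))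
      simp only [hX, hY]; ring
  · rw [hl]
    have key : 0 ≤ (53532443083/40000000)*Y^5 + (1386464373707/200000000)*X*Y^4 +
      (7144916158473/500000000)*X^2*Y^3 + (7329666047667/500000000)*X^3*Y^2 +
      (935856517781/125000000)*X^4*Y + (5950560337/3906250)*X^5 := by positivity
    refine sub_nonneg.1 (key.trans (le_of_eq ?_))
    simp only [hX, hY]; ring

lemma cell7_6 {q : ℝ} (h0 : 3 ≤ q) (h1 : q ≤ (7/2)) :
    CellOk 7 (3/4) (9/8) (3/100) (193/20) (13/250) lam7 q := by
  have hl : lam7 q = (1879/1000) - (48/125) * q := by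
    unfold lam7
    rw [max_eq_right (show (1/2) - q ≤ (0 : ℝ) by linarith)]
    rw [max_eq_right (show 1 - q ≤ (0 : ℝ) by linarith)]
    rw [max_eq_right (show (3/2) - q ≤ (0 : ℝ) by linarith)]
    rw [max_eq_right (show 2 - q ≤ (0 : ℝ) by linarith)]
    rw [max_eq_right (show (5/2) - q ≤ (0 : ℝ) by linarith)]
    rw [max_eq_right (show 3 - q ≤ (0 : ℝ) by linarith)]
    rw [max_eq_left (show (0 : ℝ) ≤ (7/2) - q by linarith)]
    rw [max_eq_left (show (0 : ℝ) ≤ 4 - q by linarith)]
    rw [max_eq_left (show (0 : ℝ) ≤ (9/2) - q by linarith)]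
    rw [max_eq_left (show (0 : ℝ) ≤ 5 - q by linarith)]
    rw [max_eq_left (show (0 : ℝ) ≤ (11/2) - q by linarith)]
    rw [max_eq_left (show (0 : ℝ) ≤ 6 - q by linarith)]
    ring
  obtain ⟨X, hX⟩ : ∃ X, X = q - 3 := ⟨_, rfl⟩
  obtain ⟨Y, hY⟩ : ∃ Y, Y = (7/2) - q := ⟨_, rfl⟩
  have hX0 : 0 ≤ X := by rw [hX]; linarith
  have hY0 : 0 ≤ Y := by rw [hY]; linarith
  have hq0 : 0 ≤ q := by linarith
  constructor
  · exact lam7_nonneg q
  · refine Or.inr ⟨by linarith, (-291/500) + (58/125) * q, by linarith, by linarith, mino_6 h0 h1, ?_⟩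
    rw [hl]
    have key : 0 ≤ (25605312/1953125)*Y^7 + (491256384/9765625)*X*Y^6 + (3390343872/48828125)*X^2*Y^5 +
      (1418186912/29296875)*X^3*Y^4 + (4101198914/87890625)*X^4*Y^3 +
      (22718160937/351562500)*X^5*Y^2 + (14482106581/316406250)*X^6*Y +
      (552666162263/47460937500)*X^7 := by positivity
    refine sub_nonneg.1 (key.trans (le_of_eq ?_))
    simp only [hX, hY]; ring
  · refine ⟨(199/500), (21/250) * q, by norm_num, by norm_num, by positivity, ?_, ?_, ?_, ?_, ?_⟩
    · have key : 0 ≤ (399/1000)*Y + (63/200)*X := by positivity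
      refine sub_nonneg.1 (key.trans (le_of_eq ?_))
      simp only [hX, hY]; ring
    · have key : 0 ≤ (625951/500000)*Y^2 + (126683/50000)*X*Y + (991/800)*X^2 := by positivity
      refine sub_nonneg.1 (key.trans (le_of_eq ?_))
      simp only [hX, hY, hl]; ring
    · have key : 0 ≤ (263/200000)*Y + (871/40000)*X := by positivity
      refine sub_nonneg.1 (key.trans (le_of_eq ?_))
      simp only [hX, hY, hl]; ring
    · have key : 0 ≤ q * ((1763/125000)*Y + (1159/25000)*X) := by positivity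
      refine sub_nonneg.1 (key.trans (le_of_eq ?_))
      simp only [hX, hY, hl]; ring
    · have key : 0 ≤ (163611/200000)*Y^2 + (410067/250000)*X*Y + (815157/1000000)*X^2 := by positivity
      refine sub_nonneg.1 (key.trans (le_of_eq ?_))
      simp only [hX, hY]; ring
  · rw [hl]
    have key : 0 ≤ (5950560337/3906250)*Y^5 + (988287291561/125000000)*X*Y^4 +
      (8168618011891/500000000)*X^2*Y^3 + (8404060388473/500000000)*X^3*Y^2 +
      (8612971970071/1000000000)*X^4*Y + (351826881067/200000000)*X^5 := by positivity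
    refine sub_nonneg.1 (key.trans (le_of_eq ?_))
    simp only [hX, hY]; ring

lemma cell7_7 {q : ℝ} (h0 : (7/2) ≤ q) (h1 : q ≤ 4) :
    CellOk 7 (3/4) (9/8) (3/100) (193/20) (13/250) lam7 q := by
  have hl : lam7 q = (1627/1000) - (39/125) * q := by
    unfold lam7
    rw [max_eq_right (show (1/2) - q ≤ (0 : ℝ) by linarith)]
    rw [max_eq_right (show 1 - q ≤ (0 : ℝ) by linarith)]
    rw [max_eq_right (show (3/2) - q ≤ (0 : ℝ) by linarith)]
    rw [max_eq_right (show 2 - q ≤ (0 : ℝ) by linarith)]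
    rw [max_eq_right (show (5/2) - q ≤ (0 : ℝ) by linarith)]
    rw [max_eq_right (show 3 - q ≤ (0 : ℝ) by linarith)]
    rw [max_eq_right (show (7/2) - q ≤ (0 : ℝ) by linarith)]
    rw [max_eq_left (show (0 : ℝ) ≤ 4 - q by linarith)]
    rw [max_eq_left (show (0 : ℝ) ≤ (9/2) - q by linarith)]
    rw [max_eq_left (show (0 : ℝ) ≤ 5 - q by linarith)]
    rw [max_eq_left (show (0 : ℝ) ≤ (11/2) - q by linarith)]
    rw [max_eq_left (show (0 : ℝ) ≤ 6 - q by linarith)]
    ring
  obtain ⟨X, hX⟩ : ∃ X, X = q - (7/2) := ⟨_, rfl⟩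
  obtain ⟨Y, hY⟩ : ∃ Y, Y = 4 - q := ⟨_, rfl⟩
  have hX0 : 0 ≤ X := by rw [hX]; linarith
  have hY0 : 0 ≤ Y := by rw [hY]; linarith
  have hq0 : 0 ≤ q := by linarith
  constructor
  · exact lam7_nonneg q
  · refine Or.inr ⟨by linarith, (-459/500) + (14/25) * q, by linarith, by linarith, mino_7 h0 h1, ?_⟩
    rw [hl]
    have key : 0 ≤ (552666162263/47460937500)*Y^7 + (543684239569/11865234375)*X*Y^6 +
      (1095838882001/15820312500)*X^2*Y^5 + (301545715379/4746093750)*X^3*Y^4 +
      (167242449698/2373046875)*X^4*Y^3 + (316809658276/3955078125)*X^5*Y^2 +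
      (593222940956/11865234375)*X^6*Y + (141503383768/11865234375)*X^7 := by positivity
    refine sub_nonneg.1 (key.trans (le_of_eq ?_))
    simp only [hX, hY]; ring
  · refine ⟨(51/125), (9/100) * q, by norm_num, by norm_num, by positivity, ?_, ?_, ?_, ?_, ?_⟩
    · have key : 0 ≤ (129/500)*Y + (21/125)*X := by positivity
      refine sub_nonneg.1 (key.trans (le_of_eq ?_))
      simp only [hX, hY]; ring
    · have key : 0 ≤ (162407/100000)*Y^2 + (831457/250000)*X*Y + (832159/500000)*X^2 := by positivity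
      refine sub_nonneg.1 (key.trans (le_of_eq ?_))
      simp only [hX, hY, hl]; ring
    · have key : 0 ≤ (71/40000)*Y + (4771/200000)*X := by positivity
      refine sub_nonneg.1 (key.trans (le_of_eq ?_))
      simp only [hX, hY, hl]; ring
    · have key : 0 ≤ q * ((537/50000)*Y + (1941/50000)*X) := by positivity
      refine sub_nonneg.1 (key.trans (le_of_eq ?_))
      simp only [hX, hY, hl]; ring
    · have key : 0 ≤ (812781/1000000)*Y^2 + (1607337/1000000)*X*Y + (98307/125000)*X^2 := by positivity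
      refine sub_nonneg.1 (key.trans (le_of_eq ?_))
      simp only [hX, hY]; ring
  · rw [hl]
    have key : 0 ≤ (351826881067/200000000)*Y^5 + (9109671223627/1000000000)*X*Y^4 +
      (9398008727689/500000000)*X^2*Y^3 + (9661125090583/500000000)*X^3*Y^2 +
      (1237429390707/125000000)*X^4*Y + (252833477561/125000000)*X^5 := by positivity
    refine sub_nonneg.1 (key.trans (le_of_eq ?_))
    simp only [hX, hY]; ring

lemma cell7_8 {q : ℝ} (h0 : 4 ≤ q) (h1 : q ≤ (9/2)) :
    CellOk 7 (3/4) (9/8) (3/100) (193/20) (13/250) lam7 q := by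
  have hl : lam7 q = (1347/1000) - (121/500) * q := by
    unfold lam7
    rw [max_eq_right (show (1/2) - q ≤ (0 : ℝ) by linarith)]
    rw [max_eq_right (show 1 - q ≤ (0 : ℝ) by linarith)]
    rw [max_eq_right (show (3/2) - q ≤ (0 : ℝ) by linarith)]
    rw [max_eq_right (show 2 - q ≤ (0 : ℝ) by linarith)]
    rw [max_eq_right (show (5/2) - q ≤ (0 : ℝ) by linarith)]
    rw [max_eq_right (show 3 - q ≤ (0 : ℝ) by linarith)]
    rw [max_eq_right (show (7/2) - q ≤ (0 : ℝ) by linarith)]
    rw [max_eq_right (show 4 - q ≤ (0 : ℝ) by linarith)]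
    rw [max_eq_left (show (0 : ℝ) ≤ (9/2) - q by linarith)]
    rw [max_eq_left (show (0 : ℝ) ≤ 5 - q by linarith)]
    rw [max_eq_left (show (0 : ℝ) ≤ (11/2) - q by linarith)]
    rw [max_eq_left (show (0 : ℝ) ≤ 6 - q by linarith)]
    ring
  obtain ⟨X, hX⟩ : ∃ X, X = q - 4 := ⟨_, rfl⟩
  obtain ⟨Y, hY⟩ : ∃ Y, Y = (9/2) - q := ⟨_, rfl⟩
  have hX0 : 0 ≤ X := by rw [hX]; linarith
  have hY0 : 0 ≤ Y := by rw [hY]; linarith
  have hq0 : 0 ≤ q := by linarith
  constructor
  · exact lam7_nonneg q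
  · refine Or.inr ⟨by linarith, (-127/100) + (81/125) * q, by linarith, by linarith, mino_8 h0 h1, ?_⟩
    rw [hl]
    have key : 0 ≤ (141503383768/11865234375)*Y^7 + (617351634068/11865234375)*X*Y^6 +
      (1133897179372/11865234375)*X^2*Y^5 + (88490109394/791015625)*X^3*Y^4 +
      (60738447403/527343750)*X^4*Y^3 + (175696256683/1757812500)*X^5*Y^2 +
      (7722987179/146484375)*X^6*Y + (2253902503/195312500)*X^7 := by positivity
    refine sub_nonneg.1 (key.trans (le_of_eq ?_))
    simp only [hX, hY]; ring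
  · refine ⟨(209/500), (12/125) * q, by norm_num, by norm_num, by positivity, ?_, ?_, ?_, ?_, ?_⟩
    · have key : 0 ≤ (21/200)*Y + (9/1000)*X := by positivity
      refine sub_nonneg.1 (key.trans (le_of_eq ?_))
      simp only [hX, hY]; ring
    · have key : 0 ≤ (206399/100000)*Y^2 + (2137997/500000)*X*Y + (545257/250000)*X^2 := by positivity
      refine sub_nonneg.1 (key.trans (le_of_eq ?_))
      simp only [hX, hY, hl]; ring
    · have key : 0 ≤ (771/200000)*Y + (2751/100000)*X := by positivity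
      refine sub_nonneg.1 (key.trans (le_of_eq ?_))
      simp only [hX, hY, hl]; ring
    · have key : 0 ≤ q * ((317/62500)*Y + (1769/62500)*X) := by positivity
      refine sub_nonneg.1 (key.trans (le_of_eq ?_))
      simp only [hX, hY, hl]; ring
    · have key : 0 ≤ (769707/1000000)*Y^2 + (746739/500000)*X*Y + (142911/200000)*X^2 := by positivity
      refine sub_nonneg.1 (key.trans (le_of_eq ?_))
      simp only [hX, hY]; ring
  · rw [hl]
    have key : 0 ≤ (252833477561/125000000)*Y^5 + (2614109828521/250000000)*X*Y^4 +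
      (10776143146809/500000000)*X^2*Y^3 + (11072976248127/500000000)*X^3*Y^2 +
      (2269490479973/200000000)*X^4*Y + (9280068409/4000000)*X^5 := by positivity
    refine sub_nonneg.1 (key.trans (le_of_eq ?_))
    simp only [hX, hY]; ring

lemma cell7_9 {q : ℝ} (h0 : (9/2) ≤ q) (h1 : q ≤ 5) :
    CellOk 7 (3/4) (9/8) (3/100) (193/20) (13/250) lam7 q := by
  have hl : lam7 q = (1059/1000) - (89/500) * q := by
    unfold lam7
    rw [max_eq_right (show (1/2) - q ≤ (0 : ℝ) by linarith)]
    rw [max_eq_right (show 1 - q ≤ (0 : ℝ) by linarith)]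
    rw [max_eq_right (show (3/2) - q ≤ (0 : ℝ) by linarith)]
    rw [max_eq_right (show 2 - q ≤ (0 : ℝ) by linarith)]
    rw [max_eq_right (show (5/2) - q ≤ (0 : ℝ) by linarith)]
    rw [max_eq_right (show 3 - q ≤ (0 : ℝ) by linarith)]
    rw [max_eq_right (show (7/2) - q ≤ (0 : ℝ) by linarith)]
    rw [max_eq_right (show 4 - q ≤ (0 : ℝ) by linarith)]
    rw [max_eq_right (show (9/2) - q ≤ (0 : ℝ) by linarith)]
    rw [max_eq_left (show (0 : ℝ) ≤ 5 - q by linarith)]
    rw [max_eq_left (show (0 : ℝ) ≤ (11/2) - q by linarith)]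
    rw [max_eq_left (show (0 : ℝ) ≤ 6 - q by linarith)]
    ring
  obtain ⟨X, hX⟩ : ∃ X, X = q - (9/2) := ⟨_, rfl⟩
  obtain ⟨Y, hY⟩ : ∃ Y, Y = 5 - q := ⟨_, rfl⟩
  have hX0 : 0 ≤ X := by rw [hX]; linarith
  have hY0 : 0 ≤ Y := by rw [hY]; linarith
  have hq0 : 0 ≤ q := by linarith
  constructor
  · exact lam7_nonneg q
  · refine Or.inr ⟨by linarith, (-779/500) + (89/125) * q, by linarith, by linarith, mino_9 h0 h1, ?_⟩
    rw [hl]
    have key : 0 ≤ (2253902503/195312500)*Y^7 + (15729713933/292968750)*X*Y^6 +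
      (189242701063/1757812500)*X^2*Y^5 + (7078351769/52734375)*X^3*Y^4 +
      (4125479416/31640625)*X^4*Y^3 + (1886128352/18984375)*X^5*Y^2 + (36090944/759375)*X^6*Y +
      (37368256/3796875)*X^7 := by positivity
    refine sub_nonneg.1 (key.trans (le_of_eq ?_))
    simp only [hX, hY]; ring
  · refine ⟨(43/100), (21/250) * q, by norm_num, by norm_num, by positivity, ?_, ?_, ?_, ?_, ?_⟩
    · have key : 0 ≤ (99/1000)*Y + (3/200)*X := by positivity
      refine sub_nonneg.1 (key.trans (le_of_eq ?_))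
      simp only [hX, hY]; ring
    · have key : 0 ≤ (409777/250000)*Y^2 + (1721747/500000)*X*Y + (35689/20000)*X^2 := by positivity
      refine sub_nonneg.1 (key.trans (le_of_eq ?_))
      simp only [hX, hY, hl]; ring
    · have key : 0 ≤ (351/100000)*Y + (5721/200000)*X := by positivity
      refine sub_nonneg.1 (key.trans (le_of_eq ?_))
      simp only [hX, hY, hl]; ring
    · have key : 0 ≤ q * ((4783/31250)*Y + (21001/125000)*X) := by positivity
      refine sub_nonneg.1 (key.trans (le_of_eq ?_))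
      simp only [hX, hY, hl]; ring
    · have key : 0 ≤ (779409/1000000)*Y^2 + (4752/3125)*X*Y + (29367/40000)*X^2 := by positivity
      refine sub_nonneg.1 (key.trans (le_of_eq ?_))
      simp only [hX, hY]; ring
  · rw [hl]
    have key : 0 ≤ (9280068409/4000000)*Y^5 + (11973134795019/1000000000)*X*Y^4 +
      (2465141257031/100000000)*X^2*Y^3 + (12658437279397/500000000)*X^3*Y^2 +
      (648598436861/50000000)*X^4*Y + (13266958003/5000000)*X^5 := by positivity
    refine sub_nonneg.1 (key.trans (le_of_eq ?_))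
    simp only [hX, hY]; ring

lemma cell7_10 {q : ℝ} (h0 : 5 ≤ q) (h1 : q ≤ (11/2)) :
    CellOk 7 (3/4) (9/8) (3/100) (193/20) (13/250) lam7 q := by
  have hl : lam7 q = (1019/1000) - (17/100) * q := by
    unfold lam7
    rw [max_eq_right (show (1/2) - q ≤ (0 : ℝ) by linarith)]
    rw [max_eq_right (show 1 - q ≤ (0 : ℝ) by linarith)]
    rw [max_eq_right (show (3/2) - q ≤ (0 : ℝ) by linarith)]
    rw [max_eq_right (show 2 - q ≤ (0 : ℝ) by linarith)]
    rw [max_eq_right (show (5/2) - q ≤ (0 : ℝ) by linarith)]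
    rw [max_eq_right (show 3 - q ≤ (0 : ℝ) by linarith)]
    rw [max_eq_right (show (7/2) - q ≤ (0 : ℝ) by linarith)]
    rw [max_eq_right (show 4 - q ≤ (0 : ℝ) by linarith)]
    rw [max_eq_right (show (9/2) - q ≤ (0 : ℝ) by linarith)]
    rw [max_eq_right (show 5 - q ≤ (0 : ℝ) by linarith)]
    rw [max_eq_left (show (0 : ℝ) ≤ (11/2) - q by linarith)]
    rw [max_eq_left (show (0 : ℝ) ≤ 6 - q by linarith)]
    ring
  obtain ⟨X, hX⟩ : ∃ X, X = q - 5 := ⟨_, rfl⟩
  obtain ⟨Y, hY⟩ : ∃ Y, Y = (11/2) - q := ⟨_, rfl⟩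
  have hX0 : 0 ≤ X := by rw [hX]; linarith
  have hY0 : 0 ≤ Y := by rw [hY]; linarith
  have hq0 : 0 ≤ q := by linarith
  constructor
  · exact lam7_nonneg q
  · refine Or.inr ⟨by linarith, (-969/500) + (197/250) * q, by linarith, by linarith, mino_10 h0 h1, ?_⟩
    rw [hl]
    have key : 0 ≤ (37368256/3796875)*Y^7 + (299926592/3796875)*X*Y^6 + (1834570784/6328125)*X^2*Y^5 +
      (57597481432/94921875)*X^3*Y^4 + (362418448081/474609375)*X^4*Y^3 +
      (9032864045233/15820312500)*X^5*Y^2 + (2773746244901/11865234375)*X^6*Y +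
      (479199644299/11865234375)*X^7 := by positivity
    refine sub_nonneg.1 (key.trans (le_of_eq ?_))
    simp only [hX, hY]; ring
  · refine ⟨(111/250), (37/500) * q, by norm_num, by norm_num, by positivity, ?_, ?_, ?_, ?_, ?_⟩
    · have key : 0 ≤ (47/500)*Y + (1/50)*X := by positivity
      refine sub_nonneg.1 (key.trans (le_of_eq ?_))
      simp only [hX, hY]; ring
    · have key : 0 ≤ (663757/500000)*Y^2 + (4135051/1500000)*X*Y + (105931/75000)*X^2 := by positivity
      refine sub_nonneg.1 (key.trans (le_of_eq ?_))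
      simp only [hX, hY, hl]; ring
    · have key : 0 ≤ (121/200000)*Y + (647/25000)*X := by positivity
      refine sub_nonneg.1 (key.trans (le_of_eq ?_))
      simp only [hX, hY, hl]; ring
    · have key : 0 ≤ q * ((69427/250000)*Y + (18143/62500)*X) := by positivity
      refine sub_nonneg.1 (key.trans (le_of_eq ?_))
      simp only [hX, hY, hl]; ring
    · have key : 0 ≤ (395197/500000)*Y^2 + (1549523/1000000)*X*Y + (753653/1000000)*X^2 := by positivity
      refine sub_nonneg.1 (key.trans (le_of_eq ?_))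
      simp only [hX, hY]; ring
  · rw [hl]
    have key : 0 ≤ (13266958003/5000000)*Y^5 + (678869856899/50000000)*X*Y^4 +
      (13869510773797/500000000)*X^2*Y^3 + (14143972747771/500000000)*X^3*Y^2 +
      (14401473830619/1000000000)*X^4*Y + (183034181761/62500000)*X^5 := by positivity
    refine sub_nonneg.1 (key.trans (le_of_eq ?_))
    simp only [hX, hY]; ring

lemma cell7_11 {q : ℝ} (h0 : (11/2) ≤ q) (h1 : q ≤ 6) :
    CellOk 7 (3/4) (9/8) (3/100) (193/20) (13/250) lam7 q := by
  have hl : lam7 q = (126/125) - (21/125) * q := by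
    unfold lam7
    rw [max_eq_right (show (1/2) - q ≤ (0 : ℝ) by linarith)]
    rw [max_eq_right (show 1 - q ≤ (0 : ℝ) by linarith)]
    rw [max_eq_right (show (3/2) - q ≤ (0 : ℝ) by linarith)]
    rw [max_eq_right (show 2 - q ≤ (0 : ℝ) by linarith)]
    rw [max_eq_right (show (5/2) - q ≤ (0 : ℝ) by linarith)]
    rw [max_eq_right (show 3 - q ≤ (0 : ℝ) by linarith)]
    rw [max_eq_right (show (7/2) - q ≤ (0 : ℝ) by linarith)]
    rw [max_eq_right (show 4 - q ≤ (0 : ℝ) by linarith)]
    rw [max_eq_right (show (9/2) - q ≤ (0 : ℝ) by linarith)]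
    rw [max_eq_right (show 5 - q ≤ (0 : ℝ) by linarith)]
    rw [max_eq_right (show (11/2) - q ≤ (0 : ℝ) by linarith)]
    rw [max_eq_left (show (0 : ℝ) ≤ 6 - q by linarith)]
    ring
  obtain ⟨X, hX⟩ : ∃ X, X = q - (11/2) := ⟨_, rfl⟩
  obtain ⟨Y, hY⟩ : ∃ Y, Y = 6 - q := ⟨_, rfl⟩
  have hX0 : 0 ≤ X := by rw [hX]; linarith
  have hY0 : 0 ≤ Y := by rw [hY]; linarith
  have hq0 : 0 ≤ q := by linarith
  constructor
  · exact lam7_nonneg q
  · refine Or.inr ⟨by linarith, (-611/250) + (22/25) * q, by linarith, by linarith, mino_11 h0 h1, ?_⟩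
    rw [hl]
    have key : 0 ≤ (479199644299/11865234375)*Y^7 + (3865511575708/11865234375)*X*Y^6 +
      (13344680295559/11865234375)*X^2*Y^5 + (566406765794/263671875)*X^3*Y^4 +
      (71719213544/29296875)*X^4*Y^3 + (81219243696/48828125)*X^5*Y^2 +
      (30461718672/48828125)*X^6*Y + (4865295456/48828125)*X^7 := by positivity
    refine sub_nonneg.1 (key.trans (le_of_eq ?_))
    simp only [hX, hY]; ring
  · refine ⟨(57/125), (17/250) * q, by norm_num, by norm_num, by positivity, ?_, ?_, ?_, ?_, ?_⟩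
    · have key : 0 ≤ (17/250)*Y := by positivity
      refine sub_nonneg.1 (key.trans (le_of_eq ?_))
      simp only [hX, hY]; ring
    · have key : 0 ≤ (429623/375000)*Y^2 + (175567/75000)*X*Y + (59/50)*X^2 := by positivity
      refine sub_nonneg.1 (key.trans (le_of_eq ?_))
      simp only [hX, hY, hl]; ring
    · have key : 0 ≤ (47/25000)*Y + (17/625)*X := by positivity
      refine sub_nonneg.1 (key.trans (le_of_eq ?_))
      simp only [hX, hY, hl]; ring
    · have key : 0 ≤ q * ((5654/15625)*Y + (2333/6250)*X) := by positivity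
      refine sub_nonneg.1 (key.trans (le_of_eq ?_))
      simp only [hX, hY, hl]; ring
    · have key : 0 ≤ (15793/20000)*Y^2 + (774741/500000)*X*Y + (94401/125000)*X^2 := by positivity
      refine sub_nonneg.1 (key.trans (le_of_eq ?_))
      simp only [hX, hY]; ring
  · rw [hl]
    have key : 0 ≤ (183034181761/62500000)*Y^5 + (1860996907637/125000000)*X*Y^4 +
      (94481492241/3125000)*X^2*Y^3 + (191633123847/6250000)*X^3*Y^2 +
      (242649429493/15625000)*X^4*Y + (19643221273/6250000)*X^5 := by positivity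
    refine sub_nonneg.1 (key.trans (le_of_eq ?_))
    simp only [hX, hY]; ring

lemma cell7_inf {q : ℝ} (h0 : 6 ≤ q) :
    CellOk 7 (3/4) (9/8) (3/100) (193/20) (13/250) lam7 q := by
  have hl : lam7 q = 0 := by
    unfold lam7
    rw [max_eq_right (show (1/2) - q ≤ (0 : ℝ) by linarith)]
    rw [max_eq_right (show 1 - q ≤ (0 : ℝ) by linarith)]
    rw [max_eq_right (show (3/2) - q ≤ (0 : ℝ) by linarith)]
    rw [max_eq_right (show 2 - q ≤ (0 : ℝ) by linarith)]
    rw [max_eq_right (show (5/2) - q ≤ (0 : ℝ) by linarith)]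
    rw [max_eq_right (show 3 - q ≤ (0 : ℝ) by linarith)]
    rw [max_eq_right (show (7/2) - q ≤ (0 : ℝ) by linarith)]
    rw [max_eq_right (show 4 - q ≤ (0 : ℝ) by linarith)]
    rw [max_eq_right (show (9/2) - q ≤ (0 : ℝ) by linarith)]
    rw [max_eq_right (show 5 - q ≤ (0 : ℝ) by linarith)]
    rw [max_eq_right (show (11/2) - q ≤ (0 : ℝ) by linarith)]
    rw [max_eq_right (show 6 - q ≤ (0 : ℝ) by linarith)]
    ring
  have hq0 : 0 ≤ q := by linarith
  constructor
  · exact lam7_nonneg q
  · exact Or.inl hl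
  · rw [hl]
    refine ⟨(117/250), (199/500), by norm_num, by norm_num, by norm_num, by norm_num, by norm_num, ?_, ?_, by norm_num⟩ <;> linarith
  · rw [hl]
    rcases le_total q 7 with h1 | h1
    · obtain ⟨X, hX⟩ : ∃ X, X = q - 6 := ⟨_, rfl⟩
      obtain ⟨Y, hY⟩ : ∃ Y, Y = 7 - q := ⟨_, rfl⟩
      have hX0 : 0 ≤ X := by rw [hX]; linarith
      have hY0 : 0 ≤ Y := by rw [hY]; linarith
      have key : 0 ≤ (19643221273/200000000)*Y^5 + (10484993503/20000000)*X*Y^4 +
        (22261240077/20000000)*X^2*Y^3 + (2941128003/2500000)*X^3*Y^2 +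
        (24786564293/40000000)*X^4*Y + (13024429193/100000000)*X^5 := by positivity
      refine sub_nonneg.1 (key.trans (le_of_eq ?_))
      simp only [hX, hY]; ring
    obtain ⟨X, hX⟩ : ∃ X, X = q - 7 := ⟨_, rfl⟩
    have hX0 : 0 ≤ X := by rw [hX]; linarith
    have key : 0 ≤ (13024429193/100000000) + (1262294093/40000000)*X + (148557/625000)*X^2 +
      (7498751/10000000)*X^3 + (221507/5000000)*X^4 + (147537/50000000)*X^5 := by positivity
    refine sub_nonneg.1 (key.trans (le_of_eq ?_))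
    simp only [hX]; ring

theorem cells7 (q : ℝ) (hq : 0 < q) :
    CellOk 7 (3/4) (9/8) (3/100) (193/20) (13/250) lam7 q := by
  rcases le_total q (1/2) with h1 | h1
  · exact cell7_0 hq.le h1
  rcases le_total q 1 with h2 | h2
  · exact cell7_1 h1 h2
  rcases le_total q (3/2) with h3 | h3
  · exact cell7_2 h2 h3
  rcases le_total q 2 with h4 | h4
  · exact cell7_3 h3 h4
  rcases le_total q (5/2) with h5 | h5
  · exact cell7_4 h4 h5
  rcases le_total q 3 with h6 | h6
  · exact cell7_5 h5 h6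
  rcases le_total q (7/2) with h7 | h7
  · exact cell7_6 h6 h7
  rcases le_total q 4 with h8 | h8
  · exact cell7_7 h7 h8
  rcases le_total q (9/2) with h9 | h9
  · exact cell7_8 h8 h9
  rcases le_total q 5 with h10 | h10
  · exact cell7_9 h9 h10
  rcases le_total q (11/2) with h11 | h11
  · exact cell7_10 h10 h11
  rcases le_total q 6 with h12 | h12
  · exact cell7_11 h11 h12
  exact cell7_inf h12

end Vale.Agent.P226
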