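import Vale.Agent.P226.FinMain
import Vale.Agent.P226.FinMinoTab0
import Vale.Agent.P226.FinMinoTab1
import Vale.Agent.P226.FinMinoTab2
import Vale.Agent.P226.FinMinoTab3

/-!
# P226: generated certificate cells (9)
-/

namespace Vale.Agent.P226

set_option linter.unusedVariables false

noncomputable def lam9 (q : ℝ) : ℝ :=
  (7/500) * max ((1/2) - q) 0 + (41/250) * max (1 - q) 0 + (79/500) * max ((3/2) - q) 0 +
    (33/250) * max (2 - q) 0 + (3/25) * max ((5/2) - q) 0 + (14/125) * max (3 - q) 0 +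
    (23/250) * max ((7/2) - q) 0 + (43/500) * max (4 - q) 0 + (7/125) * max ((9/2) - q) 0 +
    (1/500) * max (5 - q) 0 + (69/250) * max (6 - q) 0

lemma continuous_lam9 : Continuous lam9 := by
  unfold lam9
  fun_prop

lemma lam9_nonneg (q : ℝ) : 0 ≤ lam9 q := by
  unfold lam9
  have h : ∀ x : ℝ, 0 ≤ max (x - q) 0 := fun x => le_max_right _ _

  have := h (1/2)
  have := h 1
  have := h (3/2)
  have := h 2
  have := h (5/2)
  have := h 3
  have := h (7/2)
  have := h 4
  have := h (9/2)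
  have := h 5
  have := h 6
  positivity

lemma lam9_mono (q q' : ℝ) (hq : 0 < q) (h : q ≤ q') :
    (4/5) * lam9 q + q * (1 - (3/100)) ≤ (4/5) * lam9 q' + q' * (1 - (3/100)) := by
  have key : ∀ x : ℝ, max (x - q) 0 ≤ max (x - q') 0 + (q' - q) := by
    intro x
    apply max_le
    · have := le_max_left (x - q') 0
      linarith
    · have := le_max_right (x - q') 0
      linarith
  unfold lam9

  have h0 := key (1/2)
  have h1 := key 1
  have h2 := key (3/2)
  have h3 := key 2
  have h4 := key (5/2)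
  have h5 := key 3
  have h6 := key (7/2)
  have h7 := key 4
  have h8 := key (9/2)
  have h9 := key 5
  have h10 := key 6
  linarith

lemma cell9_0 {q : ℝ} (h0 : 0 ≤ q) (h1 : q ≤ (1/2)) :
    CellOk 9 (4/5) 1 (3/100) (317/20) (4/125) lam9 q := by
  have hl : lam9 q = (973/250) - (303/250) * q := by
    unfold lam9
    rw [max_eq_left (show (0 : ℝ) ≤ (1/2) - q by linarith)]
    rw [max_eq_left (show (0 : ℝ) ≤ 1 - q by linarith)]
    rw [max_eq_left (show (0 : ℝ) ≤ (3/2) - q by linarith)]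
    rw [max_eq_left (show (0 : ℝ) ≤ 2 - q by linarith)]
    rw [max_eq_left (show (0 : ℝ) ≤ (5/2) - q by linarith)]
    rw [max_eq_left (show (0 : ℝ) ≤ 3 - q by linarith)]
    rw [max_eq_left (show (0 : ℝ) ≤ (7/2) - q by linarith)]
    rw [max_eq_left (show (0 : ℝ) ≤ 4 - q by linarith)]
    rw [max_eq_left (show (0 : ℝ) ≤ (9/2) - q by linarith)]
    rw [max_eq_left (show (0 : ℝ) ≤ 5 - q by linarith)]
    rw [max_eq_left (show (0 : ℝ) ≤ 6 - q by linarith)]
    ring
  obtain ⟨X, hX⟩ : ∃ X, X = q - 0 := ⟨_, rfl⟩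
  obtain ⟨Y, hY⟩ : ∃ Y, Y = (1/2) - q := ⟨_, rfl⟩
  have hX0 : 0 ≤ X := by rw [hX]; linarith
  have hY0 : 0 ≤ Y := by rw [hY]; linarith
  have hq0 : 0 ≤ q := by linarith
  constructor
  · exact lam9_nonneg q
  · refine Or.inr ⟨by linarith, (22/125) * q, by linarith, by linarith, mino_0 h0 h1, ?_⟩
    rw [hl]
    have key : 0 ≤ (27648/125)*Y^7 + (466432/375)*X*Y^6 + (413451392/140625)*X^2*Y^5 +
      (1594456384/421875)*X^3*Y^4 + (18047068736/6328125)*X^4*Y^3 +
      (120313898272/94921875)*X^5*Y^2 + (147746011544/474609375)*X^6*Y +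
      (399742284116/11865234375)*X^7 := by positivity
    refine sub_nonneg.1 (key.trans (le_of_eq ?_))
    simp only [hX, hY]; ring
  · refine ⟨(17/50), (11/250) * q, by norm_num, by norm_num, by positivity, ?_, ?_, ?_, ?_, ?_⟩
    · have key : 0 ≤ (132/125)*Y + (253/250)*X := by positivity
      refine sub_nonneg.1 (key.trans (le_of_eq ?_))
      simp only [hX, hY]; ring
    · have key : 0 ≤ (21543/15625)*Y^2 + (315411/125000)*X*Y + (269469/250000)*X^2 := by positivity
      refine sub_nonneg.1 (key.trans (le_of_eq ?_))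
      simp only [hX, hY, hl]; ring
    · have key : 0 ≤ (44/15625)*Y + (707/250000)*X := by positivity
      refine sub_nonneg.1 (key.trans (le_of_eq ?_))
      simp only [hX, hY, hl]; ring
    · have key : 0 ≤ q * ((147/31250)*Y + (3627/62500)*X) := by positivity
      refine sub_nonneg.1 (key.trans (le_of_eq ?_))
      simp only [hX, hY, hl]; ring
    · have key : 0 ≤ (8976/15625)*Y^2 + (93896/78125)*X*Y + (195459/312500)*X^2 := by positivity
      refine sub_nonneg.1 (key.trans (le_of_eq ?_))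
      simp only [hX, hY]; ring
  · rw [hl]
    have key : 0 ≤ (18468365476/1953125)*Y^5 + (354111999301/7812500)*X*Y^4 +
      (8471447953999/97656250)*X^2*Y^3 + (4045015231829/48828125)*X^3*Y^2 +
      (770845127833/19531250)*X^4*Y + (1465322824167/195312500)*X^5 := by positivity
    refine sub_nonneg.1 (key.trans (le_of_eq ?_))
    simp only [hX, hY]; ring

lemma cell9_1 {q : ℝ} (h0 : (1/2) ≤ q) (h1 : q ≤ 1) :
    CellOk 9 (4/5) 1 (3/100) (317/20) (4/125) lam9 q := by
  have hl : lam9 q = (777/200) - (599/500) * q := by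
    unfold lam9
    rw [max_eq_right (show (1/2) - q ≤ (0 : ℝ) by linarith)]
    rw [max_eq_left (show (0 : ℝ) ≤ 1 - q by linarith)]
    rw [max_eq_left (show (0 : ℝ) ≤ (3/2) - q by linarith)]
    rw [max_eq_left (show (0 : ℝ) ≤ 2 - q by linarith)]
    rw [max_eq_left (show (0 : ℝ) ≤ (5/2) - q by linarith)]
    rw [max_eq_left (show (0 : ℝ) ≤ 3 - q by linarith)]
    rw [max_eq_left (show (0 : ℝ) ≤ (7/2) - q by linarith)]
    rw [max_eq_left (show (0 : ℝ) ≤ 4 - q by linarith)]
    rw [max_eq_left (show (0 : ℝ) ≤ (9/2) - q by linarith)]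
    rw [max_eq_left (show (0 : ℝ) ≤ 5 - q by linarith)]
    rw [max_eq_left (show (0 : ℝ) ≤ 6 - q by linarith)]
    ring
  obtain ⟨X, hX⟩ : ∃ X, X = q - (1/2) := ⟨_, rfl⟩
  obtain ⟨Y, hY⟩ : ∃ Y, Y = 1 - q := ⟨_, rfl⟩
  have hX0 : 0 ≤ X := by rw [hX]; linarith
  have hY0 : 0 ≤ Y := by rw [hY]; linarith
  have hq0 : 0 ≤ q := by linarith
  constructor
  · exact lam9_nonneg q
  · refine Or.inr ⟨by linarith, (-3/250) + (1/5) * q, by linarith, by linarith, mino_1 h0 h1, ?_⟩
    rw [hl]
    have key : 0 ≤ (399742284116/11865234375)*Y^7 + (1489215372692/11865234375)*X*Y^6 +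
      (1857489915101/11865234375)*X^2*Y^5 + (176192792924/2373046875)*X^3*Y^4 +
      (148767141536/2373046875)*X^4*Y^3 + (1576956353152/11865234375)*X^5*Y^2 +
      (143989811456/1318359375)*X^6*Y + (4319018752/146484375)*X^7 := by positivity
    refine sub_nonneg.1 (key.trans (le_of_eq ?_))
    simp only [hX, hY]; ring
  · refine ⟨(17/50), (23/500) * q, by norm_num, by norm_num, by positivity, ?_, ?_, ?_, ?_, ?_⟩
    · have key : 0 ≤ (101/100)*Y + (241/250)*X := by positivity
      refine sub_nonneg.1 (key.trans (le_of_eq ?_))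
      simp only [hX, hY]; ring
    · have key : 0 ≤ (552153/500000)*Y^2 + (1875473/1000000)*X*Y + (351141/500000)*X^2 := by positivity
      refine sub_nonneg.1 (key.trans (le_of_eq ?_))
      simp only [hX, hY, hl]; ring
    · have key : 0 ≤ (707/250000)*Y + (397/125000)*X := by positivity
      refine sub_nonneg.1 (key.trans (le_of_eq ?_))
      simp only [hX, hY, hl]; ring
    · have key : 0 ≤ q * ((3611/125000)*Y + (20999/250000)*X) := by positivity
      refine sub_nonneg.1 (key.trans (le_of_eq ?_))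
      simp only [hX, hY, hl]; ring
    · have key : 0 ≤ (784619/1250000)*Y^2 + (408283/312500)*X*Y + (211467/312500)*X^2 := by positivity
      refine sub_nonneg.1 (key.trans (le_of_eq ?_))
      simp only [hX, hY]; ring
  · rw [hl]
    have key : 0 ≤ (1465322824167/195312500)*Y^5 + (3479020696679/97656250)*X*Y^4 +
      (6588949018937/97656250)*X^2*Y^3 + (3109622728478/48828125)*X^3*Y^2 +
      (5848838857631/195312500)*X^4*Y + (547763707361/97656250)*X^5 := by positivity
    refine sub_nonneg.1 (key.trans (le_of_eq ?_))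
    simp only [hX, hY]; ring

lemma cell9_2 {q : ℝ} (h0 : 1 ≤ q) (h1 : q ≤ (3/2)) :
    CellOk 9 (4/5) 1 (3/100) (317/20) (4/125) lam9 q := by
  have hl : lam9 q = (3721/1000) - (517/500) * q := by
    unfold lam9
    rw [max_eq_right (show (1/2) - q ≤ (0 : ℝ) by linarith)]
    rw [max_eq_right (show 1 - q ≤ (0 : ℝ) by linarith)]
    rw [max_eq_left (show (0 : ℝ) ≤ (3/2) - q by linarith)]
    rw [max_eq_left (show (0 : ℝ) ≤ 2 - q by linarith)]
    rw [max_eq_left (show (0 : ℝ) ≤ (5/2) - q by linarith)]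
    rw [max_eq_left (show (0 : ℝ) ≤ 3 - q by linarith)]
    rw [max_eq_left (show (0 : ℝ) ≤ (7/2) - q by linarith)]
    rw [max_eq_left (show (0 : ℝ) ≤ 4 - q by linarith)]
    rw [max_eq_left (show (0 : ℝ) ≤ (9/2) - q by linarith)]
    rw [max_eq_left (show (0 : ℝ) ≤ 5 - q by linarith)]
    rw [max_eq_left (show (0 : ℝ) ≤ 6 - q by linarith)]
    ring
  obtain ⟨X, hX⟩ : ∃ X, X = q - 1 := ⟨_, rfl⟩
  obtain ⟨Y, hY⟩ : ∃ Y, Y = (3/2) - q := ⟨_, rfl⟩
  have hX0 : 0 ≤ X := by rw [hX]; linarith
  have hY0 : 0 ≤ Y := by rw [hY]; linarith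
  have hq0 : 0 ≤ q := by linarith
  constructor
  · exact lam9_nonneg q
  · refine Or.inr ⟨by linarith, (-13/250) + (6/25) * q, by linarith, by linarith, mino_2 h0 h1, ?_⟩
    rw [hl]
    have key : 0 ≤ (4319018752/146484375)*Y^7 + (47153350912/439453125)*X*Y^6 +
      (167233710208/1318359375)*X^2*Y^5 + (505708064/9765625)*X^3*Y^4 +
      (515842676/9765625)*X^4*Y^3 + (6148910241/48828125)*X^5*Y^2 + (5062993882/48828125)*X^6*Y +
      (1359009521/48828125)*X^7 := by positivity
    refine sub_nonneg.1 (key.trans (le_of_eq ?_))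
    simp only [hX, hY]; ring
  · refine ⟨(17/50), (13/250) * q, by norm_num, by norm_num, by positivity, ?_, ?_, ?_, ?_, ?_⟩
    · have key : 0 ≤ (119/125)*Y + (9/10)*X := by positivity
      refine sub_nonneg.1 (key.trans (le_of_eq ?_))
      simp only [hX, hY]; ring
    · have key : 0 ≤ (210723/250000)*Y^2 + (703961/500000)*X*Y + (24891/50000)*X^2 := by positivity
      refine sub_nonneg.1 (key.trans (le_of_eq ?_))
      simp only [hX, hY, hl]; ring
    · have key : 0 ≤ (397/125000)*Y + (373/50000)*X := by positivity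
      refine sub_nonneg.1 (key.trans (le_of_eq ?_))
      simp only [hX, hY, hl]; ring
    · have key : 0 ≤ q * ((469/125000)*Y + (719/12500)*X) := by positivity
      refine sub_nonneg.1 (key.trans (le_of_eq ?_))
      simp only [hX, hY, hl]; ring
    · have key : 0 ≤ (53811/78125)*Y^2 + (22333/15625)*X*Y + (230571/312500)*X^2 := by positivity
      refine sub_nonneg.1 (key.trans (le_of_eq ?_))
      simp only [hX, hY]; ring
  · rw [hl]
    have key : 0 ≤ (547763707361/97656250)*Y^5 + (5255832302533/195312500)*X*Y^4 +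
      (2515252614117/48828125)*X^2*Y^3 + (4801615084561/97656250)*X^3*Y^2 +
      (456911804013/19531250)*X^4*Y + (34663738729/7812500)*X^5 := by positivity
    refine sub_nonneg.1 (key.trans (le_of_eq ?_))
    simp only [hX, hY]; ring

lemma cell9_3 {q : ℝ} (h0 : (3/2) ≤ q) (h1 : q ≤ 2) :
    CellOk 9 (4/5) 1 (3/100) (317/20) (4/125) lam9 q := by
  have hl : lam9 q = (871/250) - (219/250) * q := by
    unfold lam9
    rw [max_eq_right (show (1/2) - q ≤ (0 : ℝ) by linarith)]
    rw [max_eq_right (show 1 - q ≤ (0 : ℝ) by linarith)]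
    rw [max_eq_right (show (3/2) - q ≤ (0 : ℝ) by linarith)]
    rw [max_eq_left (show (0 : ℝ) ≤ 2 - q by linarith)]
    rw [max_eq_left (show (0 : ℝ) ≤ (5/2) - q by linarith)]
    rw [max_eq_left (show (0 : ℝ) ≤ 3 - q by linarith)]
    rw [max_eq_left (show (0 : ℝ) ≤ (7/2) - q by linarith)]
    rw [max_eq_left (show (0 : ℝ) ≤ 4 - q by linarith)]
    rw [max_eq_left (show (0 : ℝ) ≤ (9/2) - q by linarith)]
    rw [max_eq_left (show (0 : ℝ) ≤ 5 - q by linarith)]
    rw [max_eq_left (show (0 : ℝ) ≤ 6 - q by linarith)]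
    ring
  obtain ⟨X, hX⟩ : ∃ X, X = q - (3/2) := ⟨_, rfl⟩
  obtain ⟨Y, hY⟩ : ∃ Y, Y = 2 - q := ⟨_, rfl⟩
  have hX0 : 0 ≤ X := by rw [hX]; linarith
  have hY0 : 0 ≤ Y := by rw [hY]; linarith
  have hq0 : 0 ≤ q := by linarith
  constructor
  · exact lam9_nonneg q
  · refine Or.inr ⟨by linarith, (-53/500) + (69/250) * q, by linarith, by linarith, mino_3 h0 h1, ?_⟩
    rw [hl]
    have key : 0 ≤ (1359009521/48828125)*Y^7 + (5041178369/48828125)*X*Y^6 + (24897632721/195312500)*X^2*Y^5 +
      (1135307551/19531250)*X^3*Y^4 + (474845394/9765625)*X^4*Y^3 +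
      (141980828756/1318359375)*X^5*Y^2 + (117705336284/1318359375)*X^6*Y +
      (31835837864/1318359375)*X^7 := by positivity
    refine sub_nonneg.1 (key.trans (le_of_eq ?_))
    simp only [hX, hY]; ring
  · refine ⟨(171/500), (7/125) * q, by norm_num, by norm_num, by positivity, ?_, ?_, ?_, ?_, ?_⟩
    · have key : 0 ≤ (553/625)*Y + (518/625)*X := by positivity
      refine sub_nonneg.1 (key.trans (le_of_eq ?_))
      simp only [hX, hY]; ring
    · have key : 0 ≤ (16407/25000)*Y^2 + (16737/15625)*X*Y + (11049/31250)*X^2 := by positivity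
      refine sub_nonneg.1 (key.trans (le_of_eq ?_))
      simp only [hX, hY, hl]; ring
    · have key : 0 ≤ (173/50000)*Y + (721/62500)*X := by positivity
      refine sub_nonneg.1 (key.trans (le_of_eq ?_))
      simp only [hX, hY, hl]; ring
    · have key : 0 ≤ q * ((149/12500)*Y + (3811/62500)*X) := by positivity
      refine sub_nonneg.1 (key.trans (le_of_eq ?_))
      simp only [hX, hY, hl]; ring
    · have key : 0 ≤ (292971/390625)*Y^2 + (604912/390625)*X*Y + (310716/390625)*X^2 := by positivity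
      refine sub_nonneg.1 (key.trans (le_of_eq ?_))
      simp only [hX, hY]; ring
  · rw [hl]
    have key : 0 ≤ (34663738729/7812500)*Y^5 + (423600215143/19531250)*X*Y^4 +
      (2066628330368/48828125)*X^2*Y^3 + (4024731017527/97656250)*X^3*Y^2 +
      (156416811583/7812500)*X^4*Y + (189515736657/48828125)*X^5 := by positivity
    refine sub_nonneg.1 (key.trans (le_of_eq ?_))
    simp only [hX, hY]; ring

lemma cell9_4 {q : ℝ} (h0 : 2 ≤ q) (h1 : q ≤ (5/2)) :
    CellOk 9 (4/5) 1 (3/100) (317/20) (4/125) lam9 q := by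
  have hl : lam9 q = (161/50) - (93/125) * q := by
    unfold lam9
    rw [max_eq_right (show (1/2) - q ≤ (0 : ℝ) by linarith)]
    rw [max_eq_right (show 1 - q ≤ (0 : ℝ) by linarith)]
    rw [max_eq_right (show (3/2) - q ≤ (0 : ℝ) by linarith)]
    rw [max_eq_right (show 2 - q ≤ (0 : ℝ) by linarith)]
    rw [max_eq_left (show (0 : ℝ) ≤ (5/2) - q by linarith)]
    rw [max_eq_left (show (0 : ℝ) ≤ 3 - q by linarith)]
    rw [max_eq_left (show (0 : ℝ) ≤ (7/2) - q by linarith)]
    rw [max_eq_left (show (0 : ℝ) ≤ 4 - q by linarith)]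
    rw [max_eq_left (show (0 : ℝ) ≤ (9/2) - q by linarith)]
    rw [max_eq_left (show (0 : ℝ) ≤ 5 - q by linarith)]
    rw [max_eq_left (show (0 : ℝ) ≤ 6 - q by linarith)]
    ring
  obtain ⟨X, hX⟩ : ∃ X, X = q - 2 := ⟨_, rfl⟩
  obtain ⟨Y, hY⟩ : ∃ Y, Y = (5/2) - q := ⟨_, rfl⟩
  have hX0 : 0 ≤ X := by rw [hX]; linarith
  have hY0 : 0 ≤ Y := by rw [hY]; linarith
  have hq0 : 0 ≤ q := by linarith
  constructor
  · exact lam9_nonneg q
  · refine Or.inr ⟨by linarith, (-109/500) + (83/250) * q, by linarith, by linarith, mino_4 h0 h1, ?_⟩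
    rw [hl]
    have key : 0 ≤ (31835837864/1318359375)*Y^7 + (344678614748/3955078125)*X*Y^6 +
      (1192685199284/11865234375)*X^2*Y^5 + (3404667634/94921875)*X^3*Y^4 +
      (275030861/7593750)*X^4*Y^3 + (59850677/607500)*X^5*Y^2 + (2524609/30375)*X^6*Y +
      (136469/6075)*X^7 := by positivity
    refine sub_nonneg.1 (key.trans (le_of_eq ?_))
    simp only [hX, hY]; ring
  · refine ⟨(173/500), (3/50) * q, by norm_num, by norm_num, by positivity, ?_, ?_, ?_, ?_, ?_⟩
    · have key : 0 ≤ (504/625)*Y + (933/1250)*X := by positivity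
      refine sub_nonneg.1 (key.trans (le_of_eq ?_))
      simp only [hX, hY]; ring
    · have key : 0 ≤ (1758/3125)*Y^2 + (22779/25000)*X*Y + (183/625)*X^2 := by positivity
      refine sub_nonneg.1 (key.trans (le_of_eq ?_))
      simp only [hX, hY, hl]; ring
    · have key : 0 ≤ (221/62500)*Y + (739/50000)*X := by positivity
      refine sub_nonneg.1 (key.trans (le_of_eq ?_))
      simp only [hX, hY, hl]; ring
    · have key : 0 ≤ q * ((283/12500)*Y + (841/12500)*X) := by positivity
      refine sub_nonneg.1 (key.trans (le_of_eq ?_))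
      simp only [hX, hY, hl]; ring
    · have key : 0 ≤ (316584/390625)*Y^2 + (650118/390625)*X*Y + (1328511/1562500)*X^2 := by positivity
      refine sub_nonneg.1 (key.trans (le_of_eq ?_))
      simp only [hX, hY]; ring
  · rw [hl]
    have key : 0 ≤ (189515736657/48828125)*Y^5 + (3783347181113/195312500)*X*Y^4 +
      (150767612037/3906250)*X^2*Y^3 + (74957444002/1953125)*X^3*Y^2 +
      (14877659049/781250)*X^4*Y + (1178826887/312500)*X^5 := by positivity
    refine sub_nonneg.1 (key.trans (le_of_eq ?_))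
    simp only [hX, hY]; ring

lemma cell9_5 {q : ℝ} (h0 : (5/2) ≤ q) (h1 : q ≤ 3) :
    CellOk 9 (4/5) 1 (3/100) (317/20) (4/125) lam9 q := by
  have hl : lam9 q = (73/25) - (78/125) * q := by
    unfold lam9
    rw [max_eq_right (show (1/2) - q ≤ (0 : ℝ) by linarith)]
    rw [max_eq_right (show 1 - q ≤ (0 : ℝ) by linarith)]
    rw [max_eq_right (show (3/2) - q ≤ (0 : ℝ) by linarith)]
    rw [max_eq_right (show 2 - q ≤ (0 : ℝ) by linarith)]
    rw [max_eq_right (show (5/2) - q ≤ (0 : ℝ) by linarith)]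
    rw [max_eq_left (show (0 : ℝ) ≤ 3 - q by linarith)]
    rw [max_eq_left (show (0 : ℝ) ≤ (7/2) - q by linarith)]
    rw [max_eq_left (show (0 : ℝ) ≤ 4 - q by linarith)]
    rw [max_eq_left (show (0 : ℝ) ≤ (9/2) - q by linarith)]
    rw [max_eq_left (show (0 : ℝ) ≤ 5 - q by linarith)]
    rw [max_eq_left (show (0 : ℝ) ≤ 6 - q by linarith)]
    ring
  obtain ⟨X, hX⟩ : ∃ X, X = q - (5/2) := ⟨_, rfl⟩
  obtain ⟨Y, hY⟩ : ∃ Y, Y = 3 - q := ⟨_, rfl⟩
  have hX0 : 0 ≤ X := by rw [hX]; linarith
  have hY0 : 0 ≤ Y := by rw [hY]; linarith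
  have hq0 : 0 ≤ q := by linarith
  constructor
  · exact lam9_nonneg q
  · refine Or.inr ⟨by linarith, (-189/500) + (99/250) * q, by linarith, by linarith, mino_5 h0 h1, ?_⟩
    rw [hl]
    have key : 0 ≤ (136469/6075)*Y^7 + (2556941/30375)*X*Y^6 + (67049717/607500)*X^2*Y^5 +
      (89600594/1265625)*X^3*Y^4 + (811993376/10546875)*X^4*Y^3 +
      (52271691008/439453125)*X^5*Y^2 + (2522063872/29296875)*X^6*Y + (42944512/1953125)*X^7 := by positivity
    refine sub_nonneg.1 (key.trans (le_of_eq ?_))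
    simp only [hX, hY]; ring
  · refine ⟨(44/125), (33/500) * q, by norm_num, by norm_num, by positivity, ?_, ?_, ?_, ?_, ?_⟩
    · have key : 0 ≤ (1767/2500)*Y + (801/1250)*X := by positivity
      refine sub_nonneg.1 (key.trans (le_of_eq ?_))
      simp only [hX, hY]; ring
    · have key : 0 ≤ (3909/6250)*Y^2 + (134829/125000)*X*Y + (25107/62500)*X^2 := by positivity
      refine sub_nonneg.1 (key.trans (le_of_eq ?_))
      simp only [hX, hY, hl]; ring
    · have key : 0 ≤ (139/50000)*Y + (2113/125000)*X := by positivity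
      refine sub_nonneg.1 (key.trans (le_of_eq ?_))
      simp only [hX, hY, hl]; ring
    · have key : 0 ≤ q * ((89/6250)*Y + (866/15625)*X) := by positivity
      refine sub_nonneg.1 (key.trans (le_of_eq ?_))
      simp only [hX, hY, hl]; ring
    · have key : 0 ≤ (5450511/6250000)*Y^2 + (2781273/1562500)*X*Y + (1411839/1562500)*X^2 := by positivity
      refine sub_nonneg.1 (key.trans (le_of_eq ?_))
      simp only [hX, hY]; ring
  · rw [hl]
    have key : 0 ≤ (1178826887/312500)*Y^5 + (7497784693/390625)*X*Y^4 + (76117397682/1953125)*X^2*Y^3 +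
      (154192659359/3906250)*X^3*Y^2 + (3895775181033/195312500)*X^4*Y +
      (392878266659/97656250)*X^5 := by positivity
    refine sub_nonneg.1 (key.trans (le_of_eq ?_))
    simp only [hX, hY]; ring

lemma cell9_6 {q : ℝ} (h0 : 3 ≤ q) (h1 : q ≤ (7/2)) :
    CellOk 9 (4/5) 1 (3/100) (317/20) (4/125) lam9 q := by
  have hl : lam9 q = (323/125) - (64/125) * q := by
    unfold lam9
    rw [max_eq_right (show (1/2) - q ≤ (0 : ℝ) by linarith)]
    rw [max_eq_right (show 1 - q ≤ (0 : ℝ) by linarith)]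
    rw [max_eq_right (show (3/2) - q ≤ (0 : ℝ) by linarith)]
    rw [max_eq_right (show 2 - q ≤ (0 : ℝ) by linarith)]
    rw [max_eq_right (show (5/2) - q ≤ (0 : ℝ) by linarith)]
    rw [max_eq_right (show 3 - q ≤ (0 : ℝ) by linarith)]
    rw [max_eq_left (show (0 : ℝ) ≤ (7/2) - q by linarith)]
    rw [max_eq_left (show (0 : ℝ) ≤ 4 - q by linarith)]
    rw [max_eq_left (show (0 : ℝ) ≤ (9/2) - q by linarith)]
    rw [max_eq_left (show (0 : ℝ) ≤ 5 - q by linarith)]
    rw [max_eq_left (show (0 : ℝ) ≤ 6 - q by linarith)]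
    ring
  obtain ⟨X, hX⟩ : ∃ X, X = q - 3 := ⟨_, rfl⟩
  obtain ⟨Y, hY⟩ : ∃ Y, Y = (7/2) - q := ⟨_, rfl⟩
  have hX0 : 0 ≤ X := by rw [hX]; linarith
  have hY0 : 0 ≤ Y := by rw [hY]; linarith
  have hq0 : 0 ≤ q := by linarith
  constructor
  · exact lam9_nonneg q
  · refine Or.inr ⟨by linarith, (-291/500) + (58/125) * q, by linarith, by linarith, mino_6 h0 h1, ?_⟩
    rw [hl]
    have key : 0 ≤ (42944512/1953125)*Y^7 + (2535498752/29296875)*X*Y^6 + (55627758848/439453125)*X^2*Y^5 +
      (26325642208/263671875)*X^3*Y^4 + (75175834226/791015625)*X^4*Y^3 +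
      (1095942083299/9492187500)*X^5*Y^2 + (73668642223/949218750)*X^6*Y +
      (919497756263/47460937500)*X^7 := by positivity
    refine sub_nonneg.1 (key.trans (le_of_eq ?_))
    simp only [hX, hY]; ring
  · refine ⟨(9/25), (9/125) * q, by norm_num, by norm_num, by positivity, ?_, ?_, ?_, ?_, ?_⟩
    · have key : 0 ≤ (74/125)*Y + (13/25)*X := by positivity
      refine sub_nonneg.1 (key.trans (le_of_eq ?_))
      simp only [hX, hY]; ring
    · have key : 0 ≤ (12087/15625)*Y^2 + (8913/6250)*X*Y + (18951/31250)*X^2 := by positivity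
      refine sub_nonneg.1 (key.trans (le_of_eq ?_))
      simp only [hX, hY, hl]; ring
    · have key : 0 ≤ (113/125000)*Y + (4429/250000)*X := by positivity
      refine sub_nonneg.1 (key.trans (le_of_eq ?_))
      simp only [hX, hY, hl]; ring
    · have key : 0 ≤ q * ((309/31250)*Y + (1461/31250)*X) := by positivity
      refine sub_nonneg.1 (key.trans (le_of_eq ?_))
      simp only [hX, hY, hl]; ring
    · have key : 0 ≤ (72108/78125)*Y^2 + (146124/78125)*X*Y + (73611/78125)*X^2 := by positivity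
      refine sub_nonneg.1 (key.trans (le_of_eq ?_))
      simp only [hX, hY]; ring
  · rw [hl]
    have key : 0 ≤ (392878266659/97656250)*Y^5 + (4054211774419/195312500)*X*Y^4 +
      (4171068133971/97656250)*X^2*Y^3 + (2139710000201/48828125)*X^3*Y^2 +
      (43793286639/1953125)*X^4*Y + (894169802017/195312500)*X^5 := by positivity
    refine sub_nonneg.1 (key.trans (le_of_eq ?_))
    simp only [hX, hY]; ring

lemma cell9_7 {q : ℝ} (h0 : (7/2) ≤ q) (h1 : q ≤ 4) :
    CellOk 9 (4/5) 1 (3/100) (317/20) (4/125) lam9 q := by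
  have hl : lam9 q = (1131/500) - (21/50) * q := by
    unfold lam9
    rw [max_eq_right (show (1/2) - q ≤ (0 : ℝ) by linarith)]
    rw [max_eq_right (show 1 - q ≤ (0 : ℝ) by linarith)]
    rw [max_eq_right (show (3/2) - q ≤ (0 : ℝ) by linarith)]
    rw [max_eq_right (show 2 - q ≤ (0 : ℝ) by linarith)]
    rw [max_eq_right (show (5/2) - q ≤ (0 : ℝ) by linarith)]
    rw [max_eq_right (show 3 - q ≤ (0 : ℝ) by linarith)]
    rw [max_eq_right (show (7/2) - q ≤ (0 : ℝ) by linarith)]
    rw [max_eq_left (show (0 : ℝ) ≤ 4 - q by linarith)]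
    rw [max_eq_left (show (0 : ℝ) ≤ (9/2) - q by linarith)]
    rw [max_eq_left (show (0 : ℝ) ≤ 5 - q by linarith)]
    rw [max_eq_left (show (0 : ℝ) ≤ 6 - q by linarith)]
    ring
  obtain ⟨X, hX⟩ : ∃ X, X = q - (7/2) := ⟨_, rfl⟩
  obtain ⟨Y, hY⟩ : ∃ Y, Y = 4 - q := ⟨_, rfl⟩
  have hX0 : 0 ≤ X := by rw [hX]; linarith
  have hY0 : 0 ≤ Y := by rw [hY]; linarith
  have hq0 : 0 ≤ q := by linarith
  constructor
  · exact lam9_nonneg q
  · refine Or.inr ⟨by linarith, (-459/500) + (14/25) * q, by linarith, by linarith, mino_7 h0 h1, ?_⟩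
    rw [hl]
    have key : 0 ≤ (919497756263/47460937500)*Y^7 + (910879671569/11865234375)*X*Y^6 +
      (5513430800003/47460937500)*X^2*Y^5 + (488682237379/4746093750)*X^3*Y^4 +
      (255493173698/2373046875)*X^4*Y^3 + (1449852238828/11865234375)*X^5*Y^2 +
      (102055389884/1318359375)*X^6*Y + (2737765528/146484375)*X^7 := by positivity
    refine sub_nonneg.1 (key.trans (le_of_eq ?_))
    simp only [hX, hY]; ring
  · refine ⟨(46/125), (39/500) * q, by norm_num, by norm_num, by positivity, ?_, ?_, ?_, ?_, ?_⟩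
    · have key : 0 ≤ (1163/2500)*Y + (242/625)*X := by positivity
      refine sub_nonneg.1 (key.trans (le_of_eq ?_))
      simp only [hX, hY]; ring
    · have key : 0 ≤ (123617/125000)*Y^2 + (953191/500000)*X*Y + (54781/62500)*X^2 := by positivity
      refine sub_nonneg.1 (key.trans (le_of_eq ?_))
      simp only [hX, hY, hl]; ring
    · have key : 0 ≤ (429/250000)*Y + (324/15625)*X := by positivity
      refine sub_nonneg.1 (key.trans (le_of_eq ?_))
      simp only [hX, hY, hl]; ring
    · have key : 0 ≤ q * ((67/15625)*Y + (4631/125000)*X) := by positivity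
      refine sub_nonneg.1 (key.trans (le_of_eq ?_))
      simp only [hX, hY, hl]; ring
    · have key : 0 ≤ (5963911/6250000)*Y^2 + (748877/390625)*X*Y + (373756/390625)*X^2 := by positivity
      refine sub_nonneg.1 (key.trans (le_of_eq ?_))
      simp only [hX, hY]; ring
  · rw [hl]
    have key : 0 ≤ (894169802017/195312500)*Y^5 + (2318742369021/97656250)*X*Y^4 +
      (2397712855634/48828125)*X^2*Y^3 + (4944753113583/97656250)*X^3*Y^2 +
      (5085541422847/195312500)*X^4*Y + (260892952248/48828125)*X^5 := by positivity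
    refine sub_nonneg.1 (key.trans (le_of_eq ?_))
    simp only [hX, hY]; ring

lemma cell9_8 {q : ℝ} (h0 : 4 ≤ q) (h1 : q ≤ (9/2)) :
    CellOk 9 (4/5) 1 (3/100) (317/20) (4/125) lam9 q := by
  have hl : lam9 q = (959/500) - (167/500) * q := by
    unfold lam9
    rw [max_eq_right (show (1/2) - q ≤ (0 : ℝ) by linarith)]
    rw [max_eq_right (show 1 - q ≤ (0 : ℝ) by linarith)]
    rw [max_eq_right (show (3/2) - q ≤ (0 : ℝ) by linarith)]
    rw [max_eq_right (show 2 - q ≤ (0 : ℝ) by linarith)]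
    rw [max_eq_right (show (5/2) - q ≤ (0 : ℝ) by linarith)]
    rw [max_eq_right (show 3 - q ≤ (0 : ℝ) by linarith)]
    rw [max_eq_right (show (7/2) - q ≤ (0 : ℝ) by linarith)]
    rw [max_eq_right (show 4 - q ≤ (0 : ℝ) by linarith)]
    rw [max_eq_left (show (0 : ℝ) ≤ (9/2) - q by linarith)]
    rw [max_eq_left (show (0 : ℝ) ≤ 5 - q by linarith)]
    rw [max_eq_left (show (0 : ℝ) ≤ 6 - q by linarith)]
    ring
  obtain ⟨X, hX⟩ : ∃ X, X = q - 4 := ⟨_, rfl⟩
  obtain ⟨Y, hY⟩ : ∃ Y, Y = (9/2) - q := ⟨_, rfl⟩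
  have hX0 : 0 ≤ X := by rw [hX]; linarith
  have hY0 : 0 ≤ Y := by rw [hY]; linarith
  have hq0 : 0 ≤ q := by linarith
  constructor
  · exact lam9_nonneg q
  · refine Or.inr ⟨by linarith, (-127/100) + (81/125) * q, by linarith, by linarith, mino_8 h0 h1, ?_⟩
    rw [hl]
    have key : 0 ≤ (2737765528/146484375)*Y^7 + (11752343828/146484375)*X*Y^6 +
      (21013338412/146484375)*X^2*Y^5 + (1599091474/9765625)*X^3*Y^4 +
      (3342101089/19531250)*X^4*Y^3 + (30159401187/195312500)*X^5*Y^2 +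
      (4090113393/48828125)*X^6*Y + (3638580503/195312500)*X^7 := by positivity
    refine sub_nonneg.1 (key.trans (le_of_eq ?_))
    simp only [hX, hY]; ring
  · refine ⟨(189/500), (21/250) * q, by norm_num, by norm_num, by positivity, ?_, ?_, ?_, ?_, ?_⟩
    · have key : 0 ≤ (202/625)*Y + (299/1250)*X := by positivity
      refine sub_nonneg.1 (key.trans (le_of_eq ?_))
      simp only [hX, hY]; ring
    · have key : 0 ≤ (80601/62500)*Y^2 + (643089/250000)*X*Y + (124767/100000)*X^2 := by positivity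
      refine sub_nonneg.1 (key.trans (le_of_eq ?_))
      simp only [hX, hY, hl]; ring
    · have key : 0 ≤ (23/31250)*Y + (1091/50000)*X := by positivity
      refine sub_nonneg.1 (key.trans (le_of_eq ?_))
      simp only [hX, hY, hl]; ring
    · have key : 0 ≤ q * ((27/31250)*Y + (723/25000)*X) := by positivity
      refine sub_nonneg.1 (key.trans (le_of_eq ?_))
      simp only [hX, hY, hl]; ring
    · have key : 0 ≤ (374556/390625)*Y^2 + (744492/390625)*X*Y + (1468719/1562500)*X^2 := by positivity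
      refine sub_nonneg.1 (key.trans (le_of_eq ?_))
      simp only [hX, hY]; ring
  · rw [hl]
    have key : 0 ≤ (260892952248/48828125)*Y^5 + (5419998669229/195312500)*X*Y^4 +
      (561355566621/9765625)*X^2*Y^3 + (5798623654939/97656250)*X^3*Y^2 +
      (298764503913/9765625)*X^4*Y + (9829819049/1562500)*X^5 := by positivity
    refine sub_nonneg.1 (key.trans (le_of_eq ?_))
    simp only [hX, hY]; ring

lemma cell9_9 {q : ℝ} (h0 : (9/2) ≤ q) (h1 : q ≤ 5) :
    CellOk 9 (4/5) 1 (3/100) (317/20) (4/125) lam9 q := by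
  have hl : lam9 q = (833/500) - (139/500) * q := by
    unfold lam9
    rw [max_eq_right (show (1/2) - q ≤ (0 : ℝ) by linarith)]
    rw [max_eq_right (show 1 - q ≤ (0 : ℝ) by linarith)]
    rw [max_eq_right (show (3/2) - q ≤ (0 : ℝ) by linarith)]
    rw [max_eq_right (show 2 - q ≤ (0 : ℝ) by linarith)]
    rw [max_eq_right (show (5/2) - q ≤ (0 : ℝ) by linarith)]
    rw [max_eq_right (show 3 - q ≤ (0 : ℝ) by linarith)]
    rw [max_eq_right (show (7/2) - q ≤ (0 : ℝ) by linarith)]
    rw [max_eq_right (show 4 - q ≤ (0 : ℝ) by linarith)]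
    rw [max_eq_right (show (9/2) - q ≤ (0 : ℝ) by linarith)]
    rw [max_eq_left (show (0 : ℝ) ≤ 5 - q by linarith)]
    rw [max_eq_left (show (0 : ℝ) ≤ 6 - q by linarith)]
    ring
  obtain ⟨X, hX⟩ : ∃ X, X = q - (9/2) := ⟨_, rfl⟩
  obtain ⟨Y, hY⟩ : ∃ Y, Y = 5 - q := ⟨_, rfl⟩
  have hX0 : 0 ≤ X := by rw [hX]; linarith
  have hY0 : 0 ≤ Y := by rw [hY]; linarith
  have hq0 : 0 ≤ q := by linarith
  constructor
  · exact lam9_nonneg q
  · refine Or.inr ⟨by linarith, (-779/500) + (89/125) * q, by linarith, by linarith, mino_9 h0 h1, ?_⟩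
    rw [hl]
    have key : 0 ≤ (3638580503/195312500)*Y^7 + (10835503311/97656250)*X*Y^6 +
      (62520975007/195312500)*X^2*Y^5 + (3424472641/5859375)*X^3*Y^4 +
      (2474880824/3515625)*X^4*Y^3 + (1124704928/2109375)*X^5*Y^2 + (57472448/253125)*X^6*Y +
      (156288256/3796875)*X^7 := by positivity
    refine sub_nonneg.1 (key.trans (le_of_eq ?_))
    simp only [hX, hY]; ring
  · refine ⟨(97/250), (11/125) * q, by norm_num, by norm_num, by positivity, ?_, ?_, ?_, ?_, ?_⟩
    · have key : 0 ≤ (117/625)*Y + (62/625)*X := by positivity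
      refine sub_nonneg.1 (key.trans (le_of_eq ?_))
      simp only [hX, hY]; ring
    · have key : 0 ≤ (78081/50000)*Y^2 + (393781/125000)*X*Y + (48689/31250)*X^2 := by positivity
      refine sub_nonneg.1 (key.trans (le_of_eq ?_))
      simp only [hX, hY, hl]; ring
    · have key : 0 ≤ (91/50000)*Y + (3031/125000)*X := by positivity
      refine sub_nonneg.1 (key.trans (le_of_eq ?_))
      simp only [hX, hY, hl]; ring
    · have key : 0 ≤ q * ((31/2500)*Y + (576/15625)*X) := by positivity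
      refine sub_nonneg.1 (key.trans (le_of_eq ?_))
      simp only [hX, hY, hl]; ring
    · have key : 0 ≤ (364671/390625)*Y^2 + (716252/390625)*X*Y + (348556/390625)*X^2 := by positivity
      refine sub_nonneg.1 (key.trans (le_of_eq ?_))
      simp only [hX, hY]; ring
  · rw [hl]
    have key : 0 ≤ (9829819049/1562500)*Y^5 + (635741567143/19531250)*X*Y^4 +
      (6562900644651/97656250)*X^2*Y^3 + (3380095364738/48828125)*X^3*Y^2 +
      (1389875877657/39062500)*X^4*Y + (28522221557/3906250)*X^5 := by positivity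
    refine sub_nonneg.1 (key.trans (le_of_eq ?_))
    simp only [hX, hY]; ring

lemma cell9_10 {q : ℝ} (h0 : 5 ≤ q) (h1 : q ≤ (11/2)) :
    CellOk 9 (4/5) 1 (3/100) (317/20) (4/125) lam9 q := by
  have hl : lam9 q = (207/125) - (69/250) * q := by
    unfold lam9
    rw [max_eq_right (show (1/2) - q ≤ (0 : ℝ) by linarith)]
    rw [max_eq_right (show 1 - q ≤ (0 : ℝ) by linarith)]
    rw [max_eq_right (show (3/2) - q ≤ (0 : ℝ) by linarith)]
    rw [max_eq_right (show 2 - q ≤ (0 : ℝ) by linarith)]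
    rw [max_eq_right (show (5/2) - q ≤ (0 : ℝ) by linarith)]
    rw [max_eq_right (show 3 - q ≤ (0 : ℝ) by linarith)]
    rw [max_eq_right (show (7/2) - q ≤ (0 : ℝ) by linarith)]
    rw [max_eq_right (show 4 - q ≤ (0 : ℝ) by linarith)]
    rw [max_eq_right (show (9/2) - q ≤ (0 : ℝ) by linarith)]
    rw [max_eq_right (show 5 - q ≤ (0 : ℝ) by linarith)]
    rw [max_eq_left (show (0 : ℝ) ≤ 6 - q by linarith)]
    ring
  obtain ⟨X, hX⟩ : ∃ X, X = q - 5 := ⟨_, rfl⟩
  obtain ⟨Y, hY⟩ : ∃ Y, Y = (11/2) - q := ⟨_, rfl⟩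
  have hX0 : 0 ≤ X := by rw [hX]; linarith
  have hY0 : 0 ≤ Y := by rw [hY]; linarith
  have hq0 : 0 ≤ q := by linarith
  constructor
  · exact lam9_nonneg q
  · refine Or.inr ⟨by linarith, (-969/500) + (197/250) * q, by linarith, by linarith, mino_10 h0 h1, ?_⟩
    rw [hl]
    have key : 0 ≤ (156288256/3796875)*Y^7 + (1288998592/3796875)*X*Y^6 + (22975288352/18984375)*X^2*Y^5 +
      (227436857432/94921875)*X^3*Y^4 + (1343737726081/474609375)*X^4*Y^3 +
      (94531103137699/47460937500)*X^5*Y^2 + (3051931331467/3955078125)*X^6*Y +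
      (167409954811/1318359375)*X^7 := by positivity
    refine sub_nonneg.1 (key.trans (le_of_eq ?_))
    simp only [hX, hY]; ring
  · refine ⟨(2/5), (43/500) * q, by norm_num, by norm_num, by positivity, ?_, ?_, ?_, ?_, ?_⟩
    · have key : 0 ≤ (1/10)*Y + (7/500)*X := by positivity
      refine sub_nonneg.1 (key.trans (le_of_eq ?_))
      simp only [hX, hY]; ring
    · have key : 0 ≤ (194187/125000)*Y^2 + (191599/62500)*X*Y + (741209/500000)*X^2 := by positivity
      refine sub_nonneg.1 (key.trans (le_of_eq ?_))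
      simp only [hX, hY, hl]; ring
    · have key : 0 ≤ (31/125000)*Y + (5681/250000)*X := by positivity
      refine sub_nonneg.1 (key.trans (le_of_eq ?_))
      simp only [hX, hY, hl]; ring
    · have key : 0 ≤ q * ((4783/62500)*Y + (12533/125000)*X) := by positivity
      refine sub_nonneg.1 (key.trans (le_of_eq ?_))
      simp only [hX, hY, hl]; ring
    · have key : 0 ≤ (56847/62500)*Y^2 + (554581/312500)*X*Y + (1072139/1250000)*X^2 := by positivity
      refine sub_nonneg.1 (key.trans (le_of_eq ?_))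
      simp only [hX, hY]; ring
  · rw [hl]
    have key : 0 ≤ (28522221557/3906250)*Y^5 + (1462671775683/39062500)*X*Y^4 +
      (7488152817901/97656250)*X^2*Y^3 + (3827513296536/48828125)*X^3*Y^2 +
      (390703244921/9765625)*X^4*Y + (1593069697353/195312500)*X^5 := by positivity
    refine sub_nonneg.1 (key.trans (le_of_eq ?_))
    simp only [hX, hY]; ring

lemma cell9_11 {q : ℝ} (h0 : (11/2) ≤ q) (h1 : q ≤ 6) :
    CellOk 9 (4/5) 1 (3/100) (317/20) (4/125) lam9 q := by
  have hl : lam9 q = (207/125) - (69/250) * q := by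
    unfold lam9
    rw [max_eq_right (show (1/2) - q ≤ (0 : ℝ) by linarith)]
    rw [max_eq_right (show 1 - q ≤ (0 : ℝ) by linarith)]
    rw [max_eq_right (show (3/2) - q ≤ (0 : ℝ) by linarith)]
    rw [max_eq_right (show 2 - q ≤ (0 : ℝ) by linarith)]
    rw [max_eq_right (show (5/2) - q ≤ (0 : ℝ) by linarith)]
    rw [max_eq_right (show 3 - q ≤ (0 : ℝ) by linarith)]
    rw [max_eq_right (show (7/2) - q ≤ (0 : ℝ) by linarith)]
    rw [max_eq_right (show 4 - q ≤ (0 : ℝ) by linarith)]
    rw [max_eq_right (show (9/2) - q ≤ (0 : ℝ) by linarith)]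
    rw [max_eq_right (show 5 - q ≤ (0 : ℝ) by linarith)]
    rw [max_eq_left (show (0 : ℝ) ≤ 6 - q by linarith)]
    ring
  obtain ⟨X, hX⟩ : ∃ X, X = q - (11/2) := ⟨_, rfl⟩
  obtain ⟨Y, hY⟩ : ∃ Y, Y = 6 - q := ⟨_, rfl⟩
  have hX0 : 0 ≤ X := by rw [hX]; linarith
  have hY0 : 0 ≤ Y := by rw [hY]; linarith
  have hq0 : 0 ≤ q := by linarith
  constructor
  · exact lam9_nonneg q
  · refine Or.inr ⟨by linarith, (-611/250) + (22/25) * q, by linarith, by linarith, mino_11 h0 h1, ?_⟩
    rw [hl]
    have key : 0 ≤ (167409954811/1318359375)*Y^7 + (3952690991236/3955078125)*X*Y^6 +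
      (39873383394559/11865234375)*X^2*Y^5 + (1648752159794/263671875)*X^3*Y^4 +
      (203632117544/29296875)*X^4*Y^3 + (225321339696/48828125)*X^5*Y^2 +
      (82729350672/48828125)*X^6*Y + (12960111456/48828125)*X^7 := by positivity
    refine sub_nonneg.1 (key.trans (le_of_eq ?_))
    simp only [hX, hY]; ring
  · refine ⟨(41/100), (39/500) * q, by norm_num, by norm_num, by positivity, ?_, ?_, ?_, ?_, ?_⟩
    · have key : 0 ≤ (43/500)*Y + (1/125)*X := by positivity
      refine sub_nonneg.1 (key.trans (le_of_eq ?_))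
      simp only [hX, hY]; ring
    · have key : 0 ≤ (548789/500000)*Y^2 + (259561/125000)*X*Y + (119/125)*X^2 := by positivity
      refine sub_nonneg.1 (key.trans (le_of_eq ?_))
      simp only [hX, hY, hl]; ring
    · have key : 0 ≤ (681/250000)*Y + (63/2500)*X := by positivity
      refine sub_nonneg.1 (key.trans (le_of_eq ?_))
      simp only [hX, hY, hl]; ring
    · have key : 0 ≤ q * ((23159/125000)*Y + (517/2500)*X) := by positivity
      refine sub_nonneg.1 (key.trans (le_of_eq ?_))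
      simp only [hX, hY, hl]; ring
    · have key : 0 ≤ (1144307/1250000)*Y^2 + (279827/156250)*X*Y + (67919/78125)*X^2 := by positivity
      refine sub_nonneg.1 (key.trans (le_of_eq ?_))
      simp only [hX, hY]; ring
  · rw [hl]
    have key : 0 ≤ (1593069697353/195312500)*Y^5 + (811663207511/19531250)*X*Y^4 +
      (4130080473226/48828125)*X^2*Y^3 + (8396015853611/97656250)*X^3*Y^2 +
      (1704854721547/39062500)*X^4*Y + (3458003131/390625)*X^5 := by positivity
    refine sub_nonneg.1 (key.trans (le_of_eq ?_))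
    simp only [hX, hY]; ring

lemma cell9_inf {q : ℝ} (h0 : 6 ≤ q) :
    CellOk 9 (4/5) 1 (3/100) (317/20) (4/125) lam9 q := by
  have hl : lam9 q = 0 := by
    unfold lam9
    rw [max_eq_right (show (1/2) - q ≤ (0 : ℝ) by linarith)]
    rw [max_eq_right (show 1 - q ≤ (0 : ℝ) by linarith)]
    rw [max_eq_right (show (3/2) - q ≤ (0 : ℝ) by linarith)]
    rw [max_eq_right (show 2 - q ≤ (0 : ℝ) by linarith)]
    rw [max_eq_right (show (5/2) - q ≤ (0 : ℝ) by linarith)]
    rw [max_eq_right (show 3 - q ≤ (0 : ℝ) by linarith)]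
    rw [max_eq_right (show (7/2) - q ≤ (0 : ℝ) by linarith)]
    rw [max_eq_right (show 4 - q ≤ (0 : ℝ) by linarith)]
    rw [max_eq_right (show (9/2) - q ≤ (0 : ℝ) by linarith)]
    rw [max_eq_right (show 5 - q ≤ (0 : ℝ) by linarith)]
    rw [max_eq_right (show 6 - q ≤ (0 : ℝ) by linarith)]
    ring
  have hq0 : 0 ≤ q := by linarith
  constructor
  · exact lam9_nonneg q
  · exact Or.inl hl
  · rw [hl]
    refine ⟨(211/500), (231/500), by norm_num, by norm_num, by norm_num, by norm_num, by norm_num, ?_, ?_, by norm_num⟩ <;> linarith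
  · rw [hl]
    rcases le_total q (23/2) with h1 | h1
    · obtain ⟨X, hX⟩ : ∃ X, X = q - 6 := ⟨_, rfl⟩
      obtain ⟨Y, hY⟩ : ∃ Y, Y = (23/2) - q := ⟨_, rfl⟩
      have hX0 : 0 ≤ X := by rw [hX]; linarith
      have hY0 : 0 ≤ Y := by rw [hY]; linarith
      have key : 0 ≤ (314363921/5719140625)*Y^5 + (72554089/183012500)*X*Y^4 +
        (2262922591/2287656250)*X^2*Y^3 + (1318602809/1143828125)*X^3*Y^2 +
        (134794609/207968750)*X^4*Y + (3295494111/22876562500)*X^5 := by positivity
      refine sub_nonneg.1 (key.trans (le_of_eq ?_))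
      simp only [hX, hY]; ring
    obtain ⟨X, hX⟩ : ∃ X, X = q - (23/2) := ⟨_, rfl⟩
    have hX0 : 0 ≤ X := by rw [hX]; linarith
    have key : 0 ≤ (36250435221/50000000) + (330012713/5000000)*X + (157903/1250000)*X^2 + (19729/31250)*X^3 +
      (1781/78125)*X^4 + (388/390625)*X^5 := by positivity
    refine sub_nonneg.1 (key.trans (le_of_eq ?_))
    simp only [hX]; ring

theorem cells9 (q : ℝ) (hq : 0 < q) :
    CellOk 9 (4/5) 1 (3/100) (317/20) (4/125) lam9 q := by
  rcases le_total q (1/2) with h1 | h1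
  · exact cell9_0 hq.le h1
  rcases le_total q 1 with h2 | h2
  · exact cell9_1 h1 h2
  rcases le_total q (3/2) with h3 | h3
  · exact cell9_2 h2 h3
  rcases le_total q 2 with h4 | h4
  · exact cell9_3 h3 h4
  rcases le_total q (5/2) with h5 | h5
  · exact cell9_4 h4 h5
  rcases le_total q 3 with h6 | h6
  · exact cell9_5 h5 h6
  rcases le_total q (7/2) with h7 | h7
  · exact cell9_6 h6 h7
  rcases le_total q 4 with h8 | h8
  · exact cell9_7 h7 h8
  rcases le_total q (9/2) with h9 | h9
  · exact cell9_8 h8 h9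
  rcases le_total q 5 with h10 | h10
  · exact cell9_9 h9 h10
  rcases le_total q (11/2) with h11 | h11
  · exact cell9_10 h10 h11
  rcases le_total q 6 with h12 | h12
  · exact cell9_11 h11 h12
  exact cell9_inf h12

end Vale.Agent.P226
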