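import Vale.Agent.P226.FinCells6
import Vale.Agent.P226.FinCells7
import Vale.Agent.P226.FinCells9

/-!
# P226: no critical configuration with at least seven cells
-/

open MeasureTheory ProbabilityTheory Finset
open scoped RealInnerProductSpace ENNReal BigOperators

namespace Vale.Agent.P226

set_option linter.unusedSectionVars false

variable {E : Type*} [NormedAddCommGroup E] [InnerProductSpace ℝ E] [FiniteDimensional ℝ E]
  [MeasurableSpace E] [BorelSpace E]
variable {ι : Type*} [Fintype ι] [DecidableEq ι]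
variable {z : ι → E}

/-- the coefficients are smaller than one -/
lemma bb_lt_one (hz : Crit z) (i0 : ι) (h3 : 3 ≤ Fintype.card ι) (i : {i // i ≠ i0}) :
    bb z i0 i < 1 := by
  classical
  have hne : Nonempty {i // i ≠ i0} := ⟨i⟩
  have hs := bb_sum hz i0 hne
  have hcard : 1 < Fintype.card {i // i ≠ i0} := by
    rw [Fintype.card_subtype_compl, Fintype.card_subtype_eq]
    omega
  obtain ⟨l, hl⟩ := Fintype.exists_ne_of_one_lt_card hcard i
  rw [← Finset.add_sum_erase Finset.univ _ (Finset.mem_univ i)] at hs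
  have h1 : 0 < ∑ j ∈ Finset.univ.erase i, bb z i0 j := by
    refine Finset.sum_pos (fun j _ => bb_pos hz j) ⟨l, ?_⟩
    simp [hl]
  linarith

/-- for the smallest cell, `1 - b² ≤ |v|²` -/
lemma one_sub_le_vv (hz : Crit z) {i0 : ι} (hmin : ∀ i, ‖z i0‖ ≤ ‖z i‖) (i : {i // i ≠ i0}) :
    1 - bb z i0 i ^ 2 ≤ ‖vv z i0 i‖ ^ 2 := by
  have h0 : z i0 ≠ 0 := hz.ne_zero i.2
  have hp : 0 < ‖z i0‖ := norm_pos_iff.2 h0
  rw [norm_vv_sq h0]
  have h1 : 1 ≤ ‖z (i : ι)‖ ^ 2 / ‖z i0‖ ^ 2 := by
    rw [one_le_div (by positivity)]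
    have := hmin i
    gcongr
  linarith

lemma exists_min [Nonempty ι] (z : ι → E) : ∃ i0, ∀ i, ‖z i0‖ ≤ ‖z i‖ := by
  obtain ⟨i0, -, h⟩ := Finset.exists_min_image Finset.univ (fun i => ‖z i‖) Finset.univ_nonempty
  exact ⟨i0, fun i => h i (Finset.mem_univ i)⟩

lemma card_ne (i0 : ι) : (Fintype.card {i // i ≠ i0} : ℝ) = (Fintype.card ι : ℝ) - 1 := by
  rw [Fintype.card_subtype_compl, Fintype.card_subtype_eq, Nat.cast_sub]
  · norm_num
  · exact Fintype.card_pos_iff.2 ⟨i0⟩

/-- **No critical configuration with at least seven cells.** -/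
theorem no_crit7 (hz : Crit z) (h7 : 7 ≤ Fintype.card ι) : False := by
  have hne0 : Nonempty ι := Fintype.card_pos_iff.1 (by omega)
  obtain ⟨i0, hmin⟩ := exists_min z
  have h3 : 3 ≤ Fintype.card ι := by omega
  have hne : Nonempty {i // i ≠ i0} := by
    have hcard : 0 < Fintype.card {i // i ≠ i0} := by
      rw [Fintype.card_subtype_compl, Fintype.card_subtype_eq]
      omega
    exact Fintype.card_pos_iff.1 hcard
  have hT := hz.T0 i0 h3 hne
  have hF := hz.frame i0 h3
  have hb0 : ∀ i, 0 ≤ bb z i0 i := fun i => (bb_pos hz i).le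
  have hb1 := bb_lt_one hz i0 h3
  have hb := bb_sum hz i0 hne
  have hσ := one_sub_le_vv hz hmin
  have hn := card_ne i0
  rcases Nat.lt_or_ge (Fintype.card ι) 10 with h10 | h10
  · rcases Nat.lt_or_ge (Fintype.card ι) 8 with h8 | h8
    · have hc : Fintype.card ι = 7 := by omega
      rw [hc] at hn
      have h6 : (Fintype.card {i // i ≠ i0} : ℝ) = 6 := by rw [hn]; norm_num
      rw [h6] at hT
      have := fin_main hF (bb z i0) hb0 hb1 hb hσ h6 (N0 := 6) le_rfl (by norm_num)
        (by norm_num) (by norm_num) (by norm_num) (by norm_num) (by norm_num) (by norm_num)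
        (by norm_num) (by norm_num) continuous_lam6 lam6_mono cells6
      linarith
    · have hcc : Fintype.card ι = 8 ∨ Fintype.card ι = 9 := by omega
      have h78 : (7 : ℝ) ≤ Fintype.card {i // i ≠ i0} ∧
          (Fintype.card {i // i ≠ i0} : ℝ) ≤ 8 := by
        rw [hn]
        rcases hcc with h | h <;> rw [h] <;> norm_num
      have := fin_main hF (bb z i0) hb0 hb1 hb hσ rfl (N0 := 7) h78.1 (by norm_num)
        (by norm_num) (by norm_num) (by norm_num) (by
          have h5 : (0 : ℝ) < Fintype.card {i // i ≠ i0} := by linarith [h78.1]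
          have : 1 / 8 ≤ 1 / (Fintype.card {i // i ≠ i0} : ℝ) :=
            one_div_le_one_div_of_le h5 h78.2
          linarith) (by norm_num) (by norm_num)
        (by norm_num) (by norm_num) continuous_lam7 lam7_mono cells7
      linarith
  · have h9 : (9 : ℝ) ≤ Fintype.card {i // i ≠ i0} := by
      rw [hn]
      have : (10 : ℝ) ≤ Fintype.card ι := by exact_mod_cast h10
      linarith
    have := fin_main hF (bb z i0) hb0 hb1 hb hσ rfl (N0 := 9) h9 (by norm_num)
      (by norm_num) (by norm_num) (by norm_num) (by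
        have : 0 ≤ 1 / (Fintype.card {i // i ≠ i0} : ℝ) := by positivity
        linarith) (by norm_num) (by norm_num)
      (by norm_num) (by norm_num) continuous_lam9 lam9_mono cells9
    linarith

end Vale.Agent.P226
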