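import Vale.Agent.P226.Frm

/-!
# P226: the removal inequality as an inequality for `P(u ≤ x)`
-/

open MeasureTheory ProbabilityTheory Finset Filter Topology
open scoped RealInnerProductSpace ENNReal BigOperators

namespace Vale.Agent.P226

set_option linter.unusedSectionVars false

variable {E : Type*} [NormedAddCommGroup E] [InnerProductSpace ℝ E] [FiniteDimensional ℝ E]
  [MeasurableSpace E] [BorelSpace E]

section general
variable {κ : Type*} [Fintype κ]

/-- `V t = P(u ≤ (1+b) t)` -/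
noncomputable def Vf (v : κ → E) (b : κ → ℝ) (t : ℝ) : ℝ := PiG v (fun i => (1 + b i) * t)

/-- `Γ(t,r) = P(u ≤ (1+b) t - (1-b) r)` -/
noncomputable def Gam (v : κ → E) (b : κ → ℝ) (t r : ℝ) : ℝ :=
  PiG v (fun i => (1 + b i) * t - (1 - b i) * r)

/-- `P(u ≤ (1+b) t - 2 r)` -/
noncomputable def P2 (v : κ → E) (b : κ → ℝ) (t r : ℝ) : ℝ :=
  PiG v (fun i => (1 + b i) * t - 2 * r)

lemma Vf_nonneg (v : κ → E) (b : κ → ℝ) (t : ℝ) : 0 ≤ Vf v b t := PiG_nonneg _ _
lemma Vf_le_one (v : κ → E) (b : κ → ℝ) (t : ℝ) : Vf v b t ≤ 1 := PiG_le_one _ _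
lemma Gam_nonneg (v : κ → E) (b : κ → ℝ) (t r : ℝ) : 0 ≤ Gam v b t r := PiG_nonneg _ _
lemma Gam_le_one (v : κ → E) (b : κ → ℝ) (t r : ℝ) : Gam v b t r ≤ 1 := PiG_le_one _ _
lemma P2_nonneg (v : κ → E) (b : κ → ℝ) (t r : ℝ) : 0 ≤ P2 v b t r := PiG_nonneg _ _
lemma P2_le_one (v : κ → E) (b : κ → ℝ) (t r : ℝ) : P2 v b t r ≤ 1 := PiG_le_one _ _

lemma P2_shift (v : κ → E) (b : κ → ℝ) (t r : ℝ) : P2 v b (t + r) r = Gam v b t r := by
  unfold P2 Gam
  congr 1
  ext i
  ring

variable {v : κ → E} (hv : Frame v) (b : κ → ℝ)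
include hv

lemma continuous_Gam : Continuous (fun p : ℝ × ℝ => Gam v b p.1 p.2) := by
  unfold Gam
  exact hv.continuous_PiG.comp (by fun_prop)

lemma continuous_P2 : Continuous (fun p : ℝ × ℝ => P2 v b p.1 p.2) := by
  unfold P2
  exact hv.continuous_PiG.comp (by fun_prop)

lemma continuous_Vf : Continuous (Vf v b) := by
  unfold Vf
  exact hv.continuous_PiG.comp (by fun_prop)

lemma Vf_neg (hb : ∑ i, b i = 1) {t : ℝ} (ht : t < 0) : Vf v b t = 0 := by
  unfold Vf
  apply hv.PiG_eq_zero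
  rw [← Finset.sum_mul, Finset.sum_add_distrib, hb]
  simp only [Finset.sum_const, Finset.card_univ, nsmul_eq_mul, mul_one]
  have : (0 : ℝ) ≤ Fintype.card κ := Nat.cast_nonneg _
  nlinarith

lemma Gam_zero (hb : ∑ i, b i = 1) (hcard : 2 ≤ Fintype.card κ) {t r : ℝ} (ht : t ≤ 0)
    (hr : 0 < r) : Gam v b t r = 0 := by
  unfold Gam
  apply hv.PiG_eq_zero
  rw [Finset.sum_sub_distrib, ← Finset.sum_mul, ← Finset.sum_mul, Finset.sum_add_distrib,
    Finset.sum_sub_distrib, hb]
  simp only [Finset.sum_const, Finset.card_univ, nsmul_eq_mul, mul_one]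
  have : (2 : ℝ) ≤ Fintype.card κ := by exact_mod_cast hcard
  nlinarith

lemma P2_zero (hb : ∑ i, b i = 1) (hcard : 2 ≤ Fintype.card κ) {t r : ℝ} (ht : t < r)
    (hr : 0 < r) : P2 v b t r = 0 := by
  have : P2 v b t r = Gam v b (t - r) r := by
    rw [← P2_shift]; congr 1; ring
  rw [this]
  exact Gam_zero hv b hb hcard (by linarith) hr

end general

lemma phi_mul (s t : ℝ) : phi s * phi t = (2 * Real.pi)⁻¹ * Real.exp (-(s ^ 2 + t ^ 2) / 2) := by
  unfold phi
  have h1 : (Real.sqrt (2 * Real.pi))⁻¹ * (Real.sqrt (2 * Real.pi))⁻¹ = (2 * Real.pi)⁻¹ := by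
    rw [← mul_inv, Real.mul_self_sqrt (by positivity)]
  calc _ = (Real.sqrt (2 * Real.pi))⁻¹ * (Real.sqrt (2 * Real.pi))⁻¹ *
        (Real.exp (-s ^ 2 / 2) * Real.exp (-t ^ 2 / 2)) := by ring
    _ = _ := by
      rw [h1, ← Real.exp_add]; congr 2; ring

lemma integrable_phi : Integrable phi := by
  have := integrable_gaussianPDFReal 0 1
  have h : gaussianPDFReal 0 1 = phi := by ext t; exact pdf_eq_phi t
  rwa [h] at this

lemma integral_phi : ∫ t, phi t = 1 := by
  have := integral_gaussianPDFReal_eq_one 0 (v := 1) one_ne_zero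
  simpa [pdf_eq_phi] using this

lemma integrable_id_phi : Integrable (fun t => t * phi t) := by
  have h : Integrable (fun t : ℝ => t) (gaussianReal 0 1) := IsGaussian.integrable_id
  rw [gaussianReal_of_var_ne_zero _ one_ne_zero] at h
  have h2 := (integrable_withDensity_iff_integrable_smul₀' (μ := (volume : Measure ℝ))
    (f := gaussianPDF 0 1) (by fun_prop)
    (Filter.Eventually.of_forall (fun x => gaussianPDF_lt_top)) (g := fun t : ℝ => t)).1 h
  refine h2.congr (Filter.Eventually.of_forall (fun t => ?_))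
  simp only [toReal_gaussianPDF, pdf_eq_phi, smul_eq_mul]
  ring

lemma integral_gaussian_phi (f : ℝ → ℝ) :
    ∫ t, f t ∂(gaussianReal 0 1) = ∫ t, phi t * f t := by
  rw [integral_gaussianReal_eq_integral_smul one_ne_zero]
  simp_rw [pdf_eq_phi, smul_eq_mul]

/-- domination: `φ(t) ≤ 2π... φ(t/√2)...` in the form needed for Fubini -/
lemma phi_le_of_le {t r : ℝ} (hr : 0 ≤ r) (h : r ≤ t) :
    phi t ≤ Real.exp (-t ^ 2 / 4) * Real.exp (-r ^ 2 / 4) := by
  unfold phi
  have h2 : (Real.sqrt (2 * Real.pi))⁻¹ ≤ 1 := by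
    apply inv_le_one_of_one_le₀
    rw [Real.one_le_sqrt]
    nlinarith [Real.pi_gt_three]
  rw [← Real.exp_add]
  calc _ ≤ 1 * Real.exp (-t ^ 2 / 2) := by gcongr
    _ ≤ _ := by
      rw [one_mul]
      apply Real.exp_le_exp.2
      nlinarith

lemma phi_add_le {t r : ℝ} (ht : 0 ≤ t) (hr : 0 ≤ r) :
    phi (t + r) ≤ Real.exp (-t ^ 2 / 4) * Real.exp (-r ^ 2 / 4) := by
  unfold phi
  have h2 : (Real.sqrt (2 * Real.pi))⁻¹ ≤ 1 := by
    apply inv_le_one_of_one_le₀
    rw [Real.one_le_sqrt]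
    nlinarith [Real.pi_gt_three]
  rw [← Real.exp_add]
  calc _ ≤ 1 * Real.exp (-(t + r) ^ 2 / 2) := by gcongr
    _ ≤ _ := by
      rw [one_mul]
      apply Real.exp_le_exp.2
      nlinarith [mul_nonneg ht hr]

lemma integrable_exp4 : Integrable (fun t : ℝ => Real.exp (-t ^ 2 / 4)) := by
  have := integrable_exp_neg_mul_sq (b := 1 / 4) (by norm_num)
  refine this.congr (Filter.Eventually.of_forall (fun t => ?_))
  simp only
  congr 1; ring

section Fub
variable {κ : Type*} [Fintype κ] {v : κ → E} (hv : Frame v) (b : κ → ℝ)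
include hv

/-- Change of variables `t → t + r`. -/
lemma fub (hb : ∑ i, b i = 1) (hcard : 2 ≤ Fintype.card κ) :
    ∫ t, phi t * ∫ r in Set.Ioi 0, P2 v b t r =
      ∫ t in Set.Ioi 0, ∫ r in Set.Ioi 0, phi (t + r) * Gam v b t r := by
  have hint1 : Integrable (Function.uncurry (fun t r => phi t * P2 v b t r))
      (volume.prod (volume.restrict (Set.Ioi 0))) := by
    have hdom : Integrable (fun p : ℝ × ℝ => Real.exp (-p.1 ^ 2 / 4) * Real.exp (-p.2 ^ 2 / 4))
        (volume.prod (volume.restrict (Set.Ioi 0))) :=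
      integrable_exp4.mul_prod integrable_exp4.restrict
    refine hdom.mono' ?_ ?_
    · refine Continuous.aestronglyMeasurable ?_
      exact (continuous_phi.comp continuous_fst).mul (continuous_P2 hv b)
    · have : ∀ᵐ p : ℝ × ℝ ∂(volume.prod (volume.restrict (Set.Ioi 0))), 0 < p.2 := by
        have h1 : ∀ᵐ r : ℝ ∂(volume.restrict (Set.Ioi (0 : ℝ))), 0 < r :=
          ae_restrict_mem measurableSet_Ioi
        exact Measure.quasiMeasurePreserving_snd.ae h1
      filter_upwards [this] with p hp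
      simp only [Function.uncurry]
      rw [Real.norm_eq_abs, abs_of_nonneg (mul_nonneg (phi_pos _).le (P2_nonneg _ _ _ _))]
      rcases lt_or_ge p.1 p.2 with h | h
      · rw [P2_zero hv b hb hcard h hp, mul_zero]
        positivity
      · calc phi p.1 * P2 v b p.1 p.2 ≤ phi p.1 * 1 :=
            mul_le_mul_of_nonneg_left (PiG_le_one _ _) (phi_pos _).le
          _ ≤ _ := by rw [mul_one]; exact phi_le_of_le hp.le h
  have hint2 : Integrable (Function.uncurry (fun t r => phi (t + r) * Gam v b t r))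
      ((volume.restrict (Set.Ioi 0)).prod (volume.restrict (Set.Ioi 0))) := by
    have hdom : Integrable (fun p : ℝ × ℝ => Real.exp (-p.1 ^ 2 / 4) * Real.exp (-p.2 ^ 2 / 4))
        ((volume.restrict (Set.Ioi 0)).prod (volume.restrict (Set.Ioi 0))) :=
      integrable_exp4.restrict.mul_prod integrable_exp4.restrict
    refine hdom.mono' ?_ ?_
    · refine Continuous.aestronglyMeasurable ?_
      exact (continuous_phi.comp (continuous_fst.add continuous_snd)).mul (continuous_Gam hv b)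
    · have h1 : ∀ᵐ r : ℝ ∂(volume.restrict (Set.Ioi (0 : ℝ))), 0 < r :=
          ae_restrict_mem measurableSet_Ioi
      have h2 : ∀ᵐ p : ℝ × ℝ ∂((volume.restrict (Set.Ioi 0)).prod
          (volume.restrict (Set.Ioi 0))), 0 < p.1 := Measure.quasiMeasurePreserving_fst.ae h1
      have h3 : ∀ᵐ p : ℝ × ℝ ∂((volume.restrict (Set.Ioi 0)).prod
          (volume.restrict (Set.Ioi 0))), 0 < p.2 := Measure.quasiMeasurePreserving_snd.ae h1
      filter_upwards [h2, h3] with p hp1 hp2
      simp only [Function.uncurry]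
      rw [Real.norm_eq_abs, abs_of_nonneg (mul_nonneg (phi_pos _).le (Gam_nonneg _ _ _ _))]
      calc phi (p.1 + p.2) * Gam v b p.1 p.2 ≤ phi (p.1 + p.2) * 1 :=
            mul_le_mul_of_nonneg_left (PiG_le_one _ _) (phi_pos _).le
        _ ≤ _ := by rw [mul_one]; exact phi_add_le hp1.le hp2.le
  have h1 : ∫ t, phi t * ∫ r in Set.Ioi 0, P2 v b t r =
      ∫ t, ∫ r in Set.Ioi 0, phi t * P2 v b t r := by
    congr 1; ext t; rw [integral_const_mul]
  rw [h1, integral_integral_swap hint1, integral_integral_swap hint2]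
  refine setIntegral_congr_fun measurableSet_Ioi (fun r hr => ?_)
  have hr0 : (0 : ℝ) < r := hr
  have h2 : ∫ t, phi t * P2 v b t r = ∫ t, phi (t + r) * P2 v b (t + r) r :=
    (integral_add_right_eq_self (fun t => phi t * P2 v b t r) r).symm
  rw [h2, ← integral_indicator measurableSet_Ioi]
  congr 1
  ext t
  rw [P2_shift]
  by_cases ht : t ∈ Set.Ioi (0 : ℝ)
  · rw [Set.indicator_of_mem ht]
  · rw [Set.indicator_of_notMem ht, Gam_zero hv b hb hcard (by simpa using ht) hr0, mul_zero]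

end Fub

section Main
variable {ι : Type*} [Fintype ι] [DecidableEq ι] {z : ι → E}

lemma mem_cell_rec {i0 : ι} (h0 : z i0 ≠ 0) (t : ℝ) (y : E) :
    t • un (z i0) + pj (un (z i0)) y ∈ cell z i0 ↔
      ∀ i : {i // i ≠ i0}, ⟪vv z i0 i, y⟫ ≤ (1 + bb z i0 i) * t := by
  have hp : 0 < ‖z i0‖ := norm_pos_iff.2 h0
  constructor
  · intro h i
    have h1 := h i
    rw [inner_z_rec h0, inner_z0_rec h0] at h1
    have h2 := le_of_mul_le_mul_left h1 hp
    linarith
  · intro h j
    by_cases hj : j = i0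
    · rw [hj]
    · have h1 := h ⟨j, hj⟩
      have h2 := inner_z_rec h0 ⟨j, hj⟩ t y
      simp only at h2
      rw [h2, inner_z0_rec h0]
      apply mul_le_mul_of_nonneg_left _ hp.le
      linarith

/-- `|z_0| = ∫ t φ(t) V(t) dt`. -/
theorem norm_eq_integral (hz : Crit z) (i0 : ι) (h3 : 3 ≤ Fintype.card ι)
    (hne : Nonempty {i // i ≠ i0}) :
    ‖z i0‖ = ∫ t in Set.Ioi 0, t * phi t * Vf (vv z i0) (bb z i0) t := by
  obtain ⟨j⟩ := hne
  have h0 : z i0 ≠ 0 := hz.ne_zero j.2
  have hp : 0 < ‖z i0‖ := norm_pos_iff.2 h0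
  have hF := hz.frame i0 h3
  set v := vv z i0
  set b := bb z i0
  have h1 : ‖z i0‖ ^ 2 = ∫ x in cell z i0, ⟪z i0, x⟫ ∂(stdGaussian E) := by
    rw [← inner_mom, hz.mom_eq, real_inner_self_eq_norm_sq]
  have h2 : ∫ x in cell z i0, ⟪z i0, x⟫ ∂(stdGaussian E) =
      ‖z i0‖ * ∫ t, phi t * (t * Vf v b t) := by
    have hne' : Nonempty ι := ⟨i0⟩
    rw [← integral_indicator (measurableSet_cell z i0),
      integral_rec' (norm_un h0) ((integrable_inner (z i0)).indicator (measurableSet_cell z i0)),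
      integral_gaussian_phi, ← integral_const_mul]
    congr 1
    ext t
    have h3 : ∀ y, (cell z i0).indicator (fun x => ⟪z i0, x⟫)
        (t • un (z i0) + pj (un (z i0)) y) =
        {y | ∀ i, ⟪v i, y⟫ ≤ (1 + b i) * t}.indicator (fun _ => ‖z i0‖ * t) y := by
      intro y
      by_cases hy : ∀ i, ⟪v i, y⟫ ≤ (1 + b i) * t
      · rw [Set.indicator_of_mem ((mem_cell_rec h0 t y).2 hy), inner_z0_rec h0,
          Set.indicator_of_mem (show y ∈ {y | ∀ i, ⟪v i, y⟫ ≤ (1 + b i) * t} from hy)]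
      · rw [Set.indicator_of_notMem (fun h => hy ((mem_cell_rec h0 t y).1 h)),
          Set.indicator_of_notMem (show y ∉ {y | ∀ i, ⟪v i, y⟫ ≤ (1 + b i) * t} from hy)]
    simp_rw [h3]
    rw [integral_indicator (measurableSet_all v (fun i => (1 + b i) * t)), setIntegral_const,
      smul_eq_mul]
    unfold Vf PiG
    ring
  have h4 : ∫ t, phi t * (t * Vf v b t) = ∫ t in Set.Ioi 0, t * phi t * Vf v b t := by
    rw [← integral_indicator measurableSet_Ioi]
    congr 1
    ext t
    rcases lt_trichotomy t 0 with ht | ht | ht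
    · rw [Set.indicator_of_notMem (by simp [ht.le]), Vf_neg hF b (bb_sum hz i0 ⟨j⟩) ht]
      ring
    · rw [Set.indicator_of_notMem (by simp [ht]), ht]
      ring
    · rw [Set.indicator_of_mem (by simpa using ht)]
      ring
  rw [h4] at h2
  rw [h2] at h1
  have h5 : ‖z i0‖ * ‖z i0‖ = ‖z i0‖ * ∫ t in Set.Ioi 0, t * phi t * Vf v b t := by
    rw [← h1]; ring
  exact mul_left_cancel₀ hp.ne' h5

/-- the margin function -/
noncomputable def mmf (z : ι → E) (i0 : ι) (hne : Nonempty {i // i ≠ i0}) (t : ℝ) (y : E) : ℝ :=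
  t - Finset.univ.sup' Finset.univ_nonempty
    (fun i : {i // i ≠ i0} => ⟪vv z i0 i, y⟫ - bb z i0 i * t)

lemma le_mmf (i0 : ι) (hne : Nonempty {i // i ≠ i0}) (t w : ℝ) (y : E) :
    w ≤ mmf z i0 hne t y ↔ ∀ i : {i // i ≠ i0}, ⟪vv z i0 i, y⟫ ≤ (1 + bb z i0 i) * t - w := by
  unfold mmf
  rw [le_sub_comm, Finset.sup'_le_iff]
  constructor
  · intro h i
    have := h i (Finset.mem_univ _)
    linarith
  · intro h i _
    have := h i
    linarith

lemma continuous_mmf (i0 : ι) (hne : Nonempty {i // i ≠ i0}) (t : ℝ) :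
    Continuous (mmf z i0 hne t) := by
  unfold mmf
  refine continuous_const.sub ?_
  exact Continuous.finset_sup'_apply _ (fun i _ => by fun_prop)

theorem del_eq (hz : Crit z) (i0 : ι) (h3 : 3 ≤ Fintype.card ι)
    (hne : Nonempty {i // i ≠ i0}) :
    del z i0 = 2 * ‖z i0‖ * ∫ t in Set.Ioi 0, ∫ r in Set.Ioi 0,
      phi (t + r) * Gam (vv z i0) (bb z i0) t r := by
  obtain ⟨j⟩ := id hne
  have h0 : z i0 ≠ 0 := hz.ne_zero j.2
  have hp : 0 < ‖z i0‖ := norm_pos_iff.2 h0
  have hF := hz.frame i0 h3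
  set v := vv z i0 with hvd
  set b := bb z i0 with hbd
  have hcard : 2 ≤ Fintype.card {i // i ≠ i0} := by
    rw [Fintype.card_subtype_compl, Fintype.card_subtype_eq]; omega
  have hb := bb_sum hz i0 hne
  have hne' : Nonempty ι := ⟨i0⟩
  have hint : Integrable (fun x => ⟪z i0, x⟫ - Nx z i0 x) (stdGaussian E) := by
    have h1 : Integrable (fun x => Nx z i0 x) (stdGaussian E) := integrable_Mx _
    exact (integrable_inner _).sub h1
  -- pointwise identity
  have h1 : ∀ t y, (cell z i0).indicator (fun x => ⟪z i0, x⟫ - Nx z i0 x)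
      (t • un (z i0) + pj (un (z i0)) y) = ‖z i0‖ * max (mmf z i0 hne t y) 0 := by
    intro t y
    have h2 : ⟪z i0, t • un (z i0) + pj (un (z i0)) y⟫ -
        Nx z i0 (t • un (z i0) + pj (un (z i0)) y) = ‖z i0‖ * mmf z i0 hne t y := by
      rw [inner_z0_rec h0]
      unfold mmf
      rw [mul_sub]
      congr 1
      apply le_antisymm
      · refine Mx_le (fun i => ?_)
        rw [inner_z_rec h0]
        apply mul_le_mul_of_nonneg_left _ hp.le
        exact Finset.le_sup' (fun i : {i // i ≠ i0} => ⟪vv z i0 i, y⟫ - bb z i0 i * t)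
          (Finset.mem_univ i)
      · obtain ⟨i, -, hi⟩ := Finset.exists_mem_eq_sup' Finset.univ_nonempty
          (fun i : {i // i ≠ i0} => ⟪vv z i0 i, y⟫ - bb z i0 i * t)
        rw [hi, ← inner_z_rec h0]
        exact le_Mx (fun i : {i // i ≠ i0} => z i) _ i
    have h4 : (t • un (z i0) + pj (un (z i0)) y ∈ cell z i0) ↔ 0 ≤ mmf z i0 hne t y := by
      rw [mem_cell_rec h0, le_mmf]
      simp
    by_cases hc : 0 ≤ mmf z i0 hne t y
    · rw [Set.indicator_of_mem (h4.2 hc), h2, max_eq_left hc]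
    · rw [Set.indicator_of_notMem (fun h => hc (h4.1 h)), max_eq_right (not_le.1 hc).le, mul_zero]
  have hindic : Integrable ((cell z i0).indicator (fun x => ⟪z i0, x⟫ - Nx z i0 x))
      (stdGaussian E) := hint.indicator (measurableSet_cell z i0)
  have h2 : del z i0 = ∫ t, ∫ y, ‖z i0‖ * max (mmf z i0 hne t y) 0 ∂(stdGaussian E)
      ∂(gaussianReal 0 1) := by
    unfold del
    rw [← integral_indicator (measurableSet_cell z i0), integral_rec' (norm_un h0) hindic]
    simp_rw [h1]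
  -- layer cake
  have h5 : ∀ t, ∫ y, max (mmf z i0 hne t y) 0 ∂(stdGaussian E) =
      2 * ∫ r in Set.Ioi 0, P2 v b t r := by
    intro t
    have hi : Integrable (fun y => max (mmf z i0 hne t y) 0) (stdGaussian E) := by
      have h6 : Integrable (fun y => mmf z i0 hne t y) (stdGaussian E) := by
        have hdom : Integrable (fun y : E => |t| + ∑ i : {i // i ≠ i0},
            (|⟪vv z i0 i, y⟫| + |bb z i0 i * t|)) (stdGaussian E) :=
          (integrable_const _).add (integrable_finsetSum _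
            (fun i _ => ((integrable_inner _).abs).add (integrable_const _)))
        refine hdom.mono' (continuous_mmf i0 hne t).aestronglyMeasurable
          (Filter.Eventually.of_forall (fun y => ?_))
        obtain ⟨i, -, hi⟩ := Finset.exists_mem_eq_sup' Finset.univ_nonempty
          (fun i : {i // i ≠ i0} => ⟪vv z i0 i, y⟫ - bb z i0 i * t)
        unfold mmf
        rw [hi, Real.norm_eq_abs]
        have h7 : |⟪vv z i0 i, y⟫| + |bb z i0 i * t| ≤
            ∑ i : {i // i ≠ i0}, (|⟪vv z i0 i, y⟫| + |bb z i0 i * t|) :=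
          Finset.single_le_sum (f := fun i : {i // i ≠ i0} =>
            |⟪vv z i0 i, y⟫| + |bb z i0 i * t|) (fun _ _ => by positivity) (Finset.mem_univ i)
        have h8 := abs_sub t (⟪vv z i0 i, y⟫ - bb z i0 i * t)
        have h9 := abs_sub (⟪vv z i0 i, y⟫) (bb z i0 i * t)
        linarith
      exact h6.pos_part
    rw [hi.integral_eq_integral_meas_le (Filter.Eventually.of_forall (fun y => le_max_right _ _))]
    have h6 : ∀ w ∈ Set.Ioi (0 : ℝ), (stdGaussian E).real {a | w ≤ max (mmf z i0 hne t a) 0} =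
        PiG v (fun i => (1 + b i) * t - w) := by
      intro w hw
      have hw0 : (0 : ℝ) < w := hw
      unfold PiG
      congr 1
      ext y
      simp only [Set.mem_ofPred_eq]
      rw [le_max_iff, le_mmf]
      constructor
      · rintro (h | h)
        · exact h
        · exact absurd h (not_le.2 hw0)
      · intro h; exact Or.inl h
    rw [setIntegral_congr_fun measurableSet_Ioi h6]
    have h7 := integral_comp_mul_left_Ioi (fun w => PiG v (fun i => (1 + b i) * t - w)) 0
      (show (0 : ℝ) < 2 by norm_num)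
    rw [mul_zero, smul_eq_mul] at h7
    unfold P2
    rw [h7]
    ring
  rw [h2]
  simp_rw [integral_const_mul, h5]
  rw [integral_gaussian_phi]
  have h8 : ∫ t, phi t * (2 * ∫ r in Set.Ioi 0, P2 v b t r) =
      2 * ∫ t, phi t * ∫ r in Set.Ioi 0, P2 v b t r := by
    rw [← integral_const_mul]
    congr 1; ext t; ring
  rw [h8, fub hF b hb hcard]
  ring

/-- **The removal inequality in Gaussian form**: a critical configuration satisfies
`(1 + 1/N) ∫ t φ V < 4 ∫∫ φ(t+r) Γ(t,r)` for every cell. -/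
theorem Crit.T0 (hz : Crit z) (i0 : ι) (h3 : 3 ≤ Fintype.card ι) (hne : Nonempty {i // i ≠ i0}) :
    (1 + 1 / (Fintype.card {i // i ≠ i0} : ℝ)) *
        ∫ t in Set.Ioi 0, t * phi t * Vf (vv z i0) (bb z i0) t <
      4 * ∫ t in Set.Ioi 0, ∫ r in Set.Ioi 0, phi (t + r) * Gam (vv z i0) (bb z i0) t r := by
  obtain ⟨j⟩ := id hne
  have h0 : z i0 ≠ 0 := hz.ne_zero j.2
  have hp : 0 < ‖z i0‖ := norm_pos_iff.2 h0
  have h1 := hz.weak i0
  rw [del_eq hz i0 h3 hne] at h1
  rw [← norm_eq_integral hz i0 h3 hne]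
  have h2 : (1 + 1 / (Fintype.card {i // i ≠ i0} : ℝ)) * ‖z i0‖ ^ 2 =
      ((1 + 1 / (Fintype.card {i // i ≠ i0} : ℝ)) * ‖z i0‖) * ‖z i0‖ := by ring
  rw [h2] at h1
  have h4 : 2 * (2 * ‖z i0‖ * ∫ t in Set.Ioi 0, ∫ r in Set.Ioi 0,
      phi (t + r) * Gam (vv z i0) (bb z i0) t r) = (4 * ∫ t in Set.Ioi 0, ∫ r in Set.Ioi 0,
      phi (t + r) * Gam (vv z i0) (bb z i0) t r) * ‖z i0‖ := by ring
  rw [h4] at h1
  exact lt_of_mul_lt_mul_right h1 hp.le

end Main

end Vale.Agent.P226
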