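import Vale.Agent.P226.Crit

/-!
# P226: the removal inequality for a critical configuration
-/

open MeasureTheory ProbabilityTheory Finset
open scoped RealInnerProductSpace ENNReal BigOperators

namespace Vale.Agent.P226

set_option linter.unusedSectionVars false

variable {E : Type*} [NormedAddCommGroup E] [InnerProductSpace ℝ E] [FiniteDimensional ℝ E]
  [MeasurableSpace E] [BorelSpace E]
variable {ι : Type*} [Fintype ι] [DecidableEq ι]

lemma mom_inter_union {A B : Set E} (hA : MeasurableSet A) (hd : Disjoint A B) :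
    mom (A ∪ B) = mom A + mom B := by
  unfold mom
  rw [Set.union_comm, setIntegral_union hd.symm hA integrable_id'.integrableOn
    integrable_id'.integrableOn, add_comm]

/-- **Removal inequality** (general reassignment).  If the cell `i0` of a critical configuration
is distributed among the other cells according to any labelling `g`, the value drops below `C0`. -/
theorem Crit.removal {z : ι → E} (hz : Crit z) (i0 : ι) (g : E → {i // i ≠ i0}) (hg : IsLab g) :
    ∑ i : {i // i ≠ i0}, (2 * ⟪z i, mom (cell z i0 ∩ g ⁻¹' {i})⟫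
      + ‖mom (cell z i0 ∩ g ⁻¹' {i})‖ ^ 2) < ‖z i0‖ ^ 2 := by
  have : Nonempty ι := ⟨i0⟩
  have hinj := inj_of_inner_neg hz.inner_neg
  -- new labelling
  let h : E → {i // i ≠ i0} := fun x => if hx : am z x = i0 then g x else ⟨am z x, hx⟩
  have hpre : ∀ i : {i // i ≠ i0}, h ⁻¹' {i} =
      (am z ⁻¹' {(i : ι)}) ∪ (am z ⁻¹' {i0} ∩ g ⁻¹' {i}) := by
    intro i
    ext x
    simp only [Set.mem_preimage, Set.mem_singleton_iff, Set.mem_union, Set.mem_inter_iff, h]
    by_cases hx : am z x = i0
    · rw [dif_pos hx]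
      constructor
      · intro h'; exact Or.inr ⟨hx, h'⟩
      · rintro (h' | h')
        · exact absurd (h'.symm.trans hx) i.2
        · exact h'.2
    · rw [dif_neg hx]
      constructor
      · intro h'; exact Or.inl (congrArg Subtype.val h')
      · rintro (h' | h')
        · exact Subtype.ext h'
        · exact absurd h'.1 hx
  have hlab : IsLab h := by
    intro i
    rw [hpre i]
    exact (isLab_am z _).union ((isLab_am z _).inter (hg i))
  have h1 := hz.less i0 h hlab
  have hae := cell_ae_eq_am hinj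
  have hmomi : ∀ i, mom (am z ⁻¹' {i}) = z i := fun i => by
    rw [mom_congr (hae i), hz.mom_eq i]
  have hmom : ∀ i : {i // i ≠ i0}, mom (h ⁻¹' {i}) =
      z i + mom (cell z i0 ∩ g ⁻¹' {i}) := by
    intro i
    rw [hpre i, mom_inter_union (isLab_am z _), hmomi]
    · congr 1
      exact mom_congr ((hae i0).inter Filter.EventuallyEq.rfl)
    · rw [Set.disjoint_left]
      intro x hx hx'
      simp only [Set.mem_preimage, Set.mem_singleton_iff, Set.mem_inter_iff] at hx hx'
      exact i.2 (hx.symm.trans hx'.1)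
  have h2 : Fval h = nsq z - ‖z i0‖ ^ 2 + ∑ i : {i // i ≠ i0},
      (2 * ⟪z i, mom (cell z i0 ∩ g ⁻¹' {i})⟫ + ‖mom (cell z i0 ∩ g ⁻¹' {i})‖ ^ 2) := by
    unfold Fval
    simp_rw [hmom, norm_add_sq_real]
    have h3 : nsq z - ‖z i0‖ ^ 2 = ∑ i : {i // i ≠ i0}, ‖z i‖ ^ 2 := by
      unfold nsq
      rw [← Finset.add_sum_erase Finset.univ _ (Finset.mem_univ i0),
        ← Finset.sum_subtype (Finset.univ.erase i0) (p := fun l => l ≠ i0)
        (f := fun l : ι => ‖z l‖ ^ 2) (by simp)]
      ring
    rw [h3, ← Finset.sum_add_distrib]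
    refine Finset.sum_congr rfl (fun i _ => ?_)
    ring
  have h3 := hz.big
  linarith

/-- the maximum of the other linear functionals -/
noncomputable def Nx (z : ι → E) (i0 : ι) [Nonempty {i // i ≠ i0}] (x : E) : ℝ :=
  Mx (fun i : {i // i ≠ i0} => z i) x

/-- part of cell `i0` where `i` is the second best label -/
def cell2 (z : ι → E) (i0 i : ι) : Set E :=
  cell z i0 ∩ {x | ∀ j, j ≠ i0 → ⟪z j, x⟫ ≤ ⟪z i, x⟫}

/-- the loss caused by the removal of `i0` in the dual functional -/
noncomputable def del (z : ι → E) (i0 : ι) [Nonempty {i // i ≠ i0}] : ℝ :=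
  ∫ x in cell z i0, (⟪z i0, x⟫ - Nx z i0 x) ∂(stdGaussian E)

lemma Crit.inj {z : ι → E} (hz : Crit z) : Function.Injective z := inj_of_inner_neg hz.inner_neg

/-- **Removal inequality, second-best version**:
`s_{i0} + ∑ |∫_{B_i} x|² < 2 δ_{i0}`. -/
theorem Crit.removal2 {z : ι → E} (hz : Crit z) (i0 : ι) [Nonempty {i // i ≠ i0}] :
    ‖z i0‖ ^ 2 + ∑ i : {i // i ≠ i0}, ‖mom (cell2 z i0 i)‖ ^ 2 < 2 * del z i0 := by
  have : Nonempty ι := ⟨i0⟩
  set z' : {i // i ≠ i0} → E := fun i => z i with hz'
  have hinj' : Function.Injective z' := fun i j hij => Subtype.ext (hz.inj hij)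
  have hr := hz.removal i0 (am z') (isLab_am z')
  have hcell2 : ∀ i : {i // i ≠ i0},
      mom (cell z i0 ∩ am z' ⁻¹' {i}) = mom (cell2 z i0 i) := by
    intro i
    apply mom_congr
    unfold cell2
    refine Filter.EventuallyEq.rfl.inter ?_
    refine (cell_ae_eq_am hinj' i).trans ?_
    refine Filter.EventuallyEq.of_eq ?_
    ext x
    simp [cell, hz']
  have hsum : ∑ i : {i // i ≠ i0}, ⟪z' i, mom (cell z i0 ∩ am z' ⁻¹' {i})⟫ =
      ∫ x in cell z i0, Nx z i0 x ∂(stdGaussian E) := by
    have h1 : ∀ i, ⟪z' i, mom (cell z i0 ∩ am z' ⁻¹' {i})⟫ =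
        ∫ x, (cell z i0 ∩ am z' ⁻¹' {i}).indicator (fun x => ⟪z' i, x⟫) x ∂(stdGaussian E) := by
      intro i
      rw [inner_mom, integral_indicator ((measurableSet_cell z i0).inter (isLab_am z' i))]
    simp_rw [h1]
    rw [← integral_finsetSum _ (fun i _ => (integrable_inner (z' i)).indicator
      ((measurableSet_cell z i0).inter (isLab_am z' i))), ← integral_indicator
      (measurableSet_cell z i0)]
    congr 1
    ext x
    by_cases hx : x ∈ cell z i0
    · rw [Set.indicator_of_mem hx]
      have : ∀ i, (cell z i0 ∩ am z' ⁻¹' {i}).indicator (fun x => ⟪z' i, x⟫) x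
          = if am z' x = i then ⟪z' i, x⟫ else 0 := by
        intro i
        by_cases h : am z' x = i
        · rw [if_pos h, Set.indicator_of_mem (Set.mem_inter hx h)]
        · rw [if_neg h, Set.indicator_of_notMem (fun h' => h h'.2)]
      simp_rw [this]
      rw [Finset.sum_ite_eq]
      simp only [Finset.mem_univ, if_true]
      exact inner_am z' x
    · rw [Set.indicator_of_notMem hx]
      refine Finset.sum_eq_zero (fun i _ => ?_)
      rw [Set.indicator_of_notMem (fun h' => hx h'.1)]
  have hdel : del z i0 = ‖z i0‖ ^ 2 - ∫ x in cell z i0, Nx z i0 x ∂(stdGaussian E) := by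
    have h1 : Integrable (fun x => Nx z i0 x) (stdGaussian E) := integrable_Mx _
    unfold del
    rw [integral_sub (integrable_inner _).integrableOn h1.integrableOn]
    congr 1
    rw [← inner_mom, hz.mom_eq, real_inner_self_eq_norm_sq]
  rw [Finset.sum_add_distrib, ← Finset.mul_sum] at hr
  simp_rw [hcell2] at hr hsum
  rw [show (fun i : {i // i ≠ i0} => ⟪z i, mom (cell2 z i0 i)⟫) =
    fun i => ⟪z' i, mom (cell2 z i0 i)⟫ from rfl, hsum] at hr
  linarith

end Vale.Agent.P226
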