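import Vale.Agent.P226.Law
import Vale.Agent.P226.Removal

/-!
# P226: transfer of a critical configuration to a low-dimensional space
-/

open MeasureTheory ProbabilityTheory Finset
open scoped RealInnerProductSpace ENNReal BigOperators

namespace Vale.Agent.P226

set_option linter.unusedSectionVars false

variable {E : Type*} [NormedAddCommGroup E] [InnerProductSpace ℝ E] [FiniteDimensional ℝ E]
  [MeasurableSpace E] [BorelSpace E]
variable {F : Type*} [NormedAddCommGroup F] [InnerProductSpace ℝ F] [FiniteDimensional ℝ F]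
  [MeasurableSpace F] [BorelSpace F]
variable {ι : Type*} [Fintype ι]

/-- the Gaussian measure of a cell -/
noncomputable def pc (z : ι → E) (i : ι) : ℝ := (stdGaussian E).real (cell z i)

lemma pc_nonneg (z : ι → E) (i : ι) : 0 ≤ pc z i := measureReal_nonneg

lemma Crit.sum_pc [DecidableEq ι] [Nonempty ι] {z : ι → E} (hz : Crit z) : ∑ i, pc z i = 1 := by
  have h1 : ∀ i, pc z i = (stdGaussian E).real (am z ⁻¹' {i}) := by
    intro i
    unfold pc
    exact measureReal_congr (cell_ae_eq_am hz.inj i).symm
  simp_rw [h1]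
  rw [← probReal_univ (μ := stdGaussian E)]
  rw [← measureReal_iUnion_fintype]
  · congr 1
    ext x
    simp
  · intro i j hij
    show Disjoint (am z ⁻¹' {i}) (am z ⁻¹' {j})
    rw [Set.disjoint_left]
    intro x hx hx'
    simp only [Set.mem_preimage, Set.mem_singleton_iff] at hx hx'
    exact hij (hx.symm.trans hx')
  · exact fun i => isLab_am z i

open Classical in
lemma pc_eq_integral (u : ι → E) (i : ι) : pc u i =
    ∫ x, (fun v : ι → ℝ => if ∀ j, v j ≤ v i then (1 : ℝ) else 0) (fun j => ⟪u j, x⟫)
      ∂(stdGaussian E) := by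
  have : Nonempty ι := ⟨i⟩
  have : ∀ x : E, (fun v : ι → ℝ => if ∀ j, v j ≤ v i then (1 : ℝ) else 0) (fun j => ⟪u j, x⟫) =
      (cell u i).indicator (fun _ => (1 : ℝ)) x := by
    intro x
    by_cases hx : x ∈ cell u i
    · rw [Set.indicator_of_mem hx]
      exact if_pos hx
    · rw [Set.indicator_of_notMem hx]
      exact if_neg hx
  simp_rw [this]
  rw [integral_indicator (measurableSet_cell u i), setIntegral_const, smul_eq_mul, mul_one]
  rfl

open Classical in
lemma inner_mom_eq_integral (u : ι → E) (i : ι) : ⟪u i, mom (cell u i)⟫ =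
    ∫ x, (fun v : ι → ℝ => if ∀ j, v j ≤ v i then v i else 0) (fun j => ⟪u j, x⟫)
      ∂(stdGaussian E) := by
  have : Nonempty ι := ⟨i⟩
  have : ∀ x : E, (fun v : ι → ℝ => if ∀ j, v j ≤ v i then v i else 0) (fun j => ⟪u j, x⟫) =
      (cell u i).indicator (fun x => ⟪u i, x⟫) x := by
    intro x
    by_cases hx : x ∈ cell u i
    · rw [Set.indicator_of_mem hx]
      exact if_pos hx
    · rw [Set.indicator_of_notMem hx]
      exact if_neg hx
  simp_rw [this]
  rw [integral_indicator (measurableSet_cell u i), inner_mom]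

lemma pc_transfer (z : ι → E) (w : ι → F) (h : ∀ i j, ⟪z i, z j⟫ = ⟪w i, w j⟫) (i : ι) :
    pc z i = pc w i := by
  classical
  have hm : Measurable (fun v : ι → ℝ => if ∀ j, v j ≤ v i then (1 : ℝ) else 0) := by
    refine Measurable.ite ?_ measurable_const measurable_const
    have : {v : ι → ℝ | ∀ j, v j ≤ v i} = ⋂ j, {v : ι → ℝ | v j ≤ v i} := by
      ext v; simp
    rw [this]
    exact MeasurableSet.iInter (fun j => measurableSet_le (by fun_prop) (by fun_prop))
  rw [pc_eq_integral z, pc_eq_integral w]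
  exact integral_ipv_eq z w h _ hm

lemma inner_mom_transfer (z : ι → E) (w : ι → F) (h : ∀ i j, ⟪z i, z j⟫ = ⟪w i, w j⟫) (i : ι) :
    ⟪z i, mom (cell z i)⟫ = ⟪w i, mom (cell w i)⟫ := by
  classical
  have hm : Measurable (fun v : ι → ℝ => if ∀ j, v j ≤ v i then v i else 0) := by
    refine Measurable.ite ?_ (by fun_prop) measurable_const
    have : {v : ι → ℝ | ∀ j, v j ≤ v i} = ⋂ j, {v : ι → ℝ | v j ≤ v i} := by
      ext v; simp
    rw [this]
    exact MeasurableSet.iInter (fun j => measurableSet_le (by fun_prop) (by fun_prop))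
  rw [inner_mom_eq_integral z, inner_mom_eq_integral w]
  exact integral_ipv_eq z w h _ hm

lemma Crit.finrank_span [DecidableEq ι] {z : ι → E} (hz : Crit z) {n : ℕ}
    (hn : Fintype.card ι ≤ n + 1) :
    Module.finrank ℝ (Submodule.span ℝ (Set.range z)) ≤ n := by
  classical
  rcases isEmpty_or_nonempty ι with he | ⟨⟨i0⟩⟩
  · have : Set.range z = ∅ := Set.range_eq_empty z
    rw [this, Submodule.span_empty]
    simp
  · have h1 : Submodule.span ℝ (Set.range z) ≤
        Submodule.span ℝ (((Finset.univ.erase i0).image z : Finset E) : Set E) := by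
      rw [Submodule.span_le]
      rintro _ ⟨i, rfl⟩
      by_cases hi : i = i0
      · subst hi
        have h2 : z i = -∑ j ∈ Finset.univ.erase i, z j := by
          have := hz.sum_zero
          rw [← Finset.add_sum_erase Finset.univ z (Finset.mem_univ i)] at this
          exact eq_neg_of_add_eq_zero_left this
        rw [h2]
        refine Submodule.neg_mem _ (Submodule.sum_mem _ (fun j hj => ?_))
        apply Submodule.subset_span
        exact Finset.mem_coe.2 (Finset.mem_image_of_mem z hj)
      · apply Submodule.subset_span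
        exact Finset.mem_coe.2 (Finset.mem_image_of_mem z (Finset.mem_erase.2 ⟨hi,
          Finset.mem_univ i⟩))
    refine (Submodule.finrank_mono h1).trans ((finrank_span_finset_le_card _).trans ?_)
    refine Finset.card_image_le.trans ?_
    rw [Finset.card_erase_of_mem (Finset.mem_univ i0), Finset.card_univ]
    omega

/-- Transfer of a bound for cones in `ℝⁿ` to the cells of a critical configuration with at most
`n + 1` cells. -/
theorem Crit.transfer [DecidableEq ι] {z : ι → E} (hz : Crit z) {n : ℕ}
    (hn : Fintype.card ι ≤ n + 1) (i : ι) {B : ℝ} (hB0 : 0 ≤ B)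
    (hB : ∀ A : Set (EuclideanSpace ℝ (Fin n)), MeasurableSet A →
      (∀ x ∈ A, ∀ s : ℝ, 0 < s → s • x ∈ A) →
      (stdGaussian (EuclideanSpace ℝ (Fin n))).real A = pc z i → ‖mom A‖ ≤ B) :
    ‖z i‖ ≤ B := by
  have : Nonempty ι := ⟨i⟩
  obtain ⟨w, hw⟩ := exists_gram z (hz.finrank_span hn)
  have h1 := hB (cell w i) (measurableSet_cell w i) (by
    intro x hx s hs j
    rw [real_inner_smul_right, real_inner_smul_right]
    exact mul_le_mul_of_nonneg_left (hx j) hs.le) (pc_transfer z w hw i).symm
  have h2 := inner_mom_transfer z w hw i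
  rw [hz.mom_eq, real_inner_self_eq_norm_sq] at h2
  have h3 : ‖w i‖ = ‖z i‖ := by
    have := hw i i
    rw [real_inner_self_eq_norm_sq, real_inner_self_eq_norm_sq] at this
    exact ((sq_eq_sq₀ (norm_nonneg _) (norm_nonneg _)).1 this).symm
  have h4 : ⟪w i, mom (cell w i)⟫ ≤ ‖w i‖ * ‖mom (cell w i)‖ := real_inner_le_norm _ _
  rw [← h2, h3] at h4
  rcases (norm_nonneg (z i)).eq_or_lt with h5 | h5
  · rw [← h5]; exact hB0
  · have h6 : ‖z i‖ ≤ ‖mom (cell w i)‖ := by nlinarith
    exact h6.trans h1

end Vale.Agent.P226
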