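import Vale.Agent.P226.Cone
import Vale.Agent.P226.Trans
import Vale.Agent.P226.T0

/-!
# P226: the cap bound in dimension three
-/

open MeasureTheory ProbabilityTheory Metric Set
open scoped RealInnerProductSpace ENNReal

namespace Vale.Agent.P226

set_option linter.unusedSectionVars false

variable {E : Type*} [NormedAddCommGroup E] [InnerProductSpace ℝ E] [FiniteDimensional ℝ E]
  [MeasurableSpace E] [BorelSpace E]

/-- radial integrals for the standard Gaussian, up to the normalising constant -/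
lemma radial_int [Nontrivial E] (g : ℝ → ℝ) :
    ∫ x, g ‖x‖ ∂(stdGaussian E) =
      (Module.finrank ℝ E * (volume : Measure E).real (ball 0 1) *
        (2 * Real.pi) ^ (-(Module.finrank ℝ E : ℝ) / 2)) *
      ∫ y in Ioi (0 : ℝ), y ^ (Module.finrank ℝ E - 1) * (Real.exp (-y ^ 2 / 2) * g y) := by
  rw [stdGaussian_eq_withDensity, integral_withDensity_eq_integral_toReal_smul₀
    (by exact (continuous_gdens.measurable.ennreal_ofReal).aemeasurable)
    (Filter.Eventually.of_forall (fun x => ENNReal.ofReal_lt_top))]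
  have h1 : ∀ x : E, (ENNReal.ofReal (gdens x)).toReal • g ‖x‖ =
      (2 * Real.pi) ^ (-(Module.finrank ℝ E : ℝ) / 2) *
      (fun r : ℝ => Real.exp (-r ^ 2 / 2) * g r) ‖x‖ := by
    intro x
    rw [ENNReal.toReal_ofReal (gdens_pos x).le, smul_eq_mul, gdens]
    ring
  simp_rw [h1]
  rw [integral_const_mul, integral_fun_norm_addHaar (volume : Measure E)
    (fun r : ℝ => Real.exp (-r ^ 2 / 2) * g r)]
  simp only [smul_eq_mul, nsmul_eq_mul]
  ring

/-- radial integrals, with the constant determined by normalisation -/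
lemma radial_norm [Nontrivial E] (g : ℝ → ℝ) :
    (∫ x, g ‖x‖ ∂(stdGaussian E)) *
      (∫ y in Ioi (0 : ℝ), y ^ (Module.finrank ℝ E - 1) * Real.exp (-y ^ 2 / 2)) =
      ∫ y in Ioi (0 : ℝ), y ^ (Module.finrank ℝ E - 1) * (Real.exp (-y ^ 2 / 2) * g y) := by
  have h1 := radial_int (E := E) g
  have h2 := radial_int (E := E) (fun _ => 1)
  rw [integral_const, probReal_univ, one_smul] at h2
  simp only [mul_one] at h2
  rw [h1]
  linear_combination -(∫ y in Ioi (0 : ℝ), y ^ (Module.finrank ℝ E - 1) *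
    (Real.exp (-y ^ 2 / 2) * g y)) * h2

lemma int_gauss1 : ∫ y in Ioi (0 : ℝ), y * Real.exp (-y ^ 2 / 2) = 1 := by
  have h := integral_rpow_mul_exp_neg_mul_rpow (p := 2) (q := 1) (b := 1 / 2) (by norm_num)
    (by norm_num) (by norm_num)
  have h2 : ∫ y in Ioi (0 : ℝ), y * Real.exp (-y ^ 2 / 2) =
      ∫ x in Ioi (0 : ℝ), x ^ (1 : ℝ) * Real.exp (-(1 / 2) * x ^ (2 : ℝ)) := by
    refine setIntegral_congr_fun measurableSet_Ioi (fun y hy => ?_)
    simp only [Real.rpow_one]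
    rw [show (2 : ℝ) = ((2 : ℕ) : ℝ) by norm_num, Real.rpow_natCast]
    congr 2
    push_cast
    ring
  rw [h2, h]
  norm_num [Real.Gamma_one, Real.rpow_neg_one]

lemma int_gauss3 : ∫ y in Ioi (0 : ℝ), y ^ 3 * Real.exp (-y ^ 2 / 2) = 2 := by
  have h := integral_rpow_mul_exp_neg_mul_rpow (p := 2) (q := 3) (b := 1 / 2) (by norm_num)
    (by norm_num) (by norm_num)
  have h2 : ∫ y in Ioi (0 : ℝ), y ^ 3 * Real.exp (-y ^ 2 / 2) =
      ∫ x in Ioi (0 : ℝ), x ^ (3 : ℝ) * Real.exp (-(1 / 2) * x ^ (2 : ℝ)) := by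
    refine setIntegral_congr_fun measurableSet_Ioi (fun y hy => ?_)
    rw [show (2 : ℝ) = ((2 : ℕ) : ℝ) by norm_num, show (3 : ℝ) = ((3 : ℕ) : ℝ) by norm_num,
      Real.rpow_natCast, Real.rpow_natCast]
    congr 2
    push_cast
    ring
  rw [h2, h]
  have h3 : ((3 : ℝ) + 1) / 2 = 2 := by norm_num
  rw [h3, Real.Gamma_two]
  rw [show (-(3 + 1) / 2 : ℝ) = -((2 : ℕ) : ℝ) by norm_num, Real.rpow_neg (by norm_num),
    Real.rpow_natCast]
  norm_num

lemma int_gauss2 : ∫ y in Ioi (0 : ℝ), y ^ 2 * Real.exp (-y ^ 2 / 2) =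
    Real.sqrt (2 * Real.pi) / 2 := by
  have h := integral_rpow_mul_exp_neg_mul_rpow (p := 2) (q := 2) (b := 1 / 2) (by norm_num)
    (by norm_num) (by norm_num)
  have h2 : ∫ y in Ioi (0 : ℝ), y ^ 2 * Real.exp (-y ^ 2 / 2) =
      ∫ x in Ioi (0 : ℝ), x ^ (2 : ℝ) * Real.exp (-(1 / 2) * x ^ (2 : ℝ)) := by
    refine setIntegral_congr_fun measurableSet_Ioi (fun y hy => ?_)
    rw [show (2 : ℝ) = ((2 : ℕ) : ℝ) by norm_num, Real.rpow_natCast]
    congr 2
    push_cast
    ring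
  rw [h2, h]
  have h3 : ((2 : ℝ) + 1) / 2 = 1 / 2 + 1 := by norm_num
  rw [h3, Real.Gamma_add_one (by norm_num), Real.Gamma_one_half_eq]
  rw [show (-(2 + 1) / 2 : ℝ) = -(1 + 1/2 : ℝ) by norm_num, Real.rpow_neg (by norm_num),
    Real.rpow_add (by norm_num), Real.rpow_one, ← Real.sqrt_eq_rpow,
    Real.sqrt_div (by norm_num), Real.sqrt_mul (by norm_num)]
  have h4 : 0 < Real.sqrt 2 := by positivity
  rw [Real.sqrt_one]
  field_simp

lemma integral_norm3 (h3 : Module.finrank ℝ E = 3) :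
    ∫ x : E, ‖x‖ ∂(stdGaussian E) = 4 / Real.sqrt (2 * Real.pi) := by
  have : Nontrivial E := Module.nontrivial_of_finrank_pos (R := ℝ) (by omega)
  have h := radial_norm (E := E) (fun r => r)
  rw [h3] at h
  norm_num at h
  have e1 : ∫ y in Ioi (0 : ℝ), y ^ 2 * (Real.exp (-y ^ 2 / 2) * y) = 2 := by
    refine Eq.trans ?_ int_gauss3
    congr 1
    ext y
    ring
  rw [e1, int_gauss2] at h
  have h4 : 0 < Real.sqrt (2 * Real.pi) := by positivity
  field_simp at h ⊢
  linarith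

/-- `P(|w| < c) = 1 - exp (-c²/2)` in dimension two. -/
lemma prob_norm2 (h2 : Module.finrank ℝ E = 2) {c : ℝ} (hc : 0 ≤ c) :
    ∫ x : E, (if ‖x‖ < c then (1 : ℝ) else 0) ∂(stdGaussian E) = 1 - Real.exp (-c ^ 2 / 2) := by
  have : Nontrivial E := Module.nontrivial_of_finrank_pos (R := ℝ) (by omega)
  have h := radial_norm (E := E) (fun r => if r < c then (1 : ℝ) else 0)
  rw [h2] at h
  simp only [Nat.add_one_sub_one, pow_one] at h
  rw [int_gauss1, mul_one] at h
  rw [h]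
  have h3 : ∫ y in Ioi (0 : ℝ), y * (Real.exp (-y ^ 2 / 2) * (if y < c then (1 : ℝ) else 0)) =
      ∫ y in Ioi (0 : ℝ), (Iio c).indicator (fun y => y * Real.exp (-y ^ 2 / 2)) y := by
    congr 1
    ext y
    by_cases hy : y < c
    · rw [if_pos hy, Set.indicator_of_mem (show y ∈ Iio c from hy), mul_one]
    · rw [if_neg hy, Set.indicator_of_notMem (show y ∉ Iio c from hy), mul_zero, mul_zero]
  rw [h3, setIntegral_indicator measurableSet_Iio, Ioi_inter_Iio,
    ← integral_Ioc_eq_integral_Ioo, ← intervalIntegral.integral_of_le hc]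
  have hd : ∀ y ∈ Set.uIcc (0 : ℝ) c,
      HasDerivAt (fun y : ℝ => -Real.exp (-y ^ 2 / 2)) (y * Real.exp (-y ^ 2 / 2)) y := by
    intro y _
    have h1 : HasDerivAt (fun y : ℝ => -y ^ 2 / 2) (-y) y := by
      have := ((hasDerivAt_pow 2 y).neg).div_const 2
      refine this.congr_deriv ?_
      ring
    refine h1.exp.neg.congr_deriv ?_
    ring
  rw [intervalIntegral.integral_eq_sub_of_hasDerivAt hd
    (Continuous.intervalIntegrable (by fun_prop) _ _)]
  norm_num
  ring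

lemma prob_pj3 (h3 : Module.finrank ℝ E = 3) {e : E} (he : ‖e‖ = 1) {c : ℝ} (hc : 0 ≤ c) :
    ∫ y : E, (if ‖pj e y‖ < c then (1 : ℝ) else 0) ∂(stdGaussian E) =
      1 - Real.exp (-c ^ 2 / 2) := by
  obtain ⟨b, hb⟩ := Orthonormal.exists_orthonormalBasis_extension_of_card_eq (𝕜 := ℝ) (E := E)
    (ι := Fin 3) (by rw [h3]; rfl) (v := fun _ => e) (s := {0}) (by
      rw [orthonormal_iff_ite]
      intro i j
      have hij : i = j := Subsingleton.elim _ _
      rw [if_pos hij]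
      simp [he])
  have hb0 : b 0 = e := hb 0 rfl
  have hn : ∀ y : E, ‖pj e y‖ ^ 2 = ⟪b 1, y⟫ ^ 2 + ⟪b 2, y⟫ ^ 2 := by
    intro y
    rw [norm_sq_pj he]
    have h := b.sum_sq_norm_inner_right y
    rw [Fin.sum_univ_three, hb0] at h
    simp only [Real.norm_eq_abs, sq_abs] at h
    linarith
  let w : Fin 2 → E := ![b 1, b 2]
  let u : Fin 2 → EuclideanSpace ℝ (Fin 2) := fun i => EuclideanSpace.basisFun (Fin 2) ℝ i
  have hg : ∀ i j, ⟪w i, w j⟫ = ⟪u i, u j⟫ := by
    intro i j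
    have h1 := orthonormal_iff_ite.1 b.orthonormal
    have h2 := orthonormal_iff_ite.1 (EuclideanSpace.basisFun (Fin 2) ℝ).orthonormal
    rw [h2]
    fin_cases i <;> fin_cases j <;> simp [w, h1]
  have hm : Measurable (fun v : Fin 2 → ℝ =>
      if v 0 ^ 2 + v 1 ^ 2 < c ^ 2 then (1 : ℝ) else 0) := by
    refine Measurable.ite ?_ measurable_const measurable_const
    exact measurableSet_lt (by fun_prop) (by fun_prop)
  have h := integral_ipv_eq w u hg _ hm
  have e1 : ∀ y : E, (if ‖pj e y‖ < c then (1 : ℝ) else 0) =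
      if ⟪w 0, y⟫ ^ 2 + ⟪w 1, y⟫ ^ 2 < c ^ 2 then (1 : ℝ) else 0 := by
    intro y
    refine if_congr ?_ rfl rfl
    show _ ↔ ⟪b 1, y⟫ ^ 2 + ⟪b 2, y⟫ ^ 2 < c ^ 2
    rw [← hn y, sq_lt_sq₀ (norm_nonneg _) hc]
  have e2 : ∀ y : EuclideanSpace ℝ (Fin 2),
      (if ⟪u 0, y⟫ ^ 2 + ⟪u 1, y⟫ ^ 2 < c ^ 2 then (1 : ℝ) else 0) =
      if ‖y‖ < c then (1 : ℝ) else 0 := by
    intro y
    refine if_congr ?_ rfl rfl
    rw [← sq_lt_sq₀ (norm_nonneg _) hc, EuclideanSpace.norm_sq_eq, Fin.sum_univ_two]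
    simp [u, EuclideanSpace.inner_single_left]
  simp_rw [e1]
  rw [h]
  simp_rw [e2]
  exact prob_norm2 (by simp) hc

/-- membership in the cap, in coordinates -/
lemma cap_iff {e : E} (he : ‖e‖ = 1) {s : ℝ} (hs : 0 < s) (hs1 : s < 1) (t : ℝ) (y : E) :
    s * ‖t • e + pj e y‖ < ⟪e, t • e + pj e y⟫ ↔
      0 < t ∧ ‖pj e y‖ < Real.sqrt (1 - s ^ 2) / s * t := by
  have h1 : ⟪e, t • e + pj e y⟫ = t := by
    rw [inner_add_right, inner_pj_self he, real_inner_smul_right, real_inner_self_eq_norm_sq, he]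
    ring
  have h2 : ‖t • e + pj e y‖ ^ 2 = t ^ 2 + ‖pj e y‖ ^ 2 := by
    rw [norm_add_sq_real, real_inner_smul_left, inner_pj_self he, norm_smul, he,
      Real.norm_eq_abs, mul_one, sq_abs]
    ring
  have hk : 0 < 1 - s ^ 2 := by nlinarith
  rw [h1]
  constructor
  · intro h
    have ht : 0 < t := lt_of_le_of_lt (by positivity) h
    refine ⟨ht, ?_⟩
    have h3 : (s * ‖t • e + pj e y‖) ^ 2 < t ^ 2 := by
      exact (sq_lt_sq₀ (by positivity) ht.le).2 h
    rw [mul_pow, h2] at h3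
    rw [div_mul_eq_mul_div, lt_div_iff₀ hs, ← sq_lt_sq₀ (by positivity) (by positivity), mul_pow,
      mul_pow, Real.sq_sqrt hk.le]
    nlinarith
  · rintro ⟨ht, h⟩
    rw [div_mul_eq_mul_div, lt_div_iff₀ hs, ← sq_lt_sq₀ (by positivity) (by positivity), mul_pow,
      mul_pow, Real.sq_sqrt hk.le] at h
    rw [← sq_lt_sq₀ (by positivity) ht.le, mul_pow, h2]
    nlinarith

lemma cap_int (h3 : Module.finrank ℝ E = 3) {e : E} (he : ‖e‖ = 1) {s : ℝ} (hs : 0 < s)
    (hs1 : s < 1) (q : ℝ → ℝ) (hqi : Integrable q (gaussianReal 0 1)) :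
    ∫ x, (if s * ‖x‖ < ⟪e, x⟫ then q ⟪e, x⟫ else 0) ∂(stdGaussian E) =
      ∫ t in Ioi (0 : ℝ), phi t * (q t * (1 - Real.exp (-((1 - s ^ 2) / s ^ 2 * t ^ 2) / 2))) := by
  have hk : 0 < 1 - s ^ 2 := by nlinarith
  have hms : MeasurableSet {x : E | s * ‖x‖ < ⟪e, x⟫} :=
    measurableSet_lt (by fun_prop) (by fun_prop)
  have hqe : Integrable (fun x : E => q ⟪e, x⟫) (stdGaussian E) := by
    have h := law_inner (E := E) e
    rw [he] at h
    have hh : Integrable q ((stdGaussian E).map (fun x => ⟪e, x⟫)) := by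
      rw [h]
      simpa using hqi
    exact hh.comp_measurable (by fun_prop)
  have hint : Integrable (fun x : E => if s * ‖x‖ < ⟪e, x⟫ then q ⟪e, x⟫ else 0)
      (stdGaussian E) := by
    have := hqe.indicator hms
    refine this.congr (Filter.Eventually.of_forall (fun x => ?_))
    simp only [Set.indicator, Set.mem_ofPred_eq]
  rw [integral_rec' he hint, integral_gaussian_phi, ← integral_indicator measurableSet_Ioi]
  congr 1
  ext t
  have h1 : ∀ y : E, ⟪e, t • e + pj e y⟫ = t := by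
    intro y
    rw [inner_add_right, inner_pj_self he, real_inner_smul_right, real_inner_self_eq_norm_sq, he]
    ring
  by_cases ht : 0 < t
  · rw [Set.indicator_of_mem (show t ∈ Ioi (0 : ℝ) from ht)]
    congr 1
    have h2 : ∀ y : E, (if s * ‖t • e + pj e y‖ < ⟪e, t • e + pj e y⟫ then
        q ⟪e, t • e + pj e y⟫ else 0) =
        q t * (if ‖pj e y‖ < Real.sqrt (1 - s ^ 2) / s * t then (1 : ℝ) else 0) := by
      intro y
      rw [h1 y]
      have h4 := cap_iff he hs hs1 t y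
      rw [h1 y] at h4
      by_cases h5 : s * ‖t • e + pj e y‖ < t
      · rw [if_pos h5, if_pos (h4.1 h5).2, mul_one]
      · rw [if_neg h5, if_neg (fun h6 => h5 (h4.2 ⟨ht, h6⟩)), mul_zero]
    simp_rw [h2]
    rw [integral_const_mul, prob_pj3 h3 he (by positivity)]
    congr 3
    rw [mul_pow, div_pow, Real.sq_sqrt hk.le]
  · rw [Set.indicator_of_notMem (show t ∉ Ioi (0 : ℝ) from ht)]
    have h2 : ∀ y : E, (if s * ‖t • e + pj e y‖ < ⟪e, t • e + pj e y⟫ then
        q ⟪e, t • e + pj e y⟫ else 0) = 0 := by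
      intro y
      rw [h1 y]
      refine if_neg (fun h5 => ht ?_)
      exact lt_of_le_of_lt (by positivity) h5
    simp_rw [h2]
    simp

lemma int_t_exp {b : ℝ} (hb : 0 < b) :
    ∫ y in Ioi (0 : ℝ), y * Real.exp (-(b * y ^ 2)) = 1 / (2 * b) := by
  have h := integral_rpow_mul_exp_neg_mul_rpow (p := 2) (q := 1) (b := b) (by norm_num)
    (by norm_num) hb
  have h2 : ∫ y in Ioi (0 : ℝ), y * Real.exp (-(b * y ^ 2)) =
      ∫ x in Ioi (0 : ℝ), x ^ (1 : ℝ) * Real.exp (-b * x ^ (2 : ℝ)) := by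
    refine setIntegral_congr_fun measurableSet_Ioi (fun y hy => ?_)
    simp only [Real.rpow_one]
    rw [show (2 : ℝ) = ((2 : ℕ) : ℝ) by norm_num, Real.rpow_natCast]
    congr 2
    ring
  rw [h2, h]
  norm_num [Real.Gamma_one, Real.rpow_neg_one]

lemma phi_one_sub {s : ℝ} (hs : 0 < s) (t : ℝ) :
    phi t * (1 - Real.exp (-((1 - s ^ 2) / s ^ 2 * t ^ 2) / 2)) =
      (Real.sqrt (2 * Real.pi))⁻¹ *
        (Real.exp (-(1 / 2) * t ^ 2) - Real.exp (-(1 / (2 * s ^ 2)) * t ^ 2)) := by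
  unfold phi
  rw [mul_assoc, mul_sub, mul_one, ← Real.exp_add]
  congr 3
  · ring
  · field_simp
    ring

lemma cap_prob (h3 : Module.finrank ℝ E = 3) {e : E} (he : ‖e‖ = 1) {s : ℝ} (hs : 0 < s)
    (hs1 : s < 1) :
    ∫ x, (if s * ‖x‖ < ⟪e, x⟫ then (1 : ℝ) else 0) ∂(stdGaussian E) = (1 - s) / 2 := by
  have h := cap_int h3 he hs hs1 (fun _ => 1) (integrable_const _)
  simp only [one_mul] at h
  rw [h]
  simp_rw [phi_one_sub hs]
  rw [integral_const_mul, integral_sub, integral_gaussian_Ioi, integral_gaussian_Ioi]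
  · have e1 : Real.pi / (1 / (2 * s ^ 2)) = 2 * Real.pi * s ^ 2 := by
      field_simp
    have e2 : Real.pi / (1 / 2) = 2 * Real.pi := by ring
    have e3 : Real.sqrt (2 * Real.pi * s ^ 2) = Real.sqrt (2 * Real.pi) * s := by
      rw [Real.sqrt_mul (by positivity), Real.sqrt_sq hs.le]
    rw [e1, e2, e3]
    have h4 : 0 < Real.sqrt (2 * Real.pi) := by positivity
    field_simp
  · exact (integrable_exp_neg_mul_sq (by norm_num)).integrableOn
  · exact (integrable_exp_neg_mul_sq (by positivity)).integrableOn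

lemma cap_mom (h3 : Module.finrank ℝ E = 3) {e : E} (he : ‖e‖ = 1) {s : ℝ} (hs : 0 < s)
    (hs1 : s < 1) :
    ∫ x, (if s * ‖x‖ < ⟪e, x⟫ then ⟪e, x⟫ else 0) ∂(stdGaussian E) =
      (Real.sqrt (2 * Real.pi))⁻¹ * (1 - s ^ 2) := by
  have h := cap_int h3 he hs hs1 (fun t => t) IsGaussian.integrable_id
  rw [h]
  have h1 : ∀ t : ℝ, phi t * (t * (1 - Real.exp (-((1 - s ^ 2) / s ^ 2 * t ^ 2) / 2))) =
      (Real.sqrt (2 * Real.pi))⁻¹ *
        (t * Real.exp (-((1 / 2) * t ^ 2)) - t * Real.exp (-((1 / (2 * s ^ 2)) * t ^ 2))) := by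
    intro t
    have := phi_one_sub hs t
    calc _ = t * (phi t * (1 - Real.exp (-((1 - s ^ 2) / s ^ 2 * t ^ 2) / 2))) := by ring
      _ = _ := by
        rw [this, neg_mul, neg_mul]
        ring
  simp_rw [h1]
  rw [integral_const_mul, integral_sub, int_t_exp (by norm_num), int_t_exp (by positivity)]
  · field_simp
  · have := (integrable_mul_exp_neg_mul_sq (b := 1 / 2) (by norm_num)).integrableOn
      (s := Ioi (0 : ℝ))
    simp only [neg_mul] at this
    exact this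
  · have := (integrable_mul_exp_neg_mul_sq (b := 1 / (2 * s ^ 2)) (by positivity)).integrableOn
      (s := Ioi (0 : ℝ))
    simp only [neg_mul] at this
    exact this

lemma cap_le (h3 : Module.finrank ℝ E = 3) {A : Set E} (hA : MeasurableSet A)
    (hc : ∀ x ∈ A, ∀ s : ℝ, 0 < s → s • x ∈ A) {e : E} (he : ‖e‖ = 1) {s : ℝ} (hs : 0 < s)
    (hs1 : s < 1) :
    ⟪e, mom A⟫ ≤ (Real.sqrt (2 * Real.pi))⁻¹ *
      (4 * s * (stdGaussian E).real A + (1 - s) ^ 2) := by
  have : Nontrivial E := Module.nontrivial_of_finrank_pos (R := ℝ) (by omega)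
  have hms : MeasurableSet {x : E | s * ‖x‖ < ⟪e, x⟫} :=
    measurableSet_lt (by fun_prop) (by fun_prop)
  have hcc : ∀ x ∈ {x : E | s * ‖x‖ < ⟪e, x⟫}, ∀ r : ℝ, 0 < r →
      r • x ∈ {x : E | s * ‖x‖ < ⟪e, x⟫} := by
    intro x hx r hr
    simp only [Set.mem_ofPred_eq] at hx ⊢
    rw [norm_smul, Real.norm_eq_abs, abs_of_pos hr, real_inner_smul_right]
    nlinarith
  have h1 := cone_integral hA hc (fun r => r)
  have h2 := cone_integral hms hcc (fun r => r)
  have hp := cap_prob h3 he hs hs1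
  have hm := cap_mom h3 he hs hs1
  rw [integral_norm3 h3] at h1 h2
  have hp' : (stdGaussian E).real {x : E | s * ‖x‖ < ⟪e, x⟫} = (1 - s) / 2 := by
    rw [← hp]
    have : ∀ x : E, (if s * ‖x‖ < ⟪e, x⟫ then (1 : ℝ) else 0) =
        ({x : E | s * ‖x‖ < ⟪e, x⟫}).indicator (fun _ => (1 : ℝ)) x := by
      intro x
      simp only [Set.indicator, Set.mem_ofPred_eq]
    simp_rw [this]
    rw [integral_indicator hms, setIntegral_const, smul_eq_mul, mul_one]
  have hm' : ∫ x in {x : E | s * ‖x‖ < ⟪e, x⟫}, ⟪e, x⟫ ∂(stdGaussian E) =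
      (Real.sqrt (2 * Real.pi))⁻¹ * (1 - s ^ 2) := by
    rw [← hm, ← integral_indicator hms]
    rfl
  rw [hp'] at h2
  have hi1 := (integrable_inner (E := E) e)
  have hi2 := (integrable_norm' (E := E)).const_mul s
  have hi := hi1.sub hi2
  have h4 : ∫ x in A, (⟪e, x⟫ - s * ‖x‖) ∂(stdGaussian E) ≤
      ∫ x in {x : E | s * ‖x‖ < ⟪e, x⟫}, (⟪e, x⟫ - s * ‖x‖) ∂(stdGaussian E) := by
    rw [← integral_indicator hA, ← integral_indicator hms]
    refine integral_mono (hi.indicator hA) (hi.indicator hms) (fun x => ?_)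
    by_cases hx : x ∈ {x : E | s * ‖x‖ < ⟪e, x⟫}
    · rw [Set.indicator_of_mem hx]
      simp only [Set.mem_ofPred_eq] at hx
      by_cases hxA : x ∈ A
      · rw [Set.indicator_of_mem hxA]
      · rw [Set.indicator_of_notMem hxA]
        linarith
    · rw [Set.indicator_of_notMem hx]
      simp only [Set.mem_ofPred_eq, not_lt] at hx
      by_cases hxA : x ∈ A
      · rw [Set.indicator_of_mem hxA]; linarith
      · rw [Set.indicator_of_notMem hxA]
  have h5 : ∀ B : Set E, ∫ x in B, (⟪e, x⟫ - s * ‖x‖) ∂(stdGaussian E) =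
      ∫ x in B, ⟪e, x⟫ ∂(stdGaussian E) - s * ∫ x in B, ‖x‖ ∂(stdGaussian E) := by
    intro B
    rw [integral_sub hi1.integrableOn hi2.integrableOn, integral_const_mul]
  rw [h5, h5, h1, h2, hm', ← inner_mom] at h4
  have h6 : 4 / Real.sqrt (2 * Real.pi) = 4 * (Real.sqrt (2 * Real.pi))⁻¹ := by ring
  rw [h6] at h4
  nlinarith [h4]

theorem cap_bound' (h3 : Module.finrank ℝ E = 3) {A : Set E} (hA : MeasurableSet A)
    (hc : ∀ x ∈ A, ∀ s : ℝ, 0 < s → s • x ∈ A) {e : E} (he : ‖e‖ = 1)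
    (hp : (stdGaussian E).real A ≤ 1 / 2) :
    ⟪e, mom A⟫ ≤ 4 * (Real.sqrt (2 * Real.pi))⁻¹ *
      ((stdGaussian E).real A * (1 - (stdGaussian E).real A)) := by
  have h := le_on_closure (f := fun _ : ℝ => ⟪e, mom A⟫)
    (g := fun s : ℝ => (Real.sqrt (2 * Real.pi))⁻¹ *
      (4 * s * (stdGaussian E).real A + (1 - s) ^ 2)) (s := Ioo (0 : ℝ) 1)
    (fun s hs => cap_le h3 hA hc he hs.1 hs.2) continuousOn_const (by fun_prop)
    (x := 1 - 2 * (stdGaussian E).real A) (by
      rw [closure_Ioo zero_ne_one]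
      have h0 : 0 ≤ (stdGaussian E).real A := measureReal_nonneg
      exact ⟨by linarith, by linarith⟩)
  refine h.trans (le_of_eq ?_)
  ring

/-- **Cap bound in dimension three.** -/
theorem cap_bound (h3 : Module.finrank ℝ E = 3) {A : Set E} (hA : MeasurableSet A)
    (hc : ∀ x ∈ A, ∀ s : ℝ, 0 < s → s • x ∈ A) :
    ‖mom A‖ ≤ 4 * (Real.sqrt (2 * Real.pi))⁻¹ *
      ((stdGaussian E).real A * (1 - (stdGaussian E).real A)) := by
  have hmain : ∀ B : Set E, MeasurableSet B → (∀ x ∈ B, ∀ s : ℝ, 0 < s → s • x ∈ B) →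
      (stdGaussian E).real B ≤ 1 / 2 → ‖mom B‖ ≤ 4 * (Real.sqrt (2 * Real.pi))⁻¹ *
      ((stdGaussian E).real B * (1 - (stdGaussian E).real B)) := by
    intro B hB hcB hpB
    by_cases h0 : mom B = 0
    · rw [h0, norm_zero]
      have h0 : 0 ≤ (stdGaussian E).real B := measureReal_nonneg
      have h1 : 0 ≤ 1 - (stdGaussian E).real B := by linarith
      positivity
    · have hn : 0 < ‖mom B‖ := norm_pos_iff.2 h0
      have := cap_bound' h3 hB hcB (e := (‖mom B‖)⁻¹ • mom B) (by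
        rw [norm_smul, norm_inv, norm_norm, inv_mul_cancel₀ hn.ne']) hpB
      rw [real_inner_smul_left, real_inner_self_eq_norm_sq] at this
      refine le_trans (le_of_eq ?_) this
      field_simp
  by_cases hp : (stdGaussian E).real A ≤ 1 / 2
  · exact hmain A hA hc hp
  · have hcompl : (stdGaussian E).real Aᶜ = 1 - (stdGaussian E).real A := by
      rw [measureReal_compl hA, probReal_univ]
    have h1 := hmain Aᶜ hA.compl (by
      intro x hx s hs hxs
      apply hx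
      have := hc _ hxs s⁻¹ (inv_pos.2 hs)
      rwa [smul_smul, inv_mul_cancel₀ hs.ne', one_smul] at this) (by rw [hcompl]; linarith)
    have h2 : mom Aᶜ = - mom A := by
      have := mom_union (disjoint_compl_right (a := A)) hA.compl
      rw [union_compl_self, mom_univ] at this
      exact (neg_eq_of_add_eq_zero_right this.symm).symm
    rw [h2, norm_neg, hcompl] at h1
    refine h1.trans (le_of_eq ?_)
    ring

/-- **Cap bound for a critical configuration with four cells.** -/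
theorem Crit.cap3 {ι : Type*} [Fintype ι] [DecidableEq ι] {z : ι → E} (hz : Crit z)
    (h4 : Fintype.card ι = 4) (i : ι) :
    ‖z i‖ ≤ 4 * (Real.sqrt (2 * Real.pi))⁻¹ * (pc z i * (1 - pc z i)) := by
  have hp0 := pc_nonneg z i
  have hp1 : pc z i ≤ 1 := measureReal_le_one
  have hp2 : 0 ≤ 1 - pc z i := by linarith
  refine hz.transfer (n := 3) (by omega) i (by positivity) ?_
  intro A hA hc hp
  rw [← hp]
  exact cap_bound (by simp) hA hc

end Vale.Agent.P226
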