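import Vale.Agent.P226.Cap5

/-!
# P226: the cap bound in dimension four
-/

open MeasureTheory ProbabilityTheory Metric Set
open scoped RealInnerProductSpace ENNReal

namespace Vale.Agent.P226

set_option linter.unusedSectionVars false

variable {E : Type*} [NormedAddCommGroup E] [InnerProductSpace ℝ E] [FiniteDimensional ℝ E]
  [MeasurableSpace E] [BorelSpace E]

lemma integral_norm4 (h4 : Module.finrank ℝ E = 4) :
    ∫ x : E, ‖x‖ ∂(stdGaussian E) = 3 / 2 * Real.pi * (Real.sqrt (2 * Real.pi))⁻¹ := by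
  have : Nontrivial E := Module.nontrivial_of_finrank_pos (R := ℝ) (by omega)
  have h := radial_norm (E := E) (fun r => r)
  rw [h4] at h
  norm_num at h
  have e1 : ∫ y in Ioi (0 : ℝ), y ^ 3 * (Real.exp (-y ^ 2 / 2) * y) =
      3 / 2 * Real.sqrt (2 * Real.pi) := by
    have e := int_pow4 (b := 1 / 2) (by norm_num)
    rw [show Real.pi / (1 / 2) = 2 * Real.pi by ring] at e
    have e3 : 3 / 2 * Real.sqrt (2 * Real.pi) = 3 * Real.sqrt (2 * Real.pi) /
        (8 * (1 / 2) ^ 2) := by ring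
    rw [e3, ← e]
    congr 1
    ext y
    rw [show -(1 / 2 * y ^ 2) = -y ^ 2 / 2 by ring]
    ring
  rw [e1, int_gauss3] at h
  have h5 : 0 < Real.sqrt (2 * Real.pi) := by positivity
  have h6 : Real.sqrt (2 * Real.pi) ^ 2 = 2 * Real.pi := Real.sq_sqrt (by positivity)
  field_simp at h ⊢
  nlinarith

/-- radial distribution function in dimension three -/
lemma Rad_three {c : ℝ} (hc : 0 ≤ c) :
    Rad 3 c = 2 * (Real.sqrt (2 * Real.pi))⁻¹ * ∫ y in (0 : ℝ)..c, y ^ 2 * Real.exp (-y ^ 2 / 2) := by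
  have h := radial_norm (E := EuclideanSpace ℝ (Fin 3)) (fun r => if r < c then (1 : ℝ) else 0)
  have hf : Module.finrank ℝ (EuclideanSpace ℝ (Fin 3)) = 3 := by simp
  rw [hf] at h
  simp only [Nat.add_one_sub_one] at h
  rw [int_gauss2] at h
  have h3 : ∫ y in Ioi (0 : ℝ), y ^ 2 * (Real.exp (-y ^ 2 / 2) * (if y < c then (1 : ℝ) else 0))
      = ∫ y in Ioi (0 : ℝ), (Iio c).indicator (fun y => y ^ 2 * Real.exp (-y ^ 2 / 2)) y := by
    congr 1
    ext y
    by_cases hy : y < c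
    · rw [if_pos hy, Set.indicator_of_mem (show y ∈ Iio c from hy), mul_one]
    · rw [if_neg hy, Set.indicator_of_notMem (show y ∉ Iio c from hy), mul_zero, mul_zero]
  rw [h3, setIntegral_indicator measurableSet_Iio, Ioi_inter_Iio,
    ← integral_Ioc_eq_integral_Ioo, ← intervalIntegral.integral_of_le hc] at h
  unfold Rad
  have h5 : 0 < Real.sqrt (2 * Real.pi) := by positivity
  rw [← h]
  field_simp

lemma Rad_three_scale {k t : ℝ} (hk : 0 ≤ k) (ht : 0 < t) :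
    phi t * Rad 3 (k * t) = Real.pi⁻¹ *
      ∫ u in (0 : ℝ)..k, t ^ 3 * (u ^ 2 * Real.exp (-((1 + u ^ 2) / 2 * t ^ 2))) := by
  rw [Rad_three (by positivity)]
  have h1 : ∫ y in (0 : ℝ)..(k * t), y ^ 2 * Real.exp (-y ^ 2 / 2) =
      t * ∫ u in (0 : ℝ)..k, (u * t) ^ 2 * Real.exp (-(u * t) ^ 2 / 2) := by
    have := intervalIntegral.mul_integral_comp_mul_right (a := 0) (b := k) (c := t)
      (f := fun y => y ^ 2 * Real.exp (-y ^ 2 / 2))
    rw [zero_mul] at this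
    exact this.symm
  rw [h1]
  unfold phi
  have h2 : ∀ A : ℝ, (Real.sqrt (2 * Real.pi))⁻¹ * Real.exp (-t ^ 2 / 2) *
      (2 * (Real.sqrt (2 * Real.pi))⁻¹ * A) = Real.pi⁻¹ * (Real.exp (-t ^ 2 / 2) * A) := by
    intro A
    have h5 : (Real.sqrt (2 * Real.pi))⁻¹ ^ 2 = (2 * Real.pi)⁻¹ := by
      rw [inv_pow, Real.sq_sqrt (by positivity)]
    calc _ = (Real.sqrt (2 * Real.pi))⁻¹ ^ 2 * (2 * (Real.exp (-t ^ 2 / 2) * A)) := by ring
      _ = _ := by
        rw [h5]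
        field_simp
  rw [h2, ← intervalIntegral.integral_const_mul, ← intervalIntegral.integral_const_mul]
  congr 1
  refine intervalIntegral.integral_congr (fun u _ => ?_)
  have : Real.exp (-((1 + u ^ 2) / 2 * t ^ 2)) =
      Real.exp (-t ^ 2 / 2) * Real.exp (-(u * t) ^ 2 / 2) := by
    rw [← Real.exp_add]; congr 1; ring
  rw [this]
  ring

lemma swap4 (j : ℕ) {k : ℝ} (hk : 0 ≤ k) :
    ∫ t in Ioi (0 : ℝ), ∫ u in (0 : ℝ)..k, t ^ j * (u ^ 2 * Real.exp (-((1 + u ^ 2) / 2 * t ^ 2))) =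
      ∫ u in (0 : ℝ)..k, u ^ 2 * ∫ t in Ioi (0 : ℝ), t ^ j * Real.exp (-((1 + u ^ 2) / 2 * t ^ 2)) := by
  have hint : Integrable (Function.uncurry (fun t u : ℝ =>
      t ^ j * (u ^ 2 * Real.exp (-((1 + u ^ 2) / 2 * t ^ 2)))))
      ((volume.restrict (Ioi (0 : ℝ))).prod (volume.restrict (Ioc (0 : ℝ) k))) := by
    have hdom : Integrable (fun p : ℝ × ℝ => (p.1 ^ j * Real.exp (-(1 / 2 * p.1 ^ 2))) * k ^ 2)
        ((volume.restrict (Ioi (0 : ℝ))).prod (volume.restrict (Ioc (0 : ℝ) k))) :=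
      (int_pow_exp_integrable j (b := 1 / 2) (by norm_num)).mul_prod
        (integrable_const (μ := volume.restrict (Ioc (0 : ℝ) k)) (k ^ 2))
    refine hdom.mono' ?_ ?_
    · exact (by fun_prop : Continuous (fun p : ℝ × ℝ =>
        p.1 ^ j * (p.2 ^ 2 * Real.exp (-((1 + p.2 ^ 2) / 2 * p.1 ^ 2))))).aestronglyMeasurable
    · have h1 : ∀ᵐ t : ℝ ∂(volume.restrict (Ioi (0 : ℝ))), 0 < t :=
          ae_restrict_mem measurableSet_Ioi
      have h2 : ∀ᵐ p : ℝ × ℝ ∂((volume.restrict (Ioi (0 : ℝ))).prod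
          (volume.restrict (Ioc (0 : ℝ) k))), 0 < p.1 := Measure.quasiMeasurePreserving_fst.ae h1
      have h3 : ∀ᵐ u : ℝ ∂(volume.restrict (Ioc (0 : ℝ) k)), u ∈ Ioc (0 : ℝ) k :=
          ae_restrict_mem measurableSet_Ioc
      have h4 : ∀ᵐ p : ℝ × ℝ ∂((volume.restrict (Ioi (0 : ℝ))).prod
          (volume.restrict (Ioc (0 : ℝ) k))), p.2 ∈ Ioc (0 : ℝ) k :=
          Measure.quasiMeasurePreserving_snd.ae h3
      filter_upwards [h2, h4] with p hp1 hp2
      simp only [Function.uncurry]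
      have hp20 : 0 < p.2 := hp2.1
      rw [Real.norm_eq_abs, abs_of_nonneg (by positivity)]
      have e1 : p.2 ^ 2 ≤ k ^ 2 := by
        have := hp2.2
        gcongr
      have e2 : Real.exp (-((1 + p.2 ^ 2) / 2 * p.1 ^ 2)) ≤ Real.exp (-(1 / 2 * p.1 ^ 2)) := by
        apply Real.exp_le_exp.2
        nlinarith [mul_nonneg (sq_nonneg p.2) (sq_nonneg p.1)]
      calc p.1 ^ j * (p.2 ^ 2 * Real.exp (-((1 + p.2 ^ 2) / 2 * p.1 ^ 2))) ≤
          p.1 ^ j * (k ^ 2 * Real.exp (-(1 / 2 * p.1 ^ 2))) := by gcongr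
        _ = _ := by ring
  simp_rw [intervalIntegral.integral_of_le hk]
  rw [integral_integral_swap hint]
  congr 1
  ext u
  rw [← integral_const_mul]
  congr 1
  ext t
  ring

lemma int_u1 {k : ℝ} (_hk : 0 ≤ k) :
    ∫ u in (0 : ℝ)..k, u ^ 2 * ∫ t in Ioi (0 : ℝ), t ^ 3 * Real.exp (-((1 + u ^ 2) / 2 * t ^ 2)) =
      Real.arctan k - k / (1 + k ^ 2) := by
  have h1 : ∀ u : ℝ, ∫ t in Ioi (0 : ℝ), t ^ 3 * Real.exp (-((1 + u ^ 2) / 2 * t ^ 2)) =
      2 / (1 + u ^ 2) ^ 2 := by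
    intro u
    rw [int_pow3 (by positivity)]
    field_simp
  simp_rw [h1]
  have hd : ∀ u ∈ Set.uIcc (0 : ℝ) k, HasDerivAt (fun u : ℝ => Real.arctan u - u / (1 + u ^ 2))
      (u ^ 2 * (2 / (1 + u ^ 2) ^ 2)) u := by
    intro u _
    have g1 := Real.hasDerivAt_arctan u
    have g2 : HasDerivAt (fun u : ℝ => 1 + u ^ 2) (2 * u) u := by
      have := (hasDerivAt_pow 2 u).const_add 1
      refine this.congr_deriv ?_
      ring
    have g3 := (hasDerivAt_id u).div g2 (by positivity)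
    have g4 := g1.sub g3
    refine g4.congr_deriv ?_
    simp only [id]
    field_simp
    ring
  rw [intervalIntegral.integral_eq_sub_of_hasDerivAt hd ?_]
  · simp
  · apply Continuous.intervalIntegrable
    have : ∀ u : ℝ, (1 + u ^ 2) ^ 2 ≠ 0 := fun u => by positivity
    fun_prop (disch := assumption)

lemma int_u2 {k : ℝ} (_hk : 0 ≤ k) :
    ∫ u in (0 : ℝ)..k, u ^ 2 * ∫ t in Ioi (0 : ℝ), t ^ 4 * Real.exp (-((1 + u ^ 2) / 2 * t ^ 2)) =
      Real.sqrt (2 * Real.pi) / 2 * (k / Real.sqrt (1 + k ^ 2)) ^ 3 := by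
  have h1 : ∀ u : ℝ, ∫ t in Ioi (0 : ℝ), t ^ 4 * Real.exp (-((1 + u ^ 2) / 2 * t ^ 2)) =
      Real.sqrt (2 * Real.pi) / 2 * (3 / (Real.sqrt (1 + u ^ 2) * (1 + u ^ 2) ^ 2)) := by
    intro u
    rw [int_pow4 (by positivity)]
    have e1 : Real.pi / ((1 + u ^ 2) / 2) = 2 * Real.pi / (1 + u ^ 2) := by field_simp
    rw [e1, Real.sqrt_div (by positivity)]
    have : 0 < Real.sqrt (1 + u ^ 2) := by positivity
    field_simp
    ring
  simp_rw [h1]
  have hd : ∀ u ∈ Set.uIcc (0 : ℝ) k, HasDerivAt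
      (fun u : ℝ => Real.sqrt (2 * Real.pi) / 2 * (u / Real.sqrt (1 + u ^ 2)) ^ 3)
      (u ^ 2 * (Real.sqrt (2 * Real.pi) / 2 * (3 / (Real.sqrt (1 + u ^ 2) * (1 + u ^ 2) ^ 2)))) u := by
    intro u _
    have hw : 0 < Real.sqrt (1 + u ^ 2) := by positivity
    have hw2 : Real.sqrt (1 + u ^ 2) ^ 2 = 1 + u ^ 2 := Real.sq_sqrt (by positivity)
    have g2 : HasDerivAt (fun u : ℝ => 1 + u ^ 2) (2 * u) u := by
      have := (hasDerivAt_pow 2 u).const_add 1
      refine this.congr_deriv ?_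
      ring
    have g3 := g2.sqrt (by positivity)
    have g4 := (((hasDerivAt_id u).div g3 hw.ne').pow 3).const_mul (Real.sqrt (2 * Real.pi) / 2)
    refine g4.congr_deriv ?_
    have h7 : Real.sqrt (1 + u ^ 2) ^ 2 - u ^ 2 = 1 := by rw [hw2]; ring
    have e : (1 + u ^ 2) ^ 2 = (Real.sqrt (1 + u ^ 2) ^ 2) ^ 2 := by rw [hw2]
    rw [e]
    generalize Real.sqrt (2 * Real.pi) = A
    calc _ = A / 2 * (3 * (u / Real.sqrt (1 + u ^ 2)) ^ 2 *
          ((1 * Real.sqrt (1 + u ^ 2) - u * (2 * u / (2 * Real.sqrt (1 + u ^ 2)))) /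
            Real.sqrt (1 + u ^ 2) ^ 2)) := by
          norm_num
      _ = A / 2 * (3 * u ^ 2 * (Real.sqrt (1 + u ^ 2) ^ 2 - u ^ 2) /
            Real.sqrt (1 + u ^ 2) ^ 5) := by
          field_simp
      _ = _ := by
          rw [h7]
          field_simp
  rw [intervalIntegral.integral_eq_sub_of_hasDerivAt hd ?_]
  · simp
  · apply Continuous.intervalIntegrable
    have : ∀ u : ℝ, (Real.sqrt (1 + u ^ 2) * (1 + u ^ 2) ^ 2) ≠ 0 := fun u => by positivity
    fun_prop (disch := assumption)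

lemma sqrt_one_sub_cos {θ : ℝ} (h0 : 0 ≤ θ) (h1 : θ ≤ Real.pi) :
    Real.sqrt (1 - Real.cos θ ^ 2) = Real.sin θ := by
  rw [← Real.sin_sq, Real.sqrt_sq (Real.sin_nonneg_of_nonneg_of_le_pi h0 h1)]

lemma cap_prob4 (h4 : Module.finrank ℝ E = 4) {e : E} (he : ‖e‖ = 1) {θ : ℝ} (hθ : 0 < θ)
    (hθ1 : θ < Real.pi / 2) :
    ∫ x, (if Real.cos θ * ‖x‖ < ⟪e, x⟫ then (1 : ℝ) else 0) ∂(stdGaussian E) =
      (θ - Real.sin θ * Real.cos θ) / Real.pi := by
  have hc : 0 < Real.cos θ := Real.cos_pos_of_mem_Ioo ⟨by linarith, hθ1⟩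
  have hs : 0 < Real.sin θ := Real.sin_pos_of_pos_of_lt_pi hθ (by linarith [Real.pi_pos])
  have hsc := Real.sin_sq_add_cos_sq θ
  have hc1 : Real.cos θ < 1 := by nlinarith
  have h := cap_intN (m := 3) h4 he hc hc1 (fun _ => 1) (integrable_const _)
  simp only [one_mul] at h
  rw [h, sqrt_one_sub_cos hθ.le (by linarith [Real.pi_pos])]
  have hk : 0 ≤ Real.sin θ / Real.cos θ := by positivity
  have h2 : ∫ t in Ioi (0 : ℝ), phi t * Rad 3 (Real.sin θ / Real.cos θ * t) =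
      ∫ t in Ioi (0 : ℝ), Real.pi⁻¹ * ∫ u in (0 : ℝ)..(Real.sin θ / Real.cos θ),
        t ^ 3 * (u ^ 2 * Real.exp (-((1 + u ^ 2) / 2 * t ^ 2))) :=
    setIntegral_congr_fun measurableSet_Ioi (fun t ht => Rad_three_scale hk ht)
  rw [h2, integral_const_mul, swap4 3 hk, int_u1 hk, ← Real.tan_eq_sin_div_cos,
    Real.arctan_tan (by linarith) hθ1, Real.tan_eq_sin_div_cos]
  have e1 : 1 + (Real.sin θ / Real.cos θ) ^ 2 = 1 / Real.cos θ ^ 2 := by
    field_simp
    linarith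
  rw [e1]
  field_simp

lemma cap_mom4 (h4 : Module.finrank ℝ E = 4) {e : E} (he : ‖e‖ = 1) {θ : ℝ} (hθ : 0 < θ)
    (hθ1 : θ < Real.pi / 2) :
    ∫ x, (if Real.cos θ * ‖x‖ < ⟪e, x⟫ then ⟪e, x⟫ else 0) ∂(stdGaussian E) =
      (Real.sqrt (2 * Real.pi))⁻¹ * Real.sin θ ^ 3 := by
  have hc : 0 < Real.cos θ := Real.cos_pos_of_mem_Ioo ⟨by linarith, hθ1⟩
  have hs : 0 < Real.sin θ := Real.sin_pos_of_pos_of_lt_pi hθ (by linarith [Real.pi_pos])
  have hsc := Real.sin_sq_add_cos_sq θ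
  have hc1 : Real.cos θ < 1 := by nlinarith
  have h := cap_intN (m := 3) h4 he hc hc1 (fun t => t) IsGaussian.integrable_id
  rw [h, sqrt_one_sub_cos hθ.le (by linarith [Real.pi_pos])]
  have hk : 0 ≤ Real.sin θ / Real.cos θ := by positivity
  have h2 : ∫ t in Ioi (0 : ℝ), phi t * (t * Rad 3 (Real.sin θ / Real.cos θ * t)) =
      ∫ t in Ioi (0 : ℝ), Real.pi⁻¹ * ∫ u in (0 : ℝ)..(Real.sin θ / Real.cos θ),
        t ^ 4 * (u ^ 2 * Real.exp (-((1 + u ^ 2) / 2 * t ^ 2))) := by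
    refine setIntegral_congr_fun measurableSet_Ioi (fun t ht => ?_)
    have h3 := Rad_three_scale hk (show (0 : ℝ) < t from ht)
    calc _ = t * (phi t * Rad 3 (Real.sin θ / Real.cos θ * t)) := by ring
      _ = Real.pi⁻¹ * ∫ u in (0 : ℝ)..(Real.sin θ / Real.cos θ),
        t * (t ^ 3 * (u ^ 2 * Real.exp (-((1 + u ^ 2) / 2 * t ^ 2)))) := by
          rw [h3, mul_left_comm, ← intervalIntegral.integral_const_mul]
      _ = _ := by
          congr 1
          refine intervalIntegral.integral_congr (fun u _ => ?_)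
          ring
  rw [h2, integral_const_mul, swap4 4 hk, int_u2 hk]
  have e1 : 1 + (Real.sin θ / Real.cos θ) ^ 2 = (1 / Real.cos θ) ^ 2 := by
    field_simp
    linarith
  rw [e1, Real.sqrt_sq (by positivity)]
  have e2 : Real.sin θ / Real.cos θ / (1 / Real.cos θ) = Real.sin θ := by field_simp
  rw [e2]
  have h5 : 0 < Real.sqrt (2 * Real.pi) := by positivity
  have h6 : Real.sqrt (2 * Real.pi) ^ 2 = 2 * Real.pi := Real.sq_sqrt (by positivity)
  have hpi := Real.pi_pos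
  generalize Real.sqrt (2 * Real.pi) = A at *
  field_simp
  linarith

/-- **Cap bound in dimension four**, with angle parameter `θ ∈ [0, π/2]`. -/
theorem cap_bound4 (h4 : Module.finrank ℝ E = 4) {A : Set E} (hA : MeasurableSet A)
    (hc : ∀ x ∈ A, ∀ s : ℝ, 0 < s → s • x ∈ A) {θ : ℝ} (hθ : 0 ≤ θ) (hθ1 : θ ≤ Real.pi / 2) :
    ‖mom A‖ ≤ (Real.sqrt (2 * Real.pi))⁻¹ *
      (Real.sin θ ^ 3 + 3 / 2 * Real.cos θ *
        (Real.pi * (stdGaussian E).real A - θ + Real.sin θ * Real.cos θ)) := by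
  have : Nontrivial E := Module.nontrivial_of_finrank_pos (R := ℝ) (by omega)
  have key : ∀ e : E, ‖e‖ = 1 → ⟪e, mom A⟫ ≤ (Real.sqrt (2 * Real.pi))⁻¹ *
      (Real.sin θ ^ 3 + 3 / 2 * Real.cos θ *
        (Real.pi * (stdGaussian E).real A - θ + Real.sin θ * Real.cos θ)) := by
    intro e he
    refine le_on_closure (f := fun _ : ℝ => ⟪e, mom A⟫)
      (g := fun θ : ℝ => (Real.sqrt (2 * Real.pi))⁻¹ *
      (Real.sin θ ^ 3 + 3 / 2 * Real.cos θ *
        (Real.pi * (stdGaussian E).real A - θ + Real.sin θ * Real.cos θ)))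
      (s := Ioo (0 : ℝ) (Real.pi / 2)) (fun θ hθ => ?_) continuousOn_const (by fun_prop)
      (x := θ) (by
        rw [closure_Ioo (by positivity : (0 : ℝ) < Real.pi / 2).ne]
        exact ⟨hθ, hθ1⟩)
    refine (cap_leN hA hc (integral_norm4 h4) (cap_prob4 h4 he hθ.1 hθ.2)
      (cap_mom4 h4 he hθ.1 hθ.2)).trans (le_of_eq ?_)
    have hpi := Real.pi_pos
    have h5 : 0 < Real.sqrt (2 * Real.pi) := by positivity
    field_simp
    ring
  by_cases h0 : mom A = 0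
  · obtain ⟨e, he⟩ := exists_norm_eq E (zero_le_one' ℝ)
    have := key e he
    rw [h0, inner_zero_right] at this
    rw [h0, norm_zero]
    exact this
  · have hn : 0 < ‖mom A‖ := norm_pos_iff.2 h0
    have := key ((‖mom A‖)⁻¹ • mom A) (by
      rw [norm_smul, norm_inv, norm_norm, inv_mul_cancel₀ hn.ne'])
    rw [real_inner_smul_left, real_inner_self_eq_norm_sq] at this
    refine le_trans (le_of_eq ?_) this
    field_simp

section crit
variable {ι : Type*} [Fintype ι] [DecidableEq ι] {z : ι → E}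

/-- **Cap bound for a critical configuration with five cells.** -/
theorem Crit.cap4 (hz : Crit z) (h5 : Fintype.card ι = 5) (i : ι) {θ : ℝ} (hθ : 0 ≤ θ)
    (hθ1 : θ ≤ Real.pi / 2) :
    ‖z i‖ ≤ (Real.sqrt (2 * Real.pi))⁻¹ *
      (Real.sin θ ^ 3 + 3 / 2 * Real.cos θ *
        (Real.pi * pc z i - θ + Real.sin θ * Real.cos θ)) := by
  obtain ⟨w, hw⟩ := exists_gram z (n := 4) (hz.finrank_span (by omega))
  have h1 := cap_bound4 (E := EuclideanSpace ℝ (Fin 4)) (by simp) (A := cell w i)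
    (by
      have : Nonempty ι := ⟨i⟩
      exact measurableSet_cell w i) (by
    intro x hx s hs j
    rw [real_inner_smul_right, real_inner_smul_right]
    exact mul_le_mul_of_nonneg_left (hx j) hs.le) hθ hθ1
  have hpc : (stdGaussian (EuclideanSpace ℝ (Fin 4))).real (cell w i) = pc z i :=
    (pc_transfer z w hw i).symm
  rw [hpc] at h1
  refine hz.transfer (n := 4) (by omega) i ((norm_nonneg _).trans h1) ?_
  intro A hA hc hp
  rw [← hp]
  exact cap_bound4 (by simp) hA hc hθ hθ1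

/-- Lower bound for the measure of a cell in terms of its moment (five cells). -/
theorem Crit.pc_ge4 (hz : Crit z) (h5 : Fintype.card ι = 5) (i : ι) {θ : ℝ} (hθ : 0 ≤ θ)
    (hθ1 : θ < Real.pi / 2) (h : (Real.sqrt (2 * Real.pi))⁻¹ * Real.sin θ ^ 3 ≤ ‖z i‖) :
    (θ - Real.sin θ * Real.cos θ) / Real.pi ≤ pc z i := by
  have hc : 0 < Real.cos θ := Real.cos_pos_of_mem_Ioo ⟨by linarith [Real.pi_pos], hθ1⟩
  have h1 := h.trans (hz.cap4 h5 i hθ hθ1.le)
  have h5 : 0 < (Real.sqrt (2 * Real.pi))⁻¹ := by positivity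
  have h2 := le_of_mul_le_mul_left h1 h5
  have h3 : 0 ≤ 3 / 2 * Real.cos θ *
        (Real.pi * pc z i - θ + Real.sin θ * Real.cos θ) := by linarith
  have h4 : 0 ≤ Real.pi * pc z i - θ + Real.sin θ * Real.cos θ := by
    by_contra hcon
    push Not at hcon
    have : 3 / 2 * Real.cos θ *
        (Real.pi * pc z i - θ + Real.sin θ * Real.cos θ) < 0 :=
      mul_neg_of_pos_of_neg (by positivity) hcon
    linarith
  rw [div_le_iff₀ Real.pi_pos]
  linarith

/-- `2π |z_i|² ≤ (...)²` -/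
lemma Crit.cap4_sq (hz : Crit z) (h5 : Fintype.card ι = 5) (i : ι) {θ : ℝ} (hθ : 0 ≤ θ)
    (hθ1 : θ ≤ Real.pi / 2) :
    2 * Real.pi * ‖z i‖ ^ 2 ≤ (Real.sin θ ^ 3 + 3 / 2 * Real.cos θ *
        (Real.pi * pc z i - θ + Real.sin θ * Real.cos θ)) ^ 2 := by
  have h := hz.cap4 h5 i hθ hθ1
  have h2 : ‖z i‖ ^ 2 ≤ ((Real.sqrt (2 * Real.pi))⁻¹ *
      (Real.sin θ ^ 3 + 3 / 2 * Real.cos θ *
        (Real.pi * pc z i - θ + Real.sin θ * Real.cos θ))) ^ 2 := by
    gcongr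
  rw [mul_pow, inv_pow, Real.sq_sqrt (by positivity)] at h2
  have hpi := Real.pi_pos
  calc 2 * Real.pi * ‖z i‖ ^ 2 ≤ 2 * Real.pi * ((2 * Real.pi)⁻¹ *
        (Real.sin θ ^ 3 + 3 / 2 * Real.cos θ *
        (Real.pi * pc z i - θ + Real.sin θ * Real.cos θ)) ^ 2) := by gcongr
    _ = _ := by field_simp

end crit

end Vale.Agent.P226
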