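import Vale.Agent.P226.Cap4

/-!
# P226: consequences of the four-dimensional cap bound for five cells (generated tables)
-/

open Real

namespace Vale.Agent.P226

set_option linter.unusedSectionVars false
set_option linter.unusedVariables false

lemma arctan_lower {t : ℝ} (ht : 0 ≤ t) : t - t ^ 3 / 3 + t ^ 5 / 5 - t ^ 7 / 7 ≤ arctan t := by
  have hd : ∀ x : ℝ, HasDerivAt (fun t : ℝ => arctan t - (t - t ^ 3 / 3 + t ^ 5 / 5 - t ^ 7 / 7))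
      (x ^ 8 / (1 + x ^ 2)) x := by
    intro x
    have h1 := Real.hasDerivAt_arctan x
    have h2 := (((hasDerivAt_id x).sub ((hasDerivAt_pow 3 x).div_const 3)).add
      ((hasDerivAt_pow 5 x).div_const 5)).sub ((hasDerivAt_pow 7 x).div_const 7)
    have h3 := h1.sub h2
    refine (h3.congr_deriv ?_)
    have : (1 + x ^ 2) ≠ 0 := by positivity
    field_simp
    ring
  have hm : MonotoneOn (fun t : ℝ => arctan t - (t - t ^ 3 / 3 + t ^ 5 / 5 - t ^ 7 / 7))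
      (Set.Ici 0) := by
    refine monotoneOn_of_deriv_nonneg (convex_Ici 0)
      (fun x _ => (hd x).continuousAt.continuousWithinAt)
      (fun x _ => (hd x).differentiableAt.differentiableWithinAt) (fun x _ => ?_)
    rw [(hd x).deriv]
    positivity
  have h := hm (Set.mem_Ici.2 le_rfl) (Set.mem_Ici.2 ht) ht
  simp only [arctan_zero] at h
  norm_num at h
  linarith

lemma arctan_upper {t : ℝ} (ht : 0 ≤ t) : arctan t ≤ t - t ^ 3 / 3 + t ^ 5 / 5 := by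
  have hd : ∀ x : ℝ, HasDerivAt (fun t : ℝ => (t - t ^ 3 / 3 + t ^ 5 / 5) - arctan t)
      (x ^ 6 / (1 + x ^ 2)) x := by
    intro x
    have h1 := Real.hasDerivAt_arctan x
    have h2 := ((hasDerivAt_id x).sub ((hasDerivAt_pow 3 x).div_const 3)).add
      ((hasDerivAt_pow 5 x).div_const 5)
    have h3 := h2.sub h1
    refine (h3.congr_deriv ?_)
    have : (1 + x ^ 2) ≠ 0 := by positivity
    field_simp
    ring
  have hm : MonotoneOn (fun t : ℝ => (t - t ^ 3 / 3 + t ^ 5 / 5) - arctan t)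
      (Set.Ici 0) := by
    refine monotoneOn_of_deriv_nonneg (convex_Ici 0)
      (fun x _ => (hd x).continuousAt.continuousWithinAt)
      (fun x _ => (hd x).differentiableAt.differentiableWithinAt) (fun x _ => ?_)
    rw [(hd x).deriv]
    positivity
  have h := hm (Set.mem_Ici.2 le_rfl) (Set.mem_Ici.2 ht) ht
  simp only [arctan_zero] at h
  norm_num at h
  linarith

lemma sin_two_arctan (t : ℝ) : sin (2 * arctan t) = 2 * t / (1 + t ^ 2) := by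
  rw [sin_two_mul, sin_arctan, cos_arctan]
  have h : sqrt (1 + t ^ 2) ^ 2 = 1 + t ^ 2 := sq_sqrt (by positivity)
  have h2 : 0 < sqrt (1 + t ^ 2) := by positivity
  have h3 : 2 * (t / sqrt (1 + t ^ 2)) * (1 / sqrt (1 + t ^ 2)) =
      2 * t / (sqrt (1 + t ^ 2) ^ 2) := by
    field_simp
  rw [h3, h]

lemma cos_two_arctan (t : ℝ) : cos (2 * arctan t) = (1 - t ^ 2) / (1 + t ^ 2) := by
  rw [cos_two_mul, cos_arctan, div_pow, sq_sqrt (by positivity)]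
  field_simp
  ring

/-- The cap bound for a cell with normalised moment `y` and `q = π p`. -/
def TP (y q : ℝ) : Prop := ∀ θ : ℝ, 0 ≤ θ → θ ≤ π / 2 →
  y ≤ sin θ ^ 3 + 3 / 2 * cos θ * (q - θ + sin θ * cos θ)

lemma TP.of_theta {y q : ℝ} (h : TP y q) {θ s c θ' : ℝ} (h0 : 0 ≤ θ) (h1 : θ ≤ π / 2)
    (hs : sin θ = s) (hc : cos θ = c) (hc0 : 0 < c) (hθ : θ' ≤ θ) :
    θ' - s * c + 2 / (3 * c) * (y - s ^ 3) ≤ q := by
  have h2 := h θ h0 h1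
  rw [hs, hc] at h2
  have h3 : 2 / (3 * c) * (y - s ^ 3) ≤ q - θ + s * c := by
    rw [div_mul_eq_mul_div, div_le_iff₀ (by positivity)]
    linarith
  linarith

lemma TP.tanA {y q : ℝ} (h : TP y q) (t : ℝ) (ht0 : 0 ≤ t) (ht1 : t < 1) :
    2 * (t - t ^ 3 / 3 + t ^ 5 / 5 - t ^ 7 / 7) -
      (2 * t / (1 + t ^ 2)) * ((1 - t ^ 2) / (1 + t ^ 2)) +
      2 / (3 * ((1 - t ^ 2) / (1 + t ^ 2))) * (y - (2 * t / (1 + t ^ 2)) ^ 3) ≤ q := by
  have h1 : arctan t < π / 4 := by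
    rw [← arctan_one]; exact arctan_strictMono ht1
  have h2 : 0 ≤ arctan t := by
    rw [← arctan_zero]; exact arctan_mono ht0
  have h3 : 0 < (1 - t ^ 2) / (1 + t ^ 2) := by
    apply div_pos _ (by positivity)
    nlinarith
  refine h.of_theta (θ := 2 * arctan t) (by linarith) (by linarith) (sin_two_arctan t)
    (cos_two_arctan t) h3 ?_
  have := arctan_lower ht0
  linarith

lemma TP.tanB {y q : ℝ} (h : TP y q) (u : ℝ) (hu0 : 0 < u) (hu1 : u < 1) :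
    3141592 / 2000000 - 2 * (u - u ^ 3 / 3 + u ^ 5 / 5) -
      ((1 - u ^ 2) / (1 + u ^ 2)) * (2 * u / (1 + u ^ 2)) +
      2 / (3 * (2 * u / (1 + u ^ 2))) * (y - ((1 - u ^ 2) / (1 + u ^ 2)) ^ 3) ≤ q := by
  have h1 : arctan u < π / 4 := by
    rw [← arctan_one]; exact arctan_strictMono hu1
  have h2 : 0 ≤ arctan u := by
    rw [← arctan_zero]; exact arctan_mono hu0.le
  have hpi := Real.pi_gt_d6
  refine h.of_theta (θ := π / 2 - 2 * arctan u) (by linarith) (by linarith)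
    (by rw [sin_pi_div_two_sub, cos_two_arctan]) (by rw [cos_pi_div_two_sub, sin_two_arctan])
    (by positivity) ?_
  have := arctan_upper hu0.le
  linarith

/-- concavity on a segment -/
lemma seg_le {α β k m a b y q : ℝ} (hm : 0 ≤ m) (h : α + β * y ≤ q) (ha : a ≤ y) (hb : y ≤ b)
    (h1 : k + m * a ^ 2 ≤ α + β * a) (h2 : k + m * b ^ 2 ≤ α + β * b) : k + m * y ^ 2 ≤ q := by
  refine le_trans ?_ h
  rcases ha.eq_or_lt with h3 | h3
  · rw [← h3]; exact h1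
  · have hab : 0 < b - a := by linarith
    have e : (b - a) * (α + β * y - (k + m * y ^ 2)) =
        (b - y) * (α + β * a - (k + m * a ^ 2)) + (y - a) * (α + β * b - (k + m * b ^ 2)) +
        m * (b - a) * ((y - a) * (b - y)) := by ring
    have h4 : 0 ≤ (b - a) * (α + β * y - (k + m * y ^ 2)) := by
      rw [e]
      have t1 : 0 ≤ b - y := by linarith
      have t2 : 0 ≤ y - a := by linarith
      have t3 : 0 ≤ α + β * a - (k + m * a ^ 2) := by linarith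
      have t4 : 0 ≤ α + β * b - (k + m * b ^ 2) := by linarith
      positivity
    have := nonneg_of_mul_nonneg_right h4 hab
    linarith

lemma ge_of_sq {a c y : ℝ} (hy : 0 ≤ y) (h : c ≤ y ^ 2) (hc : a ^ 2 ≤ c) (ha : 0 ≤ a) : a ≤ y :=
  (sq_le_sq₀ ha hy).1 (hc.trans h)

lemma le_of_sq {b c y : ℝ} (hy : 0 ≤ y) (h : y ^ 2 ≤ c) (hc : c ≤ b ^ 2) (hb : 0 ≤ b) : y ≤ b :=
  (sq_le_sq₀ hy hb).1 (h.trans hc)

lemma line1 {y q x : ℝ} (h : TP y q) (hy : 0 ≤ y) (hx : y ^ 2 = x) (hb : x ≤ (7 / 200)) :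
    (-3 / 2000) + (3991 / 1000) * x ≤ q := by
  subst hx
  have hya : (0 : ℝ) ≤ y := hy
  have hyb : y ≤ (1871 / 10000) := le_of_sq hy hb (by norm_num) (by norm_num)
  rcases le_total y (181 / 1000) with h0 | h0
  · have T := h.tanA (1 / 5) (by norm_num) (by norm_num)
    norm_num at T
    exact seg_le (α := (-2212519 / 1663593750)) (β := (13 / 18)) (by norm_num) (by linarith) hya h0 (by norm_num)
      (by norm_num)
  · have T := h.tanA (3 / 10) (by norm_num) (by norm_num)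
    norm_num at T
    exact seg_le (α := (-53175687651 / 5405855000000)) (β := (218 / 273)) (by norm_num) (by linarith) h0 hyb (by norm_num)
      (by norm_num)

lemma line2 {y q x : ℝ} (h : TP y q) (hy : 0 ≤ y) (hx : y ^ 2 = x) (hb : x ≤ (3 / 10)) :
    (-3 / 2000) + (813 / 500) * x ≤ q := by
  subst hx
  have hya : (0 : ℝ) ≤ y := hy
  have hyb : y ≤ (2739 / 5000) := le_of_sq hy hb (by norm_num) (by norm_num)
  rcases le_total y (111 / 250) with h0 | h0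
  · have T := h.tanA (1 / 5) (by norm_num) (by norm_num)
    norm_num at T
    exact seg_le (α := (-2212519 / 1663593750)) (β := (13 / 18)) (by norm_num) (by linarith) hya h0 (by norm_num)
      (by norm_num)
  · have T := h.tanB (31 / 100) (by norm_num) (by norm_num)
    norm_num at T
    exact seg_le (α := (-44109495175220652403 / 279333686325000000000)) (β := (10961 / 9300)) (by norm_num) (by linarith) h0 hyb (by norm_num)
      (by norm_num)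

lemma line3 {y q x : ℝ} (h : TP y q) (hy : 0 ≤ y) (hx : y ^ 2 = x) (ha : (3 / 100) ≤ x) (hb : x ≤ (3 / 50)) :
    (27 / 400) + (1981 / 1000) * x ≤ q := by
  subst hx
  have hya : (433 / 2500) ≤ y := ge_of_sq hy ha (by norm_num) (by norm_num)
  have hyb : y ≤ (49 / 200) := le_of_sq hy hb (by norm_num) (by norm_num)
  have T := h.tanA (17 / 50) (by norm_num) (by norm_num)
  norm_num at T
  exact seg_le (α := (-2567038821400445431189 / 141079886152734375000000)) (β := (5578 / 6633)) (by norm_num) (by linarith) hya hyb (by norm_num)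
    (by norm_num)

lemma line5 {y q x : ℝ} (h : TP y q) (hy : 0 ≤ y) (hx : y ^ 2 = x) (ha : (1 / 20) ≤ x) (hb : x ≤ (2 / 25)) :
    (833 / 10000) + (17 / 10) * x ≤ q := by
  subst hx
  have hya : (559 / 2500) ≤ y := ge_of_sq hy ha (by norm_num) (by norm_num)
  have hyb : y ≤ (2829 / 10000) := le_of_sq hy hb (by norm_num) (by norm_num)
  have T := h.tanA (9 / 25) (by norm_num) (by norm_num)
  norm_num at T
  exact seg_le (α := (-17443676207726037 / 724046435546875000)) (β := (353 / 408)) (by norm_num) (by linarith) hya hyb (by norm_num)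
    (by norm_num)

lemma line6 {y q x : ℝ} (h : TP y q) (hy : 0 ≤ y) (hx : y ^ 2 = x) (ha : (3 / 50) ≤ x) (hb : x ≤ (1 / 10)) :
    (921 / 10000) + (393 / 250) * x ≤ q := by
  subst hx
  have hya : (2449 / 10000) ≤ y := ge_of_sq hy ha (by norm_num) (by norm_num)
  have hyb : y ≤ (3163 / 10000) := le_of_sq hy hb (by norm_num) (by norm_num)
  have T := h.tanA (19 / 50) (by norm_num) (by norm_num)
  norm_num at T
  exact seg_le (α := (-4512574269248531635823 / 143623607030859375000000)) (β := (5722 / 6417)) (by norm_num) (by linarith) hya hyb (by norm_num)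
    (by norm_num)

lemma line8 {y q x : ℝ} (h : TP y q) (hy : 0 ≤ y) (hx : y ^ 2 = x) (ha : (1 / 10) ≤ x) (hb : x ≤ (3 / 20)) :
    (577 / 5000) + (669 / 500) * x ≤ q := by
  subst hx
  have hya : (1581 / 5000) ≤ y := ge_of_sq hy ha (by norm_num) (by norm_num)
  have hyb : y ≤ (3873 / 10000) := le_of_sq hy hb (by norm_num) (by norm_num)
  have T := h.tanA (21 / 50) (by norm_num) (by norm_num)
  norm_num at T
  exact seg_le (α := (-357570224934601693077 / 6956750538671875000000)) (β := (5882 / 6177)) (by norm_num) (by linarith) hya hyb (by norm_num)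
    (by norm_num)

lemma line9 {y q x : ℝ} (h : TP y q) (hy : 0 ≤ y) (hx : y ^ 2 = x) (ha : (3 / 20) ≤ x) (hb : x ≤ (3 / 10)) :
    (1461 / 10000) + (567 / 500) * x ≤ q := by
  subst hx
  have hya : (242 / 625) ≤ y := ge_of_sq hy ha (by norm_num) (by norm_num)
  have hyb : y ≤ (2739 / 5000) := le_of_sq hy hb (by norm_num) (by norm_num)
  rcases le_total y (503 / 1000) with h0 | h0
  · have T := h.tanB (19 / 50) (by norm_num) (by norm_num)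
    norm_num at T
    exact seg_le (α := (-1636205995397908 / 22781410986328125)) (β := (2861 / 2850)) (by norm_num) (by linarith) hya h0 (by norm_num)
      (by norm_num)
  · have T := h.tanB (31 / 100) (by norm_num) (by norm_num)
    norm_num at T
    exact seg_le (α := (-44109495175220652403 / 279333686325000000000)) (β := (10961 / 9300)) (by norm_num) (by linarith) h0 hyb (by norm_num)
      (by norm_num)

lemma line10 {y q x : ℝ} (h : TP y q) (hy : 0 ≤ y) (hx : y ^ 2 = x) (ha : (3 / 10) ≤ x) (hb : x ≤ 1) :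
    (847 / 5000) + (1047 / 1000) * x ≤ q := by
  subst hx
  have hya : (5477 / 10000) ≤ y := ge_of_sq hy ha (by norm_num) (by norm_num)
  have hyb : y ≤ 1 := le_of_sq hy hb (by norm_num) (by norm_num)
  rcases le_total y (329 / 500) with h0 | h0
  · have T := h.tanB (29 / 100) (by norm_num) (by norm_num)
    norm_num at T
    exact seg_le (α := (-50406077136034210603 / 255621836175000000000)) (β := (10841 / 8700)) (by norm_num) (by linarith) hya h0 (by norm_num)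
      (by norm_num)
  · rcases le_total y (361 / 500) with h1 | h1
    · have T := h.tanB (1 / 4) (by norm_num) (by norm_num)
      norm_num at T
      exact seg_le (α := (-2133418319 / 6936000000)) (β := (17 / 12)) (by norm_num) (by linarith) h0 h1 (by norm_num)
        (by norm_num)
    · rcases le_total y (401 / 500) with h2 | h2
      · have T := h.tanB (11 / 50) (by norm_num) (by norm_num)
        norm_num at T
        exact seg_le (α := (-9544094950423991 / 22138491503906250)) (β := (2621 / 1650)) (by norm_num) (by linarith) h1 h2 (by norm_num)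
          (by norm_num)
      · have T := h.tanB (17 / 100) (by norm_num) (by norm_num)
        norm_num at T
        exact seg_le (α := (-104480224919293211347 / 134975989275000000000)) (β := (10289 / 5100)) (by norm_num) (by linarith) h2 hyb (by norm_num)
          (by norm_num)

lemma line15 {y q x : ℝ} (h : TP y q) (hy : 0 ≤ y) (hx : y ^ 2 = x) (ha : (3 / 50) ≤ x) (hb : x ≤ 1) :
    (247 / 2000) + (1047 / 1000) * x ≤ q := by
  subst hx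
  have hya : (2449 / 10000) ≤ y := ge_of_sq hy ha (by norm_num) (by norm_num)
  have hyb : y ≤ 1 := le_of_sq hy hb (by norm_num) (by norm_num)
  rcases le_total y (76 / 125) with h0 | h0
  · have T := h.tanA (19 / 50) (by norm_num) (by norm_num)
    norm_num at T
    exact seg_le (α := (-4512574269248531635823 / 143623607030859375000000)) (β := (5722 / 6417)) (by norm_num) (by linarith) hya h0 (by norm_num)
      (by norm_num)
  · have T := h.tanB (1 / 5) (by norm_num) (by norm_num)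
    norm_num at T
    exact seg_le (α := (-68741831 / 126750000)) (β := (26 / 15)) (by norm_num) (by linarith) h0 hyb (by norm_num)
      (by norm_num)

lemma line19 {y q x : ℝ} (h : TP y q) (hy : 0 ≤ y) (hx : y ^ 2 = x) (ha : (8 / 625) ≤ x) (hb : x ≤ 1) :
    (643 / 10000) + (1211 / 1000) * x ≤ q := by
  subst hx
  have hya : (1131 / 10000) ≤ y := ge_of_sq hy ha (by norm_num) (by norm_num)
  have hyb : y ≤ 1 := le_of_sq hy hb (by norm_num) (by norm_num)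
  rcases le_total y (547 / 1000) with h0 | h0
  · have T := h.tanA (3 / 10) (by norm_num) (by norm_num)
    norm_num at T
    exact seg_le (α := (-53175687651 / 5405855000000)) (β := (218 / 273)) (by norm_num) (by linarith) hya h0 (by norm_num)
      (by norm_num)
  · rcases le_total y (4 / 5) with h1 | h1
    · have T := h.tanB (11 / 50) (by norm_num) (by norm_num)
      norm_num at T
      exact seg_le (α := (-9544094950423991 / 22138491503906250)) (β := (2621 / 1650)) (by norm_num) (by linarith) h0 h1 (by norm_num)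
        (by norm_num)
    · rcases le_total y (109 / 125) with h2 | h2
      · have T := h.tanB (17 / 100) (by norm_num) (by norm_num)
        norm_num at T
        exact seg_le (α := (-104480224919293211347 / 134975989275000000000)) (β := (10289 / 5100)) (by norm_num) (by linarith) h1 h2 (by norm_num)
          (by norm_num)
      · have T := h.tanB (7 / 50) (by norm_num) (by norm_num)
        norm_num at T
        exact seg_le (α := (-30105981359951593 / 26649496289062500)) (β := (2549 / 1050)) (by norm_num) (by linarith) h2 hyb (by norm_num)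
          (by norm_num)

lemma line21 {y q x : ℝ} (h : TP y q) (hy : 0 ≤ y) (hx : y ^ 2 = x) (hb : x ≤ 1) :
    (-337 / 2000) + (377 / 250) * x ≤ q := by
  subst hx
  have hya : (0 : ℝ) ≤ y := hy
  have hyb : y ≤ 1 := le_of_sq hy hb (by norm_num) (by norm_num)
  rcases le_total y (79 / 100) with h0 | h0
  · have T := h.tanB (31 / 100) (by norm_num) (by norm_num)
    norm_num at T
    exact seg_le (α := (-44109495175220652403 / 279333686325000000000)) (β := (10961 / 9300)) (by norm_num) (by linarith) hya h0 (by norm_num)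
      (by norm_num)
  · rcases le_total y (907 / 1000) with h1 | h1
    · have T := h.tanB (7 / 50) (by norm_num) (by norm_num)
      norm_num at T
      exact seg_le (α := (-30105981359951593 / 26649496289062500)) (β := (2549 / 1050)) (by norm_num) (by linarith) h0 h1 (by norm_num)
        (by norm_num)
    · rcases le_total y (973 / 1000) with h2 | h2
      · have T := h.tanB (3 / 25) (by norm_num) (by norm_num)
        norm_num at T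
        exact seg_le (α := (-1047455358287801 / 706563281250000)) (β := (634 / 225)) (by norm_num) (by linarith) h1 h2 (by norm_num)
          (by norm_num)
      · have T := h.tanB (1 / 25) (by norm_num) (by norm_num)
        norm_num at T
        exact seg_le (α := (-1574170571901899 / 229614843750000)) (β := (626 / 75)) (by norm_num) (by linarith) h2 hyb (by norm_num)
          (by norm_num)

/-- a sorted list of normalised squared moments with the cap constraints -/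
structure Cfg (x0 x1 x2 x3 x4 q0 q1 q2 q3 q4 : ℝ) : Prop where
  t0 : TP (sqrt x0) q0
  t1 : TP (sqrt x1) q1
  t2 : TP (sqrt x2) q2
  t3 : TP (sqrt x3) q3
  t4 : TP (sqrt x4) q4
  n0 : 0 ≤ x0
  o1 : x0 ≤ x1
  o2 : x1 ≤ x2
  o3 : x2 ≤ x3
  o4 : x3 ≤ x4
  o5 : x4 ≤ 1
  hq : q0 + q1 + q2 + q3 + q4 ≤ 3141593 / 1000000
  hS : 9 / 4 ≤ x0 + x1 + x2 + x3 + x4

section
variable {x0 x1 x2 x3 x4 q0 q1 q2 q3 q4 : ℝ} (C : Cfg x0 x1 x2 x3 x4 q0 q1 q2 q3 q4)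
include C

lemma Cfg.n1 : 0 ≤ x1 := C.n0.trans C.o1
lemma Cfg.n2 : 0 ≤ x2 := C.n1.trans C.o2
lemma Cfg.n3 : 0 ≤ x3 := C.n2.trans C.o3
lemma Cfg.n4 : 0 ≤ x4 := C.n3.trans C.o4
lemma Cfg.e3 : 31 / 100 ≤ x3 := by
  have h1 := C.o1
  have h2 := C.o2
  have h3 := C.o3
  have h4 := C.o4
  have h5 := C.o5
  have h6 := C.hS
  linarith
lemma Cfg.e4 : 31 / 100 ≤ x4 := C.e3.trans C.o4

lemma Cfg.leaf_ii_0_0_0 (c1 : x1 ≤ 3 * x0) (c2 : x2 ≤ 77 / 10 * x0 + 212 / 100 * x1)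
    (a0 : 0 ≤ x0) (b0 : x0 ≤ (7 / 200)) (a1 : 0 ≤ x1) (b1 : x1 ≤ (3 / 100)) (a2 : 0 ≤ x2) (b2 : x2 ≤ (3 / 10)) : False := by
  have z0 := C.o4
  have z1 := C.o5
  have z2 := C.hq
  have z3 := (line1 C.t0 (sqrt_nonneg _) (sq_sqrt C.n0) b0)
  have z4 := (line1 C.t1 (sqrt_nonneg _) (sq_sqrt C.n1) (le_trans b1 (by norm_num)))
  have z5 := (line2 C.t2 (sqrt_nonneg _) (sq_sqrt C.n2) b2)
  have z6 := (line21 C.t3 (sqrt_nonneg _) (sq_sqrt C.n3) (C.o4.trans C.o5))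
  have z7 := (line21 C.t4 (sqrt_nonneg _) (sq_sqrt C.n4) C.o5)
  have z8 := c2
  linarith only [C.hS, C.n0, C.n1, C.n2, C.n3, C.n4, z0, z1, z2, z3, z4, z5, z6, z7, z8]

lemma Cfg.leaf_ii_0_0_1 (c1 : x1 ≤ 3 * x0) (c2 : x2 ≤ 77 / 10 * x0 + 212 / 100 * x1)
    (a0 : 0 ≤ x0) (b0 : x0 ≤ (7 / 200)) (a1 : 0 ≤ x1) (b1 : x1 ≤ (3 / 100)) (a2 : (3 / 10) ≤ x2) : False := by
  have z0 := C.hq
  have z1 := b0
  have z2 := (line1 C.t0 (sqrt_nonneg _) (sq_sqrt C.n0) b0)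
  have z3 := (line1 C.t1 (sqrt_nonneg _) (sq_sqrt C.n1) (le_trans b1 (by norm_num)))
  have z4 := (line10 C.t2 (sqrt_nonneg _) (sq_sqrt C.n2) a2 (by linarith [C.o1, C.o2, C.o3, C.o4, C.o5]))
  have z5 := (line21 C.t3 (sqrt_nonneg _) (sq_sqrt C.n3) (C.o4.trans C.o5))
  have z6 := (line21 C.t4 (sqrt_nonneg _) (sq_sqrt C.n4) C.o5)
  have z7 := c2
  linarith only [C.hS, C.n0, C.n1, C.n2, C.n3, C.n4, z0, z1, z2, z3, z4, z5, z6, z7]

lemma Cfg.leaf_ii_0_1_0 (c1 : x1 ≤ 3 * x0) (c2 : x2 ≤ 77 / 10 * x0 + 212 / 100 * x1)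
    (a0 : 0 ≤ x0) (b0 : x0 ≤ (7 / 200)) (a1 : (3 / 100) ≤ x1) (b1 : x1 ≤ (3 / 50)) (a2 : 0 ≤ x2) (b2 : x2 ≤ (3 / 10)) : False := by
  have z0 := C.hq
  have z1 := a1
  have z2 := (line1 C.t0 (sqrt_nonneg _) (sq_sqrt C.n0) b0)
  have z3 := (line3 C.t1 (sqrt_nonneg _) (sq_sqrt C.n1) a1 b1)
  have z4 := (line2 C.t2 (sqrt_nonneg _) (sq_sqrt C.n2) b2)
  have z5 := (line21 C.t3 (sqrt_nonneg _) (sq_sqrt C.n3) (C.o4.trans C.o5))
  have z6 := (line21 C.t4 (sqrt_nonneg _) (sq_sqrt C.n4) C.o5)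
  have z7 := c1
  linarith only [C.hS, C.n0, C.n1, C.n2, C.n3, C.n4, z0, z1, z2, z3, z4, z5, z6, z7]

lemma Cfg.leaf_ii_0_1_1 (c1 : x1 ≤ 3 * x0) (c2 : x2 ≤ 77 / 10 * x0 + 212 / 100 * x1)
    (a0 : 0 ≤ x0) (b0 : x0 ≤ (7 / 200)) (a1 : (3 / 100) ≤ x1) (b1 : x1 ≤ (3 / 50)) (a2 : (3 / 10) ≤ x2) : False := by
  have z0 := C.hq
  have z1 := (line1 C.t0 (sqrt_nonneg _) (sq_sqrt C.n0) b0)
  have z2 := (line3 C.t1 (sqrt_nonneg _) (sq_sqrt C.n1) a1 b1)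
  have z3 := (line19 C.t2 (sqrt_nonneg _) (sq_sqrt C.n2) (le_trans (by norm_num) a2) (by linarith [C.o1, C.o2, C.o3, C.o4, C.o5]))
  have z4 := (line21 C.t3 (sqrt_nonneg _) (sq_sqrt C.n3) (C.o4.trans C.o5))
  have z5 := (line21 C.t4 (sqrt_nonneg _) (sq_sqrt C.n4) C.o5)
  have z6 := c1
  have z7 := c2
  linarith only [C.hS, C.n0, C.n1, C.n2, C.n3, C.n4, z0, z1, z2, z3, z4, z5, z6, z7]

lemma Cfg.leaf_ii_0_2_0 (c1 : x1 ≤ 3 * x0) (c2 : x2 ≤ 77 / 10 * x0 + 212 / 100 * x1)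
    (a0 : 0 ≤ x0) (b0 : x0 ≤ (7 / 200)) (a1 : (3 / 50) ≤ x1) (b1 : x1 ≤ (1 / 10)) (a2 : 0 ≤ x2) (b2 : x2 ≤ (3 / 10)) : False := by
  have z0 := C.hq
  have z1 := (line2 C.t0 (sqrt_nonneg _) (sq_sqrt C.n0) (le_trans b0 (by norm_num)))
  have z2 := (line6 C.t1 (sqrt_nonneg _) (sq_sqrt C.n1) a1 b1)
  have z3 := (line2 C.t2 (sqrt_nonneg _) (sq_sqrt C.n2) b2)
  have z4 := (line21 C.t3 (sqrt_nonneg _) (sq_sqrt C.n3) (C.o4.trans C.o5))
  have z5 := (line21 C.t4 (sqrt_nonneg _) (sq_sqrt C.n4) C.o5)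
  linarith only [C.hS, C.n0, C.n1, C.n2, C.n3, C.n4, z0, z1, z2, z3, z4, z5]

lemma Cfg.leaf_ii_0_2_1 (c1 : x1 ≤ 3 * x0) (c2 : x2 ≤ 77 / 10 * x0 + 212 / 100 * x1)
    (a0 : 0 ≤ x0) (b0 : x0 ≤ (7 / 200)) (a1 : (3 / 50) ≤ x1) (b1 : x1 ≤ (1 / 10)) (a2 : (3 / 10) ≤ x2) : False := by
  have z0 := C.hq
  have z1 := (line1 C.t0 (sqrt_nonneg _) (sq_sqrt C.n0) b0)
  have z2 := (line15 C.t1 (sqrt_nonneg _) (sq_sqrt C.n1) a1 (le_trans b1 (by norm_num)))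
  have z3 := (line10 C.t2 (sqrt_nonneg _) (sq_sqrt C.n2) a2 (by linarith [C.o1, C.o2, C.o3, C.o4, C.o5]))
  have z4 := (line19 C.t3 (sqrt_nonneg _) (sq_sqrt C.n3) (le_trans (by norm_num) C.e3) (C.o4.trans C.o5))
  have z5 := (line19 C.t4 (sqrt_nonneg _) (sq_sqrt C.n4) (le_trans (by norm_num) C.e4) C.o5)
  have z6 := c1
  have z7 := c2
  linarith only [C.hS, C.n0, C.n1, C.n2, C.n3, C.n4, z0, z1, z2, z3, z4, z5, z6, z7]

lemma Cfg.leaf_ii_0_3_0 (c1 : x1 ≤ 3 * x0) (c2 : x2 ≤ 77 / 10 * x0 + 212 / 100 * x1)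
    (a0 : 0 ≤ x0) (b0 : x0 ≤ (7 / 200)) (a1 : (1 / 10) ≤ x1) (b1 : x1 ≤ (3 / 20)) (a2 : 0 ≤ x2) (b2 : x2 ≤ (3 / 10)) : False := by
  have z0 := C.hq
  have z1 := (line1 C.t0 (sqrt_nonneg _) (sq_sqrt C.n0) b0)
  have z2 := (line15 C.t1 (sqrt_nonneg _) (sq_sqrt C.n1) (le_trans (by norm_num) a1) (le_trans b1 (by norm_num)))
  have z3 := (line2 C.t2 (sqrt_nonneg _) (sq_sqrt C.n2) b2)
  have z4 := (line21 C.t3 (sqrt_nonneg _) (sq_sqrt C.n3) (C.o4.trans C.o5))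
  have z5 := (line21 C.t4 (sqrt_nonneg _) (sq_sqrt C.n4) C.o5)
  have z6 := c1
  linarith only [C.hS, C.n0, C.n1, C.n2, C.n3, C.n4, z0, z1, z2, z3, z4, z5, z6]

lemma Cfg.leaf_ii_0_3_1 (c1 : x1 ≤ 3 * x0) (c2 : x2 ≤ 77 / 10 * x0 + 212 / 100 * x1)
    (a0 : 0 ≤ x0) (b0 : x0 ≤ (7 / 200)) (a1 : (1 / 10) ≤ x1) (b1 : x1 ≤ (3 / 20)) (a2 : (3 / 10) ≤ x2) : False := by
  have z0 := C.hq
  have z1 := (line1 C.t0 (sqrt_nonneg _) (sq_sqrt C.n0) b0)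
  have z2 := (line15 C.t1 (sqrt_nonneg _) (sq_sqrt C.n1) (le_trans (by norm_num) a1) (le_trans b1 (by norm_num)))
  have z3 := (line10 C.t2 (sqrt_nonneg _) (sq_sqrt C.n2) a2 (by linarith [C.o1, C.o2, C.o3, C.o4, C.o5]))
  have z4 := (line19 C.t3 (sqrt_nonneg _) (sq_sqrt C.n3) (le_trans (by norm_num) C.e3) (C.o4.trans C.o5))
  have z5 := (line19 C.t4 (sqrt_nonneg _) (sq_sqrt C.n4) (le_trans (by norm_num) C.e4) C.o5)
  have z6 := c1
  have z7 := c2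
  linarith only [C.hS, C.n0, C.n1, C.n2, C.n3, C.n4, z0, z1, z2, z3, z4, z5, z6, z7]

lemma Cfg.leaf_ii_0_4_0 (c1 : x1 ≤ 3 * x0) (c2 : x2 ≤ 77 / 10 * x0 + 212 / 100 * x1)
    (a0 : 0 ≤ x0) (b0 : x0 ≤ (7 / 200)) (a1 : (3 / 20) ≤ x1) (b1 : x1 ≤ (3 / 10)) (a2 : 0 ≤ x2) (b2 : x2 ≤ (3 / 10)) : False := by
  have z0 := b0
  have z1 := a1
  have z2 := c1
  linarith only [C.hS, C.n0, C.n1, C.n2, C.n3, C.n4, z0, z1, z2]

lemma Cfg.leaf_ii_0_4_1 (c1 : x1 ≤ 3 * x0) (c2 : x2 ≤ 77 / 10 * x0 + 212 / 100 * x1)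
    (a0 : 0 ≤ x0) (b0 : x0 ≤ (7 / 200)) (a1 : (3 / 20) ≤ x1) (b1 : x1 ≤ (3 / 10)) (a2 : (3 / 10) ≤ x2) : False := by
  have z0 := b0
  have z1 := a1
  have z2 := c1
  linarith only [C.hS, C.n0, C.n1, C.n2, C.n3, C.n4, z0, z1, z2]

lemma Cfg.leaf_ii_0_5_1 (c1 : x1 ≤ 3 * x0) (c2 : x2 ≤ 77 / 10 * x0 + 212 / 100 * x1)
    (a0 : 0 ≤ x0) (b0 : x0 ≤ (7 / 200)) (a1 : (3 / 10) ≤ x1) (a2 : (3 / 10) ≤ x2) : False := by
  have z0 := b0
  have z1 := a1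
  have z2 := c1
  linarith only [C.hS, C.n0, C.n1, C.n2, C.n3, C.n4, z0, z1, z2]

lemma Cfg.leaf_ii_1_1_0 (c1 : x1 ≤ 3 * x0) (c2 : x2 ≤ 77 / 10 * x0 + 212 / 100 * x1)
    (a0 : (7 / 200) ≤ x0) (b0 : x0 ≤ (1 / 20)) (a1 : (3 / 100) ≤ x1) (b1 : x1 ≤ (3 / 50)) (a2 : 0 ≤ x2) (b2 : x2 ≤ (3 / 10)) : False := by
  have z0 := C.hq
  have z1 := (line3 C.t0 (sqrt_nonneg _) (sq_sqrt C.n0) (le_trans (by norm_num) a0) (le_trans b0 (by norm_num)))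
  have z2 := (line3 C.t1 (sqrt_nonneg _) (sq_sqrt C.n1) a1 b1)
  have z3 := (line2 C.t2 (sqrt_nonneg _) (sq_sqrt C.n2) b2)
  have z4 := (line21 C.t3 (sqrt_nonneg _) (sq_sqrt C.n3) (C.o4.trans C.o5))
  have z5 := (line21 C.t4 (sqrt_nonneg _) (sq_sqrt C.n4) C.o5)
  linarith only [C.hS, C.n0, C.n1, C.n2, C.n3, C.n4, z0, z1, z2, z3, z4, z5]

lemma Cfg.leaf_ii_1_1_1 (c1 : x1 ≤ 3 * x0) (c2 : x2 ≤ 77 / 10 * x0 + 212 / 100 * x1)
    (a0 : (7 / 200) ≤ x0) (b0 : x0 ≤ (1 / 20)) (a1 : (3 / 100) ≤ x1) (b1 : x1 ≤ (3 / 50)) (a2 : (3 / 10) ≤ x2) : False := by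
  have z0 := C.hq
  have z1 := b0
  have z2 := (line3 C.t0 (sqrt_nonneg _) (sq_sqrt C.n0) (le_trans (by norm_num) a0) (le_trans b0 (by norm_num)))
  have z3 := (line3 C.t1 (sqrt_nonneg _) (sq_sqrt C.n1) a1 b1)
  have z4 := (line19 C.t2 (sqrt_nonneg _) (sq_sqrt C.n2) (le_trans (by norm_num) a2) (by linarith [C.o1, C.o2, C.o3, C.o4, C.o5]))
  have z5 := (line19 C.t3 (sqrt_nonneg _) (sq_sqrt C.n3) (le_trans (by norm_num) C.e3) (C.o4.trans C.o5))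
  have z6 := (line21 C.t3 (sqrt_nonneg _) (sq_sqrt C.n3) (C.o4.trans C.o5))
  have z7 := (line19 C.t4 (sqrt_nonneg _) (sq_sqrt C.n4) (le_trans (by norm_num) C.e4) C.o5)
  have z8 := (line21 C.t4 (sqrt_nonneg _) (sq_sqrt C.n4) C.o5)
  have z9 := c2
  linarith only [C.hS, C.n0, C.n1, C.n2, C.n3, C.n4, z0, z1, z2, z3, z4, z5, z6, z7, z8, z9]

lemma Cfg.leaf_ii_1_2_0 (c1 : x1 ≤ 3 * x0) (c2 : x2 ≤ 77 / 10 * x0 + 212 / 100 * x1)
    (a0 : (7 / 200) ≤ x0) (b0 : x0 ≤ (1 / 20)) (a1 : (3 / 50) ≤ x1) (b1 : x1 ≤ (1 / 10)) (a2 : 0 ≤ x2) (b2 : x2 ≤ (3 / 10)) : False := by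
  have z0 := C.hq
  have z1 := (line3 C.t0 (sqrt_nonneg _) (sq_sqrt C.n0) (le_trans (by norm_num) a0) (le_trans b0 (by norm_num)))
  have z2 := (line6 C.t1 (sqrt_nonneg _) (sq_sqrt C.n1) a1 b1)
  have z3 := (line2 C.t2 (sqrt_nonneg _) (sq_sqrt C.n2) b2)
  have z4 := (line21 C.t3 (sqrt_nonneg _) (sq_sqrt C.n3) (C.o4.trans C.o5))
  have z5 := (line21 C.t4 (sqrt_nonneg _) (sq_sqrt C.n4) C.o5)
  linarith only [C.hS, C.n0, C.n1, C.n2, C.n3, C.n4, z0, z1, z2, z3, z4, z5]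

lemma Cfg.leaf_ii_1_2_1 (c1 : x1 ≤ 3 * x0) (c2 : x2 ≤ 77 / 10 * x0 + 212 / 100 * x1)
    (a0 : (7 / 200) ≤ x0) (b0 : x0 ≤ (1 / 20)) (a1 : (3 / 50) ≤ x1) (b1 : x1 ≤ (1 / 10)) (a2 : (3 / 10) ≤ x2) : False := by
  have z0 := C.hq
  have z1 := (line3 C.t0 (sqrt_nonneg _) (sq_sqrt C.n0) (le_trans (by norm_num) a0) (le_trans b0 (by norm_num)))
  have z2 := (line6 C.t1 (sqrt_nonneg _) (sq_sqrt C.n1) a1 b1)
  have z3 := (line15 C.t1 (sqrt_nonneg _) (sq_sqrt C.n1) a1 (le_trans b1 (by norm_num)))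
  have z4 := (line19 C.t2 (sqrt_nonneg _) (sq_sqrt C.n2) (le_trans (by norm_num) a2) (by linarith [C.o1, C.o2, C.o3, C.o4, C.o5]))
  have z5 := (line19 C.t3 (sqrt_nonneg _) (sq_sqrt C.n3) (le_trans (by norm_num) C.e3) (C.o4.trans C.o5))
  have z6 := (line21 C.t3 (sqrt_nonneg _) (sq_sqrt C.n3) (C.o4.trans C.o5))
  have z7 := (line19 C.t4 (sqrt_nonneg _) (sq_sqrt C.n4) (le_trans (by norm_num) C.e4) C.o5)
  have z8 := (line21 C.t4 (sqrt_nonneg _) (sq_sqrt C.n4) C.o5)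
  have z9 := c2
  linarith only [C.hS, C.n0, C.n1, C.n2, C.n3, C.n4, z0, z1, z2, z3, z4, z5, z6, z7, z8, z9]

lemma Cfg.leaf_ii_1_3_0 (c1 : x1 ≤ 3 * x0) (c2 : x2 ≤ 77 / 10 * x0 + 212 / 100 * x1)
    (a0 : (7 / 200) ≤ x0) (b0 : x0 ≤ (1 / 20)) (a1 : (1 / 10) ≤ x1) (b1 : x1 ≤ (3 / 20)) (a2 : 0 ≤ x2) (b2 : x2 ≤ (3 / 10)) : False := by
  have z0 := C.hq
  have z1 := (line3 C.t0 (sqrt_nonneg _) (sq_sqrt C.n0) (le_trans (by norm_num) a0) (le_trans b0 (by norm_num)))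
  have z2 := (line8 C.t1 (sqrt_nonneg _) (sq_sqrt C.n1) a1 b1)
  have z3 := (line2 C.t2 (sqrt_nonneg _) (sq_sqrt C.n2) b2)
  have z4 := (line21 C.t3 (sqrt_nonneg _) (sq_sqrt C.n3) (C.o4.trans C.o5))
  have z5 := (line21 C.t4 (sqrt_nonneg _) (sq_sqrt C.n4) C.o5)
  have z6 := c1
  linarith only [C.hS, C.n0, C.n1, C.n2, C.n3, C.n4, z0, z1, z2, z3, z4, z5, z6]

lemma Cfg.leaf_ii_1_3_1 (c1 : x1 ≤ 3 * x0) (c2 : x2 ≤ 77 / 10 * x0 + 212 / 100 * x1)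
    (a0 : (7 / 200) ≤ x0) (b0 : x0 ≤ (1 / 20)) (a1 : (1 / 10) ≤ x1) (b1 : x1 ≤ (3 / 20)) (a2 : (3 / 10) ≤ x2) : False := by
  have z0 := C.hq
  have z1 := (line3 C.t0 (sqrt_nonneg _) (sq_sqrt C.n0) (le_trans (by norm_num) a0) (le_trans b0 (by norm_num)))
  have z2 := (line8 C.t1 (sqrt_nonneg _) (sq_sqrt C.n1) a1 b1)
  have z3 := (line19 C.t2 (sqrt_nonneg _) (sq_sqrt C.n2) (le_trans (by norm_num) a2) (by linarith [C.o1, C.o2, C.o3, C.o4, C.o5]))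
  have z4 := (line19 C.t3 (sqrt_nonneg _) (sq_sqrt C.n3) (le_trans (by norm_num) C.e3) (C.o4.trans C.o5))
  have z5 := (line21 C.t3 (sqrt_nonneg _) (sq_sqrt C.n3) (C.o4.trans C.o5))
  have z6 := (line19 C.t4 (sqrt_nonneg _) (sq_sqrt C.n4) (le_trans (by norm_num) C.e4) C.o5)
  have z7 := (line21 C.t4 (sqrt_nonneg _) (sq_sqrt C.n4) C.o5)
  have z8 := c1
  have z9 := c2
  linarith only [C.hS, C.n0, C.n1, C.n2, C.n3, C.n4, z0, z1, z2, z3, z4, z5, z6, z7, z8, z9]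

lemma Cfg.leaf_ii_1_4_0 (c1 : x1 ≤ 3 * x0) (c2 : x2 ≤ 77 / 10 * x0 + 212 / 100 * x1)
    (a0 : (7 / 200) ≤ x0) (b0 : x0 ≤ (1 / 20)) (a1 : (3 / 20) ≤ x1) (b1 : x1 ≤ (3 / 10)) (a2 : 0 ≤ x2) (b2 : x2 ≤ (3 / 10)) : False := by
  have z0 := C.hq
  have z1 := (line3 C.t0 (sqrt_nonneg _) (sq_sqrt C.n0) (le_trans (by norm_num) a0) (le_trans b0 (by norm_num)))
  have z2 := (line9 C.t1 (sqrt_nonneg _) (sq_sqrt C.n1) a1 b1)
  have z3 := (line2 C.t2 (sqrt_nonneg _) (sq_sqrt C.n2) b2)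
  have z4 := (line19 C.t3 (sqrt_nonneg _) (sq_sqrt C.n3) (le_trans (by norm_num) C.e3) (C.o4.trans C.o5))
  have z5 := (line21 C.t3 (sqrt_nonneg _) (sq_sqrt C.n3) (C.o4.trans C.o5))
  have z6 := (line19 C.t4 (sqrt_nonneg _) (sq_sqrt C.n4) (le_trans (by norm_num) C.e4) C.o5)
  have z7 := (line21 C.t4 (sqrt_nonneg _) (sq_sqrt C.n4) C.o5)
  have z8 := c1
  linarith only [C.hS, C.n0, C.n1, C.n2, C.n3, C.n4, z0, z1, z2, z3, z4, z5, z6, z7, z8]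

lemma Cfg.leaf_ii_1_4_1 (c1 : x1 ≤ 3 * x0) (c2 : x2 ≤ 77 / 10 * x0 + 212 / 100 * x1)
    (a0 : (7 / 200) ≤ x0) (b0 : x0 ≤ (1 / 20)) (a1 : (3 / 20) ≤ x1) (b1 : x1 ≤ (3 / 10)) (a2 : (3 / 10) ≤ x2) : False := by
  have z0 := C.hq
  have z1 := (line3 C.t0 (sqrt_nonneg _) (sq_sqrt C.n0) (le_trans (by norm_num) a0) (le_trans b0 (by norm_num)))
  have z2 := (line9 C.t1 (sqrt_nonneg _) (sq_sqrt C.n1) a1 b1)
  have z3 := (line19 C.t2 (sqrt_nonneg _) (sq_sqrt C.n2) (le_trans (by norm_num) a2) (by linarith [C.o1, C.o2, C.o3, C.o4, C.o5]))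
  have z4 := (line19 C.t3 (sqrt_nonneg _) (sq_sqrt C.n3) (le_trans (by norm_num) C.e3) (C.o4.trans C.o5))
  have z5 := (line21 C.t3 (sqrt_nonneg _) (sq_sqrt C.n3) (C.o4.trans C.o5))
  have z6 := (line19 C.t4 (sqrt_nonneg _) (sq_sqrt C.n4) (le_trans (by norm_num) C.e4) C.o5)
  have z7 := (line21 C.t4 (sqrt_nonneg _) (sq_sqrt C.n4) C.o5)
  have z8 := c1
  have z9 := c2
  linarith only [C.hS, C.n0, C.n1, C.n2, C.n3, C.n4, z0, z1, z2, z3, z4, z5, z6, z7, z8, z9]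

lemma Cfg.leaf_ii_1_5_1 (c1 : x1 ≤ 3 * x0) (c2 : x2 ≤ 77 / 10 * x0 + 212 / 100 * x1)
    (a0 : (7 / 200) ≤ x0) (b0 : x0 ≤ (1 / 20)) (a1 : (3 / 10) ≤ x1) (a2 : (3 / 10) ≤ x2) : False := by
  have z0 := b0
  have z1 := a1
  have z2 := c1
  linarith only [C.hS, C.n0, C.n1, C.n2, C.n3, C.n4, z0, z1, z2]

lemma Cfg.leaf_ii_2_1_0 (c1 : x1 ≤ 3 * x0) (c2 : x2 ≤ 77 / 10 * x0 + 212 / 100 * x1)
    (a0 : (1 / 20) ≤ x0) (b0 : x0 ≤ (2 / 25)) (a1 : (3 / 100) ≤ x1) (b1 : x1 ≤ (3 / 50)) (a2 : 0 ≤ x2) (b2 : x2 ≤ (3 / 10)) : False := by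
  have z0 := C.hq
  have z1 := (line5 C.t0 (sqrt_nonneg _) (sq_sqrt C.n0) a0 b0)
  have z2 := (line3 C.t1 (sqrt_nonneg _) (sq_sqrt C.n1) a1 b1)
  have z3 := (line2 C.t2 (sqrt_nonneg _) (sq_sqrt C.n2) b2)
  have z4 := (line21 C.t3 (sqrt_nonneg _) (sq_sqrt C.n3) (C.o4.trans C.o5))
  have z5 := (line21 C.t4 (sqrt_nonneg _) (sq_sqrt C.n4) C.o5)
  linarith only [C.hS, C.n0, C.n1, C.n2, C.n3, C.n4, z0, z1, z2, z3, z4, z5]

lemma Cfg.leaf_ii_2_1_1 (c1 : x1 ≤ 3 * x0) (c2 : x2 ≤ 77 / 10 * x0 + 212 / 100 * x1)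
    (a0 : (1 / 20) ≤ x0) (b0 : x0 ≤ (2 / 25)) (a1 : (3 / 100) ≤ x1) (b1 : x1 ≤ (3 / 50)) (a2 : (3 / 10) ≤ x2) : False := by
  have z0 := C.o1
  have z1 := C.hq
  have z2 := (line5 C.t0 (sqrt_nonneg _) (sq_sqrt C.n0) a0 b0)
  have z3 := (line3 C.t1 (sqrt_nonneg _) (sq_sqrt C.n1) a1 b1)
  have z4 := (line10 C.t2 (sqrt_nonneg _) (sq_sqrt C.n2) a2 (by linarith [C.o1, C.o2, C.o3, C.o4, C.o5]))
  have z5 := (line10 C.t3 (sqrt_nonneg _) (sq_sqrt C.n3) (le_trans (by norm_num) C.e3) (C.o4.trans C.o5))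
  have z6 := (line19 C.t3 (sqrt_nonneg _) (sq_sqrt C.n3) (le_trans (by norm_num) C.e3) (C.o4.trans C.o5))
  have z7 := (line10 C.t4 (sqrt_nonneg _) (sq_sqrt C.n4) (le_trans (by norm_num) C.e4) C.o5)
  have z8 := (line19 C.t4 (sqrt_nonneg _) (sq_sqrt C.n4) (le_trans (by norm_num) C.e4) C.o5)
  have z9 := c2
  linarith only [C.hS, C.n0, C.n1, C.n2, C.n3, C.n4, z0, z1, z2, z3, z4, z5, z6, z7, z8, z9]

lemma Cfg.leaf_ii_2_2_0 (c1 : x1 ≤ 3 * x0) (c2 : x2 ≤ 77 / 10 * x0 + 212 / 100 * x1)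
    (a0 : (1 / 20) ≤ x0) (b0 : x0 ≤ (2 / 25)) (a1 : (3 / 50) ≤ x1) (b1 : x1 ≤ (1 / 10)) (a2 : 0 ≤ x2) (b2 : x2 ≤ (3 / 10)) : False := by
  have z0 := C.hq
  have z1 := (line5 C.t0 (sqrt_nonneg _) (sq_sqrt C.n0) a0 b0)
  have z2 := (line6 C.t1 (sqrt_nonneg _) (sq_sqrt C.n1) a1 b1)
  have z3 := (line2 C.t2 (sqrt_nonneg _) (sq_sqrt C.n2) b2)
  have z4 := (line21 C.t3 (sqrt_nonneg _) (sq_sqrt C.n3) (C.o4.trans C.o5))
  have z5 := (line21 C.t4 (sqrt_nonneg _) (sq_sqrt C.n4) C.o5)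
  linarith only [C.hS, C.n0, C.n1, C.n2, C.n3, C.n4, z0, z1, z2, z3, z4, z5]

lemma Cfg.leaf_ii_2_2_1 (c1 : x1 ≤ 3 * x0) (c2 : x2 ≤ 77 / 10 * x0 + 212 / 100 * x1)
    (a0 : (1 / 20) ≤ x0) (b0 : x0 ≤ (2 / 25)) (a1 : (3 / 50) ≤ x1) (b1 : x1 ≤ (1 / 10)) (a2 : (3 / 10) ≤ x2) : False := by
  have z0 := C.hq
  have z1 := (line5 C.t0 (sqrt_nonneg _) (sq_sqrt C.n0) a0 b0)
  have z2 := (line6 C.t1 (sqrt_nonneg _) (sq_sqrt C.n1) a1 b1)
  have z3 := (line15 C.t1 (sqrt_nonneg _) (sq_sqrt C.n1) a1 (le_trans b1 (by norm_num)))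
  have z4 := (line19 C.t2 (sqrt_nonneg _) (sq_sqrt C.n2) (le_trans (by norm_num) a2) (by linarith [C.o1, C.o2, C.o3, C.o4, C.o5]))
  have z5 := (line19 C.t3 (sqrt_nonneg _) (sq_sqrt C.n3) (le_trans (by norm_num) C.e3) (C.o4.trans C.o5))
  have z6 := (line21 C.t3 (sqrt_nonneg _) (sq_sqrt C.n3) (C.o4.trans C.o5))
  have z7 := (line19 C.t4 (sqrt_nonneg _) (sq_sqrt C.n4) (le_trans (by norm_num) C.e4) C.o5)
  have z8 := (line21 C.t4 (sqrt_nonneg _) (sq_sqrt C.n4) C.o5)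
  have z9 := c2
  linarith only [C.hS, C.n0, C.n1, C.n2, C.n3, C.n4, z0, z1, z2, z3, z4, z5, z6, z7, z8, z9]

lemma Cfg.leaf_ii_2_3_0 (c1 : x1 ≤ 3 * x0) (c2 : x2 ≤ 77 / 10 * x0 + 212 / 100 * x1)
    (a0 : (1 / 20) ≤ x0) (b0 : x0 ≤ (2 / 25)) (a1 : (1 / 10) ≤ x1) (b1 : x1 ≤ (3 / 20)) (a2 : 0 ≤ x2) (b2 : x2 ≤ (3 / 10)) : False := by
  have z0 := C.hq
  have z1 := (line5 C.t0 (sqrt_nonneg _) (sq_sqrt C.n0) a0 b0)
  have z2 := (line8 C.t1 (sqrt_nonneg _) (sq_sqrt C.n1) a1 b1)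
  have z3 := (line2 C.t2 (sqrt_nonneg _) (sq_sqrt C.n2) b2)
  have z4 := (line19 C.t3 (sqrt_nonneg _) (sq_sqrt C.n3) (le_trans (by norm_num) C.e3) (C.o4.trans C.o5))
  have z5 := (line21 C.t3 (sqrt_nonneg _) (sq_sqrt C.n3) (C.o4.trans C.o5))
  have z6 := (line19 C.t4 (sqrt_nonneg _) (sq_sqrt C.n4) (le_trans (by norm_num) C.e4) C.o5)
  have z7 := (line21 C.t4 (sqrt_nonneg _) (sq_sqrt C.n4) C.o5)
  have z8 := c1
  linarith only [C.hS, C.n0, C.n1, C.n2, C.n3, C.n4, z0, z1, z2, z3, z4, z5, z6, z7, z8]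

lemma Cfg.leaf_ii_2_3_1 (c1 : x1 ≤ 3 * x0) (c2 : x2 ≤ 77 / 10 * x0 + 212 / 100 * x1)
    (a0 : (1 / 20) ≤ x0) (b0 : x0 ≤ (2 / 25)) (a1 : (1 / 10) ≤ x1) (b1 : x1 ≤ (3 / 20)) (a2 : (3 / 10) ≤ x2) : False := by
  have z0 := C.hq
  have z1 := (line5 C.t0 (sqrt_nonneg _) (sq_sqrt C.n0) a0 b0)
  have z2 := (line8 C.t1 (sqrt_nonneg _) (sq_sqrt C.n1) a1 b1)
  have z3 := (line19 C.t2 (sqrt_nonneg _) (sq_sqrt C.n2) (le_trans (by norm_num) a2) (by linarith [C.o1, C.o2, C.o3, C.o4, C.o5]))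
  have z4 := (line19 C.t3 (sqrt_nonneg _) (sq_sqrt C.n3) (le_trans (by norm_num) C.e3) (C.o4.trans C.o5))
  have z5 := (line21 C.t3 (sqrt_nonneg _) (sq_sqrt C.n3) (C.o4.trans C.o5))
  have z6 := (line19 C.t4 (sqrt_nonneg _) (sq_sqrt C.n4) (le_trans (by norm_num) C.e4) C.o5)
  have z7 := (line21 C.t4 (sqrt_nonneg _) (sq_sqrt C.n4) C.o5)
  have z8 := c2
  linarith only [C.hS, C.n0, C.n1, C.n2, C.n3, C.n4, z0, z1, z2, z3, z4, z5, z6, z7, z8]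

lemma Cfg.leaf_ii_2_4_0 (c1 : x1 ≤ 3 * x0) (c2 : x2 ≤ 77 / 10 * x0 + 212 / 100 * x1)
    (a0 : (1 / 20) ≤ x0) (b0 : x0 ≤ (2 / 25)) (a1 : (3 / 20) ≤ x1) (b1 : x1 ≤ (3 / 10)) (a2 : 0 ≤ x2) (b2 : x2 ≤ (3 / 10)) : False := by
  have z0 := C.hq
  have z1 := (line5 C.t0 (sqrt_nonneg _) (sq_sqrt C.n0) a0 b0)
  have z2 := (line2 C.t1 (sqrt_nonneg _) (sq_sqrt C.n1) b1)
  have z3 := (line19 C.t1 (sqrt_nonneg _) (sq_sqrt C.n1) (le_trans (by norm_num) a1) (le_trans b1 (by norm_num)))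
  have z4 := (line2 C.t2 (sqrt_nonneg _) (sq_sqrt C.n2) b2)
  have z5 := (line21 C.t3 (sqrt_nonneg _) (sq_sqrt C.n3) (C.o4.trans C.o5))
  have z6 := (line21 C.t4 (sqrt_nonneg _) (sq_sqrt C.n4) C.o5)
  linarith only [C.hS, C.n0, C.n1, C.n2, C.n3, C.n4, z0, z1, z2, z3, z4, z5, z6]

lemma Cfg.leaf_ii_2_4_1 (c1 : x1 ≤ 3 * x0) (c2 : x2 ≤ 77 / 10 * x0 + 212 / 100 * x1)
    (a0 : (1 / 20) ≤ x0) (b0 : x0 ≤ (2 / 25)) (a1 : (3 / 20) ≤ x1) (b1 : x1 ≤ (3 / 10)) (a2 : (3 / 10) ≤ x2) : False := by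
  have z0 := C.hq
  have z1 := (line5 C.t0 (sqrt_nonneg _) (sq_sqrt C.n0) a0 b0)
  have z2 := (line9 C.t1 (sqrt_nonneg _) (sq_sqrt C.n1) a1 b1)
  have z3 := (line19 C.t2 (sqrt_nonneg _) (sq_sqrt C.n2) (le_trans (by norm_num) a2) (by linarith [C.o1, C.o2, C.o3, C.o4, C.o5]))
  have z4 := (line19 C.t3 (sqrt_nonneg _) (sq_sqrt C.n3) (le_trans (by norm_num) C.e3) (C.o4.trans C.o5))
  have z5 := (line19 C.t4 (sqrt_nonneg _) (sq_sqrt C.n4) (le_trans (by norm_num) C.e4) C.o5)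
  have z6 := c1
  linarith only [C.hS, C.n0, C.n1, C.n2, C.n3, C.n4, z0, z1, z2, z3, z4, z5, z6]

lemma Cfg.leaf_ii_2_5_1 (c1 : x1 ≤ 3 * x0) (c2 : x2 ≤ 77 / 10 * x0 + 212 / 100 * x1)
    (a0 : (1 / 20) ≤ x0) (b0 : x0 ≤ (2 / 25)) (a1 : (3 / 10) ≤ x1) (a2 : (3 / 10) ≤ x2) : False := by
  have z0 := b0
  have z1 := a1
  have z2 := c1
  linarith only [C.hS, C.n0, C.n1, C.n2, C.n3, C.n4, z0, z1, z2]

lemma Cfg.leaf_ii_3_2_0 (c1 : x1 ≤ 3 * x0) (c2 : x2 ≤ 77 / 10 * x0 + 212 / 100 * x1)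
    (a0 : (2 / 25) ≤ x0) (b0 : x0 ≤ (3 / 10)) (a1 : (3 / 50) ≤ x1) (b1 : x1 ≤ (1 / 10)) (a2 : 0 ≤ x2) (b2 : x2 ≤ (3 / 10)) : False := by
  have z0 := C.hq
  have z1 := (line2 C.t0 (sqrt_nonneg _) (sq_sqrt C.n0) b0)
  have z2 := (line6 C.t1 (sqrt_nonneg _) (sq_sqrt C.n1) a1 b1)
  have z3 := (line2 C.t2 (sqrt_nonneg _) (sq_sqrt C.n2) b2)
  have z4 := (line21 C.t3 (sqrt_nonneg _) (sq_sqrt C.n3) (C.o4.trans C.o5))
  have z5 := (line21 C.t4 (sqrt_nonneg _) (sq_sqrt C.n4) C.o5)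
  linarith only [C.hS, C.n0, C.n1, C.n2, C.n3, C.n4, z0, z1, z2, z3, z4, z5]

lemma Cfg.leaf_ii_3_2_1 (c1 : x1 ≤ 3 * x0) (c2 : x2 ≤ 77 / 10 * x0 + 212 / 100 * x1)
    (a0 : (2 / 25) ≤ x0) (b0 : x0 ≤ (3 / 10)) (a1 : (3 / 50) ≤ x1) (b1 : x1 ≤ (1 / 10)) (a2 : (3 / 10) ≤ x2) : False := by
  have z0 := C.o1
  have z1 := C.hq
  have z2 := (line15 C.t0 (sqrt_nonneg _) (sq_sqrt C.n0) (le_trans (by norm_num) a0) (le_trans b0 (by norm_num)))
  have z3 := (line6 C.t1 (sqrt_nonneg _) (sq_sqrt C.n1) a1 b1)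
  have z4 := (line19 C.t2 (sqrt_nonneg _) (sq_sqrt C.n2) (le_trans (by norm_num) a2) (by linarith [C.o1, C.o2, C.o3, C.o4, C.o5]))
  have z5 := (line19 C.t3 (sqrt_nonneg _) (sq_sqrt C.n3) (le_trans (by norm_num) C.e3) (C.o4.trans C.o5))
  have z6 := (line21 C.t3 (sqrt_nonneg _) (sq_sqrt C.n3) (C.o4.trans C.o5))
  have z7 := (line19 C.t4 (sqrt_nonneg _) (sq_sqrt C.n4) (le_trans (by norm_num) C.e4) C.o5)
  have z8 := (line21 C.t4 (sqrt_nonneg _) (sq_sqrt C.n4) C.o5)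
  have z9 := c2
  linarith only [C.hS, C.n0, C.n1, C.n2, C.n3, C.n4, z0, z1, z2, z3, z4, z5, z6, z7, z8, z9]

lemma Cfg.leaf_ii_3_3_0 (c1 : x1 ≤ 3 * x0) (c2 : x2 ≤ 77 / 10 * x0 + 212 / 100 * x1)
    (a0 : (2 / 25) ≤ x0) (b0 : x0 ≤ (3 / 10)) (a1 : (1 / 10) ≤ x1) (b1 : x1 ≤ (3 / 20)) (a2 : 0 ≤ x2) (b2 : x2 ≤ (3 / 10)) : False := by
  have z0 := C.hq
  have z1 := b1
  have z2 := (line2 C.t0 (sqrt_nonneg _) (sq_sqrt C.n0) b0)
  have z3 := (line8 C.t1 (sqrt_nonneg _) (sq_sqrt C.n1) a1 b1)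
  have z4 := (line2 C.t2 (sqrt_nonneg _) (sq_sqrt C.n2) b2)
  have z5 := (line21 C.t3 (sqrt_nonneg _) (sq_sqrt C.n3) (C.o4.trans C.o5))
  have z6 := (line21 C.t4 (sqrt_nonneg _) (sq_sqrt C.n4) C.o5)
  linarith only [C.hS, C.n0, C.n1, C.n2, C.n3, C.n4, z0, z1, z2, z3, z4, z5, z6]

lemma Cfg.leaf_ii_3_3_1 (c1 : x1 ≤ 3 * x0) (c2 : x2 ≤ 77 / 10 * x0 + 212 / 100 * x1)
    (a0 : (2 / 25) ≤ x0) (b0 : x0 ≤ (3 / 10)) (a1 : (1 / 10) ≤ x1) (b1 : x1 ≤ (3 / 20)) (a2 : (3 / 10) ≤ x2) : False := by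
  have z0 := C.o1
  have z1 := C.hq
  have z2 := (line15 C.t0 (sqrt_nonneg _) (sq_sqrt C.n0) (le_trans (by norm_num) a0) (le_trans b0 (by norm_num)))
  have z3 := (line8 C.t1 (sqrt_nonneg _) (sq_sqrt C.n1) a1 b1)
  have z4 := (line15 C.t2 (sqrt_nonneg _) (sq_sqrt C.n2) (le_trans (by norm_num) a2) (by linarith [C.o1, C.o2, C.o3, C.o4, C.o5]))
  have z5 := (line19 C.t2 (sqrt_nonneg _) (sq_sqrt C.n2) (le_trans (by norm_num) a2) (by linarith [C.o1, C.o2, C.o3, C.o4, C.o5]))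
  have z6 := (line10 C.t3 (sqrt_nonneg _) (sq_sqrt C.n3) (le_trans (by norm_num) C.e3) (C.o4.trans C.o5))
  have z7 := (line19 C.t3 (sqrt_nonneg _) (sq_sqrt C.n3) (le_trans (by norm_num) C.e3) (C.o4.trans C.o5))
  have z8 := (line10 C.t4 (sqrt_nonneg _) (sq_sqrt C.n4) (le_trans (by norm_num) C.e4) C.o5)
  have z9 := (line19 C.t4 (sqrt_nonneg _) (sq_sqrt C.n4) (le_trans (by norm_num) C.e4) C.o5)
  linarith only [C.hS, C.n0, C.n1, C.n2, C.n3, C.n4, z0, z1, z2, z3, z4, z5, z6, z7, z8, z9]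

lemma Cfg.leaf_ii_3_4_0 (c1 : x1 ≤ 3 * x0) (c2 : x2 ≤ 77 / 10 * x0 + 212 / 100 * x1)
    (a0 : (2 / 25) ≤ x0) (b0 : x0 ≤ (3 / 10)) (a1 : (3 / 20) ≤ x1) (b1 : x1 ≤ (3 / 10)) (a2 : 0 ≤ x2) (b2 : x2 ≤ (3 / 10)) : False := by
  have z0 := C.o2
  have z1 := C.hq
  have z2 := (line2 C.t0 (sqrt_nonneg _) (sq_sqrt C.n0) b0)
  have z3 := (line19 C.t0 (sqrt_nonneg _) (sq_sqrt C.n0) (le_trans (by norm_num) a0) (le_trans b0 (by norm_num)))
  have z4 := (line9 C.t1 (sqrt_nonneg _) (sq_sqrt C.n1) a1 b1)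
  have z5 := (line2 C.t2 (sqrt_nonneg _) (sq_sqrt C.n2) b2)
  have z6 := (line19 C.t3 (sqrt_nonneg _) (sq_sqrt C.n3) (le_trans (by norm_num) C.e3) (C.o4.trans C.o5))
  have z7 := (line21 C.t3 (sqrt_nonneg _) (sq_sqrt C.n3) (C.o4.trans C.o5))
  have z8 := (line19 C.t4 (sqrt_nonneg _) (sq_sqrt C.n4) (le_trans (by norm_num) C.e4) C.o5)
  have z9 := (line21 C.t4 (sqrt_nonneg _) (sq_sqrt C.n4) C.o5)
  linarith only [C.hS, C.n0, C.n1, C.n2, C.n3, C.n4, z0, z1, z2, z3, z4, z5, z6, z7, z8, z9]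

lemma Cfg.leaf_ii_3_4_1 (c1 : x1 ≤ 3 * x0) (c2 : x2 ≤ 77 / 10 * x0 + 212 / 100 * x1)
    (a0 : (2 / 25) ≤ x0) (b0 : x0 ≤ (3 / 10)) (a1 : (3 / 20) ≤ x1) (b1 : x1 ≤ (3 / 10)) (a2 : (3 / 10) ≤ x2) : False := by
  have z0 := C.hq
  have z1 := (line2 C.t0 (sqrt_nonneg _) (sq_sqrt C.n0) b0)
  have z2 := (line15 C.t0 (sqrt_nonneg _) (sq_sqrt C.n0) (le_trans (by norm_num) a0) (le_trans b0 (by norm_num)))
  have z3 := (line9 C.t1 (sqrt_nonneg _) (sq_sqrt C.n1) a1 b1)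
  have z4 := (line10 C.t2 (sqrt_nonneg _) (sq_sqrt C.n2) a2 (by linarith [C.o1, C.o2, C.o3, C.o4, C.o5]))
  have z5 := (line19 C.t2 (sqrt_nonneg _) (sq_sqrt C.n2) (le_trans (by norm_num) a2) (by linarith [C.o1, C.o2, C.o3, C.o4, C.o5]))
  have z6 := (line10 C.t3 (sqrt_nonneg _) (sq_sqrt C.n3) (le_trans (by norm_num) C.e3) (C.o4.trans C.o5))
  have z7 := (line19 C.t3 (sqrt_nonneg _) (sq_sqrt C.n3) (le_trans (by norm_num) C.e3) (C.o4.trans C.o5))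
  have z8 := (line10 C.t4 (sqrt_nonneg _) (sq_sqrt C.n4) (le_trans (by norm_num) C.e4) C.o5)
  have z9 := (line19 C.t4 (sqrt_nonneg _) (sq_sqrt C.n4) (le_trans (by norm_num) C.e4) C.o5)
  linarith only [C.hS, C.n0, C.n1, C.n2, C.n3, C.n4, z0, z1, z2, z3, z4, z5, z6, z7, z8, z9]

lemma Cfg.leaf_ii_3_5_1 (c1 : x1 ≤ 3 * x0) (c2 : x2 ≤ 77 / 10 * x0 + 212 / 100 * x1)
    (a0 : (2 / 25) ≤ x0) (b0 : x0 ≤ (3 / 10)) (a1 : (3 / 10) ≤ x1) (a2 : (3 / 10) ≤ x2) : False := by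
  have z0 := C.hq
  have z1 := (line15 C.t0 (sqrt_nonneg _) (sq_sqrt C.n0) (le_trans (by norm_num) a0) (le_trans b0 (by norm_num)))
  have z2 := (line10 C.t1 (sqrt_nonneg _) (sq_sqrt C.n1) a1 (by linarith [C.o1, C.o2, C.o3, C.o4, C.o5]))
  have z3 := (line10 C.t2 (sqrt_nonneg _) (sq_sqrt C.n2) a2 (by linarith [C.o1, C.o2, C.o3, C.o4, C.o5]))
  have z4 := (line10 C.t3 (sqrt_nonneg _) (sq_sqrt C.n3) (le_trans (by norm_num) C.e3) (C.o4.trans C.o5))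
  have z5 := (line10 C.t4 (sqrt_nonneg _) (sq_sqrt C.n4) (le_trans (by norm_num) C.e4) C.o5)
  linarith only [C.hS, C.n0, C.n1, C.n2, C.n3, C.n4, z0, z1, z2, z3, z4, z5]

lemma Cfg.leaf_ii_4_5_1 (c1 : x1 ≤ 3 * x0) (c2 : x2 ≤ 77 / 10 * x0 + 212 / 100 * x1)
    (a0 : (3 / 10) ≤ x0) (a1 : (3 / 10) ≤ x1) (a2 : (3 / 10) ≤ x2) : False := by
  have z0 := C.hq
  have z1 := (line15 C.t0 (sqrt_nonneg _) (sq_sqrt C.n0) (le_trans (by norm_num) a0) (by linarith [C.o1, C.o2, C.o3, C.o4, C.o5]))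
  have z2 := (line10 C.t1 (sqrt_nonneg _) (sq_sqrt C.n1) a1 (by linarith [C.o1, C.o2, C.o3, C.o4, C.o5]))
  have z3 := (line10 C.t2 (sqrt_nonneg _) (sq_sqrt C.n2) a2 (by linarith [C.o1, C.o2, C.o3, C.o4, C.o5]))
  have z4 := (line10 C.t3 (sqrt_nonneg _) (sq_sqrt C.n3) (le_trans (by norm_num) C.e3) (C.o4.trans C.o5))
  have z5 := (line10 C.t4 (sqrt_nonneg _) (sq_sqrt C.n4) (le_trans (by norm_num) C.e4) C.o5)
  linarith only [C.hS, C.n0, C.n1, C.n2, C.n3, C.n4, z0, z1, z2, z3, z4, z5]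

lemma Cfg.leaf_i_0_0_0 (c1 : 3 * x0 ≤ x1) (c2 : x2 ≤ 98 / 10 * x0)
    (a0 : 0 ≤ x0) (b0 : x0 ≤ (7 / 200)) (a1 : 0 ≤ x1) (b1 : x1 ≤ (3 / 100)) (a2 : 0 ≤ x2) (b2 : x2 ≤ (3 / 10)) : False := by
  have z0 := C.o4
  have z1 := C.o5
  have z2 := b1
  have z3 := c1
  have z4 := c2
  linarith only [C.hS, C.n0, C.n1, C.n2, C.n3, C.n4, z0, z1, z2, z3, z4]

lemma Cfg.leaf_i_0_0_1 (c1 : 3 * x0 ≤ x1) (c2 : x2 ≤ 98 / 10 * x0)
    (a0 : 0 ≤ x0) (b0 : x0 ≤ (7 / 200)) (a1 : 0 ≤ x1) (b1 : x1 ≤ (3 / 100)) (a2 : (3 / 10) ≤ x2) : False := by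
  have z0 := b1
  have z1 := a2
  have z2 := c1
  have z3 := c2
  linarith only [C.hS, C.n0, C.n1, C.n2, C.n3, C.n4, z0, z1, z2, z3]

lemma Cfg.leaf_i_0_1_0 (c1 : 3 * x0 ≤ x1) (c2 : x2 ≤ 98 / 10 * x0)
    (a0 : 0 ≤ x0) (b0 : x0 ≤ (7 / 200)) (a1 : (3 / 100) ≤ x1) (b1 : x1 ≤ (3 / 50)) (a2 : 0 ≤ x2) (b2 : x2 ≤ (3 / 10)) : False := by
  have z0 := C.o4
  have z1 := C.o5
  have z2 := C.hq
  have z3 := (line2 C.t0 (sqrt_nonneg _) (sq_sqrt C.n0) (le_trans b0 (by norm_num)))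
  have z4 := (line3 C.t1 (sqrt_nonneg _) (sq_sqrt C.n1) a1 b1)
  have z5 := (line2 C.t2 (sqrt_nonneg _) (sq_sqrt C.n2) b2)
  have z6 := (line21 C.t3 (sqrt_nonneg _) (sq_sqrt C.n3) (C.o4.trans C.o5))
  have z7 := (line21 C.t4 (sqrt_nonneg _) (sq_sqrt C.n4) C.o5)
  linarith only [C.hS, C.n0, C.n1, C.n2, C.n3, C.n4, z0, z1, z2, z3, z4, z5, z6, z7]

lemma Cfg.leaf_i_0_1_1 (c1 : 3 * x0 ≤ x1) (c2 : x2 ≤ 98 / 10 * x0)
    (a0 : 0 ≤ x0) (b0 : x0 ≤ (7 / 200)) (a1 : (3 / 100) ≤ x1) (b1 : x1 ≤ (3 / 50)) (a2 : (3 / 10) ≤ x2) : False := by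
  have z0 := b1
  have z1 := a2
  have z2 := c1
  have z3 := c2
  linarith only [C.hS, C.n0, C.n1, C.n2, C.n3, C.n4, z0, z1, z2, z3]

lemma Cfg.leaf_i_0_2_0 (c1 : 3 * x0 ≤ x1) (c2 : x2 ≤ 98 / 10 * x0)
    (a0 : 0 ≤ x0) (b0 : x0 ≤ (7 / 200)) (a1 : (3 / 50) ≤ x1) (b1 : x1 ≤ (1 / 10)) (a2 : 0 ≤ x2) (b2 : x2 ≤ (3 / 10)) : False := by
  have z0 := C.hq
  have z1 := (line2 C.t0 (sqrt_nonneg _) (sq_sqrt C.n0) (le_trans b0 (by norm_num)))
  have z2 := (line6 C.t1 (sqrt_nonneg _) (sq_sqrt C.n1) a1 b1)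
  have z3 := (line2 C.t2 (sqrt_nonneg _) (sq_sqrt C.n2) b2)
  have z4 := (line21 C.t3 (sqrt_nonneg _) (sq_sqrt C.n3) (C.o4.trans C.o5))
  have z5 := (line21 C.t4 (sqrt_nonneg _) (sq_sqrt C.n4) C.o5)
  linarith only [C.hS, C.n0, C.n1, C.n2, C.n3, C.n4, z0, z1, z2, z3, z4, z5]

lemma Cfg.leaf_i_0_2_1 (c1 : 3 * x0 ≤ x1) (c2 : x2 ≤ 98 / 10 * x0)
    (a0 : 0 ≤ x0) (b0 : x0 ≤ (7 / 200)) (a1 : (3 / 50) ≤ x1) (b1 : x1 ≤ (1 / 10)) (a2 : (3 / 10) ≤ x2) : False := by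
  have z0 := C.hq
  have z1 := (line1 C.t0 (sqrt_nonneg _) (sq_sqrt C.n0) b0)
  have z2 := (line6 C.t1 (sqrt_nonneg _) (sq_sqrt C.n1) a1 b1)
  have z3 := (line19 C.t2 (sqrt_nonneg _) (sq_sqrt C.n2) (le_trans (by norm_num) a2) (by linarith [C.o1, C.o2, C.o3, C.o4, C.o5]))
  have z4 := (line21 C.t3 (sqrt_nonneg _) (sq_sqrt C.n3) (C.o4.trans C.o5))
  have z5 := (line21 C.t4 (sqrt_nonneg _) (sq_sqrt C.n4) C.o5)
  have z6 := c1
  have z7 := c2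
  linarith only [C.hS, C.n0, C.n1, C.n2, C.n3, C.n4, z0, z1, z2, z3, z4, z5, z6, z7]

lemma Cfg.leaf_i_0_3_0 (c1 : 3 * x0 ≤ x1) (c2 : x2 ≤ 98 / 10 * x0)
    (a0 : 0 ≤ x0) (b0 : x0 ≤ (7 / 200)) (a1 : (1 / 10) ≤ x1) (b1 : x1 ≤ (3 / 20)) (a2 : 0 ≤ x2) (b2 : x2 ≤ (3 / 10)) : False := by
  have z0 := C.hq
  have z1 := b1
  have z2 := (line2 C.t0 (sqrt_nonneg _) (sq_sqrt C.n0) (le_trans b0 (by norm_num)))
  have z3 := (line8 C.t1 (sqrt_nonneg _) (sq_sqrt C.n1) a1 b1)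
  have z4 := (line2 C.t2 (sqrt_nonneg _) (sq_sqrt C.n2) b2)
  have z5 := (line21 C.t3 (sqrt_nonneg _) (sq_sqrt C.n3) (C.o4.trans C.o5))
  have z6 := (line21 C.t4 (sqrt_nonneg _) (sq_sqrt C.n4) C.o5)
  linarith only [C.hS, C.n0, C.n1, C.n2, C.n3, C.n4, z0, z1, z2, z3, z4, z5, z6]

lemma Cfg.leaf_i_0_3_1 (c1 : 3 * x0 ≤ x1) (c2 : x2 ≤ 98 / 10 * x0)
    (a0 : 0 ≤ x0) (b0 : x0 ≤ (7 / 200)) (a1 : (1 / 10) ≤ x1) (b1 : x1 ≤ (3 / 20)) (a2 : (3 / 10) ≤ x2) : False := by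
  have z0 := C.hq
  have z1 := (line1 C.t0 (sqrt_nonneg _) (sq_sqrt C.n0) b0)
  have z2 := (line8 C.t1 (sqrt_nonneg _) (sq_sqrt C.n1) a1 b1)
  have z3 := (line15 C.t2 (sqrt_nonneg _) (sq_sqrt C.n2) (le_trans (by norm_num) a2) (by linarith [C.o1, C.o2, C.o3, C.o4, C.o5]))
  have z4 := (line19 C.t3 (sqrt_nonneg _) (sq_sqrt C.n3) (le_trans (by norm_num) C.e3) (C.o4.trans C.o5))
  have z5 := (line21 C.t3 (sqrt_nonneg _) (sq_sqrt C.n3) (C.o4.trans C.o5))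
  have z6 := (line19 C.t4 (sqrt_nonneg _) (sq_sqrt C.n4) (le_trans (by norm_num) C.e4) C.o5)
  have z7 := (line21 C.t4 (sqrt_nonneg _) (sq_sqrt C.n4) C.o5)
  have z8 := c2
  linarith only [C.hS, C.n0, C.n1, C.n2, C.n3, C.n4, z0, z1, z2, z3, z4, z5, z6, z7, z8]

lemma Cfg.leaf_i_0_4_0 (c1 : 3 * x0 ≤ x1) (c2 : x2 ≤ 98 / 10 * x0)
    (a0 : 0 ≤ x0) (b0 : x0 ≤ (7 / 200)) (a1 : (3 / 20) ≤ x1) (b1 : x1 ≤ (3 / 10)) (a2 : 0 ≤ x2) (b2 : x2 ≤ (3 / 10)) : False := by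
  have z0 := C.o2
  have z1 := C.hq
  have z2 := (line1 C.t0 (sqrt_nonneg _) (sq_sqrt C.n0) b0)
  have z3 := (line15 C.t1 (sqrt_nonneg _) (sq_sqrt C.n1) (le_trans (by norm_num) a1) (le_trans b1 (by norm_num)))
  have z4 := (line2 C.t2 (sqrt_nonneg _) (sq_sqrt C.n2) b2)
  have z5 := (line19 C.t3 (sqrt_nonneg _) (sq_sqrt C.n3) (le_trans (by norm_num) C.e3) (C.o4.trans C.o5))
  have z6 := (line21 C.t3 (sqrt_nonneg _) (sq_sqrt C.n3) (C.o4.trans C.o5))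
  have z7 := (line19 C.t4 (sqrt_nonneg _) (sq_sqrt C.n4) (le_trans (by norm_num) C.e4) C.o5)
  have z8 := (line21 C.t4 (sqrt_nonneg _) (sq_sqrt C.n4) C.o5)
  have z9 := c2
  linarith only [C.hS, C.n0, C.n1, C.n2, C.n3, C.n4, z0, z1, z2, z3, z4, z5, z6, z7, z8, z9]

lemma Cfg.leaf_i_0_4_1 (c1 : 3 * x0 ≤ x1) (c2 : x2 ≤ 98 / 10 * x0)
    (a0 : 0 ≤ x0) (b0 : x0 ≤ (7 / 200)) (a1 : (3 / 20) ≤ x1) (b1 : x1 ≤ (3 / 10)) (a2 : (3 / 10) ≤ x2) : False := by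
  have z0 := C.hq
  have z1 := (line1 C.t0 (sqrt_nonneg _) (sq_sqrt C.n0) b0)
  have z2 := (line2 C.t1 (sqrt_nonneg _) (sq_sqrt C.n1) b1)
  have z3 := (line19 C.t1 (sqrt_nonneg _) (sq_sqrt C.n1) (le_trans (by norm_num) a1) (le_trans b1 (by norm_num)))
  have z4 := (line10 C.t2 (sqrt_nonneg _) (sq_sqrt C.n2) a2 (by linarith [C.o1, C.o2, C.o3, C.o4, C.o5]))
  have z5 := (line19 C.t3 (sqrt_nonneg _) (sq_sqrt C.n3) (le_trans (by norm_num) C.e3) (C.o4.trans C.o5))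
  have z6 := (line21 C.t3 (sqrt_nonneg _) (sq_sqrt C.n3) (C.o4.trans C.o5))
  have z7 := (line19 C.t4 (sqrt_nonneg _) (sq_sqrt C.n4) (le_trans (by norm_num) C.e4) C.o5)
  have z8 := (line21 C.t4 (sqrt_nonneg _) (sq_sqrt C.n4) C.o5)
  have z9 := c2
  linarith only [C.hS, C.n0, C.n1, C.n2, C.n3, C.n4, z0, z1, z2, z3, z4, z5, z6, z7, z8, z9]

lemma Cfg.leaf_i_0_5_1 (c1 : 3 * x0 ≤ x1) (c2 : x2 ≤ 98 / 10 * x0)
    (a0 : 0 ≤ x0) (b0 : x0 ≤ (7 / 200)) (a1 : (3 / 10) ≤ x1) (a2 : (3 / 10) ≤ x2) : False := by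
  have z0 := C.o2
  have z1 := C.hq
  have z2 := (line1 C.t0 (sqrt_nonneg _) (sq_sqrt C.n0) b0)
  have z3 := (line10 C.t1 (sqrt_nonneg _) (sq_sqrt C.n1) a1 (by linarith [C.o1, C.o2, C.o3, C.o4, C.o5]))
  have z4 := (line10 C.t2 (sqrt_nonneg _) (sq_sqrt C.n2) a2 (by linarith [C.o1, C.o2, C.o3, C.o4, C.o5]))
  have z5 := (line19 C.t3 (sqrt_nonneg _) (sq_sqrt C.n3) (le_trans (by norm_num) C.e3) (C.o4.trans C.o5))
  have z6 := (line19 C.t4 (sqrt_nonneg _) (sq_sqrt C.n4) (le_trans (by norm_num) C.e4) C.o5)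
  have z7 := c2
  linarith only [C.hS, C.n0, C.n1, C.n2, C.n3, C.n4, z0, z1, z2, z3, z4, z5, z6, z7]

lemma Cfg.leaf_i_1_1_0 (c1 : 3 * x0 ≤ x1) (c2 : x2 ≤ 98 / 10 * x0)
    (a0 : (7 / 200) ≤ x0) (b0 : x0 ≤ (1 / 20)) (a1 : (3 / 100) ≤ x1) (b1 : x1 ≤ (3 / 50)) (a2 : 0 ≤ x2) (b2 : x2 ≤ (3 / 10)) : False := by
  have z0 := a0
  have z1 := b1
  have z2 := c1
  linarith only [C.hS, C.n0, C.n1, C.n2, C.n3, C.n4, z0, z1, z2]

lemma Cfg.leaf_i_1_1_1 (c1 : 3 * x0 ≤ x1) (c2 : x2 ≤ 98 / 10 * x0)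
    (a0 : (7 / 200) ≤ x0) (b0 : x0 ≤ (1 / 20)) (a1 : (3 / 100) ≤ x1) (b1 : x1 ≤ (3 / 50)) (a2 : (3 / 10) ≤ x2) : False := by
  have z0 := b1
  have z1 := a2
  have z2 := c1
  have z3 := c2
  linarith only [C.hS, C.n0, C.n1, C.n2, C.n3, C.n4, z0, z1, z2, z3]

lemma Cfg.leaf_i_1_2_0 (c1 : 3 * x0 ≤ x1) (c2 : x2 ≤ 98 / 10 * x0)
    (a0 : (7 / 200) ≤ x0) (b0 : x0 ≤ (1 / 20)) (a1 : (3 / 50) ≤ x1) (b1 : x1 ≤ (1 / 10)) (a2 : 0 ≤ x2) (b2 : x2 ≤ (3 / 10)) : False := by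
  have z0 := a0
  have z1 := b1
  have z2 := c1
  linarith only [C.hS, C.n0, C.n1, C.n2, C.n3, C.n4, z0, z1, z2]

lemma Cfg.leaf_i_1_2_1 (c1 : 3 * x0 ≤ x1) (c2 : x2 ≤ 98 / 10 * x0)
    (a0 : (7 / 200) ≤ x0) (b0 : x0 ≤ (1 / 20)) (a1 : (3 / 50) ≤ x1) (b1 : x1 ≤ (1 / 10)) (a2 : (3 / 10) ≤ x2) : False := by
  have z0 := a0
  have z1 := b1
  have z2 := c1
  linarith only [C.hS, C.n0, C.n1, C.n2, C.n3, C.n4, z0, z1, z2]

lemma Cfg.leaf_i_1_3_0 (c1 : 3 * x0 ≤ x1) (c2 : x2 ≤ 98 / 10 * x0)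
    (a0 : (7 / 200) ≤ x0) (b0 : x0 ≤ (1 / 20)) (a1 : (1 / 10) ≤ x1) (b1 : x1 ≤ (3 / 20)) (a2 : 0 ≤ x2) (b2 : x2 ≤ (3 / 10)) : False := by
  have z0 := C.hq
  have z1 := (line3 C.t0 (sqrt_nonneg _) (sq_sqrt C.n0) (le_trans (by norm_num) a0) (le_trans b0 (by norm_num)))
  have z2 := (line2 C.t1 (sqrt_nonneg _) (sq_sqrt C.n1) (le_trans b1 (by norm_num)))
  have z3 := (line15 C.t1 (sqrt_nonneg _) (sq_sqrt C.n1) (le_trans (by norm_num) a1) (le_trans b1 (by norm_num)))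
  have z4 := (line2 C.t2 (sqrt_nonneg _) (sq_sqrt C.n2) b2)
  have z5 := (line21 C.t3 (sqrt_nonneg _) (sq_sqrt C.n3) (C.o4.trans C.o5))
  have z6 := (line21 C.t4 (sqrt_nonneg _) (sq_sqrt C.n4) C.o5)
  linarith only [C.hS, C.n0, C.n1, C.n2, C.n3, C.n4, z0, z1, z2, z3, z4, z5, z6]

lemma Cfg.leaf_i_1_3_1 (c1 : 3 * x0 ≤ x1) (c2 : x2 ≤ 98 / 10 * x0)
    (a0 : (7 / 200) ≤ x0) (b0 : x0 ≤ (1 / 20)) (a1 : (1 / 10) ≤ x1) (b1 : x1 ≤ (3 / 20)) (a2 : (3 / 10) ≤ x2) : False := by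
  have z0 := C.hq
  have z1 := (line3 C.t0 (sqrt_nonneg _) (sq_sqrt C.n0) (le_trans (by norm_num) a0) (le_trans b0 (by norm_num)))
  have z2 := (line8 C.t1 (sqrt_nonneg _) (sq_sqrt C.n1) a1 b1)
  have z3 := (line19 C.t2 (sqrt_nonneg _) (sq_sqrt C.n2) (le_trans (by norm_num) a2) (by linarith [C.o1, C.o2, C.o3, C.o4, C.o5]))
  have z4 := (line19 C.t3 (sqrt_nonneg _) (sq_sqrt C.n3) (le_trans (by norm_num) C.e3) (C.o4.trans C.o5))
  have z5 := (line21 C.t3 (sqrt_nonneg _) (sq_sqrt C.n3) (C.o4.trans C.o5))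
  have z6 := (line19 C.t4 (sqrt_nonneg _) (sq_sqrt C.n4) (le_trans (by norm_num) C.e4) C.o5)
  have z7 := (line21 C.t4 (sqrt_nonneg _) (sq_sqrt C.n4) C.o5)
  have z8 := c2
  linarith only [C.hS, C.n0, C.n1, C.n2, C.n3, C.n4, z0, z1, z2, z3, z4, z5, z6, z7, z8]

lemma Cfg.leaf_i_1_4_0 (c1 : 3 * x0 ≤ x1) (c2 : x2 ≤ 98 / 10 * x0)
    (a0 : (7 / 200) ≤ x0) (b0 : x0 ≤ (1 / 20)) (a1 : (3 / 20) ≤ x1) (b1 : x1 ≤ (3 / 10)) (a2 : 0 ≤ x2) (b2 : x2 ≤ (3 / 10)) : False := by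
  have z0 := C.hq
  have z1 := (line3 C.t0 (sqrt_nonneg _) (sq_sqrt C.n0) (le_trans (by norm_num) a0) (le_trans b0 (by norm_num)))
  have z2 := (line2 C.t1 (sqrt_nonneg _) (sq_sqrt C.n1) b1)
  have z3 := (line15 C.t1 (sqrt_nonneg _) (sq_sqrt C.n1) (le_trans (by norm_num) a1) (le_trans b1 (by norm_num)))
  have z4 := (line2 C.t2 (sqrt_nonneg _) (sq_sqrt C.n2) b2)
  have z5 := (line21 C.t3 (sqrt_nonneg _) (sq_sqrt C.n3) (C.o4.trans C.o5))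
  have z6 := (line21 C.t4 (sqrt_nonneg _) (sq_sqrt C.n4) C.o5)
  linarith only [C.hS, C.n0, C.n1, C.n2, C.n3, C.n4, z0, z1, z2, z3, z4, z5, z6]

lemma Cfg.leaf_i_1_4_1 (c1 : 3 * x0 ≤ x1) (c2 : x2 ≤ 98 / 10 * x0)
    (a0 : (7 / 200) ≤ x0) (b0 : x0 ≤ (1 / 20)) (a1 : (3 / 20) ≤ x1) (b1 : x1 ≤ (3 / 10)) (a2 : (3 / 10) ≤ x2) : False := by
  have z0 := C.hq
  have z1 := (line3 C.t0 (sqrt_nonneg _) (sq_sqrt C.n0) (le_trans (by norm_num) a0) (le_trans b0 (by norm_num)))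
  have z2 := (line9 C.t1 (sqrt_nonneg _) (sq_sqrt C.n1) a1 b1)
  have z3 := (line10 C.t2 (sqrt_nonneg _) (sq_sqrt C.n2) a2 (by linarith [C.o1, C.o2, C.o3, C.o4, C.o5]))
  have z4 := (line10 C.t3 (sqrt_nonneg _) (sq_sqrt C.n3) (le_trans (by norm_num) C.e3) (C.o4.trans C.o5))
  have z5 := (line21 C.t3 (sqrt_nonneg _) (sq_sqrt C.n3) (C.o4.trans C.o5))
  have z6 := (line10 C.t4 (sqrt_nonneg _) (sq_sqrt C.n4) (le_trans (by norm_num) C.e4) C.o5)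
  have z7 := (line21 C.t4 (sqrt_nonneg _) (sq_sqrt C.n4) C.o5)
  have z8 := c2
  linarith only [C.hS, C.n0, C.n1, C.n2, C.n3, C.n4, z0, z1, z2, z3, z4, z5, z6, z7, z8]

lemma Cfg.leaf_i_1_5_1 (c1 : 3 * x0 ≤ x1) (c2 : x2 ≤ 98 / 10 * x0)
    (a0 : (7 / 200) ≤ x0) (b0 : x0 ≤ (1 / 20)) (a1 : (3 / 10) ≤ x1) (a2 : (3 / 10) ≤ x2) : False := by
  have z0 := C.o2
  have z1 := C.hq
  have z2 := (line3 C.t0 (sqrt_nonneg _) (sq_sqrt C.n0) (le_trans (by norm_num) a0) (le_trans b0 (by norm_num)))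
  have z3 := (line10 C.t1 (sqrt_nonneg _) (sq_sqrt C.n1) a1 (by linarith [C.o1, C.o2, C.o3, C.o4, C.o5]))
  have z4 := (line10 C.t2 (sqrt_nonneg _) (sq_sqrt C.n2) a2 (by linarith [C.o1, C.o2, C.o3, C.o4, C.o5]))
  have z5 := (line10 C.t3 (sqrt_nonneg _) (sq_sqrt C.n3) (le_trans (by norm_num) C.e3) (C.o4.trans C.o5))
  have z6 := (line19 C.t3 (sqrt_nonneg _) (sq_sqrt C.n3) (le_trans (by norm_num) C.e3) (C.o4.trans C.o5))
  have z7 := (line10 C.t4 (sqrt_nonneg _) (sq_sqrt C.n4) (le_trans (by norm_num) C.e4) C.o5)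
  have z8 := (line19 C.t4 (sqrt_nonneg _) (sq_sqrt C.n4) (le_trans (by norm_num) C.e4) C.o5)
  have z9 := c2
  linarith only [C.hS, C.n0, C.n1, C.n2, C.n3, C.n4, z0, z1, z2, z3, z4, z5, z6, z7, z8, z9]

lemma Cfg.leaf_i_2_1_0 (c1 : 3 * x0 ≤ x1) (c2 : x2 ≤ 98 / 10 * x0)
    (a0 : (1 / 20) ≤ x0) (b0 : x0 ≤ (2 / 25)) (a1 : (3 / 100) ≤ x1) (b1 : x1 ≤ (3 / 50)) (a2 : 0 ≤ x2) (b2 : x2 ≤ (3 / 10)) : False := by
  have z0 := a0
  have z1 := b1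
  have z2 := c1
  linarith only [C.hS, C.n0, C.n1, C.n2, C.n3, C.n4, z0, z1, z2]

lemma Cfg.leaf_i_2_1_1 (c1 : 3 * x0 ≤ x1) (c2 : x2 ≤ 98 / 10 * x0)
    (a0 : (1 / 20) ≤ x0) (b0 : x0 ≤ (2 / 25)) (a1 : (3 / 100) ≤ x1) (b1 : x1 ≤ (3 / 50)) (a2 : (3 / 10) ≤ x2) : False := by
  have z0 := b1
  have z1 := a2
  have z2 := c1
  have z3 := c2
  linarith only [C.hS, C.n0, C.n1, C.n2, C.n3, C.n4, z0, z1, z2, z3]

lemma Cfg.leaf_i_2_2_0 (c1 : 3 * x0 ≤ x1) (c2 : x2 ≤ 98 / 10 * x0)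
    (a0 : (1 / 20) ≤ x0) (b0 : x0 ≤ (2 / 25)) (a1 : (3 / 50) ≤ x1) (b1 : x1 ≤ (1 / 10)) (a2 : 0 ≤ x2) (b2 : x2 ≤ (3 / 10)) : False := by
  have z0 := a0
  have z1 := b1
  have z2 := c1
  linarith only [C.hS, C.n0, C.n1, C.n2, C.n3, C.n4, z0, z1, z2]

lemma Cfg.leaf_i_2_2_1 (c1 : 3 * x0 ≤ x1) (c2 : x2 ≤ 98 / 10 * x0)
    (a0 : (1 / 20) ≤ x0) (b0 : x0 ≤ (2 / 25)) (a1 : (3 / 50) ≤ x1) (b1 : x1 ≤ (1 / 10)) (a2 : (3 / 10) ≤ x2) : False := by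
  have z0 := a0
  have z1 := b1
  have z2 := c1
  linarith only [C.hS, C.n0, C.n1, C.n2, C.n3, C.n4, z0, z1, z2]

lemma Cfg.leaf_i_2_3_0 (c1 : 3 * x0 ≤ x1) (c2 : x2 ≤ 98 / 10 * x0)
    (a0 : (1 / 20) ≤ x0) (b0 : x0 ≤ (2 / 25)) (a1 : (1 / 10) ≤ x1) (b1 : x1 ≤ (3 / 20)) (a2 : 0 ≤ x2) (b2 : x2 ≤ (3 / 10)) : False := by
  have z0 := C.hq
  have z1 := (line5 C.t0 (sqrt_nonneg _) (sq_sqrt C.n0) a0 b0)
  have z2 := (line2 C.t1 (sqrt_nonneg _) (sq_sqrt C.n1) (le_trans b1 (by norm_num)))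
  have z3 := (line19 C.t1 (sqrt_nonneg _) (sq_sqrt C.n1) (le_trans (by norm_num) a1) (le_trans b1 (by norm_num)))
  have z4 := (line2 C.t2 (sqrt_nonneg _) (sq_sqrt C.n2) b2)
  have z5 := (line21 C.t3 (sqrt_nonneg _) (sq_sqrt C.n3) (C.o4.trans C.o5))
  have z6 := (line21 C.t4 (sqrt_nonneg _) (sq_sqrt C.n4) C.o5)
  linarith only [C.hS, C.n0, C.n1, C.n2, C.n3, C.n4, z0, z1, z2, z3, z4, z5, z6]

lemma Cfg.leaf_i_2_3_1 (c1 : 3 * x0 ≤ x1) (c2 : x2 ≤ 98 / 10 * x0)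
    (a0 : (1 / 20) ≤ x0) (b0 : x0 ≤ (2 / 25)) (a1 : (1 / 10) ≤ x1) (b1 : x1 ≤ (3 / 20)) (a2 : (3 / 10) ≤ x2) : False := by
  have z0 := C.hq
  have z1 := (line5 C.t0 (sqrt_nonneg _) (sq_sqrt C.n0) a0 b0)
  have z2 := (line8 C.t1 (sqrt_nonneg _) (sq_sqrt C.n1) a1 b1)
  have z3 := (line19 C.t2 (sqrt_nonneg _) (sq_sqrt C.n2) (le_trans (by norm_num) a2) (by linarith [C.o1, C.o2, C.o3, C.o4, C.o5]))
  have z4 := (line19 C.t3 (sqrt_nonneg _) (sq_sqrt C.n3) (le_trans (by norm_num) C.e3) (C.o4.trans C.o5))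
  have z5 := (line21 C.t3 (sqrt_nonneg _) (sq_sqrt C.n3) (C.o4.trans C.o5))
  have z6 := (line19 C.t4 (sqrt_nonneg _) (sq_sqrt C.n4) (le_trans (by norm_num) C.e4) C.o5)
  have z7 := (line21 C.t4 (sqrt_nonneg _) (sq_sqrt C.n4) C.o5)
  have z8 := c2
  linarith only [C.hS, C.n0, C.n1, C.n2, C.n3, C.n4, z0, z1, z2, z3, z4, z5, z6, z7, z8]

lemma Cfg.leaf_i_2_4_0 (c1 : 3 * x0 ≤ x1) (c2 : x2 ≤ 98 / 10 * x0)
    (a0 : (1 / 20) ≤ x0) (b0 : x0 ≤ (2 / 25)) (a1 : (3 / 20) ≤ x1) (b1 : x1 ≤ (3 / 10)) (a2 : 0 ≤ x2) (b2 : x2 ≤ (3 / 10)) : False := by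
  have z0 := C.hq
  have z1 := (line5 C.t0 (sqrt_nonneg _) (sq_sqrt C.n0) a0 b0)
  have z2 := (line2 C.t1 (sqrt_nonneg _) (sq_sqrt C.n1) b1)
  have z3 := (line19 C.t1 (sqrt_nonneg _) (sq_sqrt C.n1) (le_trans (by norm_num) a1) (le_trans b1 (by norm_num)))
  have z4 := (line2 C.t2 (sqrt_nonneg _) (sq_sqrt C.n2) b2)
  have z5 := (line21 C.t3 (sqrt_nonneg _) (sq_sqrt C.n3) (C.o4.trans C.o5))
  have z6 := (line21 C.t4 (sqrt_nonneg _) (sq_sqrt C.n4) C.o5)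
  linarith only [C.hS, C.n0, C.n1, C.n2, C.n3, C.n4, z0, z1, z2, z3, z4, z5, z6]

lemma Cfg.leaf_i_2_4_1 (c1 : 3 * x0 ≤ x1) (c2 : x2 ≤ 98 / 10 * x0)
    (a0 : (1 / 20) ≤ x0) (b0 : x0 ≤ (2 / 25)) (a1 : (3 / 20) ≤ x1) (b1 : x1 ≤ (3 / 10)) (a2 : (3 / 10) ≤ x2) : False := by
  have z0 := C.hq
  have z1 := (line5 C.t0 (sqrt_nonneg _) (sq_sqrt C.n0) a0 b0)
  have z2 := (line9 C.t1 (sqrt_nonneg _) (sq_sqrt C.n1) a1 b1)
  have z3 := (line10 C.t2 (sqrt_nonneg _) (sq_sqrt C.n2) a2 (by linarith [C.o1, C.o2, C.o3, C.o4, C.o5]))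
  have z4 := (line10 C.t3 (sqrt_nonneg _) (sq_sqrt C.n3) (le_trans (by norm_num) C.e3) (C.o4.trans C.o5))
  have z5 := (line21 C.t3 (sqrt_nonneg _) (sq_sqrt C.n3) (C.o4.trans C.o5))
  have z6 := (line10 C.t4 (sqrt_nonneg _) (sq_sqrt C.n4) (le_trans (by norm_num) C.e4) C.o5)
  have z7 := (line21 C.t4 (sqrt_nonneg _) (sq_sqrt C.n4) C.o5)
  have z8 := c1
  have z9 := c2
  linarith only [C.hS, C.n0, C.n1, C.n2, C.n3, C.n4, z0, z1, z2, z3, z4, z5, z6, z7, z8, z9]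

lemma Cfg.leaf_i_2_5_1 (c1 : 3 * x0 ≤ x1) (c2 : x2 ≤ 98 / 10 * x0)
    (a0 : (1 / 20) ≤ x0) (b0 : x0 ≤ (2 / 25)) (a1 : (3 / 10) ≤ x1) (a2 : (3 / 10) ≤ x2) : False := by
  have z0 := C.hq
  have z1 := a0
  have z2 := (line5 C.t0 (sqrt_nonneg _) (sq_sqrt C.n0) a0 b0)
  have z3 := (line10 C.t1 (sqrt_nonneg _) (sq_sqrt C.n1) a1 (by linarith [C.o1, C.o2, C.o3, C.o4, C.o5]))
  have z4 := (line10 C.t2 (sqrt_nonneg _) (sq_sqrt C.n2) a2 (by linarith [C.o1, C.o2, C.o3, C.o4, C.o5]))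
  have z5 := (line10 C.t3 (sqrt_nonneg _) (sq_sqrt C.n3) (le_trans (by norm_num) C.e3) (C.o4.trans C.o5))
  have z6 := (line10 C.t4 (sqrt_nonneg _) (sq_sqrt C.n4) (le_trans (by norm_num) C.e4) C.o5)
  linarith only [C.hS, C.n0, C.n1, C.n2, C.n3, C.n4, z0, z1, z2, z3, z4, z5, z6]

lemma Cfg.leaf_i_3_2_0 (c1 : 3 * x0 ≤ x1) (c2 : x2 ≤ 98 / 10 * x0)
    (a0 : (2 / 25) ≤ x0) (b0 : x0 ≤ (3 / 10)) (a1 : (3 / 50) ≤ x1) (b1 : x1 ≤ (1 / 10)) (a2 : 0 ≤ x2) (b2 : x2 ≤ (3 / 10)) : False := by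
  have z0 := a0
  have z1 := b1
  have z2 := c1
  linarith only [C.hS, C.n0, C.n1, C.n2, C.n3, C.n4, z0, z1, z2]

lemma Cfg.leaf_i_3_2_1 (c1 : 3 * x0 ≤ x1) (c2 : x2 ≤ 98 / 10 * x0)
    (a0 : (2 / 25) ≤ x0) (b0 : x0 ≤ (3 / 10)) (a1 : (3 / 50) ≤ x1) (b1 : x1 ≤ (1 / 10)) (a2 : (3 / 10) ≤ x2) : False := by
  have z0 := a0
  have z1 := b1
  have z2 := c1
  linarith only [C.hS, C.n0, C.n1, C.n2, C.n3, C.n4, z0, z1, z2]

lemma Cfg.leaf_i_3_3_0 (c1 : 3 * x0 ≤ x1) (c2 : x2 ≤ 98 / 10 * x0)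
    (a0 : (2 / 25) ≤ x0) (b0 : x0 ≤ (3 / 10)) (a1 : (1 / 10) ≤ x1) (b1 : x1 ≤ (3 / 20)) (a2 : 0 ≤ x2) (b2 : x2 ≤ (3 / 10)) : False := by
  have z0 := a0
  have z1 := b1
  have z2 := c1
  linarith only [C.hS, C.n0, C.n1, C.n2, C.n3, C.n4, z0, z1, z2]

lemma Cfg.leaf_i_3_3_1 (c1 : 3 * x0 ≤ x1) (c2 : x2 ≤ 98 / 10 * x0)
    (a0 : (2 / 25) ≤ x0) (b0 : x0 ≤ (3 / 10)) (a1 : (1 / 10) ≤ x1) (b1 : x1 ≤ (3 / 20)) (a2 : (3 / 10) ≤ x2) : False := by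
  have z0 := a0
  have z1 := b1
  have z2 := c1
  linarith only [C.hS, C.n0, C.n1, C.n2, C.n3, C.n4, z0, z1, z2]

lemma Cfg.leaf_i_3_4_0 (c1 : 3 * x0 ≤ x1) (c2 : x2 ≤ 98 / 10 * x0)
    (a0 : (2 / 25) ≤ x0) (b0 : x0 ≤ (3 / 10)) (a1 : (3 / 20) ≤ x1) (b1 : x1 ≤ (3 / 10)) (a2 : 0 ≤ x2) (b2 : x2 ≤ (3 / 10)) : False := by
  have z0 := C.hq
  have z1 := (line15 C.t0 (sqrt_nonneg _) (sq_sqrt C.n0) (le_trans (by norm_num) a0) (le_trans b0 (by norm_num)))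
  have z2 := (line2 C.t1 (sqrt_nonneg _) (sq_sqrt C.n1) b1)
  have z3 := (line2 C.t2 (sqrt_nonneg _) (sq_sqrt C.n2) b2)
  have z4 := (line19 C.t3 (sqrt_nonneg _) (sq_sqrt C.n3) (le_trans (by norm_num) C.e3) (C.o4.trans C.o5))
  have z5 := (line21 C.t3 (sqrt_nonneg _) (sq_sqrt C.n3) (C.o4.trans C.o5))
  have z6 := (line19 C.t4 (sqrt_nonneg _) (sq_sqrt C.n4) (le_trans (by norm_num) C.e4) C.o5)
  have z7 := (line21 C.t4 (sqrt_nonneg _) (sq_sqrt C.n4) C.o5)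
  have z8 := c1
  linarith only [C.hS, C.n0, C.n1, C.n2, C.n3, C.n4, z0, z1, z2, z3, z4, z5, z6, z7, z8]

lemma Cfg.leaf_i_3_4_1 (c1 : 3 * x0 ≤ x1) (c2 : x2 ≤ 98 / 10 * x0)
    (a0 : (2 / 25) ≤ x0) (b0 : x0 ≤ (3 / 10)) (a1 : (3 / 20) ≤ x1) (b1 : x1 ≤ (3 / 10)) (a2 : (3 / 10) ≤ x2) : False := by
  have z0 := C.hq
  have z1 := (line15 C.t0 (sqrt_nonneg _) (sq_sqrt C.n0) (le_trans (by norm_num) a0) (le_trans b0 (by norm_num)))
  have z2 := (line9 C.t1 (sqrt_nonneg _) (sq_sqrt C.n1) a1 b1)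
  have z3 := (line10 C.t2 (sqrt_nonneg _) (sq_sqrt C.n2) a2 (by linarith [C.o1, C.o2, C.o3, C.o4, C.o5]))
  have z4 := (line10 C.t3 (sqrt_nonneg _) (sq_sqrt C.n3) (le_trans (by norm_num) C.e3) (C.o4.trans C.o5))
  have z5 := (line21 C.t3 (sqrt_nonneg _) (sq_sqrt C.n3) (C.o4.trans C.o5))
  have z6 := (line10 C.t4 (sqrt_nonneg _) (sq_sqrt C.n4) (le_trans (by norm_num) C.e4) C.o5)
  have z7 := (line21 C.t4 (sqrt_nonneg _) (sq_sqrt C.n4) C.o5)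
  have z8 := c1
  have z9 := c2
  linarith only [C.hS, C.n0, C.n1, C.n2, C.n3, C.n4, z0, z1, z2, z3, z4, z5, z6, z7, z8, z9]

lemma Cfg.leaf_i_3_5_1 (c1 : 3 * x0 ≤ x1) (c2 : x2 ≤ 98 / 10 * x0)
    (a0 : (2 / 25) ≤ x0) (b0 : x0 ≤ (3 / 10)) (a1 : (3 / 10) ≤ x1) (a2 : (3 / 10) ≤ x2) : False := by
  have z0 := C.hq
  have z1 := (line15 C.t0 (sqrt_nonneg _) (sq_sqrt C.n0) (le_trans (by norm_num) a0) (le_trans b0 (by norm_num)))
  have z2 := (line10 C.t1 (sqrt_nonneg _) (sq_sqrt C.n1) a1 (by linarith [C.o1, C.o2, C.o3, C.o4, C.o5]))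
  have z3 := (line10 C.t2 (sqrt_nonneg _) (sq_sqrt C.n2) a2 (by linarith [C.o1, C.o2, C.o3, C.o4, C.o5]))
  have z4 := (line10 C.t3 (sqrt_nonneg _) (sq_sqrt C.n3) (le_trans (by norm_num) C.e3) (C.o4.trans C.o5))
  have z5 := (line10 C.t4 (sqrt_nonneg _) (sq_sqrt C.n4) (le_trans (by norm_num) C.e4) C.o5)
  linarith only [C.hS, C.n0, C.n1, C.n2, C.n3, C.n4, z0, z1, z2, z3, z4, z5]

lemma Cfg.leaf_i_4_5_1 (c1 : 3 * x0 ≤ x1) (c2 : x2 ≤ 98 / 10 * x0)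
    (a0 : (3 / 10) ≤ x0) (a1 : (3 / 10) ≤ x1) (a2 : (3 / 10) ≤ x2) : False := by
  have z0 := C.hq
  have z1 := (line15 C.t0 (sqrt_nonneg _) (sq_sqrt C.n0) (le_trans (by norm_num) a0) (by linarith [C.o1, C.o2, C.o3, C.o4, C.o5]))
  have z2 := (line10 C.t1 (sqrt_nonneg _) (sq_sqrt C.n1) a1 (by linarith [C.o1, C.o2, C.o3, C.o4, C.o5]))
  have z3 := (line10 C.t2 (sqrt_nonneg _) (sq_sqrt C.n2) a2 (by linarith [C.o1, C.o2, C.o3, C.o4, C.o5]))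
  have z4 := (line10 C.t3 (sqrt_nonneg _) (sq_sqrt C.n3) (le_trans (by norm_num) C.e3) (C.o4.trans C.o5))
  have z5 := (line10 C.t4 (sqrt_nonneg _) (sq_sqrt C.n4) (le_trans (by norm_num) C.e4) C.o5)
  linarith only [C.hS, C.n0, C.n1, C.n2, C.n3, C.n4, z0, z1, z2, z3, z4, z5]

lemma Cfg.tree_ii_0 (c1 : x1 ≤ 3 * x0) (c2 : x2 ≤ 77 / 10 * x0 + 212 / 100 * x1)
    (a0 : 0 ≤ x0) (b0 : x0 ≤ (7 / 200)) : False := by
  have o1 := C.o1
  have o2 := C.o2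
  rcases le_total x1 (3 / 100) with b1 | b1
  · have a1 : 0 ≤ x1 := by linarith
    rcases le_total x2 (3 / 10) with b2 | b2
    · have a2 : 0 ≤ x2 := by linarith
      exact C.leaf_ii_0_0_0 c1 c2 a0 b0 a1 b1 a2 b2
    · have a2' := b2
      have a2 : (3 / 10) ≤ x2 := by linarith
      exact C.leaf_ii_0_0_1 c1 c2 a0 b0 a1 b1 a2
  · have a1' := b1
    rcases le_total x1 (3 / 50) with b1 | b1
    · have a1 : (3 / 100) ≤ x1 := by linarith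
      rcases le_total x2 (3 / 10) with b2 | b2
      · have a2 : 0 ≤ x2 := by linarith
        exact C.leaf_ii_0_1_0 c1 c2 a0 b0 a1 b1 a2 b2
      · have a2' := b2
        have a2 : (3 / 10) ≤ x2 := by linarith
        exact C.leaf_ii_0_1_1 c1 c2 a0 b0 a1 b1 a2
    · have a1' := b1
      rcases le_total x1 (1 / 10) with b1 | b1
      · have a1 : (3 / 50) ≤ x1 := by linarith
        rcases le_total x2 (3 / 10) with b2 | b2
        · have a2 : 0 ≤ x2 := by linarith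
          exact C.leaf_ii_0_2_0 c1 c2 a0 b0 a1 b1 a2 b2
        · have a2' := b2
          have a2 : (3 / 10) ≤ x2 := by linarith
          exact C.leaf_ii_0_2_1 c1 c2 a0 b0 a1 b1 a2
      · have a1' := b1
        rcases le_total x1 (3 / 20) with b1 | b1
        · have a1 : (1 / 10) ≤ x1 := by linarith
          rcases le_total x2 (3 / 10) with b2 | b2
          · have a2 : 0 ≤ x2 := by linarith
            exact C.leaf_ii_0_3_0 c1 c2 a0 b0 a1 b1 a2 b2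
          · have a2' := b2
            have a2 : (3 / 10) ≤ x2 := by linarith
            exact C.leaf_ii_0_3_1 c1 c2 a0 b0 a1 b1 a2
        · have a1' := b1
          rcases le_total x1 (3 / 10) with b1 | b1
          · have a1 : (3 / 20) ≤ x1 := by linarith
            rcases le_total x2 (3 / 10) with b2 | b2
            · have a2 : 0 ≤ x2 := by linarith
              exact C.leaf_ii_0_4_0 c1 c2 a0 b0 a1 b1 a2 b2
            · have a2' := b2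
              have a2 : (3 / 10) ≤ x2 := by linarith
              exact C.leaf_ii_0_4_1 c1 c2 a0 b0 a1 b1 a2
          · have a1' := b1
            have a1 : (3 / 10) ≤ x1 := by linarith
            have a2 : (3 / 10) ≤ x2 := by linarith
            exact C.leaf_ii_0_5_1 c1 c2 a0 b0 a1 a2

lemma Cfg.tree_ii_1 (c1 : x1 ≤ 3 * x0) (c2 : x2 ≤ 77 / 10 * x0 + 212 / 100 * x1)
    (a0 : (7 / 200) ≤ x0) (b0 : x0 ≤ (1 / 20)) : False := by
  have o1 := C.o1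
  have o2 := C.o2
  rcases le_total x1 (3 / 50) with b1 | b1
  · have a1 : (3 / 100) ≤ x1 := by linarith
    rcases le_total x2 (3 / 10) with b2 | b2
    · have a2 : 0 ≤ x2 := by linarith
      exact C.leaf_ii_1_1_0 c1 c2 a0 b0 a1 b1 a2 b2
    · have a2' := b2
      have a2 : (3 / 10) ≤ x2 := by linarith
      exact C.leaf_ii_1_1_1 c1 c2 a0 b0 a1 b1 a2
  · have a1' := b1
    rcases le_total x1 (1 / 10) with b1 | b1
    · have a1 : (3 / 50) ≤ x1 := by linarith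
      rcases le_total x2 (3 / 10) with b2 | b2
      · have a2 : 0 ≤ x2 := by linarith
        exact C.leaf_ii_1_2_0 c1 c2 a0 b0 a1 b1 a2 b2
      · have a2' := b2
        have a2 : (3 / 10) ≤ x2 := by linarith
        exact C.leaf_ii_1_2_1 c1 c2 a0 b0 a1 b1 a2
    · have a1' := b1
      rcases le_total x1 (3 / 20) with b1 | b1
      · have a1 : (1 / 10) ≤ x1 := by linarith
        rcases le_total x2 (3 / 10) with b2 | b2
        · have a2 : 0 ≤ x2 := by linarith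
          exact C.leaf_ii_1_3_0 c1 c2 a0 b0 a1 b1 a2 b2
        · have a2' := b2
          have a2 : (3 / 10) ≤ x2 := by linarith
          exact C.leaf_ii_1_3_1 c1 c2 a0 b0 a1 b1 a2
      · have a1' := b1
        rcases le_total x1 (3 / 10) with b1 | b1
        · have a1 : (3 / 20) ≤ x1 := by linarith
          rcases le_total x2 (3 / 10) with b2 | b2
          · have a2 : 0 ≤ x2 := by linarith
            exact C.leaf_ii_1_4_0 c1 c2 a0 b0 a1 b1 a2 b2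
          · have a2' := b2
            have a2 : (3 / 10) ≤ x2 := by linarith
            exact C.leaf_ii_1_4_1 c1 c2 a0 b0 a1 b1 a2
        · have a1' := b1
          have a1 : (3 / 10) ≤ x1 := by linarith
          have a2 : (3 / 10) ≤ x2 := by linarith
          exact C.leaf_ii_1_5_1 c1 c2 a0 b0 a1 a2

lemma Cfg.tree_ii_2 (c1 : x1 ≤ 3 * x0) (c2 : x2 ≤ 77 / 10 * x0 + 212 / 100 * x1)
    (a0 : (1 / 20) ≤ x0) (b0 : x0 ≤ (2 / 25)) : False := by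
  have o1 := C.o1
  have o2 := C.o2
  rcases le_total x1 (3 / 50) with b1 | b1
  · have a1 : (3 / 100) ≤ x1 := by linarith
    rcases le_total x2 (3 / 10) with b2 | b2
    · have a2 : 0 ≤ x2 := by linarith
      exact C.leaf_ii_2_1_0 c1 c2 a0 b0 a1 b1 a2 b2
    · have a2' := b2
      have a2 : (3 / 10) ≤ x2 := by linarith
      exact C.leaf_ii_2_1_1 c1 c2 a0 b0 a1 b1 a2
  · have a1' := b1
    rcases le_total x1 (1 / 10) with b1 | b1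
    · have a1 : (3 / 50) ≤ x1 := by linarith
      rcases le_total x2 (3 / 10) with b2 | b2
      · have a2 : 0 ≤ x2 := by linarith
        exact C.leaf_ii_2_2_0 c1 c2 a0 b0 a1 b1 a2 b2
      · have a2' := b2
        have a2 : (3 / 10) ≤ x2 := by linarith
        exact C.leaf_ii_2_2_1 c1 c2 a0 b0 a1 b1 a2
    · have a1' := b1
      rcases le_total x1 (3 / 20) with b1 | b1
      · have a1 : (1 / 10) ≤ x1 := by linarith
        rcases le_total x2 (3 / 10) with b2 | b2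
        · have a2 : 0 ≤ x2 := by linarith
          exact C.leaf_ii_2_3_0 c1 c2 a0 b0 a1 b1 a2 b2
        · have a2' := b2
          have a2 : (3 / 10) ≤ x2 := by linarith
          exact C.leaf_ii_2_3_1 c1 c2 a0 b0 a1 b1 a2
      · have a1' := b1
        rcases le_total x1 (3 / 10) with b1 | b1
        · have a1 : (3 / 20) ≤ x1 := by linarith
          rcases le_total x2 (3 / 10) with b2 | b2
          · have a2 : 0 ≤ x2 := by linarith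
            exact C.leaf_ii_2_4_0 c1 c2 a0 b0 a1 b1 a2 b2
          · have a2' := b2
            have a2 : (3 / 10) ≤ x2 := by linarith
            exact C.leaf_ii_2_4_1 c1 c2 a0 b0 a1 b1 a2
        · have a1' := b1
          have a1 : (3 / 10) ≤ x1 := by linarith
          have a2 : (3 / 10) ≤ x2 := by linarith
          exact C.leaf_ii_2_5_1 c1 c2 a0 b0 a1 a2

lemma Cfg.tree_ii_3 (c1 : x1 ≤ 3 * x0) (c2 : x2 ≤ 77 / 10 * x0 + 212 / 100 * x1)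
    (a0 : (2 / 25) ≤ x0) (b0 : x0 ≤ (3 / 10)) : False := by
  have o1 := C.o1
  have o2 := C.o2
  rcases le_total x1 (1 / 10) with b1 | b1
  · have a1 : (3 / 50) ≤ x1 := by linarith
    rcases le_total x2 (3 / 10) with b2 | b2
    · have a2 : 0 ≤ x2 := by linarith
      exact C.leaf_ii_3_2_0 c1 c2 a0 b0 a1 b1 a2 b2
    · have a2' := b2
      have a2 : (3 / 10) ≤ x2 := by linarith
      exact C.leaf_ii_3_2_1 c1 c2 a0 b0 a1 b1 a2
  · have a1' := b1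
    rcases le_total x1 (3 / 20) with b1 | b1
    · have a1 : (1 / 10) ≤ x1 := by linarith
      rcases le_total x2 (3 / 10) with b2 | b2
      · have a2 : 0 ≤ x2 := by linarith
        exact C.leaf_ii_3_3_0 c1 c2 a0 b0 a1 b1 a2 b2
      · have a2' := b2
        have a2 : (3 / 10) ≤ x2 := by linarith
        exact C.leaf_ii_3_3_1 c1 c2 a0 b0 a1 b1 a2
    · have a1' := b1
      rcases le_total x1 (3 / 10) with b1 | b1
      · have a1 : (3 / 20) ≤ x1 := by linarith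
        rcases le_total x2 (3 / 10) with b2 | b2
        · have a2 : 0 ≤ x2 := by linarith
          exact C.leaf_ii_3_4_0 c1 c2 a0 b0 a1 b1 a2 b2
        · have a2' := b2
          have a2 : (3 / 10) ≤ x2 := by linarith
          exact C.leaf_ii_3_4_1 c1 c2 a0 b0 a1 b1 a2
      · have a1' := b1
        have a1 : (3 / 10) ≤ x1 := by linarith
        have a2 : (3 / 10) ≤ x2 := by linarith
        exact C.leaf_ii_3_5_1 c1 c2 a0 b0 a1 a2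

lemma Cfg.tree_ii_4 (c1 : x1 ≤ 3 * x0) (c2 : x2 ≤ 77 / 10 * x0 + 212 / 100 * x1)
    (a0 : (3 / 10) ≤ x0) : False := by
  have o1 := C.o1
  have o2 := C.o2
  have a1 : (3 / 10) ≤ x1 := by linarith
  have a2 : (3 / 10) ≤ x2 := by linarith
  exact C.leaf_ii_4_5_1 c1 c2 a0 a1 a2

lemma Cfg.tree_i_0 (c1 : 3 * x0 ≤ x1) (c2 : x2 ≤ 98 / 10 * x0)
    (a0 : 0 ≤ x0) (b0 : x0 ≤ (7 / 200)) : False := by
  have o1 := C.o1
  have o2 := C.o2
  rcases le_total x1 (3 / 100) with b1 | b1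
  · have a1 : 0 ≤ x1 := by linarith
    rcases le_total x2 (3 / 10) with b2 | b2
    · have a2 : 0 ≤ x2 := by linarith
      exact C.leaf_i_0_0_0 c1 c2 a0 b0 a1 b1 a2 b2
    · have a2' := b2
      have a2 : (3 / 10) ≤ x2 := by linarith
      exact C.leaf_i_0_0_1 c1 c2 a0 b0 a1 b1 a2
  · have a1' := b1
    rcases le_total x1 (3 / 50) with b1 | b1
    · have a1 : (3 / 100) ≤ x1 := by linarith
      rcases le_total x2 (3 / 10) with b2 | b2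
      · have a2 : 0 ≤ x2 := by linarith
        exact C.leaf_i_0_1_0 c1 c2 a0 b0 a1 b1 a2 b2
      · have a2' := b2
        have a2 : (3 / 10) ≤ x2 := by linarith
        exact C.leaf_i_0_1_1 c1 c2 a0 b0 a1 b1 a2
    · have a1' := b1
      rcases le_total x1 (1 / 10) with b1 | b1
      · have a1 : (3 / 50) ≤ x1 := by linarith
        rcases le_total x2 (3 / 10) with b2 | b2
        · have a2 : 0 ≤ x2 := by linarith
          exact C.leaf_i_0_2_0 c1 c2 a0 b0 a1 b1 a2 b2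
        · have a2' := b2
          have a2 : (3 / 10) ≤ x2 := by linarith
          exact C.leaf_i_0_2_1 c1 c2 a0 b0 a1 b1 a2
      · have a1' := b1
        rcases le_total x1 (3 / 20) with b1 | b1
        · have a1 : (1 / 10) ≤ x1 := by linarith
          rcases le_total x2 (3 / 10) with b2 | b2
          · have a2 : 0 ≤ x2 := by linarith
            exact C.leaf_i_0_3_0 c1 c2 a0 b0 a1 b1 a2 b2
          · have a2' := b2
            have a2 : (3 / 10) ≤ x2 := by linarith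
            exact C.leaf_i_0_3_1 c1 c2 a0 b0 a1 b1 a2
        · have a1' := b1
          rcases le_total x1 (3 / 10) with b1 | b1
          · have a1 : (3 / 20) ≤ x1 := by linarith
            rcases le_total x2 (3 / 10) with b2 | b2
            · have a2 : 0 ≤ x2 := by linarith
              exact C.leaf_i_0_4_0 c1 c2 a0 b0 a1 b1 a2 b2
            · have a2' := b2
              have a2 : (3 / 10) ≤ x2 := by linarith
              exact C.leaf_i_0_4_1 c1 c2 a0 b0 a1 b1 a2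
          · have a1' := b1
            have a1 : (3 / 10) ≤ x1 := by linarith
            have a2 : (3 / 10) ≤ x2 := by linarith
            exact C.leaf_i_0_5_1 c1 c2 a0 b0 a1 a2

lemma Cfg.tree_i_1 (c1 : 3 * x0 ≤ x1) (c2 : x2 ≤ 98 / 10 * x0)
    (a0 : (7 / 200) ≤ x0) (b0 : x0 ≤ (1 / 20)) : False := by
  have o1 := C.o1
  have o2 := C.o2
  rcases le_total x1 (3 / 50) with b1 | b1
  · have a1 : (3 / 100) ≤ x1 := by linarith
    rcases le_total x2 (3 / 10) with b2 | b2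
    · have a2 : 0 ≤ x2 := by linarith
      exact C.leaf_i_1_1_0 c1 c2 a0 b0 a1 b1 a2 b2
    · have a2' := b2
      have a2 : (3 / 10) ≤ x2 := by linarith
      exact C.leaf_i_1_1_1 c1 c2 a0 b0 a1 b1 a2
  · have a1' := b1
    rcases le_total x1 (1 / 10) with b1 | b1
    · have a1 : (3 / 50) ≤ x1 := by linarith
      rcases le_total x2 (3 / 10) with b2 | b2
      · have a2 : 0 ≤ x2 := by linarith
        exact C.leaf_i_1_2_0 c1 c2 a0 b0 a1 b1 a2 b2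
      · have a2' := b2
        have a2 : (3 / 10) ≤ x2 := by linarith
        exact C.leaf_i_1_2_1 c1 c2 a0 b0 a1 b1 a2
    · have a1' := b1
      rcases le_total x1 (3 / 20) with b1 | b1
      · have a1 : (1 / 10) ≤ x1 := by linarith
        rcases le_total x2 (3 / 10) with b2 | b2
        · have a2 : 0 ≤ x2 := by linarith
          exact C.leaf_i_1_3_0 c1 c2 a0 b0 a1 b1 a2 b2
        · have a2' := b2
          have a2 : (3 / 10) ≤ x2 := by linarith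
          exact C.leaf_i_1_3_1 c1 c2 a0 b0 a1 b1 a2
      · have a1' := b1
        rcases le_total x1 (3 / 10) with b1 | b1
        · have a1 : (3 / 20) ≤ x1 := by linarith
          rcases le_total x2 (3 / 10) with b2 | b2
          · have a2 : 0 ≤ x2 := by linarith
            exact C.leaf_i_1_4_0 c1 c2 a0 b0 a1 b1 a2 b2
          · have a2' := b2
            have a2 : (3 / 10) ≤ x2 := by linarith
            exact C.leaf_i_1_4_1 c1 c2 a0 b0 a1 b1 a2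
        · have a1' := b1
          have a1 : (3 / 10) ≤ x1 := by linarith
          have a2 : (3 / 10) ≤ x2 := by linarith
          exact C.leaf_i_1_5_1 c1 c2 a0 b0 a1 a2

lemma Cfg.tree_i_2 (c1 : 3 * x0 ≤ x1) (c2 : x2 ≤ 98 / 10 * x0)
    (a0 : (1 / 20) ≤ x0) (b0 : x0 ≤ (2 / 25)) : False := by
  have o1 := C.o1
  have o2 := C.o2
  rcases le_total x1 (3 / 50) with b1 | b1
  · have a1 : (3 / 100) ≤ x1 := by linarith
    rcases le_total x2 (3 / 10) with b2 | b2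
    · have a2 : 0 ≤ x2 := by linarith
      exact C.leaf_i_2_1_0 c1 c2 a0 b0 a1 b1 a2 b2
    · have a2' := b2
      have a2 : (3 / 10) ≤ x2 := by linarith
      exact C.leaf_i_2_1_1 c1 c2 a0 b0 a1 b1 a2
  · have a1' := b1
    rcases le_total x1 (1 / 10) with b1 | b1
    · have a1 : (3 / 50) ≤ x1 := by linarith
      rcases le_total x2 (3 / 10) with b2 | b2
      · have a2 : 0 ≤ x2 := by linarith
        exact C.leaf_i_2_2_0 c1 c2 a0 b0 a1 b1 a2 b2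
      · have a2' := b2
        have a2 : (3 / 10) ≤ x2 := by linarith
        exact C.leaf_i_2_2_1 c1 c2 a0 b0 a1 b1 a2
    · have a1' := b1
      rcases le_total x1 (3 / 20) with b1 | b1
      · have a1 : (1 / 10) ≤ x1 := by linarith
        rcases le_total x2 (3 / 10) with b2 | b2
        · have a2 : 0 ≤ x2 := by linarith
          exact C.leaf_i_2_3_0 c1 c2 a0 b0 a1 b1 a2 b2
        · have a2' := b2
          have a2 : (3 / 10) ≤ x2 := by linarith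
          exact C.leaf_i_2_3_1 c1 c2 a0 b0 a1 b1 a2
      · have a1' := b1
        rcases le_total x1 (3 / 10) with b1 | b1
        · have a1 : (3 / 20) ≤ x1 := by linarith
          rcases le_total x2 (3 / 10) with b2 | b2
          · have a2 : 0 ≤ x2 := by linarith
            exact C.leaf_i_2_4_0 c1 c2 a0 b0 a1 b1 a2 b2
          · have a2' := b2
            have a2 : (3 / 10) ≤ x2 := by linarith
            exact C.leaf_i_2_4_1 c1 c2 a0 b0 a1 b1 a2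
        · have a1' := b1
          have a1 : (3 / 10) ≤ x1 := by linarith
          have a2 : (3 / 10) ≤ x2 := by linarith
          exact C.leaf_i_2_5_1 c1 c2 a0 b0 a1 a2

lemma Cfg.tree_i_3 (c1 : 3 * x0 ≤ x1) (c2 : x2 ≤ 98 / 10 * x0)
    (a0 : (2 / 25) ≤ x0) (b0 : x0 ≤ (3 / 10)) : False := by
  have o1 := C.o1
  have o2 := C.o2
  rcases le_total x1 (1 / 10) with b1 | b1
  · have a1 : (3 / 50) ≤ x1 := by linarith
    rcases le_total x2 (3 / 10) with b2 | b2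
    · have a2 : 0 ≤ x2 := by linarith
      exact C.leaf_i_3_2_0 c1 c2 a0 b0 a1 b1 a2 b2
    · have a2' := b2
      have a2 : (3 / 10) ≤ x2 := by linarith
      exact C.leaf_i_3_2_1 c1 c2 a0 b0 a1 b1 a2
  · have a1' := b1
    rcases le_total x1 (3 / 20) with b1 | b1
    · have a1 : (1 / 10) ≤ x1 := by linarith
      rcases le_total x2 (3 / 10) with b2 | b2
      · have a2 : 0 ≤ x2 := by linarith
        exact C.leaf_i_3_3_0 c1 c2 a0 b0 a1 b1 a2 b2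
      · have a2' := b2
        have a2 : (3 / 10) ≤ x2 := by linarith
        exact C.leaf_i_3_3_1 c1 c2 a0 b0 a1 b1 a2
    · have a1' := b1
      rcases le_total x1 (3 / 10) with b1 | b1
      · have a1 : (3 / 20) ≤ x1 := by linarith
        rcases le_total x2 (3 / 10) with b2 | b2
        · have a2 : 0 ≤ x2 := by linarith
          exact C.leaf_i_3_4_0 c1 c2 a0 b0 a1 b1 a2 b2
        · have a2' := b2
          have a2 : (3 / 10) ≤ x2 := by linarith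
          exact C.leaf_i_3_4_1 c1 c2 a0 b0 a1 b1 a2
      · have a1' := b1
        have a1 : (3 / 10) ≤ x1 := by linarith
        have a2 : (3 / 10) ≤ x2 := by linarith
        exact C.leaf_i_3_5_1 c1 c2 a0 b0 a1 a2

lemma Cfg.tree_i_4 (c1 : 3 * x0 ≤ x1) (c2 : x2 ≤ 98 / 10 * x0)
    (a0 : (3 / 10) ≤ x0) : False := by
  have o1 := C.o1
  have o2 := C.o2
  have a1 : (3 / 10) ≤ x1 := by linarith
  have a2 : (3 / 10) ≤ x2 := by linarith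
  exact C.leaf_i_4_5_1 c1 c2 a0 a1 a2

/-- claim (ii) -/
theorem Cfg.claim_ii (c1 : x1 ≤ 3 * x0) : 77 / 10 * x0 + 212 / 100 * x1 ≤ x2 := by
  by_contra hcon
  push Not at hcon
  have c2 := hcon.le
  rcases le_total x0 (7 / 200) with b0' | b0'
  · exact C.tree_ii_0 c1 c2 C.n0 b0'
  · have b0 := b0'
    rcases le_total x0 (1 / 20) with b0' | b0'
    · exact C.tree_ii_1 c1 c2 b0 b0'
    · have b0 := b0'
      rcases le_total x0 (2 / 25) with b0' | b0'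
      · exact C.tree_ii_2 c1 c2 b0 b0'
      · have b0 := b0'
        rcases le_total x0 (3 / 10) with b0' | b0'
        · exact C.tree_ii_3 c1 c2 b0 b0'
        · have b0 := b0'
          exact C.tree_ii_4 c1 c2 b0

/-- claim (i), the case `x1 ≥ 3 x0` -/
theorem Cfg.claim_i' (c1 : 3 * x0 ≤ x1) : 98 / 10 * x0 ≤ x2 := by
  by_contra hcon
  push Not at hcon
  have c2 := hcon.le
  rcases le_total x0 (7 / 200) with b0' | b0'
  · exact C.tree_i_0 c1 c2 C.n0 b0'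
  · have b0 := b0'
    rcases le_total x0 (1 / 20) with b0' | b0'
    · exact C.tree_i_1 c1 c2 b0 b0'
    · have b0 := b0'
      rcases le_total x0 (2 / 25) with b0' | b0'
      · exact C.tree_i_2 c1 c2 b0 b0'
      · have b0 := b0'
        rcases le_total x0 (3 / 10) with b0' | b0'
        · exact C.tree_i_3 c1 c2 b0 b0'
        · have b0 := b0'
          exact C.tree_i_4 c1 c2 b0

/-- claim (i) -/
theorem Cfg.claim_i : 98 / 10 * x0 ≤ x2 := by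
  rcases le_total x1 (3 * x0) with h | h
  · have h1 := C.claim_ii h
    have h2 := C.o1
    have h3 := C.n0
    linarith
  · exact C.claim_i' h

end

section crit
open MeasureTheory ProbabilityTheory
open scoped RealInnerProductSpace

variable {E : Type*} [NormedAddCommGroup E] [InnerProductSpace ℝ E] [FiniteDimensional ℝ E]
  [MeasurableSpace E] [BorelSpace E]
variable {ι : Type*} [Fintype ι] [DecidableEq ι] {z : ι → E}

lemma Crit.tp (hz : Crit z) (h5 : Fintype.card ι = 5) (i : ι) :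
    TP (sqrt (2 * π * ‖z i‖ ^ 2)) (π * pc z i) := by
  intro θ h0 h1
  have h := hz.cap4 h5 i h0 h1
  have e : sqrt (2 * π * ‖z i‖ ^ 2) = sqrt (2 * π) * ‖z i‖ := by
    rw [sqrt_mul (by positivity), sqrt_sq (norm_nonneg _)]
  rw [e]
  have h2 : 0 < sqrt (2 * π) := by positivity
  have h3 := mul_le_mul_of_nonneg_left h h2.le
  rwa [← mul_assoc, mul_inv_cancel₀ h2.ne', one_mul] at h3

lemma Crit.norm_sq_le (hz : Crit z) (h5 : Fintype.card ι = 5) (i : ι) :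
    2 * π * ‖z i‖ ^ 2 ≤ 1 := by
  have h := hz.cap4_sq h5 i (θ := π / 2) (by positivity) le_rfl
  simpa using h

lemma Crit.cfg (hz : Crit z) (h5 : Fintype.card ι = 5) (e : Fin 5 ≃ ι)
    (hmono : Monotone (fun k => ‖z (e k)‖)) :
    Cfg (2 * π * ‖z (e 0)‖ ^ 2) (2 * π * ‖z (e 1)‖ ^ 2) (2 * π * ‖z (e 2)‖ ^ 2)
      (2 * π * ‖z (e 3)‖ ^ 2) (2 * π * ‖z (e 4)‖ ^ 2) (π * pc z (e 0)) (π * pc z (e 1))
      (π * pc z (e 2)) (π * pc z (e 3)) (π * pc z (e 4)) := by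
  have hne : Nonempty ι := ⟨e 0⟩
  have hord : ∀ a b : Fin 5, a ≤ b → 2 * π * ‖z (e a)‖ ^ 2 ≤ 2 * π * ‖z (e b)‖ ^ 2 := by
    intro a b hab
    have := hmono hab
    simp only at this
    gcongr
  refine ⟨hz.tp h5 _, hz.tp h5 _, hz.tp h5 _, hz.tp h5 _, hz.tp h5 _, by positivity,
    hord 0 1 (by decide), hord 1 2 (by decide), hord 2 3 (by decide), hord 3 4 (by decide),
    hz.norm_sq_le h5 _, ?_, ?_⟩
  · have h := hz.sum_pc
    rw [← e.sum_comp, Fin.sum_univ_five] at h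
    have h2 : π * pc z (e 0) + π * pc z (e 1) + π * pc z (e 2) + π * pc z (e 3) +
        π * pc z (e 4) = π := by
      rw [← mul_add, ← mul_add, ← mul_add, ← mul_add, h, mul_one]
    rw [h2]
    have := Real.pi_lt_d6
    linarith
  · have h := hz.big
    unfold C0 nsq at h
    rw [← e.sum_comp, Fin.sum_univ_five, div_lt_iff₀ (by positivity)] at h
    linarith

/-- **Cap claim for five cells** (sorted by norm). -/
theorem Crit.claim5 (hz : Crit z) (h5 : Fintype.card ι = 5) (e : Fin 5 ≃ ι)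
    (hmono : Monotone (fun k => ‖z (e k)‖)) :
    (‖z (e 1)‖ ^ 2 ≤ 3 * ‖z (e 0)‖ ^ 2 →
      77 / 10 * ‖z (e 0)‖ ^ 2 + 212 / 100 * ‖z (e 1)‖ ^ 2 ≤ ‖z (e 2)‖ ^ 2) ∧
    98 / 10 * ‖z (e 0)‖ ^ 2 ≤ ‖z (e 2)‖ ^ 2 := by
  have C := hz.cfg h5 e hmono
  have hpi : 0 < 2 * π := by positivity
  constructor
  · intro h
    have h1 : 2 * π * ‖z (e 1)‖ ^ 2 ≤ 3 * (2 * π * ‖z (e 0)‖ ^ 2) := by
      have := mul_le_mul_of_nonneg_left h hpi.le
      linarith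
    have h2 := C.claim_ii h1
    refine le_of_mul_le_mul_left ?_ hpi
    linarith
  · refine le_of_mul_le_mul_left ?_ hpi
    have := C.claim_i
    linarith

/-- the cells can be sorted by norm -/
theorem exists_sorted (h5 : Fintype.card ι = 5) (z : ι → E) :
    ∃ e : Fin 5 ≃ ι, Monotone (fun k => ‖z (e k)‖) := by
  let e0 : Fin 5 ≃ ι := (Fintype.equivFinOfCardEq h5).symm
  refine ⟨(Tuple.sort (fun k => ‖z (e0 k)‖)).trans e0, ?_⟩
  exact Tuple.monotone_sort (fun k => ‖z (e0 k)‖)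

end crit

end Vale.Agent.P226
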