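import Vale.Agent.P226.CapN

/-!
# P226: the cap bound in dimension five
-/

open MeasureTheory ProbabilityTheory Metric Set
open scoped RealInnerProductSpace ENNReal

namespace Vale.Agent.P226

set_option linter.unusedSectionVars false

variable {E : Type*} [NormedAddCommGroup E] [InnerProductSpace ℝ E] [FiniteDimensional ℝ E]
  [MeasurableSpace E] [BorelSpace E]

/-- Gaussian moments on the half line -/
lemma int_pow_exp (k : ℕ) {b : ℝ} (hb : 0 < b) :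
    ∫ y in Ioi (0 : ℝ), y ^ k * Real.exp (-(b * y ^ 2)) =
      b ^ (-((k : ℝ) + 1) / 2) * (1 / 2) * Real.Gamma (((k : ℝ) + 1) / 2) := by
  have hk : (-1 : ℝ) < k := lt_of_lt_of_le (by norm_num) (Nat.cast_nonneg k)
  have h := integral_rpow_mul_exp_neg_mul_rpow (p := 2) (q := k) (b := b) (by norm_num)
    hk hb
  rw [← h]
  refine setIntegral_congr_fun measurableSet_Ioi (fun y hy => ?_)
  rw [show (2 : ℝ) = ((2 : ℕ) : ℝ) by norm_num, Real.rpow_natCast, Real.rpow_natCast]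
  simp only [neg_mul]

lemma int_pow_exp_integrable (k : ℕ) {b : ℝ} (hb : 0 < b) :
    IntegrableOn (fun y : ℝ => y ^ k * Real.exp (-(b * y ^ 2))) (Ioi 0) := by
  by_contra h
  have h1 := integral_undef h
  have h2 := int_pow_exp k hb
  have h3 : 0 < b ^ (-((k : ℝ) + 1) / 2) * (1 / 2) * Real.Gamma (((k : ℝ) + 1) / 2) := by
    have : 0 < Real.Gamma (((k : ℝ) + 1) / 2) := Real.Gamma_pos_of_pos (by positivity)
    positivity
  rw [← h2] at h3
  exact absurd h1 h3.ne'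

lemma int_pow1 {b : ℝ} (hb : 0 < b) :
    ∫ y in Ioi (0 : ℝ), y ^ 1 * Real.exp (-(b * y ^ 2)) = 1 / (2 * b) := by
  rw [int_pow_exp 1 hb]
  norm_num [Real.Gamma_one, Real.rpow_neg_one]

lemma int_pow3 {b : ℝ} (hb : 0 < b) :
    ∫ y in Ioi (0 : ℝ), y ^ 3 * Real.exp (-(b * y ^ 2)) = 1 / (2 * b ^ 2) := by
  rw [int_pow_exp 3 hb]
  have h3 : (((3 : ℕ) : ℝ) + 1) / 2 = 2 := by norm_num
  rw [h3, Real.Gamma_two]
  rw [show (-(((3 : ℕ) : ℝ) + 1) / 2 : ℝ) = -((2 : ℕ) : ℝ) by norm_num, Real.rpow_neg hb.le,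
    Real.rpow_natCast]
  field_simp

lemma int_pow5 {b : ℝ} (hb : 0 < b) :
    ∫ y in Ioi (0 : ℝ), y ^ 5 * Real.exp (-(b * y ^ 2)) = 1 / b ^ 3 := by
  rw [int_pow_exp 5 hb]
  have h3 : (((5 : ℕ) : ℝ) + 1) / 2 = ((2 : ℕ) : ℝ) + 1 := by norm_num
  rw [h3, Real.Gamma_nat_eq_factorial]
  rw [show (-(((5 : ℕ) : ℝ) + 1) / 2 : ℝ) = -((3 : ℕ) : ℝ) by norm_num, Real.rpow_neg hb.le,
    Real.rpow_natCast]
  norm_num [Nat.factorial]
  ring

lemma int_pow2 {b : ℝ} (hb : 0 < b) :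
    ∫ y in Ioi (0 : ℝ), y ^ 2 * Real.exp (-(b * y ^ 2)) = Real.sqrt (Real.pi / b) / (4 * b) := by
  rw [int_pow_exp 2 hb]
  have h3 : (((2 : ℕ) : ℝ) + 1) / 2 = 1 / 2 + 1 := by norm_num
  rw [h3, Real.Gamma_add_one (by norm_num), Real.Gamma_one_half_eq]
  rw [show (-(((2 : ℕ) : ℝ) + 1) / 2 : ℝ) = -(1 + 1/2 : ℝ) by norm_num, Real.rpow_neg hb.le,
    Real.rpow_add hb, Real.rpow_one, ← Real.sqrt_eq_rpow,
    Real.sqrt_div (by positivity)]
  have h4 : 0 < Real.sqrt b := by positivity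
  field_simp
  norm_num

lemma int_pow4 {b : ℝ} (hb : 0 < b) :
    ∫ y in Ioi (0 : ℝ), y ^ 4 * Real.exp (-(b * y ^ 2)) =
      3 * Real.sqrt (Real.pi / b) / (8 * b ^ 2) := by
  rw [int_pow_exp 4 hb]
  have h3 : (((4 : ℕ) : ℝ) + 1) / 2 = (1 / 2 + 1) + 1 := by norm_num
  rw [h3, Real.Gamma_add_one (by norm_num), Real.Gamma_add_one (by norm_num),
    Real.Gamma_one_half_eq]
  rw [show (-(((4 : ℕ) : ℝ) + 1) / 2 : ℝ) = -(((2 : ℕ) : ℝ) + 1/2 : ℝ) by norm_num,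
    Real.rpow_neg hb.le, Real.rpow_add hb, Real.rpow_natCast, ← Real.sqrt_eq_rpow,
    Real.sqrt_div (by positivity)]
  have h4 : 0 < Real.sqrt b := by positivity
  field_simp
  norm_num

lemma integral_norm5 (h5 : Module.finrank ℝ E = 5) :
    ∫ x : E, ‖x‖ ∂(stdGaussian E) = 16 / 3 * (Real.sqrt (2 * Real.pi))⁻¹ := by
  have : Nontrivial E := Module.nontrivial_of_finrank_pos (R := ℝ) (by omega)
  have h := radial_norm (E := E) (fun r => r)
  rw [h5] at h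
  norm_num at h
  have e1 : ∫ y in Ioi (0 : ℝ), y ^ 4 * (Real.exp (-y ^ 2 / 2) * y) = 8 := by
    have e := int_pow5 (b := 1 / 2) (by norm_num)
    norm_num at e
    rw [← e]
    congr 1
    ext y
    rw [show -(1 / 2 * y ^ 2) = -y ^ 2 / 2 by ring]
    ring
  have e2 : ∫ y in Ioi (0 : ℝ), y ^ 4 * Real.exp (-y ^ 2 / 2) =
      3 / 2 * Real.sqrt (2 * Real.pi) := by
    have e := int_pow4 (b := 1 / 2) (by norm_num)
    rw [show Real.pi / (1 / 2) = 2 * Real.pi by ring] at e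
    have e3 : 3 / 2 * Real.sqrt (2 * Real.pi) = 3 * Real.sqrt (2 * Real.pi) /
        (8 * (1 / 2) ^ 2) := by ring
    rw [e3, ← e]
    congr 1
    ext y
    rw [show -(1 / 2 * y ^ 2) = -y ^ 2 / 2 by ring]
  rw [e1, e2] at h
  have h4 : 0 < Real.sqrt (2 * Real.pi) := by positivity
  field_simp at h ⊢
  linarith

/-- radial distribution function in dimension four -/
lemma Rad_four {c : ℝ} (hc : 0 ≤ c) :
    Rad 4 c = 1 - (1 + c ^ 2 / 2) * Real.exp (-c ^ 2 / 2) := by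
  have h := radial_norm (E := EuclideanSpace ℝ (Fin 4)) (fun r => if r < c then (1 : ℝ) else 0)
  have hf : Module.finrank ℝ (EuclideanSpace ℝ (Fin 4)) = 4 := by simp
  rw [hf] at h
  simp only [Nat.add_one_sub_one] at h
  rw [int_gauss3] at h
  have h3 : ∫ y in Ioi (0 : ℝ), y ^ 3 * (Real.exp (-y ^ 2 / 2) * (if y < c then (1 : ℝ) else 0))
      = ∫ y in Ioi (0 : ℝ), (Iio c).indicator (fun y => y ^ 3 * Real.exp (-y ^ 2 / 2)) y := by
    congr 1
    ext y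
    by_cases hy : y < c
    · rw [if_pos hy, Set.indicator_of_mem (show y ∈ Iio c from hy), mul_one]
    · rw [if_neg hy, Set.indicator_of_notMem (show y ∉ Iio c from hy), mul_zero, mul_zero]
  rw [h3, setIntegral_indicator measurableSet_Iio, Ioi_inter_Iio,
    ← integral_Ioc_eq_integral_Ioo, ← intervalIntegral.integral_of_le hc] at h
  have hd : ∀ y ∈ Set.uIcc (0 : ℝ) c,
      HasDerivAt (fun y : ℝ => -((y ^ 2 + 2) * Real.exp (-y ^ 2 / 2)))
        (y ^ 3 * Real.exp (-y ^ 2 / 2)) y := by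
    intro y _
    have h1 : HasDerivAt (fun y : ℝ => -y ^ 2 / 2) (-y) y := by
      have := ((hasDerivAt_pow 2 y).neg).div_const 2
      refine this.congr_deriv ?_
      ring
    have h2 : HasDerivAt (fun y : ℝ => y ^ 2 + 2) (2 * y) y := by
      have := (hasDerivAt_pow 2 y).add_const 2
      refine this.congr_deriv ?_
      ring
    refine (h2.mul h1.exp).neg.congr_deriv ?_
    ring
  rw [intervalIntegral.integral_eq_sub_of_hasDerivAt hd
    (Continuous.intervalIntegrable (by fun_prop) _ _)] at h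
  unfold Rad
  norm_num at h
  linarith

lemma phi_exp {s : ℝ} (hs : 0 < s) (t : ℝ) :
    phi t * Real.exp (-((1 - s ^ 2) / s ^ 2 * t ^ 2) / 2) =
      (Real.sqrt (2 * Real.pi))⁻¹ * Real.exp (-(1 / (2 * s ^ 2) * t ^ 2)) := by
  unfold phi
  rw [mul_assoc, ← Real.exp_add]
  congr 2
  field_simp
  ring

lemma kap_sq {s : ℝ} (hs : 0 < s) (hs1 : s < 1) (t : ℝ) :
    (Real.sqrt (1 - s ^ 2) / s * t) ^ 2 = (1 - s ^ 2) / s ^ 2 * t ^ 2 := by
  have hk : 0 < 1 - s ^ 2 := by nlinarith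
  rw [mul_pow, div_pow, Real.sq_sqrt hk.le]

lemma phi_Rad4 {s : ℝ} (hs : 0 < s) (hs1 : s < 1) {t : ℝ} (ht : 0 < t) :
    phi t * Rad 4 (Real.sqrt (1 - s ^ 2) / s * t) = (Real.sqrt (2 * Real.pi))⁻¹ *
      (Real.exp (-(1 / 2 * t ^ 2)) - Real.exp (-(1 / (2 * s ^ 2) * t ^ 2)) -
        (1 - s ^ 2) / (2 * s ^ 2) * (t ^ 2 * Real.exp (-(1 / (2 * s ^ 2) * t ^ 2)))) := by
  have hk : 0 < 1 - s ^ 2 := by nlinarith
  rw [Rad_four (by positivity)]
  have e1 : (Real.sqrt (1 - s ^ 2) / s * t) ^ 2 = (1 - s ^ 2) / s ^ 2 * t ^ 2 := kap_sq hs hs1 t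
  have e2 : -(Real.sqrt (1 - s ^ 2) / s * t) ^ 2 / 2 = -((1 - s ^ 2) / s ^ 2 * t ^ 2) / 2 := by
    rw [e1]
  rw [e2, e1]
  have e3 := phi_exp hs t
  have e4 : phi t = (Real.sqrt (2 * Real.pi))⁻¹ * Real.exp (-(1 / 2 * t ^ 2)) := by
    unfold phi
    congr 2
    ring
  calc _ = phi t - (1 + (1 - s ^ 2) / s ^ 2 * t ^ 2 / 2) *
        (phi t * Real.exp (-((1 - s ^ 2) / s ^ 2 * t ^ 2) / 2)) := by ring
    _ = _ := by
      rw [e3, e4]
      have : (1 - s ^ 2) / (2 * s ^ 2) = (1 - s ^ 2) / s ^ 2 / 2 := by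
        field_simp
      rw [this]
      ring

lemma int_pow0 {b : ℝ} (_hb : 0 < b) :
    ∫ y in Ioi (0 : ℝ), Real.exp (-(b * y ^ 2)) = Real.sqrt (Real.pi / b) / 2 := by
  rw [← integral_gaussian_Ioi]
  simp only [neg_mul]

lemma int_pow0_integrable {b : ℝ} (hb : 0 < b) :
    IntegrableOn (fun y : ℝ => Real.exp (-(b * y ^ 2))) (Ioi 0) := by
  have := (integrable_exp_neg_mul_sq hb).integrableOn (s := Ioi (0 : ℝ))
  simp only [neg_mul] at this
  exact this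

lemma sqrt_pi_div {s : ℝ} (hs : 0 < s) :
    Real.sqrt (Real.pi / (1 / (2 * s ^ 2))) = Real.sqrt (2 * Real.pi) * s := by
  have e1 : Real.pi / (1 / (2 * s ^ 2)) = 2 * Real.pi * s ^ 2 := by
    field_simp
  rw [e1, Real.sqrt_mul (by positivity), Real.sqrt_sq hs.le]

lemma int_sub3 {f g h : ℝ → ℝ} (c : ℝ) (hf : IntegrableOn f (Ioi 0)) (hg : IntegrableOn g (Ioi 0))
    (hh : IntegrableOn h (Ioi 0)) :
    ∫ t in Ioi (0 : ℝ), (f t - g t - c * h t) =
      (∫ t in Ioi (0 : ℝ), f t) - (∫ t in Ioi (0 : ℝ), g t) - c * ∫ t in Ioi (0 : ℝ), h t := by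
  have h1 : IntegrableOn (fun t => f t - g t) (Ioi 0) := hf.sub hg
  have h2 : IntegrableOn (fun t => c * h t) (Ioi 0) := hh.const_mul c
  rw [integral_sub h1 h2, integral_sub hf hg, integral_const_mul]

lemma cap_prob5 (h5 : Module.finrank ℝ E = 5) {e : E} (he : ‖e‖ = 1) {s : ℝ} (hs : 0 < s)
    (hs1 : s < 1) :
    ∫ x, (if s * ‖x‖ < ⟪e, x⟫ then (1 : ℝ) else 0) ∂(stdGaussian E) =
      1 / 2 - 3 / 4 * s + s ^ 3 / 4 := by
  have h := cap_intN (m := 4) h5 he hs hs1 (fun _ => 1) (integrable_const _)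
  simp only [one_mul] at h
  rw [h]
  have h2 : ∫ t in Ioi (0 : ℝ), phi t * Rad 4 (Real.sqrt (1 - s ^ 2) / s * t) =
      ∫ t in Ioi (0 : ℝ), (Real.sqrt (2 * Real.pi))⁻¹ *
      (Real.exp (-(1 / 2 * t ^ 2)) - Real.exp (-(1 / (2 * s ^ 2) * t ^ 2)) -
        (1 - s ^ 2) / (2 * s ^ 2) * (t ^ 2 * Real.exp (-(1 / (2 * s ^ 2) * t ^ 2)))) :=
    setIntegral_congr_fun measurableSet_Ioi (fun t ht => phi_Rad4 hs hs1 ht)
  rw [h2]
  have i0 := int_pow0_integrable (b := 1 / 2) (by norm_num)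
  have i1 := int_pow0_integrable (b := 1 / (2 * s ^ 2)) (by positivity)
  have i2 := int_pow_exp_integrable 2 (b := 1 / (2 * s ^ 2)) (by positivity)
  rw [integral_const_mul, int_sub3 _ i0 i1 i2, int_pow0 (by norm_num), int_pow0 (by positivity),
    int_pow2 (by positivity), sqrt_pi_div hs]
  have e2 : Real.pi / (1 / 2) = 2 * Real.pi := by ring
  rw [e2]
  have h4 : 0 < Real.sqrt (2 * Real.pi) := by positivity
  field_simp
  ring

lemma cap_mom5 (h5 : Module.finrank ℝ E = 5) {e : E} (he : ‖e‖ = 1) {s : ℝ} (hs : 0 < s)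
    (hs1 : s < 1) :
    ∫ x, (if s * ‖x‖ < ⟪e, x⟫ then ⟪e, x⟫ else 0) ∂(stdGaussian E) =
      (Real.sqrt (2 * Real.pi))⁻¹ * (1 - s ^ 2) ^ 2 := by
  have h := cap_intN (m := 4) h5 he hs hs1 (fun t => t) IsGaussian.integrable_id
  rw [h]
  have h2 : ∫ t in Ioi (0 : ℝ), phi t * (t * Rad 4 (Real.sqrt (1 - s ^ 2) / s * t)) =
      ∫ t in Ioi (0 : ℝ), (Real.sqrt (2 * Real.pi))⁻¹ *
      (t ^ 1 * Real.exp (-(1 / 2 * t ^ 2)) - t ^ 1 * Real.exp (-(1 / (2 * s ^ 2) * t ^ 2)) -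
        (1 - s ^ 2) / (2 * s ^ 2) * (t ^ 3 * Real.exp (-(1 / (2 * s ^ 2) * t ^ 2)))) := by
    refine setIntegral_congr_fun measurableSet_Ioi (fun t ht => ?_)
    have := phi_Rad4 hs hs1 (show (0 : ℝ) < t from ht)
    calc _ = t * (phi t * Rad 4 (Real.sqrt (1 - s ^ 2) / s * t)) := by ring
      _ = _ := by rw [this]; ring
  rw [h2]
  have i0 := int_pow_exp_integrable 1 (b := 1 / 2) (by norm_num)
  have i1 := int_pow_exp_integrable 1 (b := 1 / (2 * s ^ 2)) (by positivity)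
  have i2 := int_pow_exp_integrable 3 (b := 1 / (2 * s ^ 2)) (by positivity)
  rw [integral_const_mul, int_sub3 _ i0 i1 i2, int_pow1 (by norm_num), int_pow1 (by positivity),
    int_pow3 (by positivity)]
  have h4 : 0 < Real.sqrt (2 * Real.pi) := by positivity
  field_simp

/-- **Cap bound in dimension five**, with Lagrange parameter `s ∈ [0,1]`. -/
theorem cap_bound5 (h5 : Module.finrank ℝ E = 5) {A : Set E} (hA : MeasurableSet A)
    (hc : ∀ x ∈ A, ∀ s : ℝ, 0 < s → s • x ∈ A) {s : ℝ} (hs : 0 ≤ s) (hs1 : s ≤ 1) :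
    ‖mom A‖ ≤ (Real.sqrt (2 * Real.pi))⁻¹ *
      (16 / 3 * s * (stdGaussian E).real A + (1 - 8 / 3 * s + 2 * s ^ 2 - s ^ 4 / 3)) := by
  have : Nontrivial E := Module.nontrivial_of_finrank_pos (R := ℝ) (by omega)
  have key : ∀ e : E, ‖e‖ = 1 → ⟪e, mom A⟫ ≤ (Real.sqrt (2 * Real.pi))⁻¹ *
      (16 / 3 * s * (stdGaussian E).real A + (1 - 8 / 3 * s + 2 * s ^ 2 - s ^ 4 / 3)) := by
    intro e he
    refine le_on_closure (f := fun _ : ℝ => ⟪e, mom A⟫)
      (g := fun s : ℝ => (Real.sqrt (2 * Real.pi))⁻¹ *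
      (16 / 3 * s * (stdGaussian E).real A + (1 - 8 / 3 * s + 2 * s ^ 2 - s ^ 4 / 3)))
      (s := Ioo (0 : ℝ) 1) (fun s hs => ?_) continuousOn_const (by fun_prop)
      (x := s) (by rw [closure_Ioo zero_ne_one]; exact ⟨hs, hs1⟩)
    refine (cap_leN hA hc (integral_norm5 h5) (cap_prob5 h5 he hs.1 hs.2)
      (cap_mom5 h5 he hs.1 hs.2)).trans (le_of_eq ?_)
    ring
  by_cases h0 : mom A = 0
  · obtain ⟨e, he⟩ := exists_norm_eq E (zero_le_one' ℝ)
    have := key e he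
    rw [h0, inner_zero_right] at this
    rw [h0, norm_zero]
    exact this
  · have hn : 0 < ‖mom A‖ := norm_pos_iff.2 h0
    have := key ((‖mom A‖)⁻¹ • mom A) (by
      rw [norm_smul, norm_inv, norm_norm, inv_mul_cancel₀ hn.ne'])
    rw [real_inner_smul_left, real_inner_self_eq_norm_sq] at this
    refine le_trans (le_of_eq ?_) this
    field_simp

section crit
variable {ι : Type*} [Fintype ι] [DecidableEq ι] {z : ι → E}

/-- **Cap bound for a critical configuration with six cells.** -/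
theorem Crit.cap5 (hz : Crit z) (h6 : Fintype.card ι = 6) (i : ι) {s : ℝ} (hs : 0 ≤ s)
    (hs1 : s ≤ 1) :
    ‖z i‖ ≤ (Real.sqrt (2 * Real.pi))⁻¹ *
      (16 / 3 * s * pc z i + (1 - 8 / 3 * s + 2 * s ^ 2 - s ^ 4 / 3)) := by
  have hp0 := pc_nonneg z i
  have key : ∀ A : Set (EuclideanSpace ℝ (Fin 5)), MeasurableSet A →
      (∀ x ∈ A, ∀ s : ℝ, 0 < s → s • x ∈ A) →
      (stdGaussian (EuclideanSpace ℝ (Fin 5))).real A = pc z i → ‖mom A‖ ≤
      (Real.sqrt (2 * Real.pi))⁻¹ *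
      (16 / 3 * s * pc z i + (1 - 8 / 3 * s + 2 * s ^ 2 - s ^ 4 / 3)) := by
    intro A hA hc hp
    rw [← hp]
    exact cap_bound5 (by simp) hA hc hs hs1
  refine hz.transfer (n := 5) (by omega) i ?_ key
  have e : 1 - 8 / 3 * s + 2 * s ^ 2 - s ^ 4 / 3 = (1 - s) ^ 3 * (3 + s) / 3 := by ring
  rw [e]
  have : 0 ≤ 1 - s := by linarith
  positivity

/-- the bound for the square -/
lemma Crit.cap5_sq (hz : Crit z) (h6 : Fintype.card ι = 6) (i : ι) {s : ℝ} (hs : 0 ≤ s)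
    (hs1 : s ≤ 1) :
    2 * Real.pi * ‖z i‖ ^ 2 ≤
      (16 / 3 * s * pc z i + (1 - 8 / 3 * s + 2 * s ^ 2 - s ^ 4 / 3)) ^ 2 := by
  have h := hz.cap5 h6 i hs hs1
  have h2 : ‖z i‖ ^ 2 ≤ ((Real.sqrt (2 * Real.pi))⁻¹ *
      (16 / 3 * s * pc z i + (1 - 8 / 3 * s + 2 * s ^ 2 - s ^ 4 / 3))) ^ 2 := by
    gcongr
  rw [mul_pow, inv_pow, Real.sq_sqrt (by positivity)] at h2
  have hpi := Real.pi_pos
  calc 2 * Real.pi * ‖z i‖ ^ 2 ≤ 2 * Real.pi * ((2 * Real.pi)⁻¹ *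
        (16 / 3 * s * pc z i + (1 - 8 / 3 * s + 2 * s ^ 2 - s ^ 4 / 3)) ^ 2) := by gcongr
    _ = _ := by field_simp

/-- **The smallest cell of a critical configuration with six cells.** -/
theorem Crit.small6 (hz : Crit z) (h6 : Fintype.card ι = 6) :
    ∃ q : ι, pc z q < 455 / 10000 ∧ ‖z q‖ ^ 2 ≤ 65 / 10000 := by
  have hne : Nonempty ι := Fintype.card_pos_iff.1 (by omega)
  have h1 : ∃ q : ι, pc z q < 455 / 10000 := by
    by_contra hcon
    push Not at hcon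
    have hline : ∀ i, 2 * Real.pi * ‖z i‖ ^ 2 ≤ 273 / 100 * pc z i - 8 / 100 := by
      intro i
      have hp := hcon i
      have hp1 : pc z i ≤ 1 := measureReal_le_one
      set p := pc z i with hpd
      rcases le_total p (1516 / 10000) with a1 | a1
      · have h := hz.cap5_sq h6 i (s := 65 / 100) (by norm_num) (by norm_num)
        rw [← hpd] at h
        refine h.trans ?_
        nlinarith [mul_nonneg (sub_nonneg.2 hp) (sub_nonneg.2 a1)]
      · rcases le_total p (2537 / 10000) with a2 | a2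
        · have h := hz.cap5_sq h6 i (s := 38 / 100) (by norm_num) (by norm_num)
          rw [← hpd] at h
          refine h.trans ?_
          nlinarith [mul_nonneg (sub_nonneg.2 a1) (sub_nonneg.2 a2)]
        · rcases le_total p (3247 / 10000) with a3 | a3
          · have h := hz.cap5_sq h6 i (s := 305 / 1000) (by norm_num) (by norm_num)
            rw [← hpd] at h
            refine h.trans ?_
            nlinarith [mul_nonneg (sub_nonneg.2 a2) (sub_nonneg.2 a3)]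
          · have h := hz.cap5_sq h6 i (s := 175 / 1000) (by norm_num) (by norm_num)
            rw [← hpd] at h
            refine h.trans ?_
            nlinarith [mul_nonneg (sub_nonneg.2 a3) (sub_nonneg.2 hp1)]
    have hsum : ∑ i, 2 * Real.pi * ‖z i‖ ^ 2 ≤ ∑ i, (273 / 100 * pc z i - 8 / 100) :=
      Finset.sum_le_sum (fun i _ => hline i)
    rw [Finset.sum_sub_distrib, ← Finset.mul_sum, ← Finset.mul_sum, hz.sum_pc,
      Finset.sum_const, Finset.card_univ, h6] at hsum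
    have hbig := hz.big
    unfold C0 nsq at hbig
    have hpi := Real.pi_pos
    rw [div_lt_iff₀ (by positivity)] at hbig
    norm_num at hsum
    linarith
  obtain ⟨q, hq⟩ := h1
  refine ⟨q, hq, ?_⟩
  have h := hz.cap5_sq h6 q (s := 74 / 100) (by norm_num) (by norm_num)
  have hp0 := pc_nonneg z q
  have h2 : (16 / 3 * (74 / 100) * pc z q + (1 - 8 / 3 * (74 / 100) + 2 * (74 / 100) ^ 2 -
      (74 / 100) ^ 4 / 3)) ^ 2 ≤ (16 / 3 * (74 / 100) * (455 / 10000) +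
      (1 - 8 / 3 * (74 / 100) + 2 * (74 / 100) ^ 2 - (74 / 100) ^ 4 / 3)) ^ 2 := by
    have h3 : 0 ≤ (1 - 8 / 3 * (74 / 100) + 2 * (74 / 100) ^ 2 - (74 / 100) ^ 4 / 3 : ℝ) := by
      norm_num
    gcongr
  have h4 := h.trans h2
  norm_num at h4
  have h5 := Real.pi_gt_d6
  by_contra hcon
  push Not at hcon
  nlinarith

end crit

end Vale.Agent.P226
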