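import Vale.Agent.P226.Cap3

/-!
# P226: cap machinery in general dimension
-/

open MeasureTheory ProbabilityTheory Metric Set
open scoped RealInnerProductSpace ENNReal

namespace Vale.Agent.P226

set_option linter.unusedSectionVars false

variable {E : Type*} [NormedAddCommGroup E] [InnerProductSpace ℝ E] [FiniteDimensional ℝ E]
  [MeasurableSpace E] [BorelSpace E]

/-- The radial distribution function of the standard Gaussian measure of `ℝᵐ`. -/
noncomputable def Rad (m : ℕ) (c : ℝ) : ℝ :=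
  ∫ w : EuclideanSpace ℝ (Fin m), (if ‖w‖ < c then (1 : ℝ) else 0) ∂(stdGaussian _)

lemma prob_pjN {m : ℕ} (hm : Module.finrank ℝ E = m + 1) {e : E} (he : ‖e‖ = 1) {c : ℝ}
    (hc : 0 ≤ c) :
    ∫ y : E, (if ‖pj e y‖ < c then (1 : ℝ) else 0) ∂(stdGaussian E) = Rad m c := by
  obtain ⟨b, hb⟩ := Orthonormal.exists_orthonormalBasis_extension_of_card_eq (𝕜 := ℝ) (E := E)
    (ι := Fin (m + 1)) (by rw [hm]; simp) (v := fun _ => e) (s := {0}) (by
      rw [orthonormal_iff_ite]
      intro i j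
      have hij : i = j := Subsingleton.elim _ _
      rw [if_pos hij]
      simp [he])
  have hb0 : b 0 = e := hb 0 rfl
  have hn : ∀ y : E, ‖pj e y‖ ^ 2 = ∑ i : Fin m, ⟪b i.succ, y⟫ ^ 2 := by
    intro y
    rw [norm_sq_pj he]
    have h := b.sum_sq_norm_inner_right y
    rw [Fin.sum_univ_succ, hb0] at h
    simp only [Real.norm_eq_abs, sq_abs] at h
    linarith
  let w : Fin m → E := fun i => b i.succ
  let u : Fin m → EuclideanSpace ℝ (Fin m) := fun i => EuclideanSpace.basisFun (Fin m) ℝ i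
  have hg : ∀ i j, ⟪w i, w j⟫ = ⟪u i, u j⟫ := by
    intro i j
    have h1 := orthonormal_iff_ite.1 b.orthonormal
    have h2 := orthonormal_iff_ite.1 (EuclideanSpace.basisFun (Fin m) ℝ).orthonormal
    rw [h2]
    show ⟪b i.succ, b j.succ⟫ = _
    rw [h1]
    simp [Fin.succ_inj]
  have hmeas : Measurable (fun v : Fin m → ℝ =>
      if ∑ i, v i ^ 2 < c ^ 2 then (1 : ℝ) else 0) := by
    refine Measurable.ite ?_ measurable_const measurable_const
    exact measurableSet_lt (by fun_prop) (by fun_prop)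
  have h := integral_ipv_eq w u hg _ hmeas
  have e1 : ∀ y : E, (if ‖pj e y‖ < c then (1 : ℝ) else 0) =
      if ∑ i, ⟪w i, y⟫ ^ 2 < c ^ 2 then (1 : ℝ) else 0 := by
    intro y
    refine if_congr ?_ rfl rfl
    show _ ↔ ∑ i : Fin m, ⟪b i.succ, y⟫ ^ 2 < c ^ 2
    rw [← hn y, sq_lt_sq₀ (norm_nonneg _) hc]
  have e2 : ∀ y : EuclideanSpace ℝ (Fin m),
      (if ∑ i, ⟪u i, y⟫ ^ 2 < c ^ 2 then (1 : ℝ) else 0) =
      if ‖y‖ < c then (1 : ℝ) else 0 := by
    intro y
    refine if_congr ?_ rfl rfl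
    rw [← sq_lt_sq₀ (norm_nonneg _) hc, EuclideanSpace.norm_sq_eq]
    simp [u, EuclideanSpace.inner_single_left]
  simp_rw [e1]
  rw [h]
  simp_rw [e2]
  rfl

lemma cap_intN {m : ℕ} (hm : Module.finrank ℝ E = m + 1) {e : E} (he : ‖e‖ = 1) {s : ℝ}
    (hs : 0 < s) (hs1 : s < 1) (q : ℝ → ℝ) (hqi : Integrable q (gaussianReal 0 1)) :
    ∫ x, (if s * ‖x‖ < ⟪e, x⟫ then q ⟪e, x⟫ else 0) ∂(stdGaussian E) =
      ∫ t in Ioi (0 : ℝ), phi t * (q t * Rad m (Real.sqrt (1 - s ^ 2) / s * t)) := by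
  have hk : 0 < 1 - s ^ 2 := by nlinarith
  have hms : MeasurableSet {x : E | s * ‖x‖ < ⟪e, x⟫} :=
    measurableSet_lt (by fun_prop) (by fun_prop)
  have hqe : Integrable (fun x : E => q ⟪e, x⟫) (stdGaussian E) := by
    have h := law_inner (E := E) e
    rw [he] at h
    have hh : Integrable q ((stdGaussian E).map (fun x => ⟪e, x⟫)) := by
      rw [h]
      simpa using hqi
    exact hh.comp_measurable (by fun_prop)
  have hint : Integrable (fun x : E => if s * ‖x‖ < ⟪e, x⟫ then q ⟪e, x⟫ else 0)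
      (stdGaussian E) := by
    have := hqe.indicator hms
    refine this.congr (Filter.Eventually.of_forall (fun x => ?_))
    simp only [Set.indicator, Set.mem_ofPred_eq]
  rw [integral_rec' he hint, integral_gaussian_phi, ← integral_indicator measurableSet_Ioi]
  congr 1
  ext t
  have h1 : ∀ y : E, ⟪e, t • e + pj e y⟫ = t := by
    intro y
    rw [inner_add_right, inner_pj_self he, real_inner_smul_right, real_inner_self_eq_norm_sq, he]
    ring
  by_cases ht : 0 < t
  · rw [Set.indicator_of_mem (show t ∈ Ioi (0 : ℝ) from ht)]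
    congr 1
    have h2 : ∀ y : E, (if s * ‖t • e + pj e y‖ < ⟪e, t • e + pj e y⟫ then
        q ⟪e, t • e + pj e y⟫ else 0) =
        q t * (if ‖pj e y‖ < Real.sqrt (1 - s ^ 2) / s * t then (1 : ℝ) else 0) := by
      intro y
      rw [h1 y]
      have h4 := cap_iff he hs hs1 t y
      rw [h1 y] at h4
      by_cases h5 : s * ‖t • e + pj e y‖ < t
      · rw [if_pos h5, if_pos (h4.1 h5).2, mul_one]
      · rw [if_neg h5, if_neg (fun h6 => h5 (h4.2 ⟨ht, h6⟩)), mul_zero]
    simp_rw [h2]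
    rw [integral_const_mul, prob_pjN hm he (by positivity)]
  · rw [Set.indicator_of_notMem (show t ∉ Ioi (0 : ℝ) from ht)]
    have h2 : ∀ y : E, (if s * ‖t • e + pj e y‖ < ⟪e, t • e + pj e y⟫ then
        q ⟪e, t • e + pj e y⟫ else 0) = 0 := by
      intro y
      rw [h1 y]
      refine if_neg (fun h5 => ht ?_)
      exact lt_of_le_of_lt (by positivity) h5
    simp_rw [h2]
    simp

/-- **General cap inequality**, for a fixed Lagrange parameter `s`. -/
lemma cap_leN [Nontrivial E] {A : Set E} (hA : MeasurableSet A)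
    (hc : ∀ x ∈ A, ∀ s : ℝ, 0 < s → s • x ∈ A) {e : E} {s P m M : ℝ}
    (hM : ∫ x : E, ‖x‖ ∂(stdGaussian E) = M)
    (hP : ∫ x, (if s * ‖x‖ < ⟪e, x⟫ then (1 : ℝ) else 0) ∂(stdGaussian E) = P)
    (hm : ∫ x, (if s * ‖x‖ < ⟪e, x⟫ then ⟪e, x⟫ else 0) ∂(stdGaussian E) = m) :
    ⟪e, mom A⟫ ≤ s * M * (stdGaussian E).real A + (m - s * M * P) := by
  have hms : MeasurableSet {x : E | s * ‖x‖ < ⟪e, x⟫} :=
    measurableSet_lt (by fun_prop) (by fun_prop)
  have hcc : ∀ x ∈ {x : E | s * ‖x‖ < ⟪e, x⟫}, ∀ r : ℝ, 0 < r →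
      r • x ∈ {x : E | s * ‖x‖ < ⟪e, x⟫} := by
    intro x hx r hr
    simp only [Set.mem_ofPred_eq] at hx ⊢
    rw [norm_smul, Real.norm_eq_abs, abs_of_pos hr, real_inner_smul_right]
    nlinarith
  have h1 := cone_integral hA hc (fun r => r)
  have h2 := cone_integral hms hcc (fun r => r)
  rw [hM] at h1 h2
  have hp' : (stdGaussian E).real {x : E | s * ‖x‖ < ⟪e, x⟫} = P := by
    rw [← hP]
    have : ∀ x : E, (if s * ‖x‖ < ⟪e, x⟫ then (1 : ℝ) else 0) =
        ({x : E | s * ‖x‖ < ⟪e, x⟫}).indicator (fun _ => (1 : ℝ)) x := by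
      intro x
      simp only [Set.indicator, Set.mem_ofPred_eq]
    simp_rw [this]
    rw [integral_indicator hms, setIntegral_const, smul_eq_mul, mul_one]
  have hm' : ∫ x in {x : E | s * ‖x‖ < ⟪e, x⟫}, ⟪e, x⟫ ∂(stdGaussian E) = m := by
    rw [← hm, ← integral_indicator hms]
    rfl
  rw [hp'] at h2
  have hi1 := (integrable_inner (E := E) e)
  have hi2 := (integrable_norm' (E := E)).const_mul s
  have hi := hi1.sub hi2
  have h4 : ∫ x in A, (⟪e, x⟫ - s * ‖x‖) ∂(stdGaussian E) ≤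
      ∫ x in {x : E | s * ‖x‖ < ⟪e, x⟫}, (⟪e, x⟫ - s * ‖x‖) ∂(stdGaussian E) := by
    rw [← integral_indicator hA, ← integral_indicator hms]
    refine integral_mono (hi.indicator hA) (hi.indicator hms) (fun x => ?_)
    by_cases hx : x ∈ {x : E | s * ‖x‖ < ⟪e, x⟫}
    · rw [Set.indicator_of_mem hx]
      simp only [Set.mem_ofPred_eq] at hx
      by_cases hxA : x ∈ A
      · rw [Set.indicator_of_mem hxA]
      · rw [Set.indicator_of_notMem hxA]
        linarith
    · rw [Set.indicator_of_notMem hx]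
      simp only [Set.mem_ofPred_eq, not_lt] at hx
      by_cases hxA : x ∈ A
      · rw [Set.indicator_of_mem hxA]; linarith
      · rw [Set.indicator_of_notMem hxA]
  have h5 : ∀ B : Set E, ∫ x in B, (⟪e, x⟫ - s * ‖x‖) ∂(stdGaussian E) =
      ∫ x in B, ⟪e, x⟫ ∂(stdGaussian E) - s * ∫ x in B, ‖x‖ ∂(stdGaussian E) := by
    intro B
    rw [integral_sub hi1.integrableOn hi2.integrableOn, integral_const_mul]
  rw [h5, h5, h1, h2, hm', ← inner_mom] at h4
  linarith

end Vale.Agent.P226
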