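import Vale.Agent.P226.Fin4

/-!
# P226: five cells, case A2 (generated certificate cells)
-/

namespace Vale.Agent.P226

set_option linter.unusedVariables false

noncomputable def lamA2 (q : ℝ) : ℝ :=
  (1/250) * max (1 - q) 0 + (1/250) * max (2 - q) 0 + (3/1000) * max (3 - q) 0 +
    (-131/125) * max ((7/2) - q) 0 + (1899/2000) * max (4 - q) 0 + (77/400) * max (7 - q) 0

noncomputable def gamA2 (q : ℝ) : ℝ :=
  (109/2000) * max (1 - q) 0 + (11/200) * max (2 - q) 0 + (299/1000) * max (3 - q) 0 +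
    (-3/1000) * max ((7/2) - q) 0 + (-17/75) * max (4 - q) 0 + (767/3000) * max (7 - q) 0

lemma continuous_lamA2 : Continuous lamA2 := by
  unfold lamA2
  fun_prop

lemma continuous_gamA2 : Continuous gamA2 := by
  unfold gamA2
  fun_prop

lemma lamA2_mono (q q' : ℝ) (hq : 0 < q) (h : q ≤ q') :
    3 / 5 * lamA2 q + q * (1 - (1/40)) ≤ 3 / 5 * lamA2 q' + q' * (1 - (1/40)) := by
  unfold lamA2
  have r0 := hinge_anti (x := 1) h
  have r1 := ramp_anti (x := 1) (y := 2) (by norm_num) h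
  have r2 := ramp_anti (x := 2) (y := 3) (by norm_num) h
  have r3 := ramp_anti (x := 3) (y := (7/2)) (by norm_num) h
  have r4 := ramp_anti (x := (7/2)) (y := 4) (by norm_num) h
  have r5 := ramp_anti (x := 4) (y := 7) (by norm_num) h
  have r6 := hinge_le (x := 7) h
  linarith

lemma cellA2_0 {q : ℝ} (hq : 0 < q) (h0 : 0 ≤ q) (h1 : q ≤ 1) :
    CellA 3 1 (5/4) (1/40) (49/20) (11/10) 0 lamA2 gamA2 q := by
  have hl : lamA2 q = (2997/2000) - (21/200) * q := by
    unfold lamA2
    rw [max_eq_left (show (0 : ℝ) ≤ 1 - q by linarith)]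
    rw [max_eq_left (show (0 : ℝ) ≤ 2 - q by linarith)]
    rw [max_eq_left (show (0 : ℝ) ≤ 3 - q by linarith)]
    rw [max_eq_left (show (0 : ℝ) ≤ (7/2) - q by linarith)]
    rw [max_eq_left (show (0 : ℝ) ≤ 4 - q by linarith)]
    rw [max_eq_left (show (0 : ℝ) ≤ 7 - q by linarith)]
    ring
  have hg : gamA2 q = (967/500) - (869/2000) * q := by
    unfold gamA2
    rw [max_eq_left (show (0 : ℝ) ≤ 1 - q by linarith)]
    rw [max_eq_left (show (0 : ℝ) ≤ 2 - q by linarith)]
    rw [max_eq_left (show (0 : ℝ) ≤ 3 - q by linarith)]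
    rw [max_eq_left (show (0 : ℝ) ≤ (7/2) - q by linarith)]
    rw [max_eq_left (show (0 : ℝ) ≤ 4 - q by linarith)]
    rw [max_eq_left (show (0 : ℝ) ≤ 7 - q by linarith)]
    ring
  obtain ⟨X, hX⟩ : ∃ X, X = q - 0 := ⟨_, rfl⟩
  obtain ⟨Y, hY⟩ : ∃ Y, Y = 1 - q := ⟨_, rfl⟩
  have hX0 : 0 ≤ X := by rw [hX]; linarith
  have hY0 : 0 ≤ Y := by rw [hY]; linarith
  have hq0 : 0 ≤ q := by linarith
  have minus : 0 ≤ (9/1000)*Y^2 + (157/18375)*X*Y + (2120359/194481000)*X^2 := by positivity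
  have plus : 0 ≤ (3629041/25000000)*Y^2 + (9134707/525000000)*X*Y + (2836432760449/19448100000000)*X^2 := by positivity
  refine ⟨⟨_, _, _, _, (3 + (-47/441) * q), linM_three hq0 (by linarith), linM_flat hq0 (by linarith), by linarith,
    by linarith, by linarith, ?_⟩, ⟨_, _, _, _, ((22071/5000) + (-461353/882000) * q), linP_three hq0,
    linP_flat hq0, by linarith, by linarith, by linarith, ?_⟩, ⟨?_, ?_, ?_, ?_⟩⟩
  · rw [hl]
    refine sub_nonneg.1 (minus.trans (le_of_eq ?_))
    simp only [hX, hY]; ring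
  · rw [hg]
    refine sub_nonneg.1 (plus.trans (le_of_eq ?_))
    simp only [hX, hY]; ring
  · rw [hl]; linarith
  · rw [hg]; linarith
  · refine ⟨(113/250), (41/500) * q, by norm_num, by norm_num, by positivity, ?_, ?_, ?_, ?_, ?_⟩
    · have key : 0 ≤ (411/1250)*Y + (617/2500)*X := by positivity
      refine sub_nonneg.1 (key.trans (le_of_eq ?_))
      simp only [hX, hY]; ring
    · have key : 0 ≤ (67599/2000000)*Y^2 + (1490077/3000000)*X*Y + (2691257/6000000)*X^2 := by positivity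
      refine sub_nonneg.1 (key.trans (le_of_eq ?_))
      simp only [hX, hY, hl]; ring
    · have key : 0 ≤ (191/400000)*Y + (9311/400000)*X := by positivity
      refine sub_nonneg.1 (key.trans (le_of_eq ?_))
      simp only [hX, hY, hl]; ring
    · have key : 0 ≤ q * ((3523/1000000)*Y + (12133/1000000)*X) := by positivity
      refine sub_nonneg.1 (key.trans (le_of_eq ?_))
      simp only [hX, hY, hl]; ring
    · have key : 0 ≤ (139329/1562500)*Y^2 + (1289907/6250000)*X*Y + (345283/3125000)*X^2 := by positivity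
      refine sub_nonneg.1 (key.trans (le_of_eq ?_))
      simp only [hX, hY]; ring
  · rw [hl, hg]
    have key : 0 ≤ (674684087/400000000)*Y^3 + (1430771483/200000000)*X*Y^2 + (3675604033/400000000)*X^2*Y +
      (732434497/200000000)*X^3 := by positivity
    refine sub_nonneg.1 (key.trans (le_of_eq ?_))
    simp only [hX, hY]; ring

lemma cellA2_1 {q : ℝ} (hq : 0 < q) (h0 : 1 ≤ q) (h1 : q ≤ 2) :
    CellA 3 1 (5/4) (1/40) (49/20) (11/10) 0 lamA2 gamA2 q := by
  have hl : lamA2 q = (2989/2000) - (101/1000) * q := by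
    unfold lamA2
    rw [max_eq_right (show 1 - q ≤ (0 : ℝ) by linarith)]
    rw [max_eq_left (show (0 : ℝ) ≤ 2 - q by linarith)]
    rw [max_eq_left (show (0 : ℝ) ≤ 3 - q by linarith)]
    rw [max_eq_left (show (0 : ℝ) ≤ (7/2) - q by linarith)]
    rw [max_eq_left (show (0 : ℝ) ≤ 4 - q by linarith)]
    rw [max_eq_left (show (0 : ℝ) ≤ 7 - q by linarith)]
    ring
  have hg : gamA2 q = (3759/2000) - (19/50) * q := by
    unfold gamA2
    rw [max_eq_right (show 1 - q ≤ (0 : ℝ) by linarith)]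
    rw [max_eq_left (show (0 : ℝ) ≤ 2 - q by linarith)]
    rw [max_eq_left (show (0 : ℝ) ≤ 3 - q by linarith)]
    rw [max_eq_left (show (0 : ℝ) ≤ (7/2) - q by linarith)]
    rw [max_eq_left (show (0 : ℝ) ≤ 4 - q by linarith)]
    rw [max_eq_left (show (0 : ℝ) ≤ 7 - q by linarith)]
    ring
  obtain ⟨X, hX⟩ : ∃ X, X = q - 1 := ⟨_, rfl⟩
  obtain ⟨Y, hY⟩ : ∃ Y, Y = 2 - q := ⟨_, rfl⟩
  have hX0 : 0 ≤ X := by rw [hX]; linarith
  have hY0 : 0 ≤ Y := by rw [hY]; linarith
  have hq0 : 0 ≤ q := by linarith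
  have minus : 0 ≤ (2120359/194481000)*Y^2 + (538051/48620250)*X*Y + (448169/38896200)*X^2 := by positivity
  have plus : 0 ≤ (2836432760449/19448100000000)*Y^2 + (51016306961/2431012500000)*X*Y +
      (180803903779/1215506250000)*X^2 := by positivity
  refine ⟨⟨_, _, _, _, (3 + (-47/441) * q), linM_three hq0 (by linarith), linM_flat hq0 (by linarith), by linarith,
    by linarith, by linarith, ?_⟩, ⟨_, _, _, _, ((22071/5000) + (-461353/882000) * q), linP_three hq0,
    linP_flat hq0, by linarith, by linarith, by linarith, ?_⟩, ⟨?_, ?_, ?_, ?_⟩⟩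
  · rw [hl]
    refine sub_nonneg.1 (minus.trans (le_of_eq ?_))
    simp only [hX, hY]; ring
  · rw [hg]
    refine sub_nonneg.1 (plus.trans (le_of_eq ?_))
    simp only [hX, hY]; ring
  · rw [hl]; linarith
  · rw [hg]; linarith
  · refine ⟨(237/500), (11/125) * q, by norm_num, by norm_num, by positivity, ?_, ?_, ?_, ?_, ?_⟩
    · have key : 0 ≤ (569/2500)*Y + (349/2500)*X := by positivity
      refine sub_nonneg.1 (key.trans (le_of_eq ?_))
      simp only [hX, hY]; ring
    · have key : 0 ≤ (3342809/6000000)*Y^2 + (2321671/1500000)*X*Y + (390333/400000)*X^2 := by positivity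
      refine sub_nonneg.1 (key.trans (le_of_eq ?_))
      simp only [hX, hY, hl]; ring
    · have key : 0 ≤ (511/400000)*Y + (1931/80000)*X := by positivity
      refine sub_nonneg.1 (key.trans (le_of_eq ?_))
      simp only [hX, hY, hl]; ring
    · have key : 0 ≤ q * ((21/31250)*Y + (239/25000)*X) := by positivity
      refine sub_nonneg.1 (key.trans (le_of_eq ?_))
      simp only [hX, hY, hl]; ring
    · have key : 0 ≤ (700679/6250000)*Y^2 + (746329/3125000)*X*Y + (743579/6250000)*X^2 := by positivity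
      refine sub_nonneg.1 (key.trans (le_of_eq ?_))
      simp only [hX, hY]; ring
  · rw [hl, hg]
    have key : 0 ≤ (732434497/200000000)*Y^3 + (332608391/25000000)*X*Y^2 + (3143698851/200000000)*X^2*Y +
      (60713019/10000000)*X^3 := by positivity
    refine sub_nonneg.1 (key.trans (le_of_eq ?_))
    simp only [hX, hY]; ring

lemma cellA2_2 {q : ℝ} (hq : 0 < q) (h0 : 2 ≤ q) (h1 : q ≤ 3) :
    CellA 3 1 (5/4) (1/40) (49/20) (11/10) 0 lamA2 gamA2 q := by
  have hl : lamA2 q = (2973/2000) - (97/1000) * q := by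
    unfold lamA2
    rw [max_eq_right (show 1 - q ≤ (0 : ℝ) by linarith)]
    rw [max_eq_right (show 2 - q ≤ (0 : ℝ) by linarith)]
    rw [max_eq_left (show (0 : ℝ) ≤ 3 - q by linarith)]
    rw [max_eq_left (show (0 : ℝ) ≤ (7/2) - q by linarith)]
    rw [max_eq_left (show (0 : ℝ) ≤ 4 - q by linarith)]
    rw [max_eq_left (show (0 : ℝ) ≤ 7 - q by linarith)]
    ring
  have hg : gamA2 q = (3539/2000) - (13/40) * q := by
    unfold gamA2
    rw [max_eq_right (show 1 - q ≤ (0 : ℝ) by linarith)]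
    rw [max_eq_right (show 2 - q ≤ (0 : ℝ) by linarith)]
    rw [max_eq_left (show (0 : ℝ) ≤ 3 - q by linarith)]
    rw [max_eq_left (show (0 : ℝ) ≤ (7/2) - q by linarith)]
    rw [max_eq_left (show (0 : ℝ) ≤ 4 - q by linarith)]
    rw [max_eq_left (show (0 : ℝ) ≤ 7 - q by linarith)]
    ring
  obtain ⟨X, hX⟩ : ∃ X, X = q - 2 := ⟨_, rfl⟩
  obtain ⟨Y, hY⟩ : ∃ Y, Y = 3 - q := ⟨_, rfl⟩
  have hX0 : 0 ≤ X := by rw [hX]; linarith
  have hY0 : 0 ≤ Y := by rw [hY]; linarith
  have hq0 : 0 ≤ q := by linarith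
  have minus : 0 ≤ (448169/38896200)*Y^2 + (89318/8103375)*X*Y + (234643/21609000)*X^2 := by positivity
  have plus : 0 ≤ (180803903779/1215506250000)*Y^2 + (19452682757/810337500000)*X*Y +
      (321685187881/2160900000000)*X^2 := by positivity
  refine ⟨⟨_, _, _, _, (3 + (-47/441) * q), linM_three hq0 (by linarith), linM_flat hq0 (by linarith), by linarith,
    by linarith, by linarith, ?_⟩, ⟨_, _, _, _, ((22071/5000) + (-461353/882000) * q), linP_three hq0,
    linP_flat hq0, by linarith, by linarith, by linarith, ?_⟩, ⟨?_, ?_, ?_, ?_⟩⟩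
  · rw [hl]
    refine sub_nonneg.1 (minus.trans (le_of_eq ?_))
    simp only [hX, hY]; ring
  · rw [hg]
    refine sub_nonneg.1 (plus.trans (le_of_eq ?_))
    simp only [hX, hY]; ring
  · rw [hl]; linarith
  · rw [hg]; linarith
  · refine ⟨(249/500), (47/500) * q, by norm_num, by norm_num, by positivity, ?_, ?_, ?_, ?_, ?_⟩
    · have key : 0 ≤ (283/2500)*Y + (12/625)*X := by positivity
      refine sub_nonneg.1 (key.trans (le_of_eq ?_))
      simp only [hX, hY]; ring
    · have key : 0 ≤ (448281/400000)*Y^2 + (8031227/3000000)*X*Y + (3082353/2000000)*X^2 := by positivity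
      refine sub_nonneg.1 (key.trans (le_of_eq ?_))
      simp only [hX, hY, hl]; ring
    · have key : 0 ≤ (11/80000)*Y + (9223/400000)*X := by positivity
      refine sub_nonneg.1 (key.trans (le_of_eq ?_))
      simp only [hX, hY, hl]; ring
    · have key : 0 ≤ q * ((121/200000)*Y + (9723/1000000)*X) := by positivity
      refine sub_nonneg.1 (key.trans (le_of_eq ?_))
      simp only [hX, hY, hl]; ring
    · have key : 0 ≤ (743441/6250000)*Y^2 + (1466907/6250000)*X*Y + (668241/6250000)*X^2 := by positivity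
      refine sub_nonneg.1 (key.trans (le_of_eq ?_))
      simp only [hX, hY]; ring
  · rw [hl, hg]
    have key : 0 ≤ (60713019/10000000)*Y^3 + (2162661489/100000000)*X*Y^2 + (1278460297/50000000)*X^2*Y +
      (201286339/20000000)*X^3 := by positivity
    refine sub_nonneg.1 (key.trans (le_of_eq ?_))
    simp only [hX, hY]; ring

lemma cellA2_3 {q : ℝ} (hq : 0 < q) (h0 : 3 ≤ q) (h1 : q ≤ (7/2)) :
    CellA 3 1 (5/4) (1/40) (49/20) (11/10) 0 lamA2 gamA2 q := by
  have hl : lamA2 q = (591/400) - (47/500) * q := by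
    unfold lamA2
    rw [max_eq_right (show 1 - q ≤ (0 : ℝ) by linarith)]
    rw [max_eq_right (show 2 - q ≤ (0 : ℝ) by linarith)]
    rw [max_eq_right (show 3 - q ≤ (0 : ℝ) by linarith)]
    rw [max_eq_left (show (0 : ℝ) ≤ (7/2) - q by linarith)]
    rw [max_eq_left (show (0 : ℝ) ≤ 4 - q by linarith)]
    rw [max_eq_left (show (0 : ℝ) ≤ 7 - q by linarith)]
    ring
  have hg : gamA2 q = (349/400) - (13/500) * q := by
    unfold gamA2
    rw [max_eq_right (show 1 - q ≤ (0 : ℝ) by linarith)]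
    rw [max_eq_right (show 2 - q ≤ (0 : ℝ) by linarith)]
    rw [max_eq_right (show 3 - q ≤ (0 : ℝ) by linarith)]
    rw [max_eq_left (show (0 : ℝ) ≤ (7/2) - q by linarith)]
    rw [max_eq_left (show (0 : ℝ) ≤ 4 - q by linarith)]
    rw [max_eq_left (show (0 : ℝ) ≤ 7 - q by linarith)]
    ring
  obtain ⟨X, hX⟩ : ∃ X, X = q - 3 := ⟨_, rfl⟩
  obtain ⟨Y, hY⟩ : ∃ Y, Y = (7/2) - q := ⟨_, rfl⟩
  have hX0 : 0 ≤ X := by rw [hX]; linarith
  have hY0 : 0 ≤ Y := by rw [hY]; linarith
  have hq0 : 0 ≤ q := by linarith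
  have minus : 0 ≤ (234643/5402250)*Y^2 + (83648/1157625)*X*Y + (39871/992250)*X^2 := by positivity
  have plus : 0 ≤ (76861/120050)*Y^2 + (10457/8575)*X*Y + (2851/4900)*X^2 := by positivity
  refine ⟨⟨_, _, _, _, (3 + (-47/441) * q), linM_three hq0 (by linarith), linM_flat hq0 (by linarith), by linarith,
    by linarith, by linarith, ?_⟩, ⟨_, _, _, _, (3 + (-5/98) * q), linP_zero _ _ _,
    linP_flat hq0, by linarith, by linarith, by linarith, ?_⟩, ⟨?_, ?_, ?_, ?_⟩⟩
  · rw [hl]
    refine sub_nonneg.1 (minus.trans (le_of_eq ?_))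
    simp only [hX, hY]; ring
  · rw [hg]
    refine sub_nonneg.1 (plus.trans (le_of_eq ?_))
    simp only [hX, hY]; ring
  · rw [hl]; linarith
  · rw [hg]; linarith
  · refine ⟨(1/2), (21/250) * q, by norm_num, by norm_num, by positivity, ?_, ?_, ?_, ?_, ?_⟩
    · have key : 0 ≤ (12/125)*Y + (3/250)*X := by positivity
      refine sub_nonneg.1 (key.trans (le_of_eq ?_))
      simp only [hX, hY]; ring
    · have key : 0 ≤ (555117/100000)*Y^2 + (118213/10000)*X*Y + (625697/100000)*X^2 := by positivity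
      refine sub_nonneg.1 (key.trans (le_of_eq ?_))
      simp only [hX, hY, hl]; ring
    · have key : 0 ≤ (8423/200000)*Y + (1627/25000)*X := by positivity
      refine sub_nonneg.1 (key.trans (le_of_eq ?_))
      simp only [hX, hY, hl]; ring
    · have key : 0 ≤ q * ((31789/250000)*Y + (33763/250000)*X) := by positivity
      refine sub_nonneg.1 (key.trans (le_of_eq ?_))
      simp only [hX, hY, hl]; ring
    · have key : 0 ≤ (2817/6250)*Y^2 + (54639/62500)*X*Y + (6507/15625)*X^2 := by positivity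
      refine sub_nonneg.1 (key.trans (le_of_eq ?_))
      simp only [hX, hY]; ring
  · rw [hl, hg]
    have key : 0 ≤ (201286339/2500000)*Y^3 + (14472720917/50000000)*X*Y^2 + (8617437309/25000000)*X^2*Y +
      (425344563/3125000)*X^3 := by positivity
    refine sub_nonneg.1 (key.trans (le_of_eq ?_))
    simp only [hX, hY]; ring

lemma cellA2_4 {q : ℝ} (hq : 0 < q) (h0 : (7/2) ≤ q) (h1 : q ≤ 4) :
    CellA 3 1 (5/4) (1/40) (49/20) (11/10) 0 lamA2 gamA2 q := by
  have hl : lamA2 q = (10291/2000) - (571/500) * q := by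
    unfold lamA2
    rw [max_eq_right (show 1 - q ≤ (0 : ℝ) by linarith)]
    rw [max_eq_right (show 2 - q ≤ (0 : ℝ) by linarith)]
    rw [max_eq_right (show 3 - q ≤ (0 : ℝ) by linarith)]
    rw [max_eq_right (show (7/2) - q ≤ (0 : ℝ) by linarith)]
    rw [max_eq_left (show (0 : ℝ) ≤ 4 - q by linarith)]
    rw [max_eq_left (show (0 : ℝ) ≤ 7 - q by linarith)]
    ring
  have hg : gamA2 q = (883/1000) - (29/1000) * q := by
    unfold gamA2
    rw [max_eq_right (show 1 - q ≤ (0 : ℝ) by linarith)]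
    rw [max_eq_right (show 2 - q ≤ (0 : ℝ) by linarith)]
    rw [max_eq_right (show 3 - q ≤ (0 : ℝ) by linarith)]
    rw [max_eq_right (show (7/2) - q ≤ (0 : ℝ) by linarith)]
    rw [max_eq_left (show (0 : ℝ) ≤ 4 - q by linarith)]
    rw [max_eq_left (show (0 : ℝ) ≤ 7 - q by linarith)]
    ring
  obtain ⟨X, hX⟩ : ∃ X, X = q - (7/2) := ⟨_, rfl⟩
  obtain ⟨Y, hY⟩ : ∃ Y, Y = 4 - q := ⟨_, rfl⟩
  have hX0 : 0 ≤ X := by rw [hX]; linarith
  have hY0 : 0 ≤ Y := by rw [hY]; linarith
  have hq0 : 0 ≤ q := by linarith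
  have minus : 0 ≤ (39871/992250)*Y^2 + (43982126/3472875)*X*Y + (122869667/9724050)*X^2 := by positivity
  have plus : 0 ≤ (2851/4900)*Y^2 + (20029/17150)*X*Y + (35333/60025)*X^2 := by positivity
  refine ⟨⟨_, _, _, _, (3 + (-47/441) * q), linM_three hq0 (by linarith), linM_flat hq0 (by linarith), by linarith,
    by linarith, by linarith, ?_⟩, ⟨_, _, _, _, (3 + (-5/98) * q), linP_zero _ _ _,
    linP_flat hq0, by linarith, by linarith, by linarith, ?_⟩, ⟨?_, ?_, ?_, ?_⟩⟩
  · rw [hl]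
    refine sub_nonneg.1 (minus.trans (le_of_eq ?_))
    simp only [hX, hY]; ring
  · rw [hg]
    refine sub_nonneg.1 (plus.trans (le_of_eq ?_))
    simp only [hX, hY]; ring
  · rw [hl]; linarith
  · rw [hg]; linarith
  · refine ⟨(1/2), (37/500) * q, by norm_num, by norm_num, by positivity, ?_, ?_, ?_, ?_, ?_⟩
    · have key : 0 ≤ (41/500)*Y + (1/125)*X := by positivity
      refine sub_nonneg.1 (key.trans (le_of_eq ?_))
      simp only [hX, hY]; ring
    · have key : 0 ≤ (69029/12500)*Y^2 + (115909/12000)*X*Y + (47951/12000)*X^2 := by positivity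
      refine sub_nonneg.1 (key.trans (le_of_eq ?_))
      simp only [hX, hY, hl]; ring
    · have key : 0 ≤ (1627/25000)*Y + (2893/40000)*X := by positivity
      refine sub_nonneg.1 (key.trans (le_of_eq ?_))
      simp only [hX, hY, hl]; ring
    · have key : 0 ≤ q * ((119011/500000)*Y + (32253/100000)*X) := by positivity
      refine sub_nonneg.1 (key.trans (le_of_eq ?_))
      simp only [hX, hY, hl]; ring
    · have key : 0 ≤ (111497/250000)*Y^2 + (108241/125000)*X*Y + (6476/15625)*X^2 := by positivity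
      refine sub_nonneg.1 (key.trans (le_of_eq ?_))
      simp only [hX, hY]; ring
  · rw [hl, hg]
    have key : 0 ≤ (425344563/3125000)*Y^3 + (1887877431/5000000)*X*Y^2 + (17263502003/50000000)*X^2*Y +
      (1039151119/10000000)*X^3 := by positivity
    refine sub_nonneg.1 (key.trans (le_of_eq ?_))
    simp only [hX, hY]; ring

lemma cellA2_5 {q : ℝ} (hq : 0 < q) (h0 : 4 ≤ q) (h1 : q ≤ 7) :
    CellA 3 1 (5/4) (1/40) (49/20) (11/10) 0 lamA2 gamA2 q := by
  have hl : lamA2 q = (539/400) - (77/400) * q := by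
    unfold lamA2
    rw [max_eq_right (show 1 - q ≤ (0 : ℝ) by linarith)]
    rw [max_eq_right (show 2 - q ≤ (0 : ℝ) by linarith)]
    rw [max_eq_right (show 3 - q ≤ (0 : ℝ) by linarith)]
    rw [max_eq_right (show (7/2) - q ≤ (0 : ℝ) by linarith)]
    rw [max_eq_right (show 4 - q ≤ (0 : ℝ) by linarith)]
    rw [max_eq_left (show (0 : ℝ) ≤ 7 - q by linarith)]
    ring
  have hg : gamA2 q = (5369/3000) - (767/3000) * q := by
    unfold gamA2
    rw [max_eq_right (show 1 - q ≤ (0 : ℝ) by linarith)]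
    rw [max_eq_right (show 2 - q ≤ (0 : ℝ) by linarith)]
    rw [max_eq_right (show 3 - q ≤ (0 : ℝ) by linarith)]
    rw [max_eq_right (show (7/2) - q ≤ (0 : ℝ) by linarith)]
    rw [max_eq_right (show 4 - q ≤ (0 : ℝ) by linarith)]
    rw [max_eq_left (show (0 : ℝ) ≤ 7 - q by linarith)]
    ring
  obtain ⟨X, hX⟩ : ∃ X, X = q - 4 := ⟨_, rfl⟩
  obtain ⟨Y, hY⟩ : ∃ Y, Y = 7 - q := ⟨_, rfl⟩
  have hX0 : 0 ≤ X := by rw [hX]; linarith
  have hY0 : 0 ≤ Y := by rw [hY]; linarith
  have hq0 : 0 ≤ q := by linarith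
  have minus : 0 ≤ (40163/38896200)*Y^2 + (1915909/5556600)*X*Y + (1369/3969)*X^2 := by positivity
  have plus : 0 ≤ (35333/2160900)*Y^2 + (3362621/5145000)*X*Y + (28780783201/44100000000)*X^2 := by positivity
  refine ⟨⟨_, _, _, _, (2 + (-5/147) * q), linM_zero _ _ _, linM_flat hq0 (by linarith), by linarith,
    by linarith, by linarith, ?_⟩, ⟨_, _, _, _, ((8231/2500) + (-60819/490000) * q), linP_zero _ _ _,
    linP_flat hq0, by linarith, by linarith, by linarith, ?_⟩, ⟨?_, ?_, ?_, ?_⟩⟩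
  · rw [hl]
    refine sub_nonneg.1 (minus.trans (le_of_eq ?_))
    simp only [hX, hY]; ring
  · rw [hg]
    refine sub_nonneg.1 (plus.trans (le_of_eq ?_))
    simp only [hX, hY]; ring
  · rw [hl]; linarith
  · rw [hg]; linarith
  · refine ⟨(1/2), (21/500) * q, by norm_num, by norm_num, by positivity, ?_, ?_, ?_, ?_, ?_⟩
    · have key : 0 ≤ (11/250)*Y + (1/500)*X := by positivity
      refine sub_nonneg.1 (key.trans (le_of_eq ?_))
      simp only [hX, hY]; ring
    · have key : 0 ≤ (35929/720000)*Y^2 + (78431/720000)*X*Y + (41/900)*X^2 := by positivity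
      refine sub_nonneg.1 (key.trans (le_of_eq ?_))
      simp only [hX, hY, hl]; ring
    · have key : 0 ≤ (2893/240000)*Y + (161/4800)*X := by positivity
      refine sub_nonneg.1 (key.trans (le_of_eq ?_))
      simp only [hX, hY, hl]; ring
    · have key : 0 ≤ q * ((61549/600000)*Y + (83/750)*X) := by positivity
      refine sub_nonneg.1 (key.trans (le_of_eq ?_))
      simp only [hX, hY, hl]; ring
    · have key : 0 ≤ (207/15625)*Y^2 + (1329/50000)*X*Y + (723/62500)*X^2 := by positivity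
      refine sub_nonneg.1 (key.trans (le_of_eq ?_))
      simp only [hX, hY]; ring
  · rw [hl, hg]
    have key : 0 ≤ (1039151119/2160000000)*Y^3 + (826912981/360000000)*X*Y^2 + (35166817/9600000)*X^2*Y +
      (27097/13824)*X^3 := by positivity
    refine sub_nonneg.1 (key.trans (le_of_eq ?_))
    simp only [hX, hY]; ring

lemma cellA2_inf {q : ℝ} (hq : 0 < q) (h0 : 7 ≤ q) :
    CellA 3 1 (5/4) (1/40) (49/20) (11/10) 0 lamA2 gamA2 q := by
  have hl : lamA2 q = 0 := by
    unfold lamA2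
    rw [max_eq_right (show 1 - q ≤ (0 : ℝ) by linarith)]
    rw [max_eq_right (show 2 - q ≤ (0 : ℝ) by linarith)]
    rw [max_eq_right (show 3 - q ≤ (0 : ℝ) by linarith)]
    rw [max_eq_right (show (7/2) - q ≤ (0 : ℝ) by linarith)]
    rw [max_eq_right (show 4 - q ≤ (0 : ℝ) by linarith)]
    rw [max_eq_right (show 7 - q ≤ (0 : ℝ) by linarith)]
    ring
  have hg : gamA2 q = 0 := by
    unfold gamA2
    rw [max_eq_right (show 1 - q ≤ (0 : ℝ) by linarith)]
    rw [max_eq_right (show 2 - q ≤ (0 : ℝ) by linarith)]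
    rw [max_eq_right (show 3 - q ≤ (0 : ℝ) by linarith)]
    rw [max_eq_right (show (7/2) - q ≤ (0 : ℝ) by linarith)]
    rw [max_eq_right (show 4 - q ≤ (0 : ℝ) by linarith)]
    rw [max_eq_right (show 7 - q ≤ (0 : ℝ) by linarith)]
    ring
  obtain ⟨X, hX⟩ : ∃ X, X = q - 7 := ⟨_, rfl⟩
  have hX0 : 0 ≤ X := by rw [hX]; linarith
  refine ⟨⟨0, 0, 0, 0, 0, linM_zero _ _ _, linM_zero _ _ _, le_rfl, by norm_num, by norm_num, ?_⟩,
    ⟨0, 0, 0, 0, 0, linP_zero _ _ _, linP_zero _ _ _, le_rfl, by norm_num, by norm_num, ?_⟩,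
    ⟨?_, ?_, ?_, ?_⟩⟩
  · rw [hl]; norm_num
  · rw [hg]; norm_num
  · rw [hl]
  · rw [hg]
  · rw [hl]
    refine ⟨(1/2), (3/10), by norm_num, by norm_num, by norm_num, by norm_num, by norm_num, ?_, ?_, by norm_num⟩ <;> linarith
  · rw [hl, hg]
    have key : 0 ≤ (27097/512) + (594643/12800)*X + (6427/800)*X^2 + (1287/3200)*X^3 := by positivity
    refine sub_nonneg.1 (key.trans (le_of_eq ?_))
    simp only [hX]; ring

lemma cellsA2 (q : ℝ) (hq : 0 < q) :
    CellA 3 1 (5/4) (1/40) (49/20) (11/10) 0 lamA2 gamA2 q := by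
  rcases le_total q 1 with h1 | h1
  · exact cellA2_0 hq hq.le h1
  rcases le_total q 2 with h2 | h2
  · exact cellA2_1 hq h1 h2
  rcases le_total q 3 with h3 | h3
  · exact cellA2_2 hq h2 h3
  rcases le_total q (7/2) with h4 | h4
  · exact cellA2_3 hq h3 h4
  rcases le_total q 4 with h5 | h5
  · exact cellA2_4 hq h4 h5
  rcases le_total q 7 with h6 | h6
  · exact cellA2_5 hq h5 h6
  exact cellA2_inf hq h6

end Vale.Agent.P226
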