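import Vale.Agent.P226.FinA1
import Vale.Agent.P226.FinA2
import Vale.Agent.P226.Cap4claim

/-!
# P226: five cells, case A: no critical configuration with `b₁ < 41/100` or `3 s₀ ≤ s₁`
-/

open MeasureTheory ProbabilityTheory Finset Filter Topology
open scoped RealInnerProductSpace ENNReal BigOperators

namespace Vale.Agent.P226

set_option linter.unusedSectionVars false

variable {E : Type*} [NormedAddCommGroup E] [InnerProductSpace ℝ E] [FiniteDimensional ℝ E]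
  [MeasurableSpace E] [BorelSpace E]
variable {ι : Type*} [Fintype ι] [DecidableEq ι] {z : ι → E}

lemma Crit.caseA_main (hz : Crit z) (h5 : Fintype.card ι = 5) (e : Fin 5 ≃ ι)
    (hmono : Monotone (fun k => ‖z (e k)‖)) (h10 : e 1 ≠ e 0) {R1 bmax : ℝ}
    (hbm : bb z (e 0) ⟨e 1, h10⟩ ≤ bmax) (hs1 : R1 * ‖z (e 0)‖ ^ 2 ≤ ‖z (e 1)‖ ^ 2)
    {kap p0 a σ η : ℝ} {lam gam : ℝ → ℝ} (hkap0 : 0 < kap) (hkap : kap ≤ 5 / 4)
    (hp0 : 0 ≤ p0) (hp0' : p0 ≤ 1 / 2) (ha : 0 < a) (hσ : 0 ≤ σ) (hη : 0 ≤ η)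
    (hlc : Continuous lam) (hgc : Continuous gam)
    (hL : ∀ q q', 0 < q → q ≤ q' → 3 / 5 * lam q + q * (1 - p0) ≤ 3 / 5 * lam q' + q' * (1 - p0))
    (hcell : ∀ q, 0 < q → CellA R1 bmax kap p0 a σ η lam gam q) : False := by
  have h0 : z (e 0) ≠ 0 := hz.ne_zero h10
  have hp : 0 < ‖z (e 0)‖ := norm_pos_iff.2 h0
  have hp2 : 0 < ‖z (e 0)‖ ^ 2 := by positivity
  have h3 : 3 ≤ Fintype.card ι := by omega
  have hne : Nonempty {i // i ≠ e 0} := ⟨⟨e 1, h10⟩⟩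
  have hT := hz.T0 (e 0) h3 hne
  have hF := hz.frame (e 0) h3
  have hb0 : ∀ i, 0 ≤ bb z (e 0) i := fun i => (bb_pos hz i).le
  have hb := bb_sum hz (e 0) hne
  have hn : (Fintype.card {i // i ≠ e 0} : ℝ) = 4 := by
    rw [Fintype.card_subtype_compl, Fintype.card_subtype_eq, h5]
    norm_num
  have hb1 : ∀ i, bb z (e 0) i < 1 := by
    intro i
    have hcard : 1 < Fintype.card {i // i ≠ e 0} := by
      rw [Fintype.card_subtype_compl, Fintype.card_subtype_eq]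
      omega
    obtain ⟨l, hl⟩ := Fintype.exists_ne_of_one_lt_card hcard i
    have hs := hb
    rw [← Finset.add_sum_erase Finset.univ _ (Finset.mem_univ i)] at hs
    have h1 : 0 < ∑ j ∈ Finset.univ.erase i, bb z (e 0) j := by
      refine Finset.sum_pos (fun j _ => bb_pos hz j) ⟨l, ?_⟩
      simp [hl]
    linarith
  have hR1 : R1 - bb z (e 0) ⟨e 1, h10⟩ ^ 2 ≤ ‖vv z (e 0) ⟨e 1, h10⟩‖ ^ 2 := by
    rw [norm_vv_sq h0]
    have : R1 ≤ ‖z (e 1)‖ ^ 2 / ‖z (e 0)‖ ^ 2 := by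
      rw [le_div_iff₀ hp2]; exact hs1
    simp only
    linarith
  have hR : ∀ i, i ≠ (⟨e 1, h10⟩ : {i // i ≠ e 0}) →
      49 / 5 - bb z (e 0) i ^ 2 ≤ ‖vv z (e 0) i‖ ^ 2 := by
    intro i hi
    rw [norm_vv_sq h0]
    have h2 := (hz.claim5 h5 e hmono).2
    have h4 : ‖z (e 2)‖ ^ 2 ≤ ‖z (i : ι)‖ ^ 2 := by
      obtain ⟨k, hk⟩ := e.surjective (i : ι)
      have hk0 : k ≠ 0 := fun h => i.2 (by rw [← hk, h])
      have hk1 : k ≠ 1 := fun h => hi (Subtype.ext (by rw [← hk, h]))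
      have h2k : (2 : Fin 5) ≤ k := by
        fin_cases k <;> simp_all
      have := hmono h2k
      simp only at this
      rw [← hk]
      gcongr
    have : 49 / 5 ≤ ‖z (i : ι)‖ ^ 2 / ‖z (e 0)‖ ^ 2 := by
      rw [le_div_iff₀ hp2]; linarith
    linarith
  rw [hn] at hT
  have := fin_caseA hF (bb z (e 0)) hb0 hb1 hb hn ⟨e 1, h10⟩ hbm hR1 hR hkap0 hkap hp0 hp0' ha hσ
    hη hlc hgc hL hcell
  linarith

/-- **Case A1.** -/
theorem Crit.caseA1 (hz : Crit z) (h5 : Fintype.card ι = 5) (e : Fin 5 ≃ ι)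
    (hmono : Monotone (fun k => ‖z (e k)‖))
    (hb : -(41 / 100) * ‖z (e 0)‖ ^ 2 < ⟪z (e 0), z (e 1)⟫) : False := by
  have h10 : e 1 ≠ e 0 := fun h => by simpa using e.injective h
  have hp : 0 < ‖z (e 0)‖ := norm_pos_iff.2 (hz.ne_zero h10)
  have hp2 : 0 < ‖z (e 0)‖ ^ 2 := by positivity
  refine hz.caseA_main h5 e hmono h10 (R1 := 1) (bmax := 1 / 2) ?_ ?_ (by norm_num) (by norm_num)
    (by norm_num) (by norm_num) (by norm_num) (by norm_num) (by norm_num) continuous_lamA1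
    continuous_gamA1 lamA1_mono cellsA1
  · unfold bb
    rw [div_le_iff₀ hp2]
    simp only
    rw [real_inner_comm]
    nlinarith
  · have := hmono (show (0 : Fin 5) ≤ 1 by decide)
    simp only at this
    rw [one_mul]
    gcongr

/-- **Case A2.** -/
theorem Crit.caseA2 (hz : Crit z) (h5 : Fintype.card ι = 5) (e : Fin 5 ≃ ι)
    (hmono : Monotone (fun k => ‖z (e k)‖))
    (h : 3 * ‖z (e 0)‖ ^ 2 ≤ ‖z (e 1)‖ ^ 2) : False := by
  have h10 : e 1 ≠ e 0 := fun h => by simpa using e.injective h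
  refine hz.caseA_main h5 e hmono h10 (R1 := 3) (bmax := 1) ?_ h (by norm_num) (by norm_num)
    (by norm_num) (by norm_num) (by norm_num) (by norm_num) (by norm_num) continuous_lamA2
    continuous_gamA2 lamA2_mono cellsA2
  have hne : Nonempty {i // i ≠ e 0} := ⟨⟨e 1, h10⟩⟩
  rw [← bb_sum hz (e 0) hne]
  exact Finset.single_le_sum (f := fun i => bb z (e 0) i) (fun j _ => (bb_pos hz j).le)
    (Finset.mem_univ _)

end Vale.Agent.P226
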