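import Vale.Agent.P226.T2c
import Vale.Agent.P226.Cap4claim

open MeasureTheory ProbabilityTheory Finset Filter Topology
open scoped RealInnerProductSpace ENNReal BigOperators

namespace Vale.Agent.P226

set_option linter.unusedSectionVars false

variable {E : Type*} [NormedAddCommGroup E] [InnerProductSpace ℝ E] [FiniteDimensional ℝ E]
  [MeasurableSpace E] [BorelSpace E]
variable {ι : Type*} [Fintype ι] [DecidableEq ι] {z : ι → E}

lemma caseB_alg {x y m g : ℝ} (hx : 0 < x) (hy : x ≤ y) (hy3 : y ≤ 3 * x)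
    (hm : 77 / 10 * x + 212 / 100 * y ≤ m) (hg : g ≤ -(41 / 100) * x) (hg1 : -x ≤ g)
    (hT : 2 * x * (m - x - y) < (4 * x + g) * (2 / 5 * (m - x - y) +
        23 / 120 * (6 * x + y + 2 * g))) : False := by
  have hd : 67 / 10 * x + 112 / 100 * y ≤ m - x - y := by linarith
  set d := m - x - y with hdd
  have hd0 : 0 ≤ d := by linarith
  have h1 : 0 ≤ 2 / 5 * d + 23 / 120 * (6 * x + y + 2 * g) := by linarith
  have h2 : (4 * x + g) * (2 / 5 * d + 23 / 120 * (6 * x + y + 2 * g)) ≤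
      (359 / 100 * x) * (2 / 5 * d + 23 / 120 * (6 * x + y + 2 * g)) :=
    mul_le_mul_of_nonneg_right (by linarith) h1
  have h3 : (359 / 100 * x) * (2 / 5 * d + 23 / 120 * (6 * x + y + 2 * g)) ≤
      (359 / 100 * x) * (2 / 5 * d + 23 / 120 * (518 / 100 * x + y)) :=
    mul_le_mul_of_nonneg_left (by linarith) (by linarith)
  have h4 : (359 / 100) * (2 / 5 * d + 23 / 120 * (518 / 100 * x + y)) ≤ 2 * d := by linarith
  have h5 := mul_le_mul_of_nonneg_left h4 hx.le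
  linarith

theorem Crit.caseB (hz : Crit z) (h5 : Fintype.card ι = 5) (e : Fin 5 ≃ ι)
    (hmono : Monotone (fun k => ‖z (e k)‖)) (h31 : ‖z (e 1)‖ ^ 2 ≤ 3 * ‖z (e 0)‖ ^ 2)
    (hb : ⟪z (e 0), z (e 1)⟫ ≤ -(41 / 100) * ‖z (e 0)‖ ^ 2) : False := by
  have h01 : e 0 ≠ e 1 := fun h => by simpa using e.injective h
  have h20 : e 2 ≠ e 0 := fun h => by simpa using e.injective h
  have hx0 : 0 < ‖z (e 0)‖ := norm_pos_iff.2 (hz.ne_zero h20)
  have hx : 0 < ‖z (e 0)‖ ^ 2 := by positivity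
  have hsq : ∀ a b : Fin 5, a ≤ b → ‖z (e a)‖ ^ 2 ≤ ‖z (e b)‖ ^ 2 := by
    intro a b hab
    have := hmono hab
    simp only at this
    gcongr
  have hy := hsq 0 1 (by decide)
  have hm := (hz.claim5 h5 e hmono).1 h31
  have hall : ∀ i, i ≠ e 0 → i ≠ e 1 → ‖z (e 2)‖ ^ 2 ≤ ‖z i‖ ^ 2 := by
    intro i hi0 hi1
    obtain ⟨k, rfl⟩ := e.surjective i
    apply hsq
    have h0 : k ≠ 0 := fun h => hi0 (by rw [h])
    have h1 : k ≠ 1 := fun h => hi1 (by rw [h])
    fin_cases k <;> simp_all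
  have hg1 : -‖z (e 0)‖ ^ 2 ≤ ⟪z (e 0), z (e 1)⟫ := by
    have hne : Nonempty {i // i ≠ e 0} := ⟨⟨e 1, h01.symm⟩⟩
    have hs := bb_sum hz (e 0) hne
    have h1 : bb z (e 0) ⟨e 1, h01.symm⟩ ≤ 1 := by
      rw [← hs]
      exact Finset.single_le_sum (f := fun i => bb z (e 0) i) (fun j _ => (bb_pos hz j).le)
        (Finset.mem_univ _)
    unfold bb at h1
    rw [div_le_one hx] at h1
    rw [real_inner_comm]
    simp only at h1
    linarith
  exact caseB_alg hx hy h31 hm hb hg1 (hz.T2' h01 h5 hall (by linarith))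

end Vale.Agent.P226
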