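import Vale.Agent.P226.Defs

/-!
# P226: the three-cell case
-/

open MeasureTheory ProbabilityTheory Finset
open scoped RealInnerProductSpace ENNReal BigOperators

namespace Vale.Agent.P226

set_option linter.unusedSectionVars false

variable {E : Type*} [NormedAddCommGroup E] [InnerProductSpace ℝ E] [FiniteDimensional ℝ E]
  [MeasurableSpace E] [BorelSpace E]

lemma integral_abs_gaussian : ∫ t, |t| ∂(gaussianReal 0 1) = Real.sqrt (2 / Real.pi) := by
  rw [integral_gaussianReal_eq_integral_smul one_ne_zero]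
  have h1 : ∀ x : ℝ, gaussianPDFReal 0 1 x • |x| =
      (fun y : ℝ => (Real.sqrt (2 * Real.pi))⁻¹ * (y ^ (1 : ℝ) * Real.exp (-(1 / 2) * y ^ (2 : ℝ))))
        |x| := by
    intro x
    simp only [gaussianPDFReal, smul_eq_mul, NNReal.coe_one, mul_one, sub_zero, Real.rpow_one,
      Real.rpow_two, sq_abs]
    rw [show -x ^ 2 / 2 = -(1 / 2) * x ^ 2 by ring]
    ring
  simp_rw [h1]
  rw [integral_comp_abs (f := fun y : ℝ => (Real.sqrt (2 * Real.pi))⁻¹ *
    (y ^ (1 : ℝ) * Real.exp (-(1 / 2) * y ^ (2 : ℝ)))), integral_const_mul,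
    integral_rpow_mul_exp_neg_mul_rpow (p := 2) (q := 1) (b := 1 / 2) (by norm_num)
    (by norm_num) (by norm_num)]
  have h2 : (1 / 2 : ℝ) ^ (-(1 + 1) / 2 : ℝ) * (1 / 2) * Real.Gamma ((1 + 1) / 2) = 1 := by
    rw [show ((1 : ℝ) + 1) / 2 = 1 by norm_num, Real.Gamma_one,
      show (-((1 : ℝ) + 1) / 2) = ((-1 : ℤ) : ℝ) by norm_num, Real.rpow_intCast]
    norm_num
  rw [h2, mul_one]
  have h3 : Real.sqrt (2 * Real.pi) ^ 2 = 2 * Real.pi := Real.sq_sqrt (by positivity)
  have h4 : 0 < Real.sqrt (2 * Real.pi) := Real.sqrt_pos.2 (by positivity)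
  symm
  rw [Real.sqrt_eq_iff_mul_self_eq (by positivity) (by positivity)]
  have h5 : Real.pi ≠ 0 := Real.pi_ne_zero
  field_simp
  rw [h3]

lemma law_inner (v : E) : (stdGaussian E).map (fun x => ⟪v, x⟫) =
    (gaussianReal 0 1).map (fun t => ‖v‖ * t) := by
  have h1 : (stdGaussian E).map (innerSL ℝ v) =
      gaussianReal ((stdGaussian E)[innerSL ℝ v]) (Var[innerSL ℝ v; stdGaussian E]).toNNReal :=
    IsGaussian.map_eq_gaussianReal _
  have h2 : Var[innerSL ℝ v; stdGaussian E] = ‖v‖ ^ 2 := by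
    rw [variance_dual_stdGaussian, innerSL_apply_norm]
  have h3 : (stdGaussian E)[innerSL ℝ v] = 0 := integral_strongDual_stdGaussian _
  rw [h2, h3] at h1
  rw [gaussianReal_map_const_mul]
  refine Eq.trans ?_ (h1.trans ?_)
  · rfl
  · congr 1
    · simp
    · rw [mul_one]
      apply NNReal.eq
      simp

lemma integral_abs_inner (v : E) :
    ∫ x, |⟪v, x⟫| ∂(stdGaussian E) = ‖v‖ * Real.sqrt (2 / Real.pi) := by
  have h1 : ∫ x, |⟪v, x⟫| ∂(stdGaussian E) =
      ∫ t, |t| ∂((stdGaussian E).map (fun x => ⟪v, x⟫)) := by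
    rw [integral_map (by fun_prop) (by fun_prop)]
  rw [h1, law_inner, integral_map (by fun_prop) (by fun_prop)]
  simp_rw [abs_mul, abs_norm]
  rw [integral_const_mul, integral_abs_gaussian]

lemma map_neg_stdGaussian : (stdGaussian E).map (fun x => -x) = stdGaussian E :=
  stdGaussian_map (LinearIsometryEquiv.neg ℝ (E := E))

lemma integral_comp_neg_stdGaussian (F : E → ℝ) (hF : Measurable F) :
    ∫ x, F (-x) ∂(stdGaussian E) = ∫ x, F x ∂(stdGaussian E) := by
  conv_rhs => rw [← map_neg_stdGaussian (E := E)]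
  rw [integral_map (by fun_prop) hF.aestronglyMeasurable]

lemma max_three (a b c : ℝ) : max a (max b c) + max (-a) (max (-b) (-c)) =
    (|a - b| + |b - c| + |c - a|) / 2 := by
  rcases le_total a b with h1 | h1 <;> rcases le_total b c with h2 | h2 <;>
    rcases le_total a c with h3 | h3 <;>
    first
      | rw [abs_of_nonpos (sub_nonpos.2 h1)]
      | rw [abs_of_nonneg (sub_nonneg.2 h1)]
  all_goals first
      | rw [abs_of_nonpos (sub_nonpos.2 h2)]
      | rw [abs_of_nonneg (sub_nonneg.2 h2)]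
  all_goals first
      | rw [abs_of_nonneg (sub_nonneg.2 h3)]
      | rw [abs_of_nonpos (sub_nonpos.2 h3)]
  all_goals first
      | rw [max_eq_right h2]
      | rw [max_eq_left h2]
  all_goals first
      | rw [max_eq_left (neg_le_neg h2)]
      | rw [max_eq_right (neg_le_neg h2)]
  all_goals first
      | rw [max_eq_right h3]
      | rw [max_eq_left h3]
      | rw [max_eq_right h1]
      | rw [max_eq_left h1]
  all_goals first
      | rw [max_eq_right (neg_le_neg h1)]
      | rw [max_eq_left (neg_le_neg h1)]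
      | rw [max_eq_right (neg_le_neg h3)]
      | rw [max_eq_left (neg_le_neg h3)]
  all_goals linarith

lemma Mx_three (z : Fin 3 → E) (x : E) : Mx z x = max ⟪z 0, x⟫ (max ⟪z 1, x⟫ ⟪z 2, x⟫) := by
  apply le_antisymm
  · refine Mx_le (fun i => ?_)
    fin_cases i
    · exact le_max_left _ _
    · exact (le_max_left _ _).trans (le_max_right _ _)
    · exact (le_max_right _ _).trans (le_max_right _ _)
  · exact max_le (le_Mx z x 0) (max_le (le_Mx z x 1) (le_Mx z x 2))

lemma G_three (z : Fin 3 → E) : G z = Real.sqrt (2 / Real.pi) / 4 *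
    (‖z 0 - z 1‖ + ‖z 1 - z 2‖ + ‖z 2 - z 0‖) := by
  have h1 : G z = ∫ x, Mx z (-x) ∂(stdGaussian E) :=
    (integral_comp_neg_stdGaussian (Mx z) (measurable_Mx z)).symm
  have hint : Integrable (fun x => Mx z (-x)) (stdGaussian E) := by
    have h := integrable_Mx z
    rw [← map_neg_stdGaussian (E := E)] at h
    exact h.comp_measurable (by fun_prop)
  have h2 : 2 * G z = ∫ x, (Mx z x + Mx z (-x)) ∂(stdGaussian E) := by
    rw [integral_add (integrable_Mx z) hint, ← h1]
    show 2 * G z = G z + G z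
    ring
  have h3 : ∀ x, Mx z x + Mx z (-x) =
      (|⟪z 0 - z 1, x⟫| + |⟪z 1 - z 2, x⟫| + |⟪z 2 - z 0, x⟫|) / 2 := by
    intro x
    rw [Mx_three, Mx_three]
    simp only [inner_neg_right, inner_sub_left]
    exact max_three _ _ _
  simp_rw [h3] at h2
  have hi : ∀ v : E, Integrable (fun x => |⟪v, x⟫|) (stdGaussian E) := fun v =>
    (integrable_inner v).abs
  have h4 : ∫ x, (|⟪z 0 - z 1, x⟫| + |⟪z 1 - z 2, x⟫| + |⟪z 2 - z 0, x⟫|) ∂(stdGaussian E) =
      ‖z 0 - z 1‖ * Real.sqrt (2 / Real.pi) + ‖z 1 - z 2‖ * Real.sqrt (2 / Real.pi) +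
      ‖z 2 - z 0‖ * Real.sqrt (2 / Real.pi) := by
    rw [← integral_abs_inner, ← integral_abs_inner, ← integral_abs_inner]
    have h5 : Integrable (fun x => |⟪z 0 - z 1, x⟫| + |⟪z 1 - z 2, x⟫|) (stdGaussian E) :=
      (hi _).add (hi _)
    rw [integral_add h5 (hi _), integral_add (hi _) (hi _)]
  rw [integral_div, h4] at h2
  linarith

/-- The three-cell case. -/
theorem three (f : E → Fin 3) (hf : IsLab f) : Fval f ≤ C0 := by
  have h1 := Fval_le_G hf
  rw [G_three] at h1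
  set z : Fin 3 → E := fun i => mom (f ⁻¹' {i}) with hz
  have hsum : z 0 + z 1 + z 2 = 0 := by
    have := sum_mom_lab hf
    rw [Fin.sum_univ_three] at this
    exact this
  have hF : Fval f = ‖z 0‖ ^ 2 + ‖z 1‖ ^ 2 + ‖z 2‖ ^ 2 := by
    unfold Fval
    rw [Fin.sum_univ_three]
  have h2 : ‖z 0 - z 1‖ ^ 2 + ‖z 1 - z 2‖ ^ 2 + ‖z 2 - z 0‖ ^ 2 = 3 * Fval f := by
    have h0 : ‖z 0 + z 1 + z 2‖ ^ 2 = 0 := by rw [hsum]; simp
    rw [norm_add_sq_real, norm_add_sq_real, inner_add_left] at h0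
    rw [norm_sub_sq_real, norm_sub_sq_real, norm_sub_sq_real, hF,
      real_inner_comm (z 0) (z 2)]
    linarith
  set a := ‖z 0 - z 1‖
  set b := ‖z 1 - z 2‖
  set c := ‖z 2 - z 0‖
  set F := Fval f
  have hF0 : 0 ≤ F := Fval_nonneg f
  have h3 : (a + b + c) ^ 2 ≤ 9 * F := by
    nlinarith [sq_nonneg (a - b), sq_nonneg (b - c), sq_nonneg (c - a)]
  have ha : 0 ≤ a := norm_nonneg _
  have hb : 0 ≤ b := norm_nonneg _
  have hc : 0 ≤ c := norm_nonneg _
  have h4 : F ^ 2 ≤ (Real.sqrt (2 / Real.pi) / 4) ^ 2 * (9 * F) := by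
    have h5 : F ^ 2 ≤ (Real.sqrt (2 / Real.pi) / 4 * (a + b + c)) ^ 2 := by
      gcongr
    rw [mul_pow] at h5
    refine h5.trans ?_
    gcongr
  have h5 : (Real.sqrt (2 / Real.pi) / 4) ^ 2 * (9 * F) = C0 * F := by
    rw [div_pow, Real.sq_sqrt (by positivity)]
    unfold C0
    have : Real.pi ≠ 0 := Real.pi_ne_zero
    field_simp
    ring
  rw [h5] at h4
  rcases hF0.eq_or_lt with h6 | h6
  · rw [← h6]
    unfold C0; positivity
  · have : F * F ≤ C0 * F := by nlinarith
    exact le_of_mul_le_mul_right this h6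

end Vale.Agent.P226
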