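import Vale.Agent.P226.Crit
import Vale.Agent.P226.Three

/-!
# P226: disintegration of the standard Gaussian measure along a unit vector
-/

open MeasureTheory ProbabilityTheory Finset
open scoped RealInnerProductSpace ENNReal BigOperators

namespace Vale.Agent.P226

set_option linter.unusedSectionVars false

variable {E : Type*} [NormedAddCommGroup E] [InnerProductSpace ℝ E] [FiniteDimensional ℝ E]
  [MeasurableSpace E] [BorelSpace E]

/-- projection off the unit vector `e` -/
noncomputable def pj (e y : E) : E := y - ⟪e, y⟫ • e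

lemma continuous_pj (e : E) : Continuous (pj e) := by
  unfold pj; fun_prop

lemma measurable_pj (e : E) : Measurable (pj e) := (continuous_pj e).measurable

lemma inner_pj {e : E} (v y : E) : ⟪v, pj e y⟫ = ⟪pj e v, y⟫ := by
  unfold pj
  rw [inner_sub_right, inner_sub_left, real_inner_smul_right, real_inner_smul_left,
    real_inner_comm e v]
  ring

lemma inner_pj_self {e : E} (he : ‖e‖ = 1) (y : E) : ⟪e, pj e y⟫ = 0 := by
  unfold pj
  rw [inner_sub_right, real_inner_smul_right, real_inner_self_eq_norm_sq, he]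
  ring

lemma inner_of_perp {e v : E} (hv : ⟪v, e⟫ = 0) (y : E) : ⟪v, pj e y⟫ = ⟪v, y⟫ := by
  unfold pj
  rw [inner_sub_right, real_inner_smul_right, hv]
  ring

lemma norm_sq_pj {e : E} (he : ‖e‖ = 1) (s : E) : ‖pj e s‖ ^ 2 = ‖s‖ ^ 2 - ⟪e, s⟫ ^ 2 := by
  unfold pj
  rw [norm_sub_sq_real, real_inner_smul_right, norm_smul, he, mul_one, Real.norm_eq_abs, sq_abs,
    real_inner_comm]
  ring

/-- the map `(t, y) ↦ t e + (y - ⟪e,y⟫ e)` -/
noncomputable def rec (e : E) (p : ℝ × E) : E := p.1 • e + pj e p.2

lemma measurable_rec (e : E) : Measurable (rec e) := by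
  unfold rec
  exact ((continuous_fst.smul continuous_const).add
    ((continuous_pj e).comp continuous_snd)).measurable

/-- **Disintegration along a unit vector.** -/
theorem map_rec {e : E} (he : ‖e‖ = 1) :
    ((gaussianReal 0 1).prod (stdGaussian E)).map (rec e) = stdGaussian E := by
  apply Measure.ext_of_charFun
  ext s
  rw [charFun_apply, integral_map (measurable_rec e).aemeasurable (by fun_prop),
    charFun_stdGaussian]
  have h1 : ∀ p : ℝ × E, Complex.exp (⟪rec e p, s⟫ * Complex.I) =
      Complex.exp ((p.1 * ⟪e, s⟫ : ℝ) * Complex.I) * Complex.exp (⟪p.2, pj e s⟫ * Complex.I) := by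
    intro p
    rw [← Complex.exp_add]
    congr 1
    unfold rec
    rw [inner_add_left, real_inner_smul_left, real_inner_comm, real_inner_comm s,
      inner_pj, real_inner_comm p.2]
    push_cast
    ring
  simp_rw [h1]
  rw [integral_prod_mul (fun t : ℝ => Complex.exp ((t * ⟪e, s⟫ : ℝ) * Complex.I))
    (fun y : E => Complex.exp (⟪y, pj e s⟫ * Complex.I))]
  rw [← charFun_apply, charFun_stdGaussian]
  have h2 : ∫ t : ℝ, Complex.exp ((t * ⟪e, s⟫ : ℝ) * Complex.I) ∂(gaussianReal 0 1) =
      charFun (gaussianReal 0 1) ⟪e, s⟫ := by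
    rw [charFun_apply_real]
    congr 1
    ext t
    push_cast
    ring_nf
  rw [h2, charFun_gaussianReal, ← Complex.exp_add]
  congr 1
  have h3 := norm_sq_pj he s
  have h4 : ((‖pj e s‖ : ℂ)) ^ 2 = (‖s‖ : ℂ) ^ 2 - (⟪e, s⟫ : ℂ) ^ 2 := by
    exact_mod_cast h3
  rw [h4]
  push_cast
  ring

theorem integral_rec {e : E} (he : ‖e‖ = 1) {F : Type*} [NormedAddCommGroup F] [NormedSpace ℝ F]
    {f : E → F} (hf : Integrable f (stdGaussian E)) :
    ∫ x, f x ∂(stdGaussian E) =
      ∫ y, ∫ t, f (t • e + pj e y) ∂(gaussianReal 0 1) ∂(stdGaussian E) := by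
  conv_lhs => rw [← map_rec he]
  rw [integral_map (measurable_rec e).aemeasurable (by rw [map_rec he]; exact hf.1)]
  have hint : Integrable (fun p => f (rec e p)) ((gaussianReal 0 1).prod (stdGaussian E)) := by
    have h := hf
    rw [← map_rec he] at h
    exact h.comp_measurable (measurable_rec e)
  rw [integral_prod_symm _ hint]
  rfl

theorem integral_rec' {e : E} (he : ‖e‖ = 1) {F : Type*} [NormedAddCommGroup F] [NormedSpace ℝ F]
    {f : E → F} (hf : Integrable f (stdGaussian E)) :
    ∫ x, f x ∂(stdGaussian E) =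
      ∫ t, ∫ y, f (t • e + pj e y) ∂(stdGaussian E) ∂(gaussianReal 0 1) := by
  conv_lhs => rw [← map_rec he]
  rw [integral_map (measurable_rec e).aemeasurable (by rw [map_rec he]; exact hf.1)]
  have hint : Integrable (fun p => f (rec e p)) ((gaussianReal 0 1).prod (stdGaussian E)) := by
    have h := hf
    rw [← map_rec he] at h
    exact h.comp_measurable (measurable_rec e)
  rw [integral_prod _ hint]
  rfl

end Vale.Agent.P226
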