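import Vale.Agent.P226.Cond

open MeasureTheory ProbabilityTheory Finset
open scoped RealInnerProductSpace ENNReal BigOperators

namespace Vale.Agent.P226

set_option linter.unusedSectionVars false

variable {E : Type*} [NormedAddCommGroup E] [InnerProductSpace ℝ E] [FiniteDimensional ℝ E]
  [MeasurableSpace E] [BorelSpace E]

noncomputable def recK (K : Submodule ℝ E) (p : E × E) : E :=
  K.starProjection p.1 + (p.2 - K.starProjection p.2)

lemma continuous_recK (K : Submodule ℝ E) : Continuous (recK K) := by
  unfold recK
  fun_prop

lemma measurable_recK (K : Submodule ℝ E) : Measurable (recK K) := (continuous_recK K).measurable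

lemma norm_sq_decomp (K : Submodule ℝ E) (s : E) :
    ‖s‖ ^ 2 = ‖K.starProjection s‖ ^ 2 + ‖s - K.starProjection s‖ ^ 2 := by
  have h1 : ⟪s - K.starProjection s, K.starProjection s⟫ = 0 :=
    Submodule.starProjection_inner_eq_zero s _ (Submodule.starProjection_apply_mem K s)
  have h2 : s = K.starProjection s + (s - K.starProjection s) := by abel
  conv_lhs => rw [h2]
  rw [norm_add_sq_real, real_inner_comm, h1]
  ring

theorem map_recK (K : Submodule ℝ E) :
    ((stdGaussian E).prod (stdGaussian E)).map (recK K) = stdGaussian E := by
  apply Measure.ext_of_charFun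
  ext s
  rw [charFun_apply, integral_map (measurable_recK K).aemeasurable (by fun_prop),
    charFun_stdGaussian]
  have h1 : ∀ p : E × E, Complex.exp (⟪recK K p, s⟫ * Complex.I) =
      Complex.exp (⟪p.1, K.starProjection s⟫ * Complex.I) *
        Complex.exp (⟪p.2, s - K.starProjection s⟫ * Complex.I) := by
    intro p
    rw [← Complex.exp_add]
    congr 1
    unfold recK
    rw [inner_add_left, inner_sub_left, inner_sub_right,
      Submodule.inner_starProjection_left_eq_right, Submodule.inner_starProjection_left_eq_right]
    push_cast
    ring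
  simp_rw [h1]
  rw [integral_prod_mul (fun t : E => Complex.exp (⟪t, K.starProjection s⟫ * Complex.I))
    (fun y : E => Complex.exp (⟪y, s - K.starProjection s⟫ * Complex.I))]
  rw [← charFun_apply, ← charFun_apply, charFun_stdGaussian, charFun_stdGaussian,
    ← Complex.exp_add]
  congr 1
  have h3 := norm_sq_decomp K s
  have h4 : ((‖s‖ : ℂ)) ^ 2 = (‖K.starProjection s‖ : ℂ) ^ 2 +
      (‖s - K.starProjection s‖ : ℂ) ^ 2 := by
    exact_mod_cast h3
  rw [h4]
  ring

theorem integral_recK (K : Submodule ℝ E) {F : Type*} [NormedAddCommGroup F] [NormedSpace ℝ F]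
    {f : E → F} (hf : Integrable f (stdGaussian E)) :
    ∫ x, f x ∂(stdGaussian E) =
      ∫ x, ∫ y, f (K.starProjection x + (y - K.starProjection y)) ∂(stdGaussian E)
        ∂(stdGaussian E) := by
  conv_lhs => rw [← map_recK K]
  rw [integral_map (measurable_recK K).aemeasurable (by rw [map_recK K]; exact hf.1)]
  have hint : Integrable (fun p => f (recK K p)) ((stdGaussian E).prod (stdGaussian E)) := by
    have h := hf
    rw [← map_recK K] at h
    exact h.comp_measurable (measurable_recK K)
  rw [integral_prod _ hint]
  rfl

theorem integrable_recK (K : Submodule ℝ E) {F : Type*} [NormedAddCommGroup F] [NormedSpace ℝ F]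
    {f : E → F} (hf : Integrable f (stdGaussian E)) :
    Integrable (fun x => ∫ y, f (K.starProjection x + (y - K.starProjection y)) ∂(stdGaussian E))
      (stdGaussian E) := by
  have hint : Integrable (fun p => f (recK K p)) ((stdGaussian E).prod (stdGaussian E)) := by
    have h := hf
    rw [← map_recK K] at h
    exact h.comp_measurable (measurable_recK K)
  exact hint.integral_prod_left

end Vale.Agent.P226
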