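import Vale.Agent.P226.Density

/-!
# P226: cones and the standard Gaussian measure (independence of radius and direction)
-/

open MeasureTheory ProbabilityTheory Metric Set
open scoped RealInnerProductSpace ENNReal

namespace Vale.Agent.P226

set_option linter.unusedSectionVars false

variable {E : Type*} [NormedAddCommGroup E] [InnerProductSpace ℝ E] [FiniteDimensional ℝ E]
  [MeasurableSpace E] [BorelSpace E]

/-- polar coordinates for a function of the norm on a cone -/
lemma cone_integral_volume [Nontrivial E] {A : Set E} (hA : MeasurableSet A)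
    (hc : ∀ x ∈ A, ∀ s : ℝ, 0 < s → s • x ∈ A) (f : ℝ → ℝ) :
    ∫ x in A, f ‖x‖ = (volume : Measure E).toSphere.real (Subtype.val ⁻¹' A) *
      ∫ r : Ioi (0 : ℝ), f r ∂(Measure.volumeIoiPow (Module.finrank ℝ E - 1)) := by
  set μ : Measure E := volume
  have hcone : ∀ x : ({(0 : E)}ᶜ : Set E), (x : E) ∈ A ↔
      ((homeomorphUnitSphereProd E x).1 : E) ∈ A := by
    intro x
    have hx0 : (x : E) ≠ 0 := x.2
    have hpos : 0 < ‖(x : E)‖ := norm_pos_iff.2 hx0
    rw [homeomorphUnitSphereProd_apply_fst_coe]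
    constructor
    · intro h
      exact hc _ h _ (inv_pos.2 hpos)
    · intro h
      have := hc _ h _ hpos
      rwa [smul_smul, mul_inv_cancel₀ hpos.ne', one_smul] at this
  calc ∫ x in A, f ‖x‖ ∂μ = ∫ x, A.indicator (fun x => f ‖x‖) x ∂μ := by
        rw [integral_indicator hA]
    _ = ∫ x : ({(0)}ᶜ : Set E), A.indicator (fun x => f ‖x‖) x.1 ∂(μ.comap (↑)) := by
        rw [integral_subtype_comap (measurableSet_singleton _).compl
          fun x ↦ A.indicator (fun x => f ‖x‖) x, restrict_compl_singleton]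
    _ = ∫ x : ({(0)}ᶜ : Set E), ((Subtype.val ⁻¹' A : Set (sphere (0 : E) 1)).indicator
          (fun _ => (1 : ℝ)) (homeomorphUnitSphereProd E x).1) *
          f ((homeomorphUnitSphereProd E x).2 : ℝ) ∂(μ.comap (↑)) := by
        congr 1
        ext x
        by_cases h : (x : E) ∈ A
        · rw [Set.indicator_of_mem h, Set.indicator_of_mem
            (show (homeomorphUnitSphereProd E x).1 ∈ (Subtype.val ⁻¹' A : Set (sphere (0 : E) 1))
              from (hcone x).1 h), one_mul]
          simp
        · rw [Set.indicator_of_notMem h, Set.indicator_of_notMem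
            (show (homeomorphUnitSphereProd E x).1 ∉ (Subtype.val ⁻¹' A : Set (sphere (0 : E) 1))
              from fun h' => h ((hcone x).2 h')), zero_mul]
    _ = ∫ x, ((Subtype.val ⁻¹' A : Set (sphere (0 : E) 1)).indicator (fun _ => (1 : ℝ)) x.1) *
          f (x.2 : ℝ) ∂μ.toSphere.prod (.volumeIoiPow (Module.finrank ℝ E - 1)) := by
        exact μ.measurePreserving_homeomorphUnitSphereProd.integral_comp
          (Homeomorph.measurableEmbedding _)
          (fun x => ((Subtype.val ⁻¹' A : Set (sphere (0 : E) 1)).indicator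
            (fun _ => (1 : ℝ)) x.1) * f (x.2 : ℝ))
    _ = (∫ x, (Subtype.val ⁻¹' A : Set (sphere (0 : E) 1)).indicator (fun _ => (1 : ℝ)) x
          ∂μ.toSphere) * ∫ r : Ioi (0 : ℝ), f r
          ∂(Measure.volumeIoiPow (Module.finrank ℝ E - 1)) := by
        rw [integral_prod_mul (μ := μ.toSphere)
          (ν := Measure.volumeIoiPow (Module.finrank ℝ E - 1))
          (fun x => (Subtype.val ⁻¹' A : Set (sphere (0 : E) 1)).indicator (fun _ => (1 : ℝ)) x)
          (fun r : Ioi (0 : ℝ) => f (r : ℝ))]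
    _ = _ := by
        rw [integral_indicator (measurable_subtype_coe hA), setIntegral_const, smul_eq_mul,
          mul_one]

/-- For a cone `A`, `E[g(|x|); A] = P(A) E[g(|x|)]`. -/
theorem cone_integral {A : Set E} [Nontrivial E] (hA : MeasurableSet A)
    (hc : ∀ x ∈ A, ∀ s : ℝ, 0 < s → s • x ∈ A) (g : ℝ → ℝ) :
    ∫ x in A, g ‖x‖ ∂(stdGaussian E) =
      (stdGaussian E).real A * ∫ x, g ‖x‖ ∂(stdGaussian E) := by
  set d : ℝ → ℝ := fun r => (2 * Real.pi) ^ (-(Module.finrank ℝ E : ℝ) / 2) *
    Real.exp (-r ^ 2 / 2) with hd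
  have key : ∀ (B : Set E) (hB : MeasurableSet B) (hcB : ∀ x ∈ B, ∀ s : ℝ, 0 < s → s • x ∈ B)
      (g : ℝ → ℝ), ∫ x in B, g ‖x‖ ∂(stdGaussian E) =
      (volume : Measure E).toSphere.real (Subtype.val ⁻¹' B) *
      ∫ r : Ioi (0 : ℝ), d r * g r ∂(Measure.volumeIoiPow (Module.finrank ℝ E - 1)) := by
    intro B hB hcB g
    rw [stdGaussian_eq_withDensity, restrict_withDensity hB,
      integral_withDensity_eq_integral_toReal_smul₀
      (by exact (continuous_gdens.measurable.ennreal_ofReal).aemeasurable)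
      (Filter.Eventually.of_forall (fun x => ENNReal.ofReal_lt_top)),
      ← cone_integral_volume hB hcB (fun r => d r * g r)]
    congr 1
    ext x
    rw [ENNReal.toReal_ofReal (gdens_pos x).le, smul_eq_mul]
    rfl
  have h1 := key A hA hc g
  have h2 := key A hA hc (fun _ => 1)
  have h3 := key Set.univ MeasurableSet.univ (fun _ _ _ _ => Set.mem_univ _) g
  have h4 := key Set.univ MeasurableSet.univ (fun _ _ _ _ => Set.mem_univ _) (fun _ => 1)
  rw [Measure.restrict_univ] at h3 h4
  rw [setIntegral_const, smul_eq_mul, mul_one] at h2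
  rw [integral_const, smul_eq_mul, mul_one] at h4
  rw [probReal_univ] at h4
  rw [h1, h3, h2]
  set I1 := ∫ r : Ioi (0 : ℝ), d r * 1 ∂(Measure.volumeIoiPow (Module.finrank ℝ E - 1))
  set Ig := ∫ r : Ioi (0 : ℝ), d r * g r ∂(Measure.volumeIoiPow (Module.finrank ℝ E - 1))
  linear_combination (volume : Measure E).toSphere.real (Subtype.val ⁻¹' A) * Ig * h4

end Vale.Agent.P226
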