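import Vale.Agent.P226.Density
import Vale.Agent.P226.Trans

open MeasureTheory ProbabilityTheory Finset Filter Topology
open scoped RealInnerProductSpace ENNReal BigOperators Pointwise

namespace Vale.Agent.P226

set_option linter.unusedSectionVars false

section
variable {E : Type*} [NormedAddCommGroup E] [InnerProductSpace ℝ E] [FiniteDimensional ℝ E]
  [MeasurableSpace E] [BorelSpace E]

lemma gint_eq {A : Set E} (hA : MeasurableSet A) (f : E → ℝ) :
    ∫ x in A, f x ∂(stdGaussian E) = ∫ x in A, gdens x * f x := by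
  rw [stdGaussian_eq_withDensity, restrict_withDensity hA,
    integral_withDensity_eq_integral_toReal_smul₀
    (by exact (continuous_gdens.measurable.ennreal_ofReal).aemeasurable)
    (Filter.Eventually.of_forall (fun x => ENNReal.ofReal_lt_top))]
  congr 1
  ext x
  rw [ENNReal.toReal_ofReal (gdens_pos x).le, smul_eq_mul]

lemma gint_iff {f : E → ℝ} (hf : Integrable f (stdGaussian E)) :
    Integrable (fun x => gdens x * f x) := by
  rw [stdGaussian_eq_withDensity] at hf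
  have h := (integrable_withDensity_iff_integrable_smul₀' (μ := (volume : Measure E))
    (f := fun x => ENNReal.ofReal (gdens x))
    ((continuous_gdens.measurable.ennreal_ofReal).aemeasurable)
    (Filter.Eventually.of_forall (fun x => ENNReal.ofReal_lt_top)) (g := f)).1 hf
  refine h.congr (Filter.Eventually.of_forall (fun t => ?_))
  simp only
  rw [ENNReal.toReal_ofReal (gdens_pos t).le, smul_eq_mul]

lemma integrable_norm_pow' (k : ℕ) : Integrable (fun x : E => ‖x‖ ^ k) (stdGaussian E) := by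
  have h := IsGaussian.memLp_id (stdGaussian E) (k : ℝ≥0∞) (by simp)
  rcases Nat.eq_zero_or_pos k with h0 | h0
  · subst h0
    simp
  · have := h.integrable_norm_pow (by omega)
    simpa using this

lemma integrable_lin_sq (c : E) : Integrable (fun x : E => ⟪c, x⟫ * ‖x‖ ^ 2) (stdGaussian E) := by
  refine ((integrable_norm_pow' (E := E) 3).const_mul ‖c‖).mono' (by fun_prop) ?_
  refine Filter.Eventually.of_forall (fun x => ?_)
  rw [norm_mul, Real.norm_eq_abs, norm_pow, norm_norm]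
  have := abs_real_inner_le_norm c x
  calc |⟪c, x⟫| * ‖x‖ ^ 2 ≤ (‖c‖ * ‖x‖) * ‖x‖ ^ 2 := by gcongr
    _ = ‖c‖ * ‖x‖ ^ 3 := by ring

/-- scaling identity -/
lemma cone_scale {A : Set E} (hc : ∀ x ∈ A, ∀ s : ℝ, 0 < s → s • x ∈ A) (c : E) {R : ℝ}
    (hR : 0 < R) :
    R ^ (Module.finrank ℝ E + 1) * ∫ x in A, ⟪c, x⟫ * Real.exp (-(R ^ 2 * ‖x‖ ^ 2) / 2) =
      ∫ x in A, ⟪c, x⟫ * Real.exp (-‖x‖ ^ 2 / 2) := by
  have hRA : R • A = A := by
    ext x
    rw [Set.mem_smul_set_iff_inv_smul_mem₀ hR.ne']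
    constructor
    · intro h
      have := hc _ h R hR
      rwa [smul_smul, mul_inv_cancel₀ hR.ne', one_smul] at this
    · intro h
      exact hc _ h _ (inv_pos.2 hR)
  have h1 := Measure.setIntegral_comp_smul_of_pos (volume : Measure E)
    (fun x => ⟪c, x⟫ * Real.exp (-‖x‖ ^ 2 / 2)) A hR
  rw [hRA, smul_eq_mul] at h1
  have h2 : ∀ x : E, ⟪c, R • x⟫ * Real.exp (-‖R • x‖ ^ 2 / 2) =
      R * (⟪c, x⟫ * Real.exp (-(R ^ 2 * ‖x‖ ^ 2) / 2)) := by
    intro x
    rw [real_inner_smul_right, norm_smul, Real.norm_eq_abs, mul_pow, sq_abs]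
    ring
  simp_rw [h2] at h1
  rw [integral_const_mul] at h1
  have h3 : (R ^ Module.finrank ℝ E) ≠ 0 := by positivity
  rw [eq_inv_mul_iff_mul_eq₀ h3] at h1
  rw [← h1]
  ring

theorem cone_moment {A : Set E} (hA : MeasurableSet A)
    (hc : ∀ x ∈ A, ∀ s : ℝ, 0 < s → s • x ∈ A) (c : E) (hpos : ∀ x ∈ A, 0 ≤ ⟪c, x⟫) :
    ∫ x in A, ⟪c, x⟫ * ‖x‖ ^ 2 ∂(stdGaussian E) ≤
      (Module.finrank ℝ E + 1) * ∫ x in A, ⟪c, x⟫ ∂(stdGaussian E) := by
  set n := Module.finrank ℝ E with hn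
  set K : ℝ := (2 * Real.pi) ^ (-(Module.finrank ℝ E : ℝ) / 2) with hK
  have hK0 : 0 < K := by positivity
  set J : ℝ := ∫ x in A, ⟪c, x⟫ * Real.exp (-‖x‖ ^ 2 / 2) with hJ
  set M : ℝ := ∫ x in A, (⟪c, x⟫ * ‖x‖ ^ 2) * Real.exp (-‖x‖ ^ 2 / 2) with hM
  have e1 : ∫ x in A, ⟪c, x⟫ ∂(stdGaussian E) = K * J := by
    rw [gint_eq hA, hJ, ← integral_const_mul]
    congr 1; ext x; unfold gdens; ring
  have e2 : ∫ x in A, ⟪c, x⟫ * ‖x‖ ^ 2 ∂(stdGaussian E) = K * M := by
    rw [gint_eq hA, hM, ← integral_const_mul]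
    congr 1; ext x; unfold gdens; ring
  have i1 : Integrable (fun x : E => ⟪c, x⟫ * Real.exp (-‖x‖ ^ 2 / 2)) := by
    have := (gint_iff (integrable_inner c)).const_mul K⁻¹
    refine this.congr (Filter.Eventually.of_forall (fun x => ?_))
    simp only
    unfold gdens
    rw [← hK]
    field_simp
  have i2 : Integrable (fun x : E => (⟪c, x⟫ * ‖x‖ ^ 2) * Real.exp (-‖x‖ ^ 2 / 2)) := by
    have := (gint_iff (integrable_lin_sq c)).const_mul K⁻¹
    refine this.congr (Filter.Eventually.of_forall (fun x => ?_))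
    simp only
    unfold gdens
    rw [← hK]
    field_simp
  have key : ∀ R : ℝ, 0 < R → R < 1 →
      0 ≤ 2 * (∑ k ∈ Finset.range (n + 1), R ^ k) * J - R ^ (n + 1) * (1 + R) * M := by
    intro R hR0 hR1
    have h1 := cone_scale hc c hR0
    rw [← hn, ← hJ] at h1
    -- integrability of the scaled integrand
    have i3 : Integrable (fun x : E => ⟪c, x⟫ * Real.exp (-(R ^ 2 * ‖x‖ ^ 2) / 2)) := by
      have h2 := (i1.comp_smul hR0.ne').const_mul R⁻¹
      refine h2.congr (Filter.Eventually.of_forall (fun x => ?_))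
      simp only
      rw [real_inner_smul_right, norm_smul, Real.norm_eq_abs, mul_pow, sq_abs]
      field_simp
    have h3 : J + (1 - R ^ 2) / 2 * M ≤
        ∫ x in A, ⟪c, x⟫ * Real.exp (-(R ^ 2 * ‖x‖ ^ 2) / 2) := by
      rw [hJ, hM, ← integral_const_mul, ← integral_add i1.integrableOn
        ((i2.const_mul _).integrableOn)]
      refine setIntegral_mono_on (i1.integrableOn.add ((i2.const_mul _).integrableOn))
        i3.integrableOn hA ?_
      intro x hx
      have h4 : Real.exp (-(R ^ 2 * ‖x‖ ^ 2) / 2) =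
          Real.exp (-‖x‖ ^ 2 / 2) * Real.exp ((1 - R ^ 2) * ‖x‖ ^ 2 / 2) := by
        rw [← Real.exp_add]; congr 1; ring
      have h5 : (1 - R ^ 2) * ‖x‖ ^ 2 / 2 + 1 ≤ Real.exp ((1 - R ^ 2) * ‖x‖ ^ 2 / 2) :=
        Real.add_one_le_exp _
      have h6 : 0 ≤ ⟪c, x⟫ * Real.exp (-‖x‖ ^ 2 / 2) := mul_nonneg (hpos x hx) (Real.exp_pos _).le
      have h7 := mul_le_mul_of_nonneg_left h5 h6
      rw [h4]
      calc _ = ⟪c, x⟫ * Real.exp (-‖x‖ ^ 2 / 2) * ((1 - R ^ 2) * ‖x‖ ^ 2 / 2 + 1) := by ring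
        _ ≤ _ := h7
        _ = _ := by ring
    have h8 : R ^ (n + 1) * (J + (1 - R ^ 2) / 2 * M) ≤ J :=
      (mul_le_mul_of_nonneg_left h3 (by positivity)).trans (le_of_eq h1)
    have h9 : (∑ k ∈ Finset.range (n + 1), R ^ k) * (1 - R) = 1 - R ^ (n + 1) := by
      have := geom_sum_mul R (n + 1)
      linarith
    have h10 : 0 ≤ (1 - R) * (2 * (∑ k ∈ Finset.range (n + 1), R ^ k) * J
        - R ^ (n + 1) * (1 + R) * M) := by
      have h11 : (1 - R) * (2 * (∑ k ∈ Finset.range (n + 1), R ^ k) * J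
        - R ^ (n + 1) * (1 + R) * M) = 2 * ((∑ k ∈ Finset.range (n + 1), R ^ k) * (1 - R)) * J
          - R ^ (n + 1) * (1 - R ^ 2) * M := by ring
      rw [h11, h9]
      nlinarith
    exact nonneg_of_mul_nonneg_right h10 (by linarith)
  have hcont : Continuous (fun R : ℝ => 2 * (∑ k ∈ Finset.range (n + 1), R ^ k) * J
      - R ^ (n + 1) * (1 + R) * M) := by fun_prop
  have hlim : Tendsto (fun R : ℝ => 2 * (∑ k ∈ Finset.range (n + 1), R ^ k) * J
      - R ^ (n + 1) * (1 + R) * M) (𝓝[<] 1) (𝓝 (2 * (∑ k ∈ Finset.range (n + 1), (1 : ℝ) ^ k) * J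
      - (1 : ℝ) ^ (n + 1) * (1 + 1) * M)) := (hcont.tendsto 1).mono_left nhdsWithin_le_nhds
  have hge := ge_of_tendsto hlim (b := 0) (by
    have : ∀ᶠ R : ℝ in 𝓝[<] 1, R ∈ Set.Ioo (0 : ℝ) 1 := Ioo_mem_nhdsLT (by norm_num)
    filter_upwards [this] with R hR
    exact key R hR.1 hR.2)
  simp only [one_pow, Finset.sum_const, Finset.card_range, nsmul_eq_mul, mul_one] at hge
  push_cast at hge
  rw [e1, e2]
  have h12 : M ≤ (n + 1) * J := by linarith
  calc K * M ≤ K * ((n + 1) * J) := mul_le_mul_of_nonneg_left h12 hK0.le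
    _ = _ := by ring

end

section
variable {E : Type*} [NormedAddCommGroup E] [InnerProductSpace ℝ E] [FiniteDimensional ℝ E]
  [MeasurableSpace E] [BorelSpace E]
variable {ι : Type*} [Fintype ι]

lemma measurableSet_argmax (i : ι) : MeasurableSet {v : ι → ℝ | ∀ j, v j ≤ v i} := by
  have : {v : ι → ℝ | ∀ j, v j ≤ v i} = ⋂ j, {v : ι → ℝ | v j ≤ v i} := by
    ext v; simp
  rw [this]
  exact MeasurableSet.iInter (fun j => measurableSet_le (by fun_prop) (by fun_prop))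

open Classical in
lemma cell_integral (z : ι → E) (i : ι) (Ψ : (ι → ℝ) → ℝ) :
    ∫ x in cell z i, Ψ (fun j => ⟪z j, x⟫) ∂(stdGaussian E) =
      ∫ x, (fun v : ι → ℝ => if ∀ j, v j ≤ v i then Ψ v else 0) (fun j => ⟪z j, x⟫)
        ∂(stdGaussian E) := by
  have : Nonempty ι := ⟨i⟩
  rw [← integral_indicator (measurableSet_cell z i)]
  congr 1
  ext x
  by_cases hx : x ∈ cell z i
  · rw [Set.indicator_of_mem hx]
    exact (if_pos hx).symm
  · rw [Set.indicator_of_notMem hx]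
    exact (if_neg hx).symm

lemma cell_integral_transfer {F : Type*} [NormedAddCommGroup F] [InnerProductSpace ℝ F]
    [FiniteDimensional ℝ F] [MeasurableSpace F] [BorelSpace F]
    (z : ι → E) (w : ι → F) (h : ∀ i j, ⟪z i, z j⟫ = ⟪w i, w j⟫) (i : ι)
    {Ψ : (ι → ℝ) → ℝ} (hΨ : Measurable Ψ) :
    ∫ x in cell z i, Ψ (fun j => ⟪z j, x⟫) ∂(stdGaussian E) =
      ∫ x in cell w i, Ψ (fun j => ⟪w j, x⟫) ∂(stdGaussian F) := by
  classical
  rw [cell_integral, cell_integral]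
  refine integral_ipv_eq z w h (fun v : ι → ℝ => if ∀ j, v j ≤ v i then Ψ v else 0) ?_
  exact Measurable.ite (measurableSet_argmax i) hΨ measurable_const

lemma sum_inner_lin (z : ι → E) (a : ι → ℝ) (x : E) :
    ∑ j, a j * ⟪z j, x⟫ = ⟪∑ j, a j • z j, x⟫ := by
  rw [sum_inner]
  exact Finset.sum_congr rfl (fun j _ => by rw [real_inner_smul_left])

lemma norm_sum_gram {F : Type*} [NormedAddCommGroup F] [InnerProductSpace ℝ F]
    (z : ι → E) (w : ι → F) (h : ∀ i j, ⟪z i, z j⟫ = ⟪w i, w j⟫) (a : ι → ℝ) :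
    ‖∑ j, a j • z j‖ ^ 2 = ‖∑ j, a j • w j‖ ^ 2 := by
  rw [← real_inner_self_eq_norm_sq, ← real_inner_self_eq_norm_sq]
  simp_rw [sum_inner, inner_sum, real_inner_smul_left, real_inner_smul_right, h]

theorem cell_moment (z : ι → E) {n : ℕ}
    (hn : Module.finrank ℝ (Submodule.span ℝ (Set.range z)) ≤ n) (i : ι) (c a : ι → ℝ)
    (hc : ∀ t : ι → ℝ, (∀ j, t j ≤ t i) → 0 ≤ ∑ j, c j * t j) :
    ∫ x in cell z i, (∑ j, c j * ⟪z j, x⟫) * (∑ j, a j * ⟪z j, x⟫) ^ 2 ∂(stdGaussian E) ≤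
      (n + 1) * ‖∑ j, a j • z j‖ ^ 2 *
        ∫ x in cell z i, (∑ j, c j * ⟪z j, x⟫) ∂(stdGaussian E) := by
  have : Nonempty ι := ⟨i⟩
  obtain ⟨w, hw⟩ := exists_gram z hn
  rw [cell_integral_transfer z w hw i (Ψ := fun t => (∑ j, c j * t j) * (∑ j, a j * t j) ^ 2)
    (by fun_prop), cell_integral_transfer z w hw i (Ψ := fun t => (∑ j, c j * t j))
    (by fun_prop), norm_sum_gram z w hw a]
  have hcone : ∀ x ∈ cell w i, ∀ s : ℝ, 0 < s → s • x ∈ cell w i := by
    intro x hx s hs j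
    rw [real_inner_smul_right, real_inner_smul_right]
    exact mul_le_mul_of_nonneg_left (hx j) hs.le
  have hm := cone_moment (measurableSet_cell w i) hcone (∑ j, c j • w j) (by
    intro x hx
    rw [← sum_inner_lin]
    exact hc (fun j => ⟪w j, x⟫) hx)
  rw [finrank_euclideanSpace_fin] at hm
  simp_rw [sum_inner_lin] at *
  have hint := integrable_lin_sq (∑ j, c j • w j)
  calc ∫ x in cell w i, ⟪∑ j, c j • w j, x⟫ * ⟪∑ j, a j • w j, x⟫ ^ 2
        ∂(stdGaussian (EuclideanSpace ℝ (Fin n)))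
      ≤ ∫ x in cell w i, ‖∑ j, a j • w j‖ ^ 2 * (⟪∑ j, c j • w j, x⟫ * ‖x‖ ^ 2)
        ∂(stdGaussian (EuclideanSpace ℝ (Fin n))) := by
        have hbd : ∀ x ∈ cell w i, ⟪∑ j, c j • w j, x⟫ * ⟪∑ j, a j • w j, x⟫ ^ 2 ≤
            ‖∑ j, a j • w j‖ ^ 2 * (⟪∑ j, c j • w j, x⟫ * ‖x‖ ^ 2) := by
          intro x hx
          have h1 : 0 ≤ ⟪∑ j, c j • w j, x⟫ := by
            rw [← sum_inner_lin]
            exact hc (fun j => ⟪w j, x⟫) hx
          have h2 : ⟪∑ j, a j • w j, x⟫ ^ 2 ≤ ‖∑ j, a j • w j‖ ^ 2 * ‖x‖ ^ 2 := by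
            rw [← mul_pow, ← sq_abs]
            have := abs_real_inner_le_norm (∑ j, a j • w j) x
            gcongr
          have := mul_le_mul_of_nonneg_left h2 h1
          linarith
        refine setIntegral_mono_on ?_ (hint.const_mul _).integrableOn (measurableSet_cell w i) hbd
        refine ((hint.norm.const_mul (‖∑ j, a j • w j‖ ^ 2)).mono' (by fun_prop) ?_).integrableOn
        refine Filter.Eventually.of_forall (fun x => ?_)
        rw [norm_mul, norm_pow, Real.norm_eq_abs, Real.norm_eq_abs, norm_mul, Real.norm_eq_abs,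
          norm_pow, norm_norm]
        have h2 : |⟪∑ j, a j • w j, x⟫| ^ 2 ≤ ‖∑ j, a j • w j‖ ^ 2 * ‖x‖ ^ 2 := by
          rw [← mul_pow]
          have := abs_real_inner_le_norm (∑ j, a j • w j) x
          gcongr
        have := mul_le_mul_of_nonneg_left h2 (abs_nonneg ⟪∑ j, c j • w j, x⟫)
        linarith
    _ = ‖∑ j, a j • w j‖ ^ 2 * ∫ x in cell w i, ⟪∑ j, c j • w j, x⟫ * ‖x‖ ^ 2
        ∂(stdGaussian (EuclideanSpace ℝ (Fin n))) := integral_const_mul _ _
    _ ≤ ‖∑ j, a j • w j‖ ^ 2 * ((n + 1) * ∫ x in cell w i, ⟪∑ j, c j • w j, x⟫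
        ∂(stdGaussian (EuclideanSpace ℝ (Fin n)))) := by
        exact mul_le_mul_of_nonneg_left hm (by positivity)
    _ = _ := by ring

end

end Vale.Agent.P226
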