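import Vale.Agent.P226.Defs

/-!
# P226: existence of an optimal partition, critical configurations, removal inequality
-/

open MeasureTheory ProbabilityTheory Finset
open scoped RealInnerProductSpace ENNReal BigOperators

namespace Vale.Agent.P226

set_option linter.unusedSectionVars false

variable {E : Type*} [NormedAddCommGroup E] [InnerProductSpace ℝ E] [FiniteDimensional ℝ E]
  [MeasurableSpace E] [BorelSpace E]
variable {ι : Type*} [Fintype ι]

/-- squared Euclidean norm of a configuration -/
noncomputable def nsq (z : ι → E) : ℝ := ∑ i, ‖z i‖ ^ 2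

lemma continuous_nsq : Continuous (nsq : (ι → E) → ℝ) := by
  unfold nsq
  fun_prop

lemma nsq_nonneg (z : ι → E) : 0 ≤ nsq z := Finset.sum_nonneg (fun _ _ => by positivity)

lemma nsq_smul (c : ℝ) (z : ι → E) : nsq (c • z) = c ^ 2 * nsq z := by
  unfold nsq
  rw [Finset.mul_sum]
  refine Finset.sum_congr rfl (fun i _ => ?_)
  rw [Pi.smul_apply, norm_smul, mul_pow, Real.norm_eq_abs, sq_abs]

lemma norm_le_of_nsq {z : ι → E} {r : ℝ} (hr : 0 ≤ r) (h : nsq z ≤ r ^ 2) : ‖z‖ ≤ r := by
  rw [pi_norm_le_iff_of_nonneg hr]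
  intro i
  have h1 : ‖z i‖ ^ 2 ≤ nsq z :=
    Finset.single_le_sum (f := fun i => ‖z i‖ ^ 2) (fun _ _ => by positivity) (Finset.mem_univ i)
  exact (pow_le_pow_iff_left₀ (norm_nonneg _) hr two_ne_zero).1 (h1.trans h)

/-- Existence of an optimal partition: there is `z` such that the argmax-partition of `z` has
moments exactly `z`, and no partition has a larger value. -/
theorem exists_opt [Nonempty ι] (h : ∃ f : E → ι, IsLab f ∧ 0 < Fval f) :
    ∃ z : ι → E, (∀ i, mom (am z ⁻¹' {i}) = z i) ∧ (∀ f : E → ι, IsLab f → Fval f ≤ nsq z) := by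
  obtain ⟨f0, hf0, hf0pos⟩ := h
  -- the unit sphere
  let K : Set (ι → E) := {z | nsq z = 1}
  have hKc : IsCompact K := by
    refine Metric.isCompact_of_isClosed_isBounded ?_ ?_
    · exact isClosed_eq continuous_nsq continuous_const
    · refine (Metric.isBounded_closedBall (x := (0 : ι → E)) (r := 1)).subset ?_
      intro z hz
      rw [mem_closedBall_zero_iff]
      refine norm_le_of_nsq zero_le_one ?_
      rw [show nsq z = 1 from hz]; norm_num
  have key : ∀ f : E → ι, IsLab f → 0 < Fval f →
      (Real.sqrt (Fval f))⁻¹ • (fun i => mom (f ⁻¹' {i})) ∈ K := by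
    intro f _ hpos
    show nsq _ = 1
    rw [nsq_smul]
    have : nsq (fun i => mom (f ⁻¹' {i})) = Fval f := rfl
    rw [this, inv_pow, Real.sq_sqrt hpos.le]
    exact inv_mul_cancel₀ hpos.ne'
  have hKne : K.Nonempty := ⟨_, key f0 hf0 hf0pos⟩
  obtain ⟨w, hwK, hwmax⟩ := hKc.exists_isMaxOn hKne continuous_G.continuousOn
  have hw1 : nsq w = 1 := hwK
  -- for any labelling, sqrt (Fval f) ≤ G w
  have hle : ∀ f : E → ι, IsLab f → Real.sqrt (Fval f) ≤ G w := by
    intro f hf
    rcases (Fval_nonneg f).eq_or_lt with h0 | hpos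
    · rw [← h0, Real.sqrt_zero]
      have h1 : 0 < Real.sqrt (Fval f0) := Real.sqrt_pos.2 hf0pos
      have h2 := Fval_le_G hf0
      have h3 := hwmax (key f0 hf0 hf0pos)
      simp only [Set.mem_ofPred_eq] at h3
      rw [G_smul _ (by positivity)] at h3
      have h4 : 0 ≤ (Real.sqrt (Fval f0))⁻¹ * G (fun i => mom (f0 ⁻¹' {i})) := by
        apply mul_nonneg (by positivity)
        exact le_trans (Fval_nonneg f0) h2
      linarith
    · have h1 : 0 < Real.sqrt (Fval f) := Real.sqrt_pos.2 hpos
      have h2 := Fval_le_G hf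
      have h3 := hwmax (key f hf hpos)
      simp only [Set.mem_ofPred_eq] at h3
      rw [G_smul _ (by positivity)] at h3
      have h5 : Fval f = Real.sqrt (Fval f) * Real.sqrt (Fval f) :=
        (Real.mul_self_sqrt hpos.le).symm
      have h6 : (Real.sqrt (Fval f))⁻¹ * Fval f ≤ G w := by
        refine le_trans ?_ h3
        exact mul_le_mul_of_nonneg_left h2 (by positivity)
      have h7 : (Real.sqrt (Fval f))⁻¹ * Fval f = Real.sqrt (Fval f) := by
        rw [inv_mul_eq_div, div_eq_iff h1.ne']
        exact h5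
      linarith
  have hGpos : 0 < G w := lt_of_lt_of_le (Real.sqrt_pos.2 hf0pos) (hle f0 hf0)
  -- Z = moments of the argmax partition of w
  have hZle := hle (am w) (isLab_am w)
  have hin := sum_inner_am w
  have hnorm : Fval (am w) ≤ G w ^ 2 := by
    have := Real.sqrt_le_left (x := Fval (am w)) hGpos.le |>.1 hZle
    exact this
  have hsum0 : ∑ i, ‖mom (am w ⁻¹' {i}) - G w • w i‖ ^ 2 ≤ 0 := by
    have h1 : ∀ i, ‖mom (am w ⁻¹' {i}) - G w • w i‖ ^ 2 =
        ‖mom (am w ⁻¹' {i})‖ ^ 2 - 2 * G w * ⟪w i, mom (am w ⁻¹' {i})⟫ + G w ^ 2 * ‖w i‖ ^ 2 := by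
      intro i
      rw [norm_sub_sq_real, real_inner_smul_right, norm_smul, mul_pow, Real.norm_eq_abs, sq_abs,
        real_inner_comm]
      ring
    simp_rw [h1]
    rw [Finset.sum_add_distrib, Finset.sum_sub_distrib, ← Finset.mul_sum, ← Finset.mul_sum, hin]
    have h2 : ∑ i, ‖w i‖ ^ 2 = 1 := hw1
    have h3 : ∑ i, ‖mom (am w ⁻¹' {i})‖ ^ 2 = Fval (am w) := rfl
    rw [h2, h3]
    nlinarith
  have hZ : ∀ i, mom (am w ⁻¹' {i}) = G w • w i := by
    intro i
    have h1 : ∑ i, ‖mom (am w ⁻¹' {i}) - G w • w i‖ ^ 2 = 0 :=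
      le_antisymm hsum0 (Finset.sum_nonneg (fun _ _ => by positivity))
    rw [Finset.sum_eq_zero_iff_of_nonneg (fun _ _ => by positivity)] at h1
    have h2 := h1 i (Finset.mem_univ i)
    rw [sq_eq_zero_iff, norm_eq_zero, sub_eq_zero] at h2
    exact h2
  have ham : am (G w • w) = am w := by
    have : ∀ x, amSet (G w • w) x = amSet w x := by
      intro x
      ext i
      rw [mem_amSet, mem_amSet]
      refine forall_congr' (fun j => ?_)
      rw [Pi.smul_apply, Pi.smul_apply, real_inner_smul_left, real_inner_smul_left]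
      exact mul_le_mul_iff_right₀ hGpos
    ext x
    unfold am
    rw [this]
  refine ⟨G w • w, ?_, ?_⟩
  · intro i
    rw [ham, hZ i]
    rfl
  · intro f hf
    rw [nsq_smul, hw1, mul_one]
    exact (Real.sqrt_le_left hGpos.le).1 (hle f hf)

/-- A critical configuration: the data of a minimal counterexample. -/
structure Crit [DecidableEq ι] (z : ι → E) : Prop where
  /-- the moment of the `i`-th cell is `z i` -/
  mom_eq : ∀ i, mom (cell z i) = z i
  inner_neg : ∀ i j, i ≠ j → ⟪z i, z j⟫ < 0
  sum_zero : ∑ i, z i = 0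
  opt : ∀ f : E → ι, IsLab f → Fval f ≤ nsq z
  big : C0 < nsq z
  less : ∀ i0 : ι, ∀ f : E → {i // i ≠ i0}, IsLab f → Fval f ≤ C0

lemma cell_ae_eq_am [Nonempty ι] {z : ι → E} (hz : Function.Injective z) (i : ι) :
    (am z ⁻¹' {i} : Set E) =ᵐ[stdGaussian E] cell z i := by
  have hnull : ∀ᵐ x ∂(stdGaussian E), ∀ j, j ≠ i → ⟪z i - z j, x⟫ ≠ 0 := by
    rw [ae_all_iff]
    intro j
    by_cases hj : j = i
    · simp [hj]
    · have hne : z i - z j ≠ 0 := sub_ne_zero.2 (fun h => hj (hz h.symm))
      have := hyperplane_null hne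
      rw [ae_iff]
      refine measure_mono_null ?_ this
      intro x hx
      simp only [Set.mem_ofPred_eq] at hx ⊢
      by_contra h
      exact hx (fun _ => h)
  filter_upwards [hnull] with x hx
  show (am z x = i) = (∀ j, ⟪z j, x⟫ ≤ ⟪z i, x⟫)
  apply propext
  constructor
  · intro h
    rw [← h]
    exact am_spec z x
  · intro h
    by_contra hne
    have h1 := am_spec z x i
    have h2 := h (am z x)
    have h3 := hx (am z x) hne
    apply h3
    rw [inner_sub_left]
    linarith

lemma inj_of_inner_neg {z : ι → E} (h : ∀ i j, i ≠ j → ⟪z i, z j⟫ < 0) :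
    Function.Injective z := by
  intro i j hij
  by_contra hne
  have := h i j hne
  rw [hij, real_inner_self_eq_norm_sq] at this
  nlinarith [sq_nonneg ‖z j‖]

/-- the minimal counterexample is critical -/
theorem exists_crit [Nonempty ι] [DecidableEq ι]
    (hC : 0 ≤ (C0 : ℝ))
    (hless : ∀ i0 : ι, ∀ f : E → {i // i ≠ i0}, IsLab f → Fval f ≤ C0)
    (h : ∃ f : E → ι, IsLab f ∧ C0 < Fval f) :
    ∃ z : ι → E, Crit z := by
  obtain ⟨f0, hf0, hbig⟩ := h
  obtain ⟨z, hz, hopt⟩ := exists_opt (E := E) (ι := ι) ⟨f0, hf0, lt_of_le_of_lt hC hbig⟩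
  have hzbig : C0 < nsq z := lt_of_lt_of_le hbig (hopt f0 hf0)
  have hF : Fval (am z) = nsq z := by
    unfold Fval nsq
    simp_rw [hz]
  have hneg : ∀ i j, i ≠ j → ⟪z i, z j⟫ < 0 := by
    intro i j hij
    -- merge cell `i` into cell `j`
    let g : ι → {l // l ≠ i} := fun l => if h : l = i then ⟨j, hij.symm⟩ else ⟨l, h⟩
    have hlab : IsLab (g ∘ am z) := (isLab_am z).comp g
    have h1 := hless i (g ∘ am z) hlab
    have hpre : ∀ l : {l // l ≠ i}, (g ∘ am z) ⁻¹' {l} =
        if (l : ι) = j then am z ⁻¹' {j} ∪ am z ⁻¹' {i} else am z ⁻¹' {(l : ι)} := by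
      intro l
      ext x
      simp only [Set.mem_preimage, Function.comp_apply, Set.mem_singleton_iff]
      by_cases hx : am z x = i
      · have : g (am z x) = ⟨j, hij.symm⟩ := by
          simp only [g]; rw [dif_pos hx]
        rw [this]
        split_ifs with hl
        · simp only [Set.mem_union, Set.mem_preimage, Set.mem_singleton_iff, hx, or_true, iff_true]
          exact Subtype.ext hl.symm
        · simp only [Set.mem_preimage, Set.mem_singleton_iff, hx]
          constructor
          · intro h; exact absurd (congrArg Subtype.val h).symm hl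
          · intro h; exact absurd h.symm l.2
      · have : g (am z x) = ⟨am z x, hx⟩ := by
          simp only [g]; rw [dif_neg hx]
        rw [this]
        split_ifs with hl
        · simp only [Set.mem_union, Set.mem_preimage, Set.mem_singleton_iff, hx, or_false]
          constructor
          · intro h; rw [← hl, ← h]
          · intro h; exact Subtype.ext (h.trans hl.symm)
        · simp only [Set.mem_preimage, Set.mem_singleton_iff]
          constructor
          · intro h; rw [← h]
          · intro h; exact Subtype.ext h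
    have h2 : Fval (g ∘ am z) = nsq z + 2 * ⟪z i, z j⟫ := by
      unfold Fval
      have h3 : ∀ l : {l // l ≠ i}, ‖mom ((g ∘ am z) ⁻¹' {l})‖ ^ 2 =
          (fun l : ι => if l = j then ‖z j + z i‖ ^ 2 else ‖z l‖ ^ 2) (l : ι) := by
        intro l
        rw [hpre l]
        simp only
        split_ifs with hl
        · rw [mom_union, hz, hz]
          · rw [Set.disjoint_left]
            intro x hx hx'
            simp only [Set.mem_preimage, Set.mem_singleton_iff] at hx hx'
            exact hij (hx'.symm.trans hx)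
          · exact isLab_am z i
        · rw [hz]
      simp_rw [h3]
      rw [← Finset.sum_subtype (Finset.univ.erase i) (p := fun l => l ≠ i)
        (f := fun l : ι => if l = j then ‖z j + z i‖ ^ 2 else ‖z l‖ ^ 2) (by simp)]
      have hj : j ∈ Finset.univ.erase i := by simp [hij.symm]
      rw [← Finset.add_sum_erase _ _ hj]
      have h4 : ∑ x ∈ (Finset.univ.erase i).erase j,
          (if x = j then ‖z j + z i‖ ^ 2 else ‖z x‖ ^ 2) =
          ∑ x ∈ (Finset.univ.erase i).erase j, ‖z x‖ ^ 2 := by
        refine Finset.sum_congr rfl (fun x hx => ?_)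
        rw [if_neg (Finset.ne_of_mem_erase hx)]
      rw [h4]
      unfold nsq
      rw [← Finset.add_sum_erase Finset.univ _ (Finset.mem_univ i),
        ← Finset.add_sum_erase (Finset.univ.erase i) _ hj]
      simp only [if_true]
      rw [norm_add_sq_real, real_inner_comm]
      ring
    rw [h2] at h1
    linarith
  have hinj := inj_of_inner_neg hneg
  refine ⟨z, ?_, hneg, ?_, hopt, hzbig, hless⟩
  · intro i
    rw [← mom_congr (cell_ae_eq_am hinj i), hz i]
  · have := sum_mom_lab (isLab_am z)
    simp_rw [hz] at this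
    exact this

end Vale.Agent.P226
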