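import Mathlib

/-!
# P226 (Gaussian propeller): labellings, first moments, the dual functional

`E` is a finite-dimensional real inner product space with its standard Gaussian measure
`stdGaussian E`.  A measurable partition of `E` indexed by a finite type `ι` is encoded by the
labelling function `f : E → ι` whose fibres are the cells.
-/

open MeasureTheory ProbabilityTheory Finset
open scoped RealInnerProductSpace ENNReal BigOperators

namespace Vale.Agent.P226

set_option linter.unusedSectionVars false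

variable {E : Type*} [NormedAddCommGroup E] [InnerProductSpace ℝ E] [FiniteDimensional ℝ E]
  [MeasurableSpace E] [BorelSpace E]
variable {ι : Type*} [Fintype ι]

/-- (unnormalised) Gaussian first moment of a set -/
noncomputable def mom (A : Set E) : E := ∫ x in A, x ∂(stdGaussian E)

/-- `f` has measurable fibres, i.e. the fibres of `f` are a measurable partition. -/
def IsLab {ι : Type*} (f : E → ι) : Prop := ∀ i, MeasurableSet (f ⁻¹' {i})

/-- value of the partition given by a labelling -/
noncomputable def Fval (f : E → ι) : ℝ := ∑ i, ‖mom (f ⁻¹' {i})‖ ^ 2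

/-- pointwise maximum of the linear functionals `⟪z i, ·⟫` -/
noncomputable def Mx [Nonempty ι] (z : ι → E) (x : E) : ℝ :=
  Finset.univ.sup' Finset.univ_nonempty (fun i => ⟪z i, x⟫)

/-- the dual functional -/
noncomputable def G [Nonempty ι] (z : ι → E) : ℝ := ∫ x, Mx z x ∂(stdGaussian E)

/-- the (closed) cell of `i`: where `⟪z i, x⟫` is maximal -/
def cell (z : ι → E) (i : ι) : Set E := {x | ∀ j, ⟪z j, x⟫ ≤ ⟪z i, x⟫}

/-- the constant `9 / (8 π)` -/
noncomputable def C0 : ℝ := 9 / (8 * Real.pi)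

lemma integrable_id' : Integrable (fun x : E => x) (stdGaussian E) :=
  IsGaussian.integrable_id

lemma integrable_inner (v : E) : Integrable (fun x : E => ⟪v, x⟫) (stdGaussian E) := by
  exact integrable_id'.const_inner v

lemma integrable_norm' : Integrable (fun x : E => ‖x‖) (stdGaussian E) :=
  integrable_id'.norm

lemma mom_univ : mom (Set.univ : Set E) = 0 := by
  simp [mom]

lemma inner_mom (v : E) (A : Set E) : ⟪v, mom A⟫ = ∫ x in A, ⟪v, x⟫ ∂(stdGaussian E) := by
  rw [mom, integral_inner integrable_id'.integrableOn]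

lemma mom_congr {A B : Set E} (h : A =ᵐ[stdGaussian E] B) : mom A = mom B := by
  unfold mom
  exact setIntegral_congr_set h

lemma mom_union {A B : Set E} (hd : Disjoint A B) (hB : MeasurableSet B) :
    mom (A ∪ B) = mom A + mom B := by
  unfold mom
  exact setIntegral_union hd hB integrable_id'.integrableOn integrable_id'.integrableOn

lemma Fval_nonneg (f : E → ι) : 0 ≤ Fval f := Finset.sum_nonneg (fun _ _ => by positivity)

lemma IsLab.preimage {f : E → ι} (hf : IsLab f) (S : Set ι) : MeasurableSet (f ⁻¹' S) := by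
  have : f ⁻¹' S = ⋃ i ∈ S, f ⁻¹' {i} := by
    ext x; simp
  rw [this]
  exact MeasurableSet.biUnion (Set.to_countable S) (fun i _ => hf i)

lemma IsLab.comp {κ : Type*} {f : E → ι} (hf : IsLab f) (g : ι → κ) : IsLab (g ∘ f) := by
  intro k
  rw [Set.preimage_comp]
  exact hf.preimage _

lemma sum_inner_mom {f : E → ι} (hf : IsLab f) (w : ι → E) :
    ∑ i, ⟪w i, mom (f ⁻¹' {i})⟫ = ∫ x, ⟪w (f x), x⟫ ∂(stdGaussian E) := by
  classical
  have h1 : ∀ i, ⟪w i, mom (f ⁻¹' {i})⟫ =
      ∫ x, (f ⁻¹' {i}).indicator (fun x => ⟪w i, x⟫) x ∂(stdGaussian E) := by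
    intro i
    rw [inner_mom, integral_indicator (hf i)]
  simp_rw [h1]
  rw [← integral_finsetSum _ (fun i _ => (integrable_inner (w i)).indicator (hf i))]
  congr 1
  ext x
  have : ∀ i, (f ⁻¹' {i}).indicator (fun x => ⟪w i, x⟫) x
      = if f x = i then ⟪w i, x⟫ else 0 := by
    intro i
    by_cases h : f x = i
    · simp [h]
    · simp [h]
  simp_rw [this]
  rw [Finset.sum_ite_eq]
  simp

lemma integrable_lab {f : E → ι} (hf : IsLab f) (w : ι → E) :
    Integrable (fun x => ⟪w (f x), x⟫) (stdGaussian E) := by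
  classical
  have : (fun x => ⟪w (f x), x⟫) = fun x =>
      ∑ i, (f ⁻¹' {i}).indicator (fun x => ⟪w i, x⟫) x := by
    ext x
    have : ∀ i, (f ⁻¹' {i}).indicator (fun x => ⟪w i, x⟫) x
        = if f x = i then ⟪w i, x⟫ else 0 := by
      intro i
      by_cases h : f x = i
      · simp [h]
      · simp [h]
    simp_rw [this]
    rw [Finset.sum_ite_eq]
    simp
  rw [this]
  exact integrable_finsetSum _ (fun i _ => (integrable_inner (w i)).indicator (hf i))

lemma sum_mom_lab {f : E → ι} (hf : IsLab f) : ∑ i, mom (f ⁻¹' {i}) = 0 := by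
  refine ext_inner_left ℝ (fun v => ?_)
  rw [inner_sum, sum_inner_mom hf (fun _ => v), inner_zero_right]
  have := inner_mom v (Set.univ : Set E)
  rw [mom_univ, inner_zero_right, Measure.restrict_univ] at this
  exact this.symm

section Mx
variable [Nonempty ι]

lemma le_Mx (z : ι → E) (x : E) (i : ι) : ⟪z i, x⟫ ≤ Mx z x :=
  Finset.le_sup' (fun i => ⟪z i, x⟫) (Finset.mem_univ i)

lemma Mx_le {z : ι → E} {x : E} {a : ℝ} (h : ∀ i, ⟪z i, x⟫ ≤ a) : Mx z x ≤ a :=
  Finset.sup'_le _ _ (fun i _ => h i)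

lemma exists_Mx (z : ι → E) (x : E) : ∃ i, ⟪z i, x⟫ = Mx z x := by
  obtain ⟨i, -, hi⟩ := Finset.exists_mem_eq_sup' Finset.univ_nonempty (fun i => ⟪z i, x⟫)
  exact ⟨i, hi.symm⟩

lemma measurable_Mx (z : ι → E) : Measurable (Mx z) := by
  unfold Mx
  have : (fun x : E => Finset.univ.sup' Finset.univ_nonempty (fun i => ⟪z i, x⟫)) =
      Finset.univ.sup' Finset.univ_nonempty (fun i => fun x : E => ⟪z i, x⟫) := by
    ext x; simp
  rw [this]
  exact Finset.measurable_sup' _ (fun i _ => by fun_prop)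

lemma Mx_le_add (z w : ι → E) (x : E) : Mx z x ≤ Mx w x + ‖z - w‖ * ‖x‖ := by
  refine Mx_le (fun i => ?_)
  have h1 : ⟪z i, x⟫ = ⟪w i, x⟫ + ⟪z i - w i, x⟫ := by
    rw [inner_sub_left]; ring
  have h2 : ⟪z i - w i, x⟫ ≤ ‖z i - w i‖ * ‖x‖ := real_inner_le_norm _ _
  have h3 : ‖z i - w i‖ ≤ ‖z - w‖ := norm_le_pi_norm (z - w) i
  have h4 := le_Mx w x i
  have h5 : ‖z i - w i‖ * ‖x‖ ≤ ‖z - w‖ * ‖x‖ := by gcongr
  linarith

lemma abs_Mx_le (z : ι → E) (x : E) : |Mx z x| ≤ ‖z‖ * ‖x‖ := by
  rw [abs_le]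
  constructor
  · have := Mx_le_add 0 z x
    have h0 : Mx (0 : ι → E) x = 0 := by
      unfold Mx; simp
    rw [h0] at this
    simp only [zero_sub, norm_neg] at this
    linarith
  · have := Mx_le_add z 0 x
    have h0 : Mx (0 : ι → E) x = 0 := by
      unfold Mx; simp
    rw [h0] at this
    simpa using this

lemma integrable_Mx (z : ι → E) : Integrable (Mx z) (stdGaussian E) := by
  refine (integrable_norm'.const_mul ‖z‖).mono' (measurable_Mx z).aestronglyMeasurable ?_
  exact Filter.Eventually.of_forall (fun x => abs_Mx_le z x)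

lemma G_le_add (z w : ι → E) : G z ≤ G w + ‖z - w‖ * ∫ x, ‖x‖ ∂(stdGaussian E) := by
  unfold G
  rw [← integral_const_mul, ← integral_add (integrable_Mx w) (integrable_norm'.const_mul _)]
  exact integral_mono (integrable_Mx z) ((integrable_Mx w).add (integrable_norm'.const_mul _))
    (fun x => Mx_le_add z w x)

lemma continuous_G : Continuous (G : (ι → E) → ℝ) := by
  have hm : 0 ≤ ∫ x, ‖x‖ ∂(stdGaussian E) := integral_nonneg (fun x => norm_nonneg x)
  have : LipschitzWith (Real.toNNReal (∫ x, ‖x‖ ∂(stdGaussian E))) (G : (ι → E) → ℝ) := by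
    refine LipschitzWith.of_dist_le_mul (fun z w => ?_)
    rw [Real.coe_toNNReal _ hm, Real.dist_eq, dist_eq_norm, abs_le]
    constructor
    · have := G_le_add w z
      rw [norm_sub_rev] at this
      linarith [mul_comm ‖z - w‖ (∫ x, ‖x‖ ∂(stdGaussian E))]
    · have := G_le_add z w
      linarith [mul_comm ‖z - w‖ (∫ x, ‖x‖ ∂(stdGaussian E))]
  exact this.continuous

lemma Mx_smul (z : ι → E) {c : ℝ} (hc : 0 ≤ c) (x : E) : Mx (c • z) x = c * Mx z x := by
  apply le_antisymm
  · refine Mx_le (fun i => ?_)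
    rw [Pi.smul_apply, real_inner_smul_left]
    exact mul_le_mul_of_nonneg_left (le_Mx z x i) hc
  · obtain ⟨i, hi⟩ := exists_Mx z x
    rw [← hi, ← real_inner_smul_left]
    exact le_Mx (c • z) x i

lemma G_smul (z : ι → E) {c : ℝ} (hc : 0 ≤ c) : G (c • z) = c * G z := by
  unfold G
  simp_rw [Mx_smul z hc]
  rw [integral_const_mul]

/-- duality: `∑ ⟪w i, mom (f⁻¹ i)⟫ ≤ G w`. -/
lemma sum_inner_le_G {f : E → ι} (hf : IsLab f) (w : ι → E) :
    ∑ i, ⟪w i, mom (f ⁻¹' {i})⟫ ≤ G w := by
  rw [sum_inner_mom hf]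
  exact integral_mono (integrable_lab hf w) (integrable_Mx w) (fun x => le_Mx w x (f x))

lemma Fval_le_G {f : E → ι} (hf : IsLab f) : Fval f ≤ G (fun i => mom (f ⁻¹' {i})) := by
  refine le_trans (le_of_eq ?_) (sum_inner_le_G hf _)
  unfold Fval
  refine Finset.sum_congr rfl (fun i _ => ?_)
  rw [real_inner_self_eq_norm_sq]

/-- the set of maximising labels -/
noncomputable def amSet (z : ι → E) (x : E) : Finset ι :=
  by classical exact Finset.univ.filter (fun i => ∀ j, ⟪z j, x⟫ ≤ ⟪z i, x⟫)

lemma mem_amSet {z : ι → E} {x : E} {i : ι} :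
    i ∈ amSet z x ↔ ∀ j, ⟪z j, x⟫ ≤ ⟪z i, x⟫ := by
  unfold amSet; simp

lemma amSet_nonempty (z : ι → E) (x : E) : (amSet z x).Nonempty := by
  obtain ⟨i, hi⟩ := exists_Mx z x
  exact ⟨i, mem_amSet.2 (fun j => hi ▸ le_Mx z x j)⟩

/-- a fixed choice function on finsets -/
noncomputable def pick (S : Finset ι) : ι := by
  classical exact if h : S.Nonempty then h.choose else Classical.arbitrary ι

lemma pick_mem {S : Finset ι} (h : S.Nonempty) : pick S ∈ S := by
  classical
  unfold pick
  rw [dif_pos h]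
  exact h.choose_spec

/-- a maximising label, chosen measurably -/
noncomputable def am (z : ι → E) (x : E) : ι := pick (amSet z x)

lemma am_spec (z : ι → E) (x : E) (j : ι) : ⟪z j, x⟫ ≤ ⟪z (am z x), x⟫ :=
  mem_amSet.1 (pick_mem (amSet_nonempty z x)) j

lemma inner_am (z : ι → E) (x : E) : ⟪z (am z x), x⟫ = Mx z x :=
  le_antisymm (le_Mx z x _) (Mx_le (am_spec z x))

lemma measurableSet_cell (z : ι → E) (i : ι) : MeasurableSet (cell z i) := by
  have : cell z i = ⋂ j, {x | ⟪z j, x⟫ ≤ ⟪z i, x⟫} := by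
    ext x; simp [cell]
  rw [this]
  exact MeasurableSet.iInter (fun j => measurableSet_le (by fun_prop) (by fun_prop))

lemma isLab_amSet (z : ι → E) : IsLab (amSet z) := by
  classical
  intro S
  have : amSet z ⁻¹' {S} = ⋂ i, (if i ∈ S then cell z i else (cell z i)ᶜ) := by
    ext x
    simp only [Set.mem_preimage, Set.mem_singleton_iff, Set.mem_iInter]
    constructor
    · intro h i
      by_cases hi : i ∈ S
      · rw [if_pos hi]
        rw [← h] at hi
        exact mem_amSet.1 hi
      · rw [if_neg hi]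
        intro hx
        exact hi (h ▸ mem_amSet.2 hx)
    · intro h
      ext i
      have hi := h i
      by_cases hS : i ∈ S
      · rw [if_pos hS] at hi
        exact ⟨fun _ => hS, fun _ => mem_amSet.2 hi⟩
      · rw [if_neg hS] at hi
        exact ⟨fun h' => absurd (mem_amSet.1 h') hi, fun h' => absurd h' hS⟩
  rw [this]
  refine MeasurableSet.iInter (fun i => ?_)
  split_ifs
  · exact measurableSet_cell z i
  · exact (measurableSet_cell z i).compl

lemma isLab_am (z : ι → E) : IsLab (am z) := (isLab_amSet z).comp pick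

lemma sum_inner_am (z : ι → E) : ∑ i, ⟪z i, mom (am z ⁻¹' {i})⟫ = G z := by
  rw [sum_inner_mom (isLab_am z)]
  unfold G
  simp_rw [inner_am]

end Mx

/-- injective relabelling (adding empty cells) does not change the value -/
lemma Fval_comp_of_injective {κ : Type*} [Fintype κ] (f : E → ι) {g : ι → κ}
    (hg : Function.Injective g) : Fval (g ∘ f) = Fval f := by
  classical
  unfold Fval
  symm
  refine Finset.sum_of_injOn g hg.injOn (fun _ _ => Finset.mem_coe.2 (Finset.mem_univ _)) ?_ ?_
  · intro k _ hk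
    have : (g ∘ f) ⁻¹' {k} = ∅ := by
      ext x
      simp only [Set.mem_preimage, Function.comp_apply, Set.mem_singleton_iff,
        Set.mem_empty_iff_false, iff_false]
      intro hx
      apply hk
      simp only [Finset.coe_univ, Set.image_univ, Set.mem_range]
      exact ⟨f x, hx⟩
    rw [this]
    simp [mom]
  · intro i _
    have : (g ∘ f) ⁻¹' {g i} = f ⁻¹' {i} := by
      ext x
      simp only [Set.mem_preimage, Function.comp_apply, Set.mem_singleton_iff]
      exact hg.eq_iff
    rw [this]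

/-- hyperplanes through the origin are null -/
lemma hyperplane_null {v : E} (hv : v ≠ 0) : stdGaussian E {x | ⟪v, x⟫ = 0} = 0 := by
  have h1 : (stdGaussian E).map (innerSL ℝ v) =
      gaussianReal ((stdGaussian E)[innerSL ℝ v]) (Var[innerSL ℝ v; stdGaussian E]).toNNReal :=
    IsGaussian.map_eq_gaussianReal _
  have h2 : Var[innerSL ℝ v; stdGaussian E] = ‖v‖ ^ 2 := by
    rw [variance_dual_stdGaussian, innerSL_apply_norm]
  have h3 : (Var[innerSL ℝ v; stdGaussian E]).toNNReal ≠ 0 := by
    rw [h2]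
    simp only [ne_eq, Real.toNNReal_eq_zero, not_le]
    have : 0 < ‖v‖ := norm_pos_iff.2 hv
    positivity
  have : NullSingletonClass ((stdGaussian E).map (innerSL ℝ v)) := by
    rw [h1]
    exact nullSingletonClass_gaussianReal h3
  have h4 : ((stdGaussian E).map (innerSL ℝ v)) {0} = 0 := measure_singleton 0
  rw [Measure.map_apply (by fun_prop) (measurableSet_singleton 0)] at h4
  exact h4

end Vale.Agent.P226
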