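import Mathlib

/-!
# P226: the density of the standard Gaussian measure
-/

open MeasureTheory ProbabilityTheory
open scoped RealInnerProductSpace ENNReal

namespace Vale.Agent.P226

set_option linter.unusedSectionVars false

variable {E : Type*} [NormedAddCommGroup E] [InnerProductSpace ℝ E] [FiniteDimensional ℝ E]
  [MeasurableSpace E] [BorelSpace E]

/-- The Gaussian density `(2π)^(-n/2) exp(-|x|²/2)`, `n = dim E`. -/
noncomputable def gdens (x : E) : ℝ :=
  (2 * Real.pi) ^ (-(Module.finrank ℝ E : ℝ) / 2) * Real.exp (-‖x‖ ^ 2 / 2)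

lemma gdens_pos (x : E) : 0 < gdens x := by unfold gdens; positivity

lemma continuous_gdens : Continuous (gdens : E → ℝ) := by unfold gdens; fun_prop

lemma integral_exp_norm : ∫ x : E, Real.exp (-‖x‖ ^ 2 / 2) =
    (2 * Real.pi) ^ ((Module.finrank ℝ E : ℝ) / 2) := by
  have h := GaussianFourier.integral_rexp_neg_mul_sq_norm (V := E) (b := 1 / 2) (by norm_num)
  have h2 : Real.pi / (1 / 2) = 2 * Real.pi := by ring
  rw [h2] at h
  rw [← h]
  congr 1
  ext x
  congr 1
  ring

lemma integrable_exp_norm : Integrable (fun x : E => Real.exp (-‖x‖ ^ 2 / 2)) := by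
  by_contra h
  have := integral_undef h
  rw [integral_exp_norm] at this
  have h2 : (0 : ℝ) < (2 * Real.pi) ^ ((Module.finrank ℝ E : ℝ) / 2) := by positivity
  linarith

lemma integrable_gdens : Integrable (gdens : E → ℝ) := by
  unfold gdens
  exact integrable_exp_norm.const_mul _

lemma integral_gdens : ∫ x : E, gdens x = 1 := by
  unfold gdens
  rw [integral_const_mul, integral_exp_norm, ← Real.rpow_add (by positivity)]
  have : -(Module.finrank ℝ E : ℝ) / 2 + (Module.finrank ℝ E : ℝ) / 2 = 0 := by ring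
  rw [this, Real.rpow_zero]

/-- `stdGaussian` has density `gdens` with respect to the Lebesgue measure. -/
theorem stdGaussian_eq_withDensity :
    stdGaussian E = (volume : Measure E).withDensity (fun x => ENNReal.ofReal (gdens x)) := by
  have hfin : IsFiniteMeasure ((volume : Measure E).withDensity
      (fun x => ENNReal.ofReal (gdens x))) :=
    isFiniteMeasure_withDensity_ofReal integrable_gdens.2
  apply Measure.ext_of_charFun
  ext t
  rw [charFun_stdGaussian, charFun_apply, integral_withDensity_eq_integral_toReal_smul₀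
    (by exact (continuous_gdens.measurable.ennreal_ofReal).aemeasurable)
    (Filter.Eventually.of_forall (fun x => ENNReal.ofReal_lt_top))]
  have h1 : ∀ x : E, (ENNReal.ofReal (gdens x)).toReal • Complex.exp (⟪x, t⟫ * Complex.I) =
      (((2 * Real.pi) ^ (-(Module.finrank ℝ E : ℝ) / 2) : ℝ) : ℂ) *
        Complex.exp (-(1 / 2 : ℂ) * ‖x‖ ^ 2 + Complex.I * ⟪t, x⟫) := by
    intro x
    rw [ENNReal.toReal_ofReal (gdens_pos x).le]
    unfold gdens
    rw [Complex.real_smul, Complex.ofReal_mul, Complex.ofReal_exp, mul_assoc, ← Complex.exp_add,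
      real_inner_comm]
    congr 2
    push_cast
    ring
  simp_rw [h1]
  rw [integral_const_mul, GaussianFourier.integral_cexp_neg_mul_sq_norm_add (by norm_num)]
  have h2 : (Real.pi : ℂ) / (1 / 2 : ℂ) = ((2 * Real.pi : ℝ) : ℂ) := by
    push_cast; ring
  have h3 : (((2 * Real.pi : ℝ) : ℂ)) ^ ((Module.finrank ℝ E : ℂ) / 2) =
      (((2 * Real.pi) ^ ((Module.finrank ℝ E : ℝ) / 2) : ℝ) : ℂ) := by
    rw [Complex.ofReal_cpow (by positivity)]
    congr 1
    push_cast
    ring
  rw [h2, h3, ← mul_assoc, ← Complex.ofReal_mul, ← Real.rpow_add (by positivity)]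
  have : -(Module.finrank ℝ E : ℝ) / 2 + (Module.finrank ℝ E : ℝ) / 2 = 0 := by ring
  rw [this, Real.rpow_zero, Complex.ofReal_one, one_mul, Complex.I_sq]
  congr 1
  ring

end Vale.Agent.P226
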