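import Vale.Agent.P226.FinGen

/-!
# P226: five cells, case A: linear minorants of the exponent terms
-/

open MeasureTheory ProbabilityTheory Finset Filter Topology
open scoped RealInnerProductSpace ENNReal BigOperators

namespace Vale.Agent.P226

set_option linter.unusedSectionVars false

/-- a linear minorant of the terms with `1 - b` -/
def LinM (q R bmax g B : ℝ) : Prop :=
  ∀ b, 0 ≤ b → b ≤ bmax → b < 1 → ∀ s, 0 < s → R - b ^ 2 ≤ s ^ 2 → ∀ t, 0 < t → t ^ 2 = q →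
    g + B * b ≤ Real.sqrt ((1 - b) / HH ((1 + b) * t / s))

/-- a linear minorant of the terms with `1 + b` -/
def LinP (q R bmax g B : ℝ) : Prop :=
  ∀ b, 0 ≤ b → b ≤ bmax → b < 1 → ∀ s, 0 < s → R - b ^ 2 ≤ s ^ 2 → ∀ t, 0 < t → t ^ 2 = q →
    g + B * b ≤ Real.sqrt ((1 + b) / HH ((1 + b) * t / s))

lemma linM_zero (q R bmax : ℝ) : LinM q R bmax 0 0 := by
  intro b _ _ _ s _ _ t _ _
  simp only [zero_mul, add_zero]
  exact Real.sqrt_nonneg _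

lemma linP_zero (q R bmax : ℝ) : LinP q R bmax 0 0 := by
  intro b _ _ _ s _ _ t _ _
  simp only [zero_mul, add_zero]
  exact Real.sqrt_nonneg _

/-- `HH` at the relevant argument -/
lemma HH_arg_le {R b s t : ℝ} (hb0 : 0 ≤ b) (hR : 0 < R - b ^ 2) (_hs : 0 < s)
    (hs2 : R - b ^ 2 ≤ s ^ 2) (ht : 0 < t) (hY : (1 + b) ^ 2 * t ^ 2 / (R - b ^ 2) < 15) :
    HH ((1 + b) * t / s) * (1 - (1 + b) ^ 2 * t ^ 2 / (R - b ^ 2) / 15) ^ 5 ≤ 1 := by
  set Y := (1 + b) ^ 2 * t ^ 2 / (R - b ^ 2) with hYd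
  have hY0 : 0 ≤ Y := by positivity
  have hy : ((1 + b) * t / s) ^ 2 ≤ (Real.sqrt Y) ^ 2 := by
    rw [Real.sq_sqrt hY0, div_pow, mul_pow, hYd]
    gcongr
  have h1 : HH ((1 + b) * t / s) ≤ HH (Real.sqrt Y) := HH_mono_sq hy
  have h2 := HH_le (Real.sqrt_nonneg Y) (by rw [Real.sq_sqrt hY0]; exact hY)
  rw [Real.sq_sqrt hY0] at h2
  have h3 : 0 ≤ (1 - Y / 15) ^ 5 := by
    apply pow_nonneg; linarith
  calc HH ((1 + b) * t / s) * (1 - Y / 15) ^ 5 ≤ HH (Real.sqrt Y) * (1 - Y / 15) ^ 5 := by gcongr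
    _ ≤ 1 := h2

/-- Bernoulli form -/
lemma HH_bern {R b s t : ℝ} (hb0 : 0 ≤ b) (hR : 0 < R - b ^ 2) (hs : 0 < s)
    (hs2 : R - b ^ 2 ≤ s ^ 2) (ht : 0 < t) {x : ℝ} (hx : 0 ≤ x) :
    Real.sqrt x * (1 - (1 + b) ^ 2 * t ^ 2 / (R - b ^ 2) / 6) ≤
      Real.sqrt (x / HH ((1 + b) * t / s)) := by
  set Y := (1 + b) ^ 2 * t ^ 2 / (R - b ^ 2) with hYd
  have hY0 : 0 ≤ Y := by positivity
  rcases le_or_gt (1 - Y / 6) 0 with hneg | hpos
  · exact (mul_nonpos_of_nonneg_of_nonpos (Real.sqrt_nonneg _) hneg).trans (Real.sqrt_nonneg _)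
  have hH := HH_arg_le hb0 hR hs hs2 ht (by rw [← hYd]; linarith)
  rw [← hYd] at hH
  have hHp := HH_pos ((1 + b) * t / s)
  have h4 : (1 - Y / 6) ^ 2 ≤ (1 - Y / 15) ^ 5 := by
    obtain ⟨x, hx⟩ : ∃ x, x = Y / 15 := ⟨_, rfl⟩
    have hx0 : 0 ≤ x := by rw [hx]; positivity
    have hx1 : x ≤ 2 / 5 := by rw [hx]; linarith
    have e1 : Y / 6 = 5 * x / 2 := by rw [hx]; ring
    rw [e1, ← hx]
    have e2 : (1 - x) ^ 5 - (1 - 5 * x / 2) ^ 2 = x ^ 2 * (15 / 4 - 10 * x + 5 * x ^ 2 - x ^ 3) := by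
      ring
    have h5 : 0 ≤ 15 / 4 - 10 * x + 5 * x ^ 2 - x ^ 3 := by
      have : x ^ 3 ≤ 2 / 5 * x ^ 2 := by nlinarith [sq_nonneg x]
      nlinarith [sq_nonneg (x - 2 / 5)]
    have h6 : 0 ≤ x ^ 2 * (15 / 4 - 10 * x + 5 * x ^ 2 - x ^ 3) := mul_nonneg (sq_nonneg x) h5
    linarith
  apply Real.le_sqrt_of_sq_le
  rw [mul_pow, Real.sq_sqrt hx, le_div_iff₀ hHp]
  have h7 : HH ((1 + b) * t / s) * (1 - Y / 6) ^ 2 ≤ 1 :=
    (mul_le_mul_of_nonneg_left h4 hHp.le).trans hH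
  calc x * (1 - Y / 6) ^ 2 * HH ((1 + b) * t / s)
      = x * (HH ((1 + b) * t / s) * (1 - Y / 6) ^ 2) := by ring
    _ ≤ x * 1 := mul_le_mul_of_nonneg_left h7 hx
    _ = x := mul_one x

/-- minorant from a polynomial inequality, `R = 1`, minus -/
lemma linM_of_poly {q bmax g B : ℝ} (hq : 0 < q) (hbm : ∀ b, 0 ≤ b → b ≤ bmax → b < 1 →
    0 < (1 - b) - (1 + b) * q / 15)
    (h : ∀ b, 0 ≤ b → b ≤ bmax → 0 ≤ g + B * b →
      (g + B * b) ^ 2 * (1 - b) ^ 4 ≤ ((1 - b) - (1 + b) * q / 15) ^ 5) :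
    LinM q 1 bmax g B := by
  intro b hb0 hbx hb1 s hs hs2 t ht htq
  rcases le_or_gt (g + B * b) 0 with hneg | hpos
  · exact hneg.trans (Real.sqrt_nonneg _)
  have h1b : 0 < 1 - b := by linarith
  have hR : (1 : ℝ) - b ^ 2 = (1 - b) * (1 + b) := by ring
  have hR0 : 0 < (1 : ℝ) - b ^ 2 := by rw [hR]; positivity
  have hY : (1 + b) ^ 2 * t ^ 2 / (1 - b ^ 2) = (1 + b) * q / (1 - b) := by
    rw [hR, htq]; field_simp
  have hp := hbm b hb0 hbx hb1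
  have hY15 : (1 + b) ^ 2 * t ^ 2 / (1 - b ^ 2) < 15 := by
    rw [hY, div_lt_iff₀ h1b]; linarith
  have hH := HH_arg_le hb0 hR0 hs hs2 ht hY15
  rw [hY] at hH
  have hHp := HH_pos ((1 + b) * t / s)
  apply Real.le_sqrt_of_sq_le
  rw [le_div_iff₀ hHp]
  have e1 : 1 - (1 + b) * q / (1 - b) / 15 = ((1 - b) - (1 + b) * q / 15) / (1 - b) := by
    field_simp
  rw [e1, div_pow, mul_div_assoc', div_le_one (by positivity)] at hH
  have h2 := h b hb0 hbx hpos.le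
  have h3 : (1 - b) ^ 4 * ((g + B * b) ^ 2 * HH ((1 + b) * t / s)) ≤ (1 - b) ^ 4 * (1 - b) := by
    calc (1 - b) ^ 4 * ((g + B * b) ^ 2 * HH ((1 + b) * t / s))
        = HH ((1 + b) * t / s) * ((g + B * b) ^ 2 * (1 - b) ^ 4) := by ring
      _ ≤ HH ((1 + b) * t / s) * ((1 - b) - (1 + b) * q / 15) ^ 5 := by gcongr
      _ ≤ (1 - b) ^ 5 := hH
      _ = _ := by ring
  exact le_of_mul_le_mul_left h3 (by positivity)

/-- minorant from a polynomial inequality, `R = 1`, plus -/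
lemma linP_of_poly {q bmax g B : ℝ} (hq : 0 < q) (hbm : ∀ b, 0 ≤ b → b ≤ bmax → b < 1 →
    0 < (1 - b) - (1 + b) * q / 15)
    (h : ∀ b, 0 ≤ b → b ≤ bmax → 0 ≤ g + B * b →
      (g + B * b) ^ 2 * (1 - b) ^ 5 ≤ (1 + b) * ((1 - b) - (1 + b) * q / 15) ^ 5) :
    LinP q 1 bmax g B := by
  intro b hb0 hbx hb1 s hs hs2 t ht htq
  rcases le_or_gt (g + B * b) 0 with hneg | hpos
  · exact hneg.trans (Real.sqrt_nonneg _)
  have h1b : 0 < 1 - b := by linarith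
  have hR : (1 : ℝ) - b ^ 2 = (1 - b) * (1 + b) := by ring
  have hR0 : 0 < (1 : ℝ) - b ^ 2 := by rw [hR]; positivity
  have hY : (1 + b) ^ 2 * t ^ 2 / (1 - b ^ 2) = (1 + b) * q / (1 - b) := by
    rw [hR, htq]; field_simp
  have hp := hbm b hb0 hbx hb1
  have hY15 : (1 + b) ^ 2 * t ^ 2 / (1 - b ^ 2) < 15 := by
    rw [hY, div_lt_iff₀ h1b]; linarith
  have hH := HH_arg_le hb0 hR0 hs hs2 ht hY15
  rw [hY] at hH
  have hHp := HH_pos ((1 + b) * t / s)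
  apply Real.le_sqrt_of_sq_le
  rw [le_div_iff₀ hHp]
  have e1 : 1 - (1 + b) * q / (1 - b) / 15 = ((1 - b) - (1 + b) * q / 15) / (1 - b) := by
    field_simp
  rw [e1, div_pow, mul_div_assoc', div_le_one (by positivity)] at hH
  have h2 := h b hb0 hbx hpos.le
  have h3 : (1 - b) ^ 5 * ((g + B * b) ^ 2 * HH ((1 + b) * t / s)) ≤ (1 - b) ^ 5 * (1 + b) := by
    calc (1 - b) ^ 5 * ((g + B * b) ^ 2 * HH ((1 + b) * t / s))
        = HH ((1 + b) * t / s) * ((g + B * b) ^ 2 * (1 - b) ^ 5) := by ring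
      _ ≤ HH ((1 + b) * t / s) * ((1 + b) * ((1 - b) - (1 + b) * q / 15) ^ 5) := by gcongr
      _ = (1 + b) * (HH ((1 + b) * t / s) * ((1 - b) - (1 + b) * q / 15) ^ 5) := by ring
      _ ≤ (1 + b) * (1 - b) ^ 5 := by gcongr
      _ = _ := by ring
  exact le_of_mul_le_mul_left h3 (by positivity)

/-- an affine inequality on an interval from the end points -/
lemma affine_ge {A B q Q : ℝ} (hQ : 0 < Q) (hq0 : 0 ≤ q) (hqQ : q ≤ Q) (h0 : 0 ≤ A)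
    (h1 : 0 ≤ A + B * Q) : 0 ≤ A + B * q := by
  have : Q * (A + B * q) = (Q - q) * A + q * (A + B * Q) := by ring
  have h2 : 0 ≤ Q * (A + B * q) := by
    rw [this]
    exact add_nonneg (mul_nonneg (by linarith) h0) (mul_nonneg hq0 h1)
  exact nonneg_of_mul_nonneg_right h2 hQ

lemma sqrt_one_sub_ge {b : ℝ} (h0 : 0 ≤ b) (h1 : b ≤ 1) :
    (1 - b) * (1 + b / 2) ≤ Real.sqrt (1 - b) := by
  apply Real.le_sqrt_of_sq_le
  have e : (1 - b) - ((1 - b) * (1 + b / 2)) ^ 2 = (1 - b) * b ^ 2 * (3 + b) / 4 := by ring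
  have : 0 ≤ (1 - b) * b ^ 2 * (3 + b) / 4 := by
    have : 0 ≤ 1 - b := by linarith
    positivity
  linarith

/-- the flats, minus -/
lemma linM_flat {q : ℝ} (hq0 : 0 ≤ q) (hq7 : q ≤ 7) :
    LinM q (49 / 5) 1 (1 - 5 / 294 * q) (-(1 - 5 / 294 * q)) := by
  intro b hb0 hb1' hb1 s hs hs2 t ht htq
  have hR : (0 : ℝ) < 49 / 5 - b ^ 2 := by nlinarith
  have h1 := HH_bern hb0 hR hs hs2 ht (x := 1 - b) (by linarith)
  rw [htq] at h1
  refine le_trans ?_ h1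
  -- `√(1-b) ≤ 1 - b/2`
  set c := Real.sqrt (1 - b) with hc
  have hc0 : 0 ≤ c := Real.sqrt_nonneg _
  have hc2 : c ^ 2 = 1 - b := Real.sq_sqrt (by linarith)
  have hcb : c ≤ 1 - b / 2 := by
    apply Real.sqrt_le_iff.2
    constructor
    · linarith
    · nlinarith [sq_nonneg b]
  have hP : 0 ≤ 1 - 5 / 294 * q := by linarith
  have key : (1 - 5 / 294 * q) * (1 - b / 2) ≤ 1 - (1 + b) ^ 2 * q / (49 / 5 - b ^ 2) / 6 := by
    have e0 : (1 + b) ^ 2 * q / (49 / 5 - b ^ 2) / 6 =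
        (1 + b) ^ 2 * q / (6 * (49 / 5 - b ^ 2)) := by
      field_simp
    rw [e0, le_sub_iff_add_le, ← le_sub_iff_add_le', div_le_iff₀ (by positivity)]
    have h2 := affine_ge (A := (1 - (1 - b / 2)) * (6 * (49 / 5 - b ^ 2)))
      (B := 5 / 294 * (1 - b / 2) * (6 * (49 / 5 - b ^ 2)) - (1 + b) ^ 2) (q := q) (Q := 7)
      (by norm_num) hq0 hq7 (by
        have : 0 ≤ (1 - (1 - b / 2)) := by linarith
        positivity) (by
        have e2 : (1 - (1 - b / 2)) * (6 * (49 / 5 - b ^ 2)) +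
          (5 / 294 * (1 - b / 2) * (6 * (49 / 5 - b ^ 2)) - (1 + b) ^ 2) * 7 =
          b * (119 / 10 - 54 / 7 * b - 37 / 14 * b ^ 2) := by ring
        rw [e2]
        apply mul_nonneg hb0
        nlinarith)
    linarith
  calc (1 - 5 / 294 * q) + -(1 - 5 / 294 * q) * b = c * ((1 - 5 / 294 * q) * c) := by
        linear_combination (-(1 - 5 / 294 * q)) * hc2
    _ ≤ c * ((1 - 5 / 294 * q) * (1 - b / 2)) := by gcongr
    _ ≤ _ := by gcongr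

lemma sqrt_one_add_ge {b : ℝ} (h0 : 0 ≤ b) (h1 : b ≤ 1) :
    1 + 2071 / 5000 * b ≤ Real.sqrt (1 + b) := by
  apply Real.le_sqrt_of_sq_le
  nlinarith

lemma sqrt_one_add_le {b : ℝ} (h0 : 0 ≤ b) (h1 : b ≤ 1) :
    Real.sqrt (1 + b) * (1 + b) ^ 2 ≤ 1 + 4657 / 1000 * b := by
  have h2 : (Real.sqrt (1 + b) * (1 + b) ^ 2) ^ 2 ≤ (1 + 4657 / 1000 * b) ^ 2 := by
    rw [mul_pow, Real.sq_sqrt (by linarith)]
    have e : (1 + 4657 / 1000 * b) ^ 2 - (1 + b) * ((1 + b) ^ 2) ^ 2 =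
      b * (4314 / 1000 + (4657 ^ 2 / 1000 ^ 2 - 10) * b - 10 * b ^ 2 - 5 * b ^ 3 - b ^ 4) := by
      ring
    have : 0 ≤ b * (4314 / 1000 + (4657 ^ 2 / 1000 ^ 2 - 10) * b - 10 * b ^ 2 - 5 * b ^ 3 - b ^ 4) := by
      apply mul_nonneg h0
      have h3 : b ^ 2 ≤ b := by nlinarith
      have h4 : b ^ 3 ≤ b := by nlinarith
      have h5 : b ^ 4 ≤ b := by nlinarith
      nlinarith
    linarith
  exact le_of_sq_le_sq h2 (by positivity)

/-- plus, general `R` -/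
lemma linP_gen {q R β : ℝ} (hR1 : 1 < R) (hq0 : 0 ≤ q)
    (hβ : ∀ b, 0 ≤ b → b ≤ 1 → (1 + 4657 / 1000 * b) ≤ 6 * (R - b ^ 2) * (1 / (6 * R) + β * b)) :
    LinP q R 1 (1 - q / (6 * R)) (2071 / 5000 - β * q) := by
  intro b hb0 hb1' hb1 s hs hs2 t ht htq
  have hR : (0 : ℝ) < R - b ^ 2 := by nlinarith
  have h1 := HH_bern hb0 hR hs hs2 ht (x := 1 + b) (by linarith)
  rw [htq] at h1
  refine le_trans ?_ h1
  have h2 := sqrt_one_add_ge hb0 hb1'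
  have h3 := sqrt_one_add_le hb0 hb1'
  have h4 := hβ b hb0 hb1'
  have h5 : Real.sqrt (1 + b) * (1 + b) ^ 2 / (6 * (R - b ^ 2)) ≤ 1 / (6 * R) + β * b := by
    rw [div_le_iff₀ (by positivity)]
    linarith
  have h6 := mul_le_mul_of_nonneg_left h5 hq0
  have e1 : Real.sqrt (1 + b) * (1 - (1 + b) ^ 2 * q / (R - b ^ 2) / 6) =
      Real.sqrt (1 + b) - q * (Real.sqrt (1 + b) * (1 + b) ^ 2 / (6 * (R - b ^ 2))) := by
    field_simp
  rw [e1]
  have e2 : q / (6 * R) = q * (1 / (6 * R)) := by ring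
  rw [e2]
  nlinarith

/-- the flats, plus -/
lemma linP_flat {q : ℝ} (hq0 : 0 ≤ q) :
    LinP q (49 / 5) 1 (1 - 5 / 294 * q) (2071 / 5000 - 181 / 2000 * q) := by
  have h := linP_gen (q := q) (R := 49 / 5) (β := 181 / 2000) (by norm_num) hq0 (by
    intro b hb0 hb1
    have e : 6 * (49 / 5 - b ^ 2) * (1 / (6 * (49 / 5)) + 181 / 2000 * b) -
        (1 + 4657 / 1000 * b) = b * (33207 / 50000 * 1 + (1 / 250 - 1 / 250) -
          5 / 49 * b - 543 / 1000 * b ^ 2 + (6 * (49 / 5) * (181 / 2000) - 4657 / 1000 - 33207 / 50000)) := by ring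
    have : 0 ≤ b * (33207 / 50000 * 1 + (1 / 250 - 1 / 250) -
          5 / 49 * b - 543 / 1000 * b ^ 2 + (6 * (49 / 5) * (181 / 2000) - 4657 / 1000 - 33207 / 50000)) := by
      apply mul_nonneg hb0
      nlinarith
    linarith)
  have e3 : 1 - q / (6 * (49 / 5)) = 1 - 5 / 294 * q := by ring
  rwa [e3] at h

/-- case A2, steep cell, plus -/
lemma linP_three {q : ℝ} (hq0 : 0 ≤ q) :
    LinP q 3 1 (1 - q / 18) (2071 / 5000 - 833 / 2000 * q) := by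
  have h := linP_gen (q := q) (R := 3) (β := 833 / 2000) (by norm_num) hq0 (by
    intro b hb0 hb1
    have e : 6 * (3 - b ^ 2) * (1 / (6 * 3) + 833 / 2000 * b) -
        (1 + 4657 / 1000 * b) = b * (18 * (833 / 2000) - 4657 / 1000 -
          1 / 3 * b - 6 * (833 / 2000) * b ^ 2) := by ring
    have : 0 ≤ b * (18 * (833 / 2000) - 4657 / 1000 -
          1 / 3 * b - 6 * (833 / 2000) * b ^ 2) := by
      apply mul_nonneg hb0
      nlinarith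
    linarith)
  have e3 : 1 - q / (6 * 3) = 1 - q / 18 := by ring
  rwa [e3] at h

/-- case A2, steep cell, minus -/
lemma linM_three {q : ℝ} (hq0 : 0 ≤ q) (hq4 : q ≤ 4) :
    LinM q 3 1 (1 - q / 18) (-1) := by
  intro b hb0 hb1' hb1 s hs hs2 t ht htq
  rcases le_or_gt (1 - q / 18 + -1 * b) 0 with hneg | hpos
  · exact hneg.trans (Real.sqrt_nonneg _)
  have hR : (0 : ℝ) < 3 - b ^ 2 := by nlinarith
  have h1 := HH_bern hb0 hR hs hs2 ht (x := 1 - b) (by linarith)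
  rw [htq] at h1
  refine le_trans ?_ h1
  have e0 : (1 + b) ^ 2 * q / (3 - b ^ 2) / 6 = (1 + b) ^ 2 / (6 * (3 - b ^ 2)) * q := by
    field_simp
  rw [e0]
  set G := (1 + b) ^ 2 / (6 * (3 - b ^ 2)) with hG
  have h2 := sqrt_one_sub_ge hb0 hb1'
  -- affine in `q`
  have h3 := affine_ge (A := (1 - b) * (1 + b / 2) - (1 - b))
    (B := -((1 - b) * (1 + b / 2) * G) + 1 / 18) (q := q) (Q := 4) (by norm_num) hq0 hq4
    (by nlinarith) (by
      have hG2 : G * (6 * (3 - b ^ 2)) = (1 + b) ^ 2 := by rw [hG]; field_simp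
      have h4 : 0 ≤ (6 * (3 - b ^ 2)) * ((1 - b) * (1 + b / 2) - (1 - b) +
          (-((1 - b) * (1 + b / 2) * G) + 1 / 18) * 4) := by
        have e5 : (6 * (3 - b ^ 2)) * ((1 - b) * (1 + b / 2) - (1 - b) +
          (-((1 - b) * (1 + b / 2) * G) + 1 / 18) * 4) =
          (6 * (3 - b ^ 2)) * ((1 - b) * (1 + b / 2) - (1 - b)) -
            4 * ((1 - b) * (1 + b / 2)) * (G * (6 * (3 - b ^ 2))) +
            4 / 18 * (6 * (3 - b ^ 2)) := by ring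
        rw [e5, hG2]
        have e6 : 6 * (3 - b ^ 2) * ((1 - b) * (1 + b / 2) - (1 - b)) -
            4 * ((1 - b) * (1 + b / 2)) * (1 + b) ^ 2 + 4 / 18 * (6 * (3 - b ^ 2)) =
            b * (3 - 25 / 3 * b + 3 * b ^ 2 + 5 * b ^ 3) := by ring
        rw [e6]
        apply mul_nonneg hb0
        nlinarith [mul_nonneg (show 0 ≤ b + 2 * (57 / 100) by linarith)
          (sq_nonneg (b - 57 / 100)), sq_nonneg (b - 57 / 100)]
      exact nonneg_of_mul_nonneg_right h4 (by positivity))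
  have h5 : 0 < (1 - b) * (1 + b / 2) := by
    have : 0 < 1 - b := by linarith
    positivity
  have h7 : 0 < (1 - b) * (1 + b / 2) * (1 - G * q) := by linarith
  have h6 : 0 ≤ 1 - G * q := (pos_of_mul_pos_right h7 h5.le).le
  calc 1 - q / 18 + -1 * b ≤ ((1 - b) * (1 + b / 2)) * (1 - G * q) := by linarith
    _ ≤ _ := by gcongr

/-- the pointwise conditions for case A -/
structure CellA (R1 bmax kap p0 a σ η : ℝ) (lam gam : ℝ → ℝ) (q : ℝ) : Prop where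
  minus : ∃ g1 B1 g2 B2 m : ℝ, LinM q R1 bmax g1 B1 ∧ LinM q (49 / 5) 1 g2 B2 ∧ 0 ≤ m ∧
    m ≤ g1 + 3 * g2 + B2 ∧ m ≤ g1 + 3 * g2 + B2 + (B1 - B2) * bmax ∧ 6 * lam q ≤ m ^ 2
  plus : ∃ g1 B1 g2 B2 m : ℝ, LinP q R1 bmax g1 B1 ∧ LinP q (49 / 5) 1 g2 B2 ∧ 0 ≤ m ∧
    m ≤ g1 + 3 * g2 + B2 ∧ m ≤ g1 + 3 * g2 + B2 + (B1 - B2) * bmax ∧ 10 * gam q ≤ m ^ 2
  cell : CellG (3 / 5) kap p0 a σ η lam gam q

variable {E : Type*} [NormedAddCommGroup E] [InnerProductSpace ℝ E] [FiniteDimensional ℝ E]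
  [MeasurableSpace E] [BorelSpace E]
variable {κ : Type*} [Fintype κ] [DecidableEq κ]

/-- the sum of linear minorants -/
lemma lin_sum (b : κ → ℝ) (hb0 : ∀ i, 0 ≤ b i) (hb : ∑ i, b i = 1)
    (hn : (Fintype.card κ : ℝ) = 4) (i1 : κ) {bmax g1 B1 g2 B2 m : ℝ} (hbm : b i1 ≤ bmax)
    {f : κ → ℝ} (h1 : g1 + B1 * b i1 ≤ f i1) (h2 : ∀ i, i ≠ i1 → g2 + B2 * b i ≤ f i)
    (hm0 : 0 ≤ m) (hmA : m ≤ g1 + 3 * g2 + B2) (hmB : m ≤ g1 + 3 * g2 + B2 + (B1 - B2) * bmax) :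
    m ^ 2 ≤ (∑ i, f i) ^ 2 := by
  have hs : ∑ i, (g2 + B2 * b i) = 4 * g2 + B2 := by
    rw [Finset.sum_add_distrib, ← Finset.mul_sum, hb]
    simp only [Finset.sum_const, Finset.card_univ, nsmul_eq_mul, hn, mul_one]
  have h3 : ∑ i, f i = f i1 + ∑ i ∈ Finset.univ.erase i1, f i :=
    (Finset.add_sum_erase _ _ (Finset.mem_univ i1)).symm
  have h4 : ∑ i, (g2 + B2 * b i) = (g2 + B2 * b i1) +
      ∑ i ∈ Finset.univ.erase i1, (g2 + B2 * b i) :=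
    (Finset.add_sum_erase _ _ (Finset.mem_univ i1)).symm
  have h5 : ∑ i ∈ Finset.univ.erase i1, (g2 + B2 * b i) ≤ ∑ i ∈ Finset.univ.erase i1, f i :=
    Finset.sum_le_sum (fun i hi => h2 i (Finset.ne_of_mem_erase hi))
  have h6 : g1 + 3 * g2 + B2 + (B1 - B2) * b i1 ≤ ∑ i, f i := by
    rw [h3]; linarith
  have h7 : m ≤ g1 + 3 * g2 + B2 + (B1 - B2) * b i1 := by
    rcases le_total 0 (B1 - B2) with h | h
    · have := mul_nonneg h (hb0 i1)
      linarith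
    · have := mul_le_mul_of_nonpos_left hbm h
      linarith
  have h8 : m ≤ ∑ i, f i := h7.trans h6
  gcongr

theorem fin_caseA {v : κ → E} (hv : Frame v) (b : κ → ℝ) (hb0 : ∀ i, 0 ≤ b i)
    (hb1 : ∀ i, b i < 1) (hb : ∑ i, b i = 1) (hn : (Fintype.card κ : ℝ) = 4)
    (i1 : κ) {R1 bmax : ℝ} (hbm : b i1 ≤ bmax) (hR1 : R1 - b i1 ^ 2 ≤ ‖v i1‖ ^ 2)
    (hR : ∀ i, i ≠ i1 → 49 / 5 - b i ^ 2 ≤ ‖v i‖ ^ 2)
    {kap p0 a σ η : ℝ} {lam gam : ℝ → ℝ} (hkap0 : 0 < kap) (hkap : kap ≤ 5 / 4)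
    (hp0 : 0 ≤ p0) (hp0' : p0 ≤ 1 / 2) (ha : 0 < a) (hσ : 0 ≤ σ) (hη : 0 ≤ η)
    (hlc : Continuous lam) (hgc : Continuous gam)
    (hL : ∀ q q', 0 < q → q ≤ q' → 3 / 5 * lam q + q * (1 - p0) ≤ 3 / 5 * lam q' + q' * (1 - p0))
    (hcell : ∀ q, 0 < q → CellA R1 bmax kap p0 a σ η lam gam q) :
    4 * ∫ t in Set.Ioi 0, ∫ r in Set.Ioi 0, phi (t + r) * Gam v b t r ≤
      (1 + 1 / 4) * ∫ t in Set.Ioi 0, t * phi t * Vf v b t := by
  have hpos : ∀ i, 0 < ‖v i‖ := fun i => norm_pos_iff.2 (hv.pos i)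
  refine fin_gen hv b hb0 hb1 hb hn (by norm_num) (c := 3 / 5) (kap := kap) (p0 := p0) (a := a)
    (σ := σ) (η := η) (lam := lam) (gam := gam) (by norm_num) (by norm_num) hkap0
    (by linarith) hp0 hp0' ha hσ hη hlc hgc ?_ ?_ hL (fun q hq => (hcell q hq).cell)
  · intro t ht
    obtain ⟨g1, B1, g2, B2, m, hl1, hl2, hm0, hmA, hmB, hm⟩ := (hcell (t ^ 2) (by positivity)).minus
    have := lin_sum b hb0 hb hn i1 hbm
      (hl1 (b i1) (hb0 i1) hbm (hb1 i1) _ (hpos i1) hR1 t ht rfl)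
      (fun i hi => hl2 (b i) (hb0 i) (hb1 i).le (hb1 i) _ (hpos i) (hR i hi) t ht rfl)
      hm0 hmA hmB
    linarith
  · intro t ht
    obtain ⟨g1, B1, g2, B2, m, hl1, hl2, hm0, hmA, hmB, hm⟩ := (hcell (t ^ 2) (by positivity)).plus
    have := lin_sum b hb0 hb hn i1 hbm
      (hl1 (b i1) (hb0 i1) hbm (hb1 i1) _ (hpos i1) hR1 t ht rfl)
      (fun i hi => hl2 (b i) (hb0 i) (hb1 i).le (hb1 i) _ (hpos i) (hR i hi) t ht rfl)
      hm0 hmA hmB
    linarith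

/-- ramps are antitone -/
lemma ramp_anti {x y q q' : ℝ} (hxy : x ≤ y) (h : q ≤ q') :
    max (y - q') 0 - max (x - q') 0 ≤ max (y - q) 0 - max (x - q) 0 := by
  rcases le_total (x - q') 0 with h1 | h1
  · rw [max_eq_right h1]
    rcases le_total (x - q) 0 with h2 | h2
    · rw [max_eq_right h2]
      have : max (y - q') 0 ≤ max (y - q) 0 := max_le_max (by linarith) le_rfl
      linarith
    · rw [max_eq_left h2]
      have h3 : y - q ≤ max (y - q) 0 := le_max_left _ _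
      have h4 : max (y - q') 0 ≤ y - x := max_le (by linarith) (by linarith)
      linarith
  · rw [max_eq_left h1, max_eq_left (show 0 ≤ x - q by linarith),
      max_eq_left (show 0 ≤ y - q' by linarith), max_eq_left (show 0 ≤ y - q by linarith)]
    linarith

lemma hinge_le {x q q' : ℝ} (h : q ≤ q') : max (x - q) 0 ≤ max (x - q') 0 + (q' - q) := by
  apply max_le
  · have := le_max_left (x - q') 0
    linarith
  · have := le_max_right (x - q') 0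
    linarith

lemma hinge_anti {x q q' : ℝ} (h : q ≤ q') : max (x - q') 0 ≤ max (x - q) 0 :=
  max_le_max (by linarith) le_rfl

end Vale.Agent.P226
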