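import Vale.Agent.P226.FinSteep

/-!
# P226: five cells, case A1 (generated certificate cells)
-/

namespace Vale.Agent.P226

set_option linter.unusedVariables false

noncomputable def lamA1 (q : ℝ) : ℝ :=
  (7/500) * max ((1/2) - q) 0 + (3/250) * max (1 - q) 0 + (-7/250) * max ((3/2) - q) 0 +
    (9/250) * max (2 - q) 0 + (13/500) * max ((5/2) - q) 0 + (3/250) * max (3 - q) 0 +
    (-571/1000) * max ((7/2) - q) 0 + (749/1500) * max (4 - q) 0 + (289/1500) * max (7 - q) 0

noncomputable def gamA1 (q : ℝ) : ℝ :=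
  (47/500) * max ((1/2) - q) 0 + (23/250) * max (1 - q) 0 + (37/500) * max ((3/2) - q) 0 +
    (63/1000) * max (2 - q) 0 + (1/20) * max ((5/2) - q) 0 + (41/1000) * max (3 - q) 0 +
    (9/500) * max ((7/2) - q) 0 + (-3/20) * max (4 - q) 0 + (53/200) * max (7 - q) 0

lemma continuous_lamA1 : Continuous lamA1 := by
  unfold lamA1
  fun_prop

lemma continuous_gamA1 : Continuous gamA1 := by
  unfold gamA1
  fun_prop

lemma lamA1_mono (q q' : ℝ) (hq : 0 < q) (h : q ≤ q') :
    3 / 5 * lamA1 q + q * (1 - (1/40)) ≤ 3 / 5 * lamA1 q' + q' * (1 - (1/40)) := by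
  unfold lamA1
  have r0 := hinge_anti (x := (1/2)) h
  have r1 := ramp_anti (x := (1/2)) (y := 1) (by norm_num) h
  have r2 := ramp_anti (x := 1) (y := (3/2)) (by norm_num) h
  have r3 := ramp_anti (x := (3/2)) (y := 2) (by norm_num) h
  have r4 := ramp_anti (x := 2) (y := (5/2)) (by norm_num) h
  have r5 := ramp_anti (x := (5/2)) (y := 3) (by norm_num) h
  have r6 := ramp_anti (x := 3) (y := (7/2)) (by norm_num) h
  have r7 := ramp_anti (x := (7/2)) (y := 4) (by norm_num) h
  have r8 := ramp_anti (x := 4) (y := 7) (by norm_num) h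
  have r9 := hinge_le (x := 7) h
  linarith

lemma cellA1_0 {q : ℝ} (hq : 0 < q) (h0 : 0 ≤ q) (h1 : q ≤ (1/2)) :
    CellA 1 (1 / 2) (5/4) (1/40) (253/100) (99/100) 0 lamA1 gamA1 q := by
  have hl : lamA1 q = (599/400) - (193/1000) * q := by
    unfold lamA1
    rw [max_eq_left (show (0 : ℝ) ≤ (1/2) - q by linarith)]
    rw [max_eq_left (show (0 : ℝ) ≤ 1 - q by linarith)]
    rw [max_eq_left (show (0 : ℝ) ≤ (3/2) - q by linarith)]
    rw [max_eq_left (show (0 : ℝ) ≤ 2 - q by linarith)]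
    rw [max_eq_left (show (0 : ℝ) ≤ (5/2) - q by linarith)]
    rw [max_eq_left (show (0 : ℝ) ≤ 3 - q by linarith)]
    rw [max_eq_left (show (0 : ℝ) ≤ (7/2) - q by linarith)]
    rw [max_eq_left (show (0 : ℝ) ≤ 4 - q by linarith)]
    rw [max_eq_left (show (0 : ℝ) ≤ 7 - q by linarith)]
    ring
  have hg : gamA1 q = (971/500) - (547/1000) * q := by
    unfold gamA1
    rw [max_eq_left (show (0 : ℝ) ≤ (1/2) - q by linarith)]
    rw [max_eq_left (show (0 : ℝ) ≤ 1 - q by linarith)]
    rw [max_eq_left (show (0 : ℝ) ≤ (3/2) - q by linarith)]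
    rw [max_eq_left (show (0 : ℝ) ≤ 2 - q by linarith)]
    rw [max_eq_left (show (0 : ℝ) ≤ (5/2) - q by linarith)]
    rw [max_eq_left (show (0 : ℝ) ≤ 3 - q by linarith)]
    rw [max_eq_left (show (0 : ℝ) ≤ (7/2) - q by linarith)]
    rw [max_eq_left (show (0 : ℝ) ≤ 4 - q by linarith)]
    rw [max_eq_left (show (0 : ℝ) ≤ 7 - q by linarith)]
    ring
  obtain ⟨X, hX⟩ : ∃ X, X = q - 0 := ⟨_, rfl⟩
  obtain ⟨Y, hY⟩ : ∃ Y, Y = (1/2) - q := ⟨_, rfl⟩
  have hX0 : 0 ≤ X := by rw [hX]; linarith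
  have hY0 : 0 ≤ Y := by rw [hY]; linarith
  have hq0 : 0 ≤ q := by linarith
  have minus : 0 ≤ (9001/250000)*Y^2 + (181051/7350000)*X*Y + (23720761/864360000)*X^2 := by positivity
  have plus : 0 ≤ (352089/1562500)*Y^2 + (30179283/612500000)*X*Y + (227330103001/960400000000)*X^2 := by positivity
  refine ⟨⟨_, _, _, _, ((2999/1000) + (-28961/147000) * q), stM_0 hq h0 h1, linM_flat hq0 (by linarith), by linarith,
    by linarith, by linarith, ?_⟩, ⟨_, _, _, _, ((11033/2500) + (-629621/980000) * q), stP_0 hq h0 h1,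
    linP_flat hq0, by linarith, by linarith, by linarith, ?_⟩, ⟨?_, ?_, ?_, ?_⟩⟩
  · rw [hl]
    refine sub_nonneg.1 (minus.trans (le_of_eq ?_))
    simp only [hX, hY]; ring
  · rw [hg]
    refine sub_nonneg.1 (plus.trans (le_of_eq ?_))
    simp only [hX, hY]; ring
  · rw [hl]; linarith
  · rw [hg]; linarith
  · refine ⟨(113/250), (41/500) * q, by norm_num, by norm_num, by positivity, ?_, ?_, ?_, ?_, ?_⟩
    · have key : 0 ≤ (411/625)*Y + (1439/2500)*X := by positivity
      refine sub_nonneg.1 (key.trans (le_of_eq ?_))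
      simp only [hX, hY]; ring
    · have key : 0 ≤ (13333/100000)*Y^2 + (390893/375000)*X*Y + (331003/375000)*X^2 := by positivity
      refine sub_nonneg.1 (key.trans (le_of_eq ?_))
      simp only [hX, hY, hl]; ring
    · have key : 0 ≤ (37/40000)*Y + (4481/200000)*X := by positivity
      refine sub_nonneg.1 (key.trans (le_of_eq ?_))
      simp only [hX, hY, hl]; ring
    · have key : 0 ≤ q * ((721/100000)*Y + (5759/250000)*X) := by positivity
      refine sub_nonneg.1 (key.trans (le_of_eq ?_))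
      simp only [hX, hY, hl]; ring
    · have key : 0 ≤ (139329/390625)*Y^2 + (2404539/3125000)*X*Y + (2537789/6250000)*X^2 := by positivity
      refine sub_nonneg.1 (key.trans (le_of_eq ?_))
      simp only [hX, hY]; ring
  · rw [hl, hg]
    have key : 0 ≤ (532406369/50000000)*Y^3 + (9791311497/250000000)*X*Y^2 + (44965303779/1000000000)*X^2*Y +
      (3236984399/200000000)*X^3 := by positivity
    refine sub_nonneg.1 (key.trans (le_of_eq ?_))
    simp only [hX, hY]; ring

lemma cellA1_1 {q : ℝ} (hq : 0 < q) (h0 : (1/2) ≤ q) (h1 : q ≤ 1) :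
    CellA 1 (1 / 2) (5/4) (1/40) (253/100) (99/100) 0 lamA1 gamA1 q := by
  have hl : lamA1 q = (2981/2000) - (179/1000) * q := by
    unfold lamA1
    rw [max_eq_right (show (1/2) - q ≤ (0 : ℝ) by linarith)]
    rw [max_eq_left (show (0 : ℝ) ≤ 1 - q by linarith)]
    rw [max_eq_left (show (0 : ℝ) ≤ (3/2) - q by linarith)]
    rw [max_eq_left (show (0 : ℝ) ≤ 2 - q by linarith)]
    rw [max_eq_left (show (0 : ℝ) ≤ (5/2) - q by linarith)]
    rw [max_eq_left (show (0 : ℝ) ≤ 3 - q by linarith)]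
    rw [max_eq_left (show (0 : ℝ) ≤ (7/2) - q by linarith)]
    rw [max_eq_left (show (0 : ℝ) ≤ 4 - q by linarith)]
    rw [max_eq_left (show (0 : ℝ) ≤ 7 - q by linarith)]
    ring
  have hg : gamA1 q = (379/200) - (453/1000) * q := by
    unfold gamA1
    rw [max_eq_right (show (1/2) - q ≤ (0 : ℝ) by linarith)]
    rw [max_eq_left (show (0 : ℝ) ≤ 1 - q by linarith)]
    rw [max_eq_left (show (0 : ℝ) ≤ (3/2) - q by linarith)]
    rw [max_eq_left (show (0 : ℝ) ≤ 2 - q by linarith)]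
    rw [max_eq_left (show (0 : ℝ) ≤ (5/2) - q by linarith)]
    rw [max_eq_left (show (0 : ℝ) ≤ 3 - q by linarith)]
    rw [max_eq_left (show (0 : ℝ) ≤ (7/2) - q by linarith)]
    rw [max_eq_left (show (0 : ℝ) ≤ 4 - q by linarith)]
    rw [max_eq_left (show (0 : ℝ) ≤ 7 - q by linarith)]
    ring
  obtain ⟨X, hX⟩ : ∃ X, X = q - (1/2) := ⟨_, rfl⟩
  obtain ⟨Y, hY⟩ : ∃ Y, Y = 1 - q := ⟨_, rfl⟩
  have hX0 : 0 ≤ X := by rw [hX]; linarith
  have hY0 : 0 ≤ Y := by rw [hY]; linarith
  have hq0 : 0 ≤ q := by linarith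
  have minus : 0 ≤ (23720761/864360000)*Y^2 + (46583743/2160900000)*X*Y + (636677449/21609000000)*X^2 := by positivity
  have plus : 0 ≤ (227330103001/960400000000)*Y^2 + (24272726003/240100000000)*X*Y +
      (47174429009/240100000000)*X^2 := by positivity
  refine ⟨⟨_, _, _, _, ((5989/2000) + (-13819/73500) * q), stM_1 hq h0 h1, linM_flat hq0 (by linarith), by linarith,
    by linarith, by linarith, ?_⟩, ⟨_, _, _, _, ((43801/10000) + (-112949/196000) * q), stP_1 hq h0 h1,
    linP_flat hq0, by linarith, by linarith, by linarith, ?_⟩, ⟨?_, ?_, ?_, ?_⟩⟩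
  · rw [hl]
    refine sub_nonneg.1 (minus.trans (le_of_eq ?_))
    simp only [hX, hY]; ring
  · rw [hg]
    refine sub_nonneg.1 (plus.trans (le_of_eq ?_))
    simp only [hX, hY]; ring
  · rw [hl]; linarith
  · rw [hg]; linarith
  · refine ⟨(231/500), (21/250) * q, by norm_num, by norm_num, by positivity, ?_, ?_, ?_, ?_, ?_⟩
    · have key : 0 ≤ (351/625)*Y + (597/1250)*X := by positivity
      refine sub_nonneg.1 (key.trans (le_of_eq ?_))
      simp only [hX, hY]; ring
    · have key : 0 ≤ (260347/250000)*Y^2 + (283923/100000)*X*Y + (886391/500000)*X^2 := by positivity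
      refine sub_nonneg.1 (key.trans (le_of_eq ?_))
      simp only [hX, hY, hl]; ring
    · have key : 0 ≤ (481/200000)*Y + (4819/200000)*X := by positivity
      refine sub_nonneg.1 (key.trans (le_of_eq ?_))
      simp only [hX, hY, hl]; ring
    · have key : 0 ≤ q * ((1277/62500)*Y + (8867/250000)*X) := by positivity
      refine sub_nonneg.1 (key.trans (le_of_eq ?_))
      simp only [hX, hY, hl]; ring
    · have key : 0 ≤ (638001/1562500)*Y^2 + (1343727/1562500)*X*Y + (694701/1562500)*X^2 := by positivity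
      refine sub_nonneg.1 (key.trans (le_of_eq ?_))
      simp only [hX, hY]; ring
  · rw [hl, hg]
    have key : 0 ≤ (3236984399/200000000)*Y^3 + (55010357721/1000000000)*X*Y^2 + (7521776427/125000000)*X^2*Y +
      (165341231/7812500)*X^3 := by positivity
    refine sub_nonneg.1 (key.trans (le_of_eq ?_))
    simp only [hX, hY]; ring

lemma cellA1_2 {q : ℝ} (hq : 0 < q) (h0 : 1 ≤ q) (h1 : q ≤ (3/2)) :
    CellA 1 (1 / 2) (5/4) (1/40) (253/100) (99/100) 0 lamA1 gamA1 q := by
  have hl : lamA1 q = (2957/2000) - (167/1000) * q := by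
    unfold lamA1
    rw [max_eq_right (show (1/2) - q ≤ (0 : ℝ) by linarith)]
    rw [max_eq_right (show 1 - q ≤ (0 : ℝ) by linarith)]
    rw [max_eq_left (show (0 : ℝ) ≤ (3/2) - q by linarith)]
    rw [max_eq_left (show (0 : ℝ) ≤ 2 - q by linarith)]
    rw [max_eq_left (show (0 : ℝ) ≤ (5/2) - q by linarith)]
    rw [max_eq_left (show (0 : ℝ) ≤ 3 - q by linarith)]
    rw [max_eq_left (show (0 : ℝ) ≤ (7/2) - q by linarith)]
    rw [max_eq_left (show (0 : ℝ) ≤ 4 - q by linarith)]
    rw [max_eq_left (show (0 : ℝ) ≤ 7 - q by linarith)]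
    ring
  have hg : gamA1 q = (1803/1000) - (361/1000) * q := by
    unfold gamA1
    rw [max_eq_right (show (1/2) - q ≤ (0 : ℝ) by linarith)]
    rw [max_eq_right (show 1 - q ≤ (0 : ℝ) by linarith)]
    rw [max_eq_left (show (0 : ℝ) ≤ (3/2) - q by linarith)]
    rw [max_eq_left (show (0 : ℝ) ≤ 2 - q by linarith)]
    rw [max_eq_left (show (0 : ℝ) ≤ (5/2) - q by linarith)]
    rw [max_eq_left (show (0 : ℝ) ≤ 3 - q by linarith)]
    rw [max_eq_left (show (0 : ℝ) ≤ (7/2) - q by linarith)]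
    rw [max_eq_left (show (0 : ℝ) ≤ 4 - q by linarith)]
    rw [max_eq_left (show (0 : ℝ) ≤ 7 - q by linarith)]
    ring
  obtain ⟨X, hX⟩ : ∃ X, X = q - 1 := ⟨_, rfl⟩
  obtain ⟨Y, hY⟩ : ∃ Y, Y = (3/2) - q := ⟨_, rfl⟩
  have hX0 : 0 ≤ X := by rw [hX]; linarith
  have hY0 : 0 ≤ Y := by rw [hY]; linarith
  have hq0 : 0 ≤ q := by linarith
  have minus : 0 ≤ (636677449/21609000000)*Y^2 + (18534627/600250000)*X*Y + (20516889/600250000)*X^2 := by positivity
  have plus : 0 ≤ (47174429009/240100000000)*Y^2 + (22203221113/240100000000)*X*Y +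
      (134743996641/960400000000)*X^2 := by positivity
  refine ⟨⟨_, _, _, _, ((239/80) + (-26609/147000) * q), stM_2 hq h0 h1, linM_flat hq0 (by linarith), by linarith,
    by linarith, by linarith, ?_⟩, ⟨_, _, _, _, ((42981/10000) + (-96877/196000) * q), stP_2 hq h0 h1,
    linP_flat hq0, by linarith, by linarith, by linarith, ?_⟩, ⟨?_, ?_, ?_, ?_⟩⟩
  · rw [hl]
    refine sub_nonneg.1 (minus.trans (le_of_eq ?_))
    simp only [hX, hY]; ring
  · rw [hg]
    refine sub_nonneg.1 (plus.trans (le_of_eq ?_))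
    simp only [hX, hY]; ring
  · rw [hl]; linarith
  · rw [hg]; linarith
  · refine ⟨(237/500), (11/125) * q, by norm_num, by norm_num, by positivity, ?_, ?_, ?_, ?_, ?_⟩
    · have key : 0 ≤ (569/1250)*Y + (459/1250)*X := by positivity
      refine sub_nonneg.1 (key.trans (le_of_eq ?_))
      simp only [hX, hY]; ring
    · have key : 0 ≤ (3030061/1500000)*Y^2 + (2399571/500000)*X*Y + (172163/62500)*X^2 := by positivity
      refine sub_nonneg.1 (key.trans (le_of_eq ?_))
      simp only [hX, hY, hl]; ring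
    · have key : 0 ≤ (19/200000)*Y + (4393/200000)*X := by positivity
      refine sub_nonneg.1 (key.trans (le_of_eq ?_))
      simp only [hX, hY, hl]; ring
    · have key : 0 ≤ q * ((493/31250)*Y + (3809/125000)*X) := by positivity
      refine sub_nonneg.1 (key.trans (le_of_eq ?_))
      simp only [hX, hY, hl]; ring
    · have key : 0 ≤ (700679/1562500)*Y^2 + (361752/390625)*X*Y + (734229/1562500)*X^2 := by positivity
      refine sub_nonneg.1 (key.trans (le_of_eq ?_))
      simp only [hX, hY]; ring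
  · rw [hl, hg]
    have key : 0 ≤ (165341231/7812500)*Y^3 + (8812994421/125000000)*X*Y^2 + (76724784081/1000000000)*X^2*Y +
      (27277548859/1000000000)*X^3 := by positivity
    refine sub_nonneg.1 (key.trans (le_of_eq ?_))
    simp only [hX, hY]; ring

lemma cellA1_3 {q : ℝ} (hq : 0 < q) (h0 : (3/2) ≤ q) (h1 : q ≤ 2) :
    CellA 1 (1 / 2) (5/4) (1/40) (253/100) (99/100) 0 lamA1 gamA1 q := by
  have hl : lamA1 q = (3041/2000) - (39/200) * q := by
    unfold lamA1
    rw [max_eq_right (show (1/2) - q ≤ (0 : ℝ) by linarith)]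
    rw [max_eq_right (show 1 - q ≤ (0 : ℝ) by linarith)]
    rw [max_eq_right (show (3/2) - q ≤ (0 : ℝ) by linarith)]
    rw [max_eq_left (show (0 : ℝ) ≤ 2 - q by linarith)]
    rw [max_eq_left (show (0 : ℝ) ≤ (5/2) - q by linarith)]
    rw [max_eq_left (show (0 : ℝ) ≤ 3 - q by linarith)]
    rw [max_eq_left (show (0 : ℝ) ≤ (7/2) - q by linarith)]
    rw [max_eq_left (show (0 : ℝ) ≤ 4 - q by linarith)]
    rw [max_eq_left (show (0 : ℝ) ≤ 7 - q by linarith)]
    ring
  have hg : gamA1 q = (423/250) - (287/1000) * q := by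
    unfold gamA1
    rw [max_eq_right (show (1/2) - q ≤ (0 : ℝ) by linarith)]
    rw [max_eq_right (show 1 - q ≤ (0 : ℝ) by linarith)]
    rw [max_eq_right (show (3/2) - q ≤ (0 : ℝ) by linarith)]
    rw [max_eq_left (show (0 : ℝ) ≤ 2 - q by linarith)]
    rw [max_eq_left (show (0 : ℝ) ≤ (5/2) - q by linarith)]
    rw [max_eq_left (show (0 : ℝ) ≤ 3 - q by linarith)]
    rw [max_eq_left (show (0 : ℝ) ≤ (7/2) - q by linarith)]
    rw [max_eq_left (show (0 : ℝ) ≤ 4 - q by linarith)]
    rw [max_eq_left (show (0 : ℝ) ≤ 7 - q by linarith)]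
    ring
  obtain ⟨X, hX⟩ : ∃ X, X = q - (3/2) := ⟨_, rfl⟩
  obtain ⟨Y, hY⟩ : ∃ Y, Y = 2 - q := ⟨_, rfl⟩
  have hX0 : 0 ≤ X := by rw [hX]; linarith
  have hY0 : 0 ≤ Y := by rw [hY]; linarith
  have hq0 : 0 ≤ q := by linarith
  have minus : 0 ≤ (20516889/600250000)*Y^2 + (5403297/300125000)*X*Y + (174140929/5402250000)*X^2 := by positivity
  have plus : 0 ≤ (134743996641/960400000000)*Y^2 + (10106585429/120050000000)*X*Y +
      (7083021401/60025000000)*X^2 := by positivity
  refine ⟨⟨_, _, _, _, ((29851/9800) + (-4043/18375) * q), stM_3 hq h0 h1, linM_flat hq0 (by linarith), by linarith,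
    by linarith, by linarith, ?_⟩, ⟨_, _, _, _, ((20913/5000) + (-16357/39200) * q), stP_3 hq h0 h1,
    linP_flat hq0, by linarith, by linarith, by linarith, ?_⟩, ⟨?_, ?_, ?_, ?_⟩⟩
  · rw [hl]
    refine sub_nonneg.1 (minus.trans (le_of_eq ?_))
    simp only [hX, hY]; ring
  · rw [hg]
    refine sub_nonneg.1 (plus.trans (le_of_eq ?_))
    simp only [hX, hY]; ring
  · rw [hl]; linarith
  · rw [hg]; linarith
  · refine ⟨(121/250), (23/250) * q, by norm_num, by norm_num, by positivity, ?_, ?_, ?_, ?_, ?_⟩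
    · have key : 0 ≤ (429/1250)*Y + (157/625)*X := by positivity
      refine sub_nonneg.1 (key.trans (le_of_eq ?_))
      simp only [hX, hY]; ring
    · have key : 0 ≤ (188303/62500)*Y^2 + (3365653/500000)*X*Y + (1844279/500000)*X^2 := by positivity
      refine sub_nonneg.1 (key.trans (le_of_eq ?_))
      simp only [hX, hY, hl]; ring
    · have key : 0 ≤ (393/200000)*Y + (4683/200000)*X := by positivity
      refine sub_nonneg.1 (key.trans (le_of_eq ?_))
      simp only [hX, hY, hl]; ring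
    · have key : 0 ≤ q * ((239/31250)*Y + (6397/250000)*X) := by positivity
      refine sub_nonneg.1 (key.trans (le_of_eq ?_))
      simp only [hX, hY, hl]; ring
    · have key : 0 ≤ (368937/781250)*Y^2 + (1494723/1562500)*X*Y + (185906/390625)*X^2 := by positivity
      refine sub_nonneg.1 (key.trans (le_of_eq ?_))
      simp only [hX, hY]; ring
  · rw [hl, hg]
    have key : 0 ≤ (27277548859/1000000000)*Y^3 + (88637527473/1000000000)*X*Y^2 +
      (23776771689/250000000)*X^2*Y + (8426265463/250000000)*X^3 := by positivity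
    refine sub_nonneg.1 (key.trans (le_of_eq ?_))
    simp only [hX, hY]; ring

lemma cellA1_4 {q : ℝ} (hq : 0 < q) (h0 : 2 ≤ q) (h1 : q ≤ (5/2)) :
    CellA 1 (1 / 2) (5/4) (1/40) (253/100) (99/100) 0 lamA1 gamA1 q := by
  have hl : lamA1 q = (2897/2000) - (159/1000) * q := by
    unfold lamA1
    rw [max_eq_right (show (1/2) - q ≤ (0 : ℝ) by linarith)]
    rw [max_eq_right (show 1 - q ≤ (0 : ℝ) by linarith)]
    rw [max_eq_right (show (3/2) - q ≤ (0 : ℝ) by linarith)]
    rw [max_eq_right (show 2 - q ≤ (0 : ℝ) by linarith)]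
    rw [max_eq_left (show (0 : ℝ) ≤ (5/2) - q by linarith)]
    rw [max_eq_left (show (0 : ℝ) ≤ 3 - q by linarith)]
    rw [max_eq_left (show (0 : ℝ) ≤ (7/2) - q by linarith)]
    rw [max_eq_left (show (0 : ℝ) ≤ 4 - q by linarith)]
    rw [max_eq_left (show (0 : ℝ) ≤ 7 - q by linarith)]
    ring
  have hg : gamA1 q = (783/500) - (28/125) * q := by
    unfold gamA1
    rw [max_eq_right (show (1/2) - q ≤ (0 : ℝ) by linarith)]
    rw [max_eq_right (show 1 - q ≤ (0 : ℝ) by linarith)]
    rw [max_eq_right (show (3/2) - q ≤ (0 : ℝ) by linarith)]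
    rw [max_eq_right (show 2 - q ≤ (0 : ℝ) by linarith)]
    rw [max_eq_left (show (0 : ℝ) ≤ (5/2) - q by linarith)]
    rw [max_eq_left (show (0 : ℝ) ≤ 3 - q by linarith)]
    rw [max_eq_left (show (0 : ℝ) ≤ (7/2) - q by linarith)]
    rw [max_eq_left (show (0 : ℝ) ≤ 4 - q by linarith)]
    rw [max_eq_left (show (0 : ℝ) ≤ 7 - q by linarith)]
    ring
  obtain ⟨X, hX⟩ : ∃ X, X = q - 2 := ⟨_, rfl⟩
  obtain ⟨Y, hY⟩ : ∃ Y, Y = (5/2) - q := ⟨_, rfl⟩
  have hX0 : 0 ≤ X := by rw [hX]; linarith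
  have hY0 : 0 ≤ Y := by rw [hY]; linarith
  have hq0 : 0 ≤ q := by linarith
  have minus : 0 ≤ (174140929/5402250000)*Y^2 + (19071209/675281250)*X*Y + (10397839/337640625)*X^2 := by positivity
  have plus : 0 ≤ (7083021401/60025000000)*Y^2 + (9443985199/120050000000)*X*Y +
      (77378568201/960400000000)*X^2 := by positivity
  refine ⟨⟨_, _, _, _, ((2979/1000) + (-13709/73500) * q), stM_4 hq h0 h1, linM_flat hq0 (by linarith), by linarith,
    by linarith, by linarith, ?_⟩, ⟨_, _, _, _, ((20203/5000) + (-67869/196000) * q), stP_4 hq h0 h1,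
    linP_flat hq0, by linarith, by linarith, by linarith, ?_⟩, ⟨?_, ?_, ?_, ?_⟩⟩
  · rw [hl]
    refine sub_nonneg.1 (minus.trans (le_of_eq ?_))
    simp only [hX, hY]; ring
  · rw [hg]
    refine sub_nonneg.1 (plus.trans (le_of_eq ?_))
    simp only [hX, hY]; ring
  · rw [hl]; linarith
  · rw [hg]; linarith
  · refine ⟨(247/500), (12/125) * q, by norm_num, by norm_num, by positivity, ?_, ?_, ?_, ?_, ?_⟩
    · have key : 0 ≤ (279/1250)*Y + (159/1250)*X := by positivity
      refine sub_nonneg.1 (key.trans (le_of_eq ?_))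
      simp only [hX, hY]; ring
    · have key : 0 ≤ (1990369/500000)*Y^2 + (4349807/500000)*X*Y + (1173359/250000)*X^2 := by positivity
      refine sub_nonneg.1 (key.trans (le_of_eq ?_))
      simp only [hX, hY, hl]; ring
    · have key : 0 ≤ (683/200000)*Y + (5081/200000)*X := by positivity
      refine sub_nonneg.1 (key.trans (le_of_eq ?_))
      simp only [hX, hY, hl]; ring
    · have key : 0 ≤ q * ((443/125000)*Y + (2351/125000)*X) := by positivity
      refine sub_nonneg.1 (key.trans (le_of_eq ?_))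
      simp only [hX, hY, hl]; ring
    · have key : 0 ≤ (742419/1562500)*Y^2 + (736119/781250)*X*Y + (715419/1562500)*X^2 := by positivity
      refine sub_nonneg.1 (key.trans (le_of_eq ?_))
      simp only [hX, hY]; ring
  · rw [hl, hg]
    have key : 0 ≤ (8426265463/250000000)*Y^3 + (7067658939/62500000)*X*Y^2 + (125684718687/1000000000)*X^2*Y +
      (46318993369/1000000000)*X^3 := by positivity
    refine sub_nonneg.1 (key.trans (le_of_eq ?_))
    simp only [hX, hY]; ring

lemma cellA1_5 {q : ℝ} (hq : 0 < q) (h0 : (5/2) ≤ q) (h1 : q ≤ 3) :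
    CellA 1 (1 / 2) (5/4) (1/40) (253/100) (99/100) 0 lamA1 gamA1 q := by
  have hl : lamA1 q = (2767/2000) - (133/1000) * q := by
    unfold lamA1
    rw [max_eq_right (show (1/2) - q ≤ (0 : ℝ) by linarith)]
    rw [max_eq_right (show 1 - q ≤ (0 : ℝ) by linarith)]
    rw [max_eq_right (show (3/2) - q ≤ (0 : ℝ) by linarith)]
    rw [max_eq_right (show 2 - q ≤ (0 : ℝ) by linarith)]
    rw [max_eq_right (show (5/2) - q ≤ (0 : ℝ) by linarith)]
    rw [max_eq_left (show (0 : ℝ) ≤ 3 - q by linarith)]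
    rw [max_eq_left (show (0 : ℝ) ≤ (7/2) - q by linarith)]
    rw [max_eq_left (show (0 : ℝ) ≤ 4 - q by linarith)]
    rw [max_eq_left (show (0 : ℝ) ≤ 7 - q by linarith)]
    ring
  have hg : gamA1 q = (1441/1000) - (87/500) * q := by
    unfold gamA1
    rw [max_eq_right (show (1/2) - q ≤ (0 : ℝ) by linarith)]
    rw [max_eq_right (show 1 - q ≤ (0 : ℝ) by linarith)]
    rw [max_eq_right (show (3/2) - q ≤ (0 : ℝ) by linarith)]
    rw [max_eq_right (show 2 - q ≤ (0 : ℝ) by linarith)]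
    rw [max_eq_right (show (5/2) - q ≤ (0 : ℝ) by linarith)]
    rw [max_eq_left (show (0 : ℝ) ≤ 3 - q by linarith)]
    rw [max_eq_left (show (0 : ℝ) ≤ (7/2) - q by linarith)]
    rw [max_eq_left (show (0 : ℝ) ≤ 4 - q by linarith)]
    rw [max_eq_left (show (0 : ℝ) ≤ 7 - q by linarith)]
    ring
  obtain ⟨X, hX⟩ : ∃ X, X = q - (5/2) := ⟨_, rfl⟩
  obtain ⟨Y, hY⟩ : ∃ Y, Y = 3 - q := ⟨_, rfl⟩
  have hX0 : 0 ≤ X := by rw [hX]; linarith
  have hY0 : 0 ≤ Y := by rw [hY]; linarith
  have hq0 : 0 ≤ q := by linarith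
  have minus : 0 ≤ (10397839/337640625)*Y^2 + (3850363/112546875)*X*Y + (70837561/2401000000)*X^2 := by positivity
  have plus : 0 ≤ (77378568201/960400000000)*Y^2 + (13539205163/240100000000)*X*Y +
      (13324910769/240100000000)*X^2 := by positivity
  refine ⟨⟨_, _, _, _, ((5833/2000) + (-23743/147000) * q), stM_5 hq h0 h1, linM_flat hq0 (by linarith), by linarith,
    by linarith, by linarith, ?_⟩, ⟨_, _, _, _, ((19403/5000) + (-2213/7840) * q), stP_5 hq h0 h1,
    linP_flat hq0, by linarith, by linarith, by linarith, ?_⟩, ⟨?_, ?_, ?_, ?_⟩⟩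
  · rw [hl]
    refine sub_nonneg.1 (minus.trans (le_of_eq ?_))
    simp only [hX, hY]; ring
  · rw [hg]
    refine sub_nonneg.1 (plus.trans (le_of_eq ?_))
    simp only [hX, hY]; ring
  · rw [hl]; linarith
  · rw [hg]; linarith
  · refine ⟨(1/2), (49/500) * q, by norm_num, by norm_num, by positivity, ?_, ?_, ?_, ?_, ?_⟩
    · have key : 0 ≤ (11/100)*Y + (3/250)*X := by positivity
      refine sub_nonneg.1 (key.trans (le_of_eq ?_))
      simp only [hX, hY]; ring
    · have key : 0 ≤ (121709/25000)*Y^2 + (786583/75000)*X*Y + (559769/100000)*X^2 := by positivity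
      refine sub_nonneg.1 (key.trans (le_of_eq ?_))
      simp only [hX, hY, hl]; ring
    · have key : 0 ≤ (2681/200000)*Y + (7157/200000)*X := by positivity
      refine sub_nonneg.1 (key.trans (le_of_eq ?_))
      simp only [hX, hY, hl]; ring
    · have key : 0 ≤ q * ((2501/250000)*Y + (11519/500000)*X) := by positivity
      refine sub_nonneg.1 (key.trans (le_of_eq ?_))
      simp only [hX, hY, hl]; ring
    · have key : 0 ≤ (22753/50000)*Y^2 + (110139/125000)*X*Y + (6507/15625)*X^2 := by positivity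
      refine sub_nonneg.1 (key.trans (le_of_eq ?_))
      simp only [hX, hY]; ring
  · rw [hl, hg]
    have key : 0 ≤ (46318993369/1000000000)*Y^3 + (157704061449/1000000000)*X*Y^2 +
      (44520405633/250000000)*X^2*Y + (83441039/1250000)*X^3 := by positivity
    refine sub_nonneg.1 (key.trans (le_of_eq ?_))
    simp only [hX, hY]; ring

lemma cellA1_6 {q : ℝ} (hq : 0 < q) (h0 : 3 ≤ q) (h1 : q ≤ (7/2)) :
    CellA 1 (1 / 2) (5/4) (1/40) (253/100) (99/100) 0 lamA1 gamA1 q := by
  have hl : lamA1 q = (539/400) - (121/1000) * q := by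
    unfold lamA1
    rw [max_eq_right (show (1/2) - q ≤ (0 : ℝ) by linarith)]
    rw [max_eq_right (show 1 - q ≤ (0 : ℝ) by linarith)]
    rw [max_eq_right (show (3/2) - q ≤ (0 : ℝ) by linarith)]
    rw [max_eq_right (show 2 - q ≤ (0 : ℝ) by linarith)]
    rw [max_eq_right (show (5/2) - q ≤ (0 : ℝ) by linarith)]
    rw [max_eq_right (show 3 - q ≤ (0 : ℝ) by linarith)]
    rw [max_eq_left (show (0 : ℝ) ≤ (7/2) - q by linarith)]
    rw [max_eq_left (show (0 : ℝ) ≤ 4 - q by linarith)]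
    rw [max_eq_left (show (0 : ℝ) ≤ 7 - q by linarith)]
    ring
  have hg : gamA1 q = (659/500) - (133/1000) * q := by
    unfold gamA1
    rw [max_eq_right (show (1/2) - q ≤ (0 : ℝ) by linarith)]
    rw [max_eq_right (show 1 - q ≤ (0 : ℝ) by linarith)]
    rw [max_eq_right (show (3/2) - q ≤ (0 : ℝ) by linarith)]
    rw [max_eq_right (show 2 - q ≤ (0 : ℝ) by linarith)]
    rw [max_eq_right (show (5/2) - q ≤ (0 : ℝ) by linarith)]
    rw [max_eq_right (show 3 - q ≤ (0 : ℝ) by linarith)]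
    rw [max_eq_left (show (0 : ℝ) ≤ (7/2) - q by linarith)]
    rw [max_eq_left (show (0 : ℝ) ≤ 4 - q by linarith)]
    rw [max_eq_left (show (0 : ℝ) ≤ 7 - q by linarith)]
    ring
  obtain ⟨X, hX⟩ : ∃ X, X = q - 3 := ⟨_, rfl⟩
  obtain ⟨Y, hY⟩ : ∃ Y, Y = (7/2) - q := ⟨_, rfl⟩
  have hX0 : 0 ≤ X := by rw [hX]; linarith
  have hY0 : 0 ≤ Y := by rw [hY]; linarith
  have hq0 : 0 ≤ q := by linarith
  have minus : 0 ≤ (70837561/2401000000)*Y^2 + (34092613/514500000)*X*Y + (25938529/441000000)*X^2 := by positivity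
  have plus : 0 ≤ (13324910769/240100000000)*Y^2 + (2111975939/34300000000)*X*Y +
      (1096149209/19600000000)*X^2 := by positivity
  refine ⟨⟨_, _, _, _, ((1151/400) + (-2729/18375) * q), stM_6 hq h0 h1, linM_flat hq0 (by linarith), by linarith,
    by linarith, by linarith, ?_⟩, ⟨_, _, _, _, ((9259/2500) + (-43761/196000) * q), stP_6 hq h0 h1,
    linP_flat hq0, by linarith, by linarith, by linarith, ?_⟩, ⟨?_, ?_, ?_, ?_⟩⟩
  · rw [hl]
    refine sub_nonneg.1 (minus.trans (le_of_eq ?_))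
    simp only [hX, hY]; ring
  · rw [hg]
    refine sub_nonneg.1 (plus.trans (le_of_eq ?_))
    simp only [hX, hY]; ring
  · rw [hl]; linarith
  · rw [hg]; linarith
  · refine ⟨(1/2), (21/250) * q, by norm_num, by norm_num, by positivity, ?_, ?_, ?_, ?_, ?_⟩
    · have key : 0 ≤ (12/125)*Y + (3/250)*X := by positivity
      refine sub_nonneg.1 (key.trans (le_of_eq ?_))
      simp only [hX, hY]; ring
    · have key : 0 ≤ (476203/100000)*Y^2 + (202669/20000)*X*Y + (66931/12500)*X^2 := by positivity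
      refine sub_nonneg.1 (key.trans (le_of_eq ?_))
      simp only [hX, hY, hl]; ring
    · have key : 0 ≤ (7157/200000)*Y + (11669/200000)*X := by positivity
      refine sub_nonneg.1 (key.trans (le_of_eq ?_))
      simp only [hX, hY, hl]; ring
    · have key : 0 ≤ q * ((40651/250000)*Y + (5399/31250)*X) := by positivity
      refine sub_nonneg.1 (key.trans (le_of_eq ?_))
      simp only [hX, hY, hl]; ring
    · have key : 0 ≤ (2817/6250)*Y^2 + (54639/62500)*X*Y + (6507/15625)*X^2 := by positivity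
      refine sub_nonneg.1 (key.trans (le_of_eq ?_))
      simp only [hX, hY]; ring
  · rw [hl, hg]
    have key : 0 ≤ (83441039/1250000)*Y^3 + (56763205917/250000000)*X*Y^2 + (256460931111/1000000000)*X^2*Y +
      (19250859287/200000000)*X^3 := by positivity
    refine sub_nonneg.1 (key.trans (le_of_eq ?_))
    simp only [hX, hY]; ring

lemma cellA1_7 {q : ℝ} (hq : 0 < q) (h0 : (7/2) ≤ q) (h1 : q ≤ 4) :
    CellA 1 (1 / 2) (5/4) (1/40) (253/100) (99/100) 0 lamA1 gamA1 q := by
  have hl : lamA1 q = (1673/500) - (173/250) * q := by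
    unfold lamA1
    rw [max_eq_right (show (1/2) - q ≤ (0 : ℝ) by linarith)]
    rw [max_eq_right (show 1 - q ≤ (0 : ℝ) by linarith)]
    rw [max_eq_right (show (3/2) - q ≤ (0 : ℝ) by linarith)]
    rw [max_eq_right (show 2 - q ≤ (0 : ℝ) by linarith)]
    rw [max_eq_right (show (5/2) - q ≤ (0 : ℝ) by linarith)]
    rw [max_eq_right (show 3 - q ≤ (0 : ℝ) by linarith)]
    rw [max_eq_right (show (7/2) - q ≤ (0 : ℝ) by linarith)]
    rw [max_eq_left (show (0 : ℝ) ≤ 4 - q by linarith)]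
    rw [max_eq_left (show (0 : ℝ) ≤ 7 - q by linarith)]
    ring
  have hg : gamA1 q = (251/200) - (23/200) * q := by
    unfold gamA1
    rw [max_eq_right (show (1/2) - q ≤ (0 : ℝ) by linarith)]
    rw [max_eq_right (show 1 - q ≤ (0 : ℝ) by linarith)]
    rw [max_eq_right (show (3/2) - q ≤ (0 : ℝ) by linarith)]
    rw [max_eq_right (show 2 - q ≤ (0 : ℝ) by linarith)]
    rw [max_eq_right (show (5/2) - q ≤ (0 : ℝ) by linarith)]
    rw [max_eq_right (show 3 - q ≤ (0 : ℝ) by linarith)]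
    rw [max_eq_right (show (7/2) - q ≤ (0 : ℝ) by linarith)]
    rw [max_eq_left (show (0 : ℝ) ≤ 4 - q by linarith)]
    rw [max_eq_left (show (0 : ℝ) ≤ 7 - q by linarith)]
    ring
  obtain ⟨X, hX⟩ : ∃ X, X = q - (7/2) := ⟨_, rfl⟩
  obtain ⟨Y, hY⟩ : ∃ Y, Y = 4 - q := ⟨_, rfl⟩
  have hX0 : 0 ≤ X := by rw [hX]; linarith
  have hY0 : 0 ≤ Y := by rw [hY]; linarith
  have hq0 : 0 ≤ q := by linarith
  have minus : 0 ≤ (25938529/441000000)*Y^2 + (8391847651/1543500000)*X*Y + (118379361769/21609000000)*X^2 := by positivity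
  have plus : 0 ≤ (1096149209/19600000000)*Y^2 + (1657380253/4287500000)*X*Y + (1353029701/3751562500)*X^2 := by positivity
  refine ⟨⟨_, _, _, _, ((145547/42000) + (-3877/12250) * q), stM_7 hq h0 h1, linM_flat hq0 (by linarith), by linarith,
    by linarith, by linarith, ?_⟩, ⟨_, _, _, _, ((17643/5000) + (-33961/196000) * q), stP_7 hq h0 h1,
    linP_flat hq0, by linarith, by linarith, by linarith, ?_⟩, ⟨?_, ?_, ?_, ?_⟩⟩
  · rw [hl]
    refine sub_nonneg.1 (minus.trans (le_of_eq ?_))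
    simp only [hX, hY]; ring
  · rw [hg]
    refine sub_nonneg.1 (plus.trans (le_of_eq ?_))
    simp only [hX, hY]; ring
  · rw [hl]; linarith
  · rw [hg]; linarith
  · refine ⟨(1/2), (37/500) * q, by norm_num, by norm_num, by positivity, ?_, ?_, ?_, ?_, ?_⟩
    · have key : 0 ≤ (41/500)*Y + (1/125)*X := by positivity
      refine sub_nonneg.1 (key.trans (le_of_eq ?_))
      simp only [hX, hY]; ring
    · have key : 0 ≤ (43802/9375)*Y^2 + (328331/37500)*X*Y + (59969/15000)*X^2 := by positivity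
      refine sub_nonneg.1 (key.trans (le_of_eq ?_))
      simp only [hX, hY, hl]; ring
    · have key : 0 ≤ (11669/200000)*Y + (3617/50000)*X := by positivity
      refine sub_nonneg.1 (key.trans (le_of_eq ?_))
      simp only [hX, hY, hl]; ring
    · have key : 0 ≤ q * ((16953/62500)*Y + (40307/125000)*X) := by positivity
      refine sub_nonneg.1 (key.trans (le_of_eq ?_))
      simp only [hX, hY, hl]; ring
    · have key : 0 ≤ (111497/250000)*Y^2 + (108241/125000)*X*Y + (6476/15625)*X^2 := by positivity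
      refine sub_nonneg.1 (key.trans (le_of_eq ?_))
      simp only [hX, hY]; ring
  · rw [hl, hg]
    have key : 0 ≤ (19250859287/200000000)*Y^3 + (3453591009/12500000)*X*Y^2 + (13163619843/50000000)*X^2*Y +
      (1041341279/12500000)*X^3 := by positivity
    refine sub_nonneg.1 (key.trans (le_of_eq ?_))
    simp only [hX, hY]; ring

lemma cellA1_8 {q : ℝ} (hq : 0 < q) (h0 : 4 ≤ q) (h1 : q ≤ 7) :
    CellA 1 (1 / 2) (5/4) (1/40) (253/100) (99/100) 0 lamA1 gamA1 q := by
  have hl : lamA1 q = (2023/1500) - (289/1500) * q := by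
    unfold lamA1
    rw [max_eq_right (show (1/2) - q ≤ (0 : ℝ) by linarith)]
    rw [max_eq_right (show 1 - q ≤ (0 : ℝ) by linarith)]
    rw [max_eq_right (show (3/2) - q ≤ (0 : ℝ) by linarith)]
    rw [max_eq_right (show 2 - q ≤ (0 : ℝ) by linarith)]
    rw [max_eq_right (show (5/2) - q ≤ (0 : ℝ) by linarith)]
    rw [max_eq_right (show 3 - q ≤ (0 : ℝ) by linarith)]
    rw [max_eq_right (show (7/2) - q ≤ (0 : ℝ) by linarith)]
    rw [max_eq_right (show 4 - q ≤ (0 : ℝ) by linarith)]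
    rw [max_eq_left (show (0 : ℝ) ≤ 7 - q by linarith)]
    ring
  have hg : gamA1 q = (371/200) - (53/200) * q := by
    unfold gamA1
    rw [max_eq_right (show (1/2) - q ≤ (0 : ℝ) by linarith)]
    rw [max_eq_right (show 1 - q ≤ (0 : ℝ) by linarith)]
    rw [max_eq_right (show (3/2) - q ≤ (0 : ℝ) by linarith)]
    rw [max_eq_right (show 2 - q ≤ (0 : ℝ) by linarith)]
    rw [max_eq_right (show (5/2) - q ≤ (0 : ℝ) by linarith)]
    rw [max_eq_right (show 3 - q ≤ (0 : ℝ) by linarith)]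
    rw [max_eq_right (show (7/2) - q ≤ (0 : ℝ) by linarith)]
    rw [max_eq_right (show 4 - q ≤ (0 : ℝ) by linarith)]
    rw [max_eq_left (show (0 : ℝ) ≤ 7 - q by linarith)]
    ring
  obtain ⟨X, hX⟩ : ∃ X, X = q - 4 := ⟨_, rfl⟩
  obtain ⟨Y, hY⟩ : ∃ Y, Y = 7 - q := ⟨_, rfl⟩
  have hX0 : 0 ≤ X := by rw [hX]; linarith
  have hY0 : 0 ≤ Y := by rw [hY]; linarith
  have hq0 : 0 ≤ q := by linarith
  have minus : 0 ≤ (33997/48620250)*Y^2 + (2392571/6945750)*X*Y + (1369/3969)*X^2 := by positivity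
  have plus : 0 ≤ (3310418521/2160900000000)*Y^2 + (98246271061/154350000000)*X*Y +
      (28780783201/44100000000)*X^2 := by positivity
  refine ⟨⟨_, _, _, _, (2 + (-5/147) * q), linM_zero _ _ _, linM_flat hq0 (by linarith), by linarith,
    by linarith, by linarith, ?_⟩, ⟨_, _, _, _, ((33533/10000) + (-32541/245000) * q), linP_zero _ _ _,
    linP_flat hq0, by linarith, by linarith, by linarith, ?_⟩, ⟨?_, ?_, ?_, ?_⟩⟩
  · rw [hl]
    refine sub_nonneg.1 (minus.trans (le_of_eq ?_))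
    simp only [hX, hY]; ring
  · rw [hg]
    refine sub_nonneg.1 (plus.trans (le_of_eq ?_))
    simp only [hX, hY]; ring
  · rw [hl]; linarith
  · rw [hg]; linarith
  · refine ⟨(1/2), (21/500) * q, by norm_num, by norm_num, by positivity, ?_, ?_, ?_, ?_, ?_⟩
    · have key : 0 ≤ (11/250)*Y + (1/500)*X := by positivity
      refine sub_nonneg.1 (key.trans (le_of_eq ?_))
      simp only [hX, hY]; ring
    · have key : 0 ≤ (44951/900000)*Y^2 + (98089/900000)*X*Y + (41/900)*X^2 := by positivity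
      refine sub_nonneg.1 (key.trans (le_of_eq ?_))
      simp only [hX, hY, hl]; ring
    · have key : 0 ≤ (3617/300000)*Y + (161/4800)*X := by positivity
      refine sub_nonneg.1 (key.trans (le_of_eq ?_))
      simp only [hX, hY, hl]; ring
    · have key : 0 ≤ q * ((76931/750000)*Y + (83/750)*X) := by positivity
      refine sub_nonneg.1 (key.trans (le_of_eq ?_))
      simp only [hX, hY, hl]; ring
    · have key : 0 ≤ (207/15625)*Y^2 + (1329/50000)*X*Y + (723/62500)*X^2 := by positivity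
      refine sub_nonneg.1 (key.trans (le_of_eq ?_))
      simp only [hX, hY]; ring
  · rw [hl, hg]
    have key : 0 ≤ (1041341279/2700000000)*Y^3 + (2683113829/1800000000)*X*Y^2 + (81632551/45000000)*X^2*Y +
      (1481161/2160000)*X^3 := by positivity
    refine sub_nonneg.1 (key.trans (le_of_eq ?_))
    simp only [hX, hY]; ring

lemma cellA1_inf {q : ℝ} (hq : 0 < q) (h0 : 7 ≤ q) :
    CellA 1 (1 / 2) (5/4) (1/40) (253/100) (99/100) 0 lamA1 gamA1 q := by
  have hl : lamA1 q = 0 := by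
    unfold lamA1
    rw [max_eq_right (show (1/2) - q ≤ (0 : ℝ) by linarith)]
    rw [max_eq_right (show 1 - q ≤ (0 : ℝ) by linarith)]
    rw [max_eq_right (show (3/2) - q ≤ (0 : ℝ) by linarith)]
    rw [max_eq_right (show 2 - q ≤ (0 : ℝ) by linarith)]
    rw [max_eq_right (show (5/2) - q ≤ (0 : ℝ) by linarith)]
    rw [max_eq_right (show 3 - q ≤ (0 : ℝ) by linarith)]
    rw [max_eq_right (show (7/2) - q ≤ (0 : ℝ) by linarith)]
    rw [max_eq_right (show 4 - q ≤ (0 : ℝ) by linarith)]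
    rw [max_eq_right (show 7 - q ≤ (0 : ℝ) by linarith)]
    ring
  have hg : gamA1 q = 0 := by
    unfold gamA1
    rw [max_eq_right (show (1/2) - q ≤ (0 : ℝ) by linarith)]
    rw [max_eq_right (show 1 - q ≤ (0 : ℝ) by linarith)]
    rw [max_eq_right (show (3/2) - q ≤ (0 : ℝ) by linarith)]
    rw [max_eq_right (show 2 - q ≤ (0 : ℝ) by linarith)]
    rw [max_eq_right (show (5/2) - q ≤ (0 : ℝ) by linarith)]
    rw [max_eq_right (show 3 - q ≤ (0 : ℝ) by linarith)]
    rw [max_eq_right (show (7/2) - q ≤ (0 : ℝ) by linarith)]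
    rw [max_eq_right (show 4 - q ≤ (0 : ℝ) by linarith)]
    rw [max_eq_right (show 7 - q ≤ (0 : ℝ) by linarith)]
    ring
  obtain ⟨X, hX⟩ : ∃ X, X = q - 7 := ⟨_, rfl⟩
  have hX0 : 0 ≤ X := by rw [hX]; linarith
  refine ⟨⟨0, 0, 0, 0, 0, linM_zero _ _ _, linM_zero _ _ _, le_rfl, by norm_num, by norm_num, ?_⟩,
    ⟨0, 0, 0, 0, 0, linP_zero _ _ _, linP_zero _ _ _, le_rfl, by norm_num, by norm_num, ?_⟩,
    ⟨?_, ?_, ?_, ?_⟩⟩
  · rw [hl]; norm_num
  · rw [hg]; norm_num
  · rw [hl]
  · rw [hg]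
  · rw [hl]
    refine ⟨(1/2), (3/10), by norm_num, by norm_num, by norm_num, by norm_num, by norm_num, ?_, ?_, by norm_num⟩ <;> linarith
  · rw [hl, hg]
    have key : 0 ≤ (1481161/80000) + (1066527/40000)*X + (1495461/320000)*X^2 + (73359/320000)*X^3 := by positivity
    refine sub_nonneg.1 (key.trans (le_of_eq ?_))
    simp only [hX]; ring

lemma cellsA1 (q : ℝ) (hq : 0 < q) :
    CellA 1 (1 / 2) (5/4) (1/40) (253/100) (99/100) 0 lamA1 gamA1 q := by
  rcases le_total q (1/2) with h1 | h1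
  · exact cellA1_0 hq hq.le h1
  rcases le_total q 1 with h2 | h2
  · exact cellA1_1 hq h1 h2
  rcases le_total q (3/2) with h3 | h3
  · exact cellA1_2 hq h2 h3
  rcases le_total q 2 with h4 | h4
  · exact cellA1_3 hq h3 h4
  rcases le_total q (5/2) with h5 | h5
  · exact cellA1_4 hq h4 h5
  rcases le_total q 3 with h6 | h6
  · exact cellA1_5 hq h5 h6
  rcases le_total q (7/2) with h7 | h7
  · exact cellA1_6 hq h6 h7
  rcases le_total q 4 with h8 | h8
  · exact cellA1_7 hq h7 h8
  rcases le_total q 7 with h9 | h9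
  · exact cellA1_8 hq h8 h9
  exact cellA1_inf hq h9

end Vale.Agent.P226
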