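import Vale.Agent.P226.FinFlat
import Vale.Agent.P226.FinMinoTab0
import Vale.Agent.P226.FinMinoTab1
import Vale.Agent.P226.FinMinoTab2
import Vale.Agent.P226.FinMinoTab3

/-!
# P226: generated certificate cells (5)
-/

namespace Vale.Agent.P226

set_option linter.unusedVariables false
set_option linter.unusedSimpArgs false

noncomputable def lam5 (q : ℝ) : ℝ :=
  (3/250) * max ((1/2) - q) 0 + (7/250) * max (1 - q) 0 + (13/500) * max ((3/2) - q) 0 +
    (3/125) * max (2 - q) 0 + (7/250) * max ((5/2) - q) 0 + (1/50) * max (3 - q) 0 +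
    (3/125) * max ((7/2) - q) 0 + (11/500) * max (4 - q) 0 + (17/500) * max ((9/2) - q) 0 +
    (3/100) * max (5 - q) 0 + (-116/125) * max ((11/2) - q) 0 + (53/50) * max (6 - q) 0

lemma continuous_lam5 : Continuous lam5 := by
  unfold lam5
  fun_prop

lemma lam5_mono (q q' : ℝ) (hq : 0 < q) (h : q ≤ q') :
    (2/3) * lam5 q + q * (1 - (3/100)) ≤ (2/3) * lam5 q' + q' * (1 - (3/100)) := by
  have key : ∀ x : ℝ, max (x - q) 0 ≤ max (x - q') 0 + (q' - q) := by
    intro x
    apply max_le
    · have := le_max_left (x - q') 0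
      linarith
    · have := le_max_right (x - q') 0
      linarith
  have key2 : ∀ x : ℝ, max (x - q') 0 ≤ max (x - q) 0 := by
    intro x
    exact max_le_max (by linarith) le_rfl
  unfold lam5
  have h0 := key (1/2)
  have h1 := key 1
  have h2 := key (3/2)
  have h3 := key 2
  have h4 := key (5/2)
  have h5 := key 3
  have h6 := key (7/2)
  have h7 := key 4
  have h8 := key (9/2)
  have h9 := key 5
  have h10 := key2 (11/2)
  have h11 := key 6
  linarith

lemma cell5_0 {q : ℝ} (h0 : 0 ≤ q) (h1 : q ≤ (1/2)) :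
    CellM 5 3 (29/5) (2/3) (6/5) (3/100) (379/100) (49/50) (1/40) lam5 q := by
  have hl : lam5 q = (991/500) - (19/50) * q := by
    unfold lam5
    rw [max_eq_left (show (0 : ℝ) ≤ (1/2) - q by linarith)]
    rw [max_eq_left (show (0 : ℝ) ≤ 1 - q by linarith)]
    rw [max_eq_left (show (0 : ℝ) ≤ (3/2) - q by linarith)]
    rw [max_eq_left (show (0 : ℝ) ≤ 2 - q by linarith)]
    rw [max_eq_left (show (0 : ℝ) ≤ (5/2) - q by linarith)]
    rw [max_eq_left (show (0 : ℝ) ≤ 3 - q by linarith)]
    rw [max_eq_left (show (0 : ℝ) ≤ (7/2) - q by linarith)]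
    rw [max_eq_left (show (0 : ℝ) ≤ 4 - q by linarith)]
    rw [max_eq_left (show (0 : ℝ) ≤ (9/2) - q by linarith)]
    rw [max_eq_left (show (0 : ℝ) ≤ 5 - q by linarith)]
    rw [max_eq_left (show (0 : ℝ) ≤ (11/2) - q by linarith)]
    rw [max_eq_left (show (0 : ℝ) ≤ 6 - q by linarith)]
    ring
  obtain ⟨X, hX⟩ : ∃ X, X = q - 0 := ⟨_, rfl⟩
  obtain ⟨Y, hY⟩ : ∃ Y, Y = (1/2) - q := ⟨_, rfl⟩
  have hX0 : 0 ≤ X := by rw [hX]; linarith
  have hY0 : 0 ≤ Y := by rw [hY]; linarith
  have hq0 : 0 ≤ q := by linarith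
  constructor
  · rw [hl]; linarith
  · refine Or.inr ⟨by linarith, (22/125) * q, (999/1000) - (163/1000) * q, (1003/1000) + (-3/1000) * q,
      by linarith, mino_0 h0 h1, by linarith, ?_, ?_, ?_, ?_, ?_, ?_, ?_⟩
    · have key : 0 ≤ (1999/31250)*Y^5 + (9248/46875)*X*Y^4 + (329047/1125000)*X^2*Y^3 +
        (1085207/3375000)*X^3*Y^2 + (476173/2025000)*X^4*Y + (442057/6075000)*X^5 := by positivity
      refine sub_nonneg.1 (key.trans (le_of_eq ?_))
      simp only [hX, hY]; ring
    · have key : 0 ≤ (1/500)*Y + (2371/17400)*X := by positivity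
      refine sub_nonneg.1 (key.trans (le_of_eq ?_))
      simp only [hX, hY]; ring
    · have key : 0 ≤ (2/125)*Y^2 + (11/31250)*X*Y + (163/12500)*X^2 := by positivity
      refine sub_nonneg.1 (key.trans (le_of_eq ?_))
      simp only [hX, hY]; ring
    · have key : 0 ≤ (3/500)*Y + (2761/87000)*X := by positivity
      refine sub_nonneg.1 (key.trans (le_of_eq ?_))
      simp only [hX, hY]; ring
    · have key : 0 ≤ (503/500)*Y + (236783/261000)*X := by positivity
      refine sub_nonneg.1 (key.trans (le_of_eq ?_))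
      simp only [hX, hY]; ring
    · have key : 0 ≤ (799/100)*Y + (219843/29000)*X := by positivity
      refine sub_nonneg.1 (key.trans (le_of_eq ?_))
      simp only [hX, hY]; ring
    · have key : 0 ≤ (4161/10000)*Y^2 + (540957/1450000)*X*Y + (104640649/841000000)*X^2 := by positivity
      refine sub_nonneg.1 (key.trans (le_of_eq ?_))
      simp only [hX, hY, hl]; ring
  · refine ⟨(103/250), (17/250) * q, by norm_num, by norm_num, by positivity, ?_, ?_, ?_, ?_, ?_⟩
    · have key : 0 ≤ (98/125)*Y + (179/250)*X := by positivity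
      refine sub_nonneg.1 (key.trans (le_of_eq ?_))
      simp only [hX, hY]; ring
    · have key : 0 ≤ (10042/46875)*Y^2 + (13687/15000)*X*Y + (30913/46875)*X^2 := by positivity
      refine sub_nonneg.1 (key.trans (le_of_eq ?_))
      simp only [hX, hY, hl]; ring
    · have key : 0 ≤ (73/37500)*Y + (3517/150000)*X := by positivity
      refine sub_nonneg.1 (key.trans (le_of_eq ?_))
      simp only [hX, hY, hl]; ring
    · have key : 0 ≤ q * ((1313/62500)*Y + (732/15625)*X) := by positivity
      refine sub_nonneg.1 (key.trans (le_of_eq ?_))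
      simp only [hX, hY, hl]; ring
    · have key : 0 ≤ (20188/46875)*Y^2 + (129118/140625)*X*Y + (54323/112500)*X^2 := by positivity
      refine sub_nonneg.1 (key.trans (le_of_eq ?_))
      simp only [hX, hY]; ring
  · rw [hl]
    have key : 0 ≤ (68821852/1171875)*Y^5 + (1173685229/3515625)*X*Y^4 + (3491040067/4687500)*X^2*Y^3 +
      (46028047003/56250000)*X^3*Y^2 + (3330581701/7500000)*X^4*Y + (4771832911/50000000)*X^5 := by positivity
    refine sub_nonneg.1 (key.trans (le_of_eq ?_))
    simp only [hX, hY]; ring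

lemma cell5_1 {q : ℝ} (h0 : (1/2) ≤ q) (h1 : q ≤ 1) :
    CellM 5 3 (29/5) (2/3) (6/5) (3/100) (379/100) (49/50) (1/40) lam5 q := by
  have hl : lam5 q = (247/125) - (46/125) * q := by
    unfold lam5
    rw [max_eq_right (show (1/2) - q ≤ (0 : ℝ) by linarith)]
    rw [max_eq_left (show (0 : ℝ) ≤ 1 - q by linarith)]
    rw [max_eq_left (show (0 : ℝ) ≤ (3/2) - q by linarith)]
    rw [max_eq_left (show (0 : ℝ) ≤ 2 - q by linarith)]
    rw [max_eq_left (show (0 : ℝ) ≤ (5/2) - q by linarith)]
    rw [max_eq_left (show (0 : ℝ) ≤ 3 - q by linarith)]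
    rw [max_eq_left (show (0 : ℝ) ≤ (7/2) - q by linarith)]
    rw [max_eq_left (show (0 : ℝ) ≤ 4 - q by linarith)]
    rw [max_eq_left (show (0 : ℝ) ≤ (9/2) - q by linarith)]
    rw [max_eq_left (show (0 : ℝ) ≤ 5 - q by linarith)]
    rw [max_eq_left (show (0 : ℝ) ≤ (11/2) - q by linarith)]
    rw [max_eq_left (show (0 : ℝ) ≤ 6 - q by linarith)]
    ring
  obtain ⟨X, hX⟩ : ∃ X, X = q - (1/2) := ⟨_, rfl⟩
  obtain ⟨Y, hY⟩ : ∃ Y, Y = 1 - q := ⟨_, rfl⟩
  have hX0 : 0 ≤ X := by rw [hX]; linarith
  have hY0 : 0 ≤ Y := by rw [hY]; linarith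
  have hq0 : 0 ≤ q := by linarith
  constructor
  · rw [hl]; linarith
  · refine Or.inr ⟨by linarith, (-3/250) + (1/5) * q, (199/200) - (309/2000) * q, (401/400) + 0 * q,
      by linarith, mino_1 h0 h1, by linarith, ?_, ?_, ?_, ?_, ?_, ?_, ?_⟩
    · have key : 0 ≤ (7057277/121500000)*Y^5 + (20750339/121500000)*X*Y^4 + (28249103/121500000)*X^2*Y^3 +
        (5894489/24300000)*X^3*Y^2 + (2741969/15187500)*X^4*Y + (1754797/30375000)*X^5 := by positivity
      refine sub_nonneg.1 (key.trans (le_of_eq ?_))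
      simp only [hX, hY]; ring
    · have key : 0 ≤ (23623/174000)*Y + (22753/87000)*X := by positivity
      refine sub_nonneg.1 (key.trans (le_of_eq ?_))
      simp only [hX, hY]; ring
    · have key : 0 ≤ (997/62500)*Y^2 + (249/250000)*X*Y + (1993/125000)*X^2 := by positivity
      refine sub_nonneg.1 (key.trans (le_of_eq ?_))
      simp only [hX, hY]; ring
    · have key : 0 ≤ (587/17400)*Y + (1087/17400)*X := by positivity
      refine sub_nonneg.1 (key.trans (le_of_eq ?_))
      simp only [hX, hY]; ring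
    · have key : 0 ≤ (47461/52200)*Y + (42461/52200)*X := by positivity
      refine sub_nonneg.1 (key.trans (le_of_eq ?_))
      simp only [hX, hY]; ring
    · have key : 0 ≤ (109907/14500)*Y + (208353/29000)*X := by positivity
      refine sub_nonneg.1 (key.trans (le_of_eq ?_))
      simp only [hX, hY]; ring
    · have key : 0 ≤ (22972649/210250000)*Y^2 + (24253171/210250000)*X*Y + (136476609/841000000)*X^2 := by positivity
      refine sub_nonneg.1 (key.trans (le_of_eq ?_))
      simp only [hX, hY, hl]; ring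
  · refine ⟨(211/500), (9/125) * q, by norm_num, by norm_num, by positivity, ?_, ?_, ?_, ?_, ?_⟩
    · have key : 0 ≤ (262/375)*Y + (47/75)*X := by positivity
      refine sub_nonneg.1 (key.trans (le_of_eq ?_))
      simp only [hX, hY]; ring
    · have key : 0 ≤ (40156/46875)*Y^2 + (101594/46875)*X*Y + (2383/1875)*X^2 := by positivity
      refine sub_nonneg.1 (key.trans (le_of_eq ?_))
      simp only [hX, hY, hl]; ring
    · have key : 0 ≤ (517/150000)*Y + (1889/75000)*X := by positivity
      refine sub_nonneg.1 (key.trans (le_of_eq ?_))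
      simp only [hX, hY, hl]; ring
    · have key : 0 ≤ q * ((1207/62500)*Y + (2863/62500)*X) := by positivity
      refine sub_nonneg.1 (key.trans (le_of_eq ?_))
      simp only [hX, hY, hl]; ring
    · have key : 0 ≤ (13742/28125)*Y^2 + (144422/140625)*X*Y + (74983/140625)*X^2 := by positivity
      refine sub_nonneg.1 (key.trans (le_of_eq ?_))
      simp only [hX, hY]; ring
  · rw [hl]
    have key : 0 ≤ (4771832911/50000000)*Y^5 + (38681100461/75000000)*X*Y^4 + (62193780469/56250000)*X^2*Y^3 +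
      (11033308091/9375000)*X^3*Y^2 + (17511195739/28125000)*X^4*Y + (204828907/1562500)*X^5 := by positivity
    refine sub_nonneg.1 (key.trans (le_of_eq ?_))
    simp only [hX, hY]; ring

lemma cell5_2 {q : ℝ} (h0 : 1 ≤ q) (h1 : q ≤ (3/2)) :
    CellM 5 3 (29/5) (2/3) (6/5) (3/100) (379/100) (49/50) (1/40) lam5 q := by
  have hl : lam5 q = (487/250) - (17/50) * q := by
    unfold lam5
    rw [max_eq_right (show (1/2) - q ≤ (0 : ℝ) by linarith)]
    rw [max_eq_right (show 1 - q ≤ (0 : ℝ) by linarith)]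
    rw [max_eq_left (show (0 : ℝ) ≤ (3/2) - q by linarith)]
    rw [max_eq_left (show (0 : ℝ) ≤ 2 - q by linarith)]
    rw [max_eq_left (show (0 : ℝ) ≤ (5/2) - q by linarith)]
    rw [max_eq_left (show (0 : ℝ) ≤ 3 - q by linarith)]
    rw [max_eq_left (show (0 : ℝ) ≤ (7/2) - q by linarith)]
    rw [max_eq_left (show (0 : ℝ) ≤ 4 - q by linarith)]
    rw [max_eq_left (show (0 : ℝ) ≤ (9/2) - q by linarith)]
    rw [max_eq_left (show (0 : ℝ) ≤ 5 - q by linarith)]
    rw [max_eq_left (show (0 : ℝ) ≤ (11/2) - q by linarith)]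
    rw [max_eq_left (show (0 : ℝ) ≤ 6 - q by linarith)]
    ring
  obtain ⟨X, hX⟩ : ∃ X, X = q - 1 := ⟨_, rfl⟩
  obtain ⟨Y, hY⟩ : ∃ Y, Y = (3/2) - q := ⟨_, rfl⟩
  have hX0 : 0 ≤ X := by rw [hX]; linarith
  have hY0 : 0 ≤ Y := by rw [hY]; linarith
  have hq0 : 0 ≤ q := by linarith
  constructor
  · rw [hl]; linarith
  · refine Or.inr ⟨by linarith, (-13/250) + (6/25) * q, (987/1000) - (293/2000) * q, (993/1000) + (1/100) * q,
      by linarith, mino_2 h0 h1, by linarith, ?_, ?_, ?_, ?_, ?_, ?_, ?_⟩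
    · have key : 0 ≤ (1754797/30375000)*Y^5 + (25594/140625)*X*Y^4 + (133839/500000)*X^2*Y^3 +
        (27841/100000)*X^3*Y^2 + (96561/500000)*X^4*Y + (29079/500000)*X^5 := by positivity
      refine sub_nonneg.1 (key.trans (le_of_eq ?_))
      simp only [hX, hY]; ring
    · have key : 0 ≤ (22753/87000)*Y + (21999/58000)*X := by positivity
      refine sub_nonneg.1 (key.trans (le_of_eq ?_))
      simp only [hX, hY]; ring
    · have key : 0 ≤ (2243/125000)*Y^2 + (133/250000)*X*Y + (4437/250000)*X^2 := by positivity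
      refine sub_nonneg.1 (key.trans (le_of_eq ?_))
      simp only [hX, hY]; ring
    · have key : 0 ≤ (2761/43500)*Y + (741/7250)*X := by positivity
      refine sub_nonneg.1 (key.trans (le_of_eq ?_))
      simp only [hX, hY]; ring
    · have key : 0 ≤ (106283/130500)*Y + (7924/10875)*X := by positivity
      refine sub_nonneg.1 (key.trans (le_of_eq ?_))
      simp only [hX, hY]; ring
    · have key : 0 ≤ (52081/7250)*Y + (197037/29000)*X := by positivity
      refine sub_nonneg.1 (key.trans (le_of_eq ?_))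
      simp only [hX, hY]; ring
    · have key : 0 ≤ (7774561/52562500)*Y^2 + (15139997/105125000)*X*Y + (124123369/841000000)*X^2 := by positivity
      refine sub_nonneg.1 (key.trans (le_of_eq ?_))
      simp only [hX, hY, hl]; ring
  · refine ⟨(217/500), (39/500) * q, by norm_num, by norm_num, by positivity, ?_, ?_, ?_, ?_, ?_⟩
    · have key : 0 ≤ (449/750)*Y + (781/1500)*X := by positivity
      refine sub_nonneg.1 (key.trans (le_of_eq ?_))
      simp only [hX, hY]; ring
    · have key : 0 ≤ (147563/93750)*Y^2 + (1351501/375000)*X*Y + (1492663/750000)*X^2 := by positivity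
      refine sub_nonneg.1 (key.trans (le_of_eq ?_))
      simp only [hX, hY, hl]; ring
    · have key : 0 ≤ (89/75000)*Y + (3523/150000)*X := by positivity
      refine sub_nonneg.1 (key.trans (le_of_eq ?_))
      simp only [hX, hY, hl]; ring
    · have key : 0 ≤ q * ((67/62500)*Y + (3449/125000)*X) := by positivity
      refine sub_nonneg.1 (key.trans (le_of_eq ?_))
      simp only [hX, hY, hl]; ring
    · have key : 0 ≤ (12211/22500)*Y^2 + (633521/562500)*X*Y + (259859/450000)*X^2 := by positivity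
      refine sub_nonneg.1 (key.trans (le_of_eq ?_))
      simp only [hX, hY]; ring
  · rw [hl]
    have key : 0 ≤ (204828907/1562500)*Y^5 + (790600753/1125000)*X*Y^4 + (42166499611/28125000)*X^2*Y^3 +
      (9952385189/6250000)*X^3*Y^2 + (189589735579/225000000)*X^4*Y +
      (80022406217/450000000)*X^5 := by positivity
    refine sub_nonneg.1 (key.trans (le_of_eq ?_))
    simp only [hX, hY]; ring

lemma cell5_3 {q : ℝ} (h0 : (3/2) ≤ q) (h1 : q ≤ 2) :
    CellM 5 3 (29/5) (2/3) (6/5) (3/100) (379/100) (49/50) (1/40) lam5 q := by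
  have hl : lam5 q = (1909/1000) - (157/500) * q := by
    unfold lam5
    rw [max_eq_right (show (1/2) - q ≤ (0 : ℝ) by linarith)]
    rw [max_eq_right (show 1 - q ≤ (0 : ℝ) by linarith)]
    rw [max_eq_right (show (3/2) - q ≤ (0 : ℝ) by linarith)]
    rw [max_eq_left (show (0 : ℝ) ≤ 2 - q by linarith)]
    rw [max_eq_left (show (0 : ℝ) ≤ (5/2) - q by linarith)]
    rw [max_eq_left (show (0 : ℝ) ≤ 3 - q by linarith)]
    rw [max_eq_left (show (0 : ℝ) ≤ (7/2) - q by linarith)]
    rw [max_eq_left (show (0 : ℝ) ≤ 4 - q by linarith)]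
    rw [max_eq_left (show (0 : ℝ) ≤ (9/2) - q by linarith)]
    rw [max_eq_left (show (0 : ℝ) ≤ 5 - q by linarith)]
    rw [max_eq_left (show (0 : ℝ) ≤ (11/2) - q by linarith)]
    rw [max_eq_left (show (0 : ℝ) ≤ 6 - q by linarith)]
    ring
  obtain ⟨X, hX⟩ : ∃ X, X = q - (3/2) := ⟨_, rfl⟩
  obtain ⟨Y, hY⟩ : ∃ Y, Y = 2 - q := ⟨_, rfl⟩
  have hX0 : 0 ≤ X := by rw [hX]; linarith
  have hY0 : 0 ≤ Y := by rw [hY]; linarith
  have hq0 : 0 ≤ q := by linarith
  constructor
  · rw [hl]; linarith
  · refine Or.inr ⟨by linarith, (-53/500) + (69/250) * q, (39/40) - (277/2000) * q, (1981/2000) + (3/250) * q,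
      by linarith, mino_3 h0 h1, by linarith, ?_, ?_, ?_, ?_, ?_, ?_, ?_⟩
    · have key : 0 ≤ (29079/500000)*Y^5 + (96021/500000)*X*Y^4 + (29233/100000)*X^2*Y^3 +
        (148359/500000)*X^3*Y^2 + (54563/281250)*X^4*Y + (211594/3796875)*X^5 := by positivity
      refine sub_nonneg.1 (key.trans (le_of_eq ?_))
      simp only [hX, hY]; ring
    · have key : 0 ≤ (21999/58000)*Y + (10637/21750)*X := by positivity
      refine sub_nonneg.1 (key.trans (le_of_eq ?_))
      simp only [hX, hY]; ring
    · have key : 0 ≤ (4937/250000)*Y^2 + (229/100000)*X*Y + (649/31250)*X^2 := by positivity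
      refine sub_nonneg.1 (key.trans (le_of_eq ?_))
      simp only [hX, hY]; ring
    · have key : 0 ≤ (2993/29000)*Y + (12523/87000)*X := by positivity
      refine sub_nonneg.1 (key.trans (le_of_eq ?_))
      simp only [hX, hY]; ring
    · have key : 0 ≤ (63479/87000)*Y + (168569/261000)*X := by positivity
      refine sub_nonneg.1 (key.trans (le_of_eq ?_))
      simp only [hX, hY]; ring
    · have key : 0 ≤ (24626/3625)*Y + (186127/29000)*X := by positivity
      refine sub_nonneg.1 (key.trans (le_of_eq ?_))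
      simp only [hX, hY]; ring
    · have key : 0 ≤ (1760876/13140625)*Y^2 + (5102751/26281250)*X*Y + (168988129/841000000)*X^2 := by positivity
      refine sub_nonneg.1 (key.trans (le_of_eq ?_))
      simp only [hX, hY, hl]; ring
  · refine ⟨(111/250), (41/500) * q, by norm_num, by norm_num, by positivity, ?_, ?_, ?_, ?_, ?_⟩
    · have key : 0 ≤ (743/1500)*Y + (31/75)*X := by positivity
      refine sub_nonneg.1 (key.trans (le_of_eq ?_))
      simp only [hX, hY]; ring
    · have key : 0 ≤ (1688629/750000)*Y^2 + (7412251/1500000)*X*Y + (198853/75000)*X^2 := by positivity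
      refine sub_nonneg.1 (key.trans (le_of_eq ?_))
      simp only [hX, hY, hl]; ring
    · have key : 0 ≤ (523/150000)*Y + (1973/75000)*X := by positivity
      refine sub_nonneg.1 (key.trans (le_of_eq ?_))
      simp only [hX, hY, hl]; ring
    · have key : 0 ≤ q * ((361/125000)*Y + (7159/250000)*X) := by positivity
      refine sub_nonneg.1 (key.trans (le_of_eq ?_))
      simp only [hX, hY, hl]; ring
    · have key : 0 ≤ (5839/10000)*Y^2 + (336367/281250)*X*Y + (85127/140625)*X^2 := by positivity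
      refine sub_nonneg.1 (key.trans (le_of_eq ?_))
      simp only [hX, hY]; ring
  · rw [hl]
    have key : 0 ≤ (80022406217/450000000)*Y^5 + (14263122479/15000000)*X*Y^4 +
      (228067924087/112500000)*X^2*Y^3 + (13471003507/6250000)*X^3*Y^2 +
      (5359318219/4687500)*X^4*Y + (37841313/156250)*X^5 := by positivity
    refine sub_nonneg.1 (key.trans (le_of_eq ?_))
    simp only [hX, hY]; ring

lemma cell5_4 {q : ℝ} (h0 : 2 ≤ q) (h1 : q ≤ (5/2)) :
    CellM 5 3 (29/5) (2/3) (6/5) (3/100) (379/100) (49/50) (1/40) lam5 q := by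
  have hl : lam5 q = (1861/1000) - (29/100) * q := by
    unfold lam5
    rw [max_eq_right (show (1/2) - q ≤ (0 : ℝ) by linarith)]
    rw [max_eq_right (show 1 - q ≤ (0 : ℝ) by linarith)]
    rw [max_eq_right (show (3/2) - q ≤ (0 : ℝ) by linarith)]
    rw [max_eq_right (show 2 - q ≤ (0 : ℝ) by linarith)]
    rw [max_eq_left (show (0 : ℝ) ≤ (5/2) - q by linarith)]
    rw [max_eq_left (show (0 : ℝ) ≤ 3 - q by linarith)]
    rw [max_eq_left (show (0 : ℝ) ≤ (7/2) - q by linarith)]
    rw [max_eq_left (show (0 : ℝ) ≤ 4 - q by linarith)]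
    rw [max_eq_left (show (0 : ℝ) ≤ (9/2) - q by linarith)]
    rw [max_eq_left (show (0 : ℝ) ≤ 5 - q by linarith)]
    rw [max_eq_left (show (0 : ℝ) ≤ (11/2) - q by linarith)]
    rw [max_eq_left (show (0 : ℝ) ≤ 6 - q by linarith)]
    ring
  obtain ⟨X, hX⟩ : ∃ X, X = q - 2 := ⟨_, rfl⟩
  obtain ⟨Y, hY⟩ : ∃ Y, Y = (5/2) - q := ⟨_, rfl⟩
  have hX0 : 0 ≤ X := by rw [hX]; linarith
  have hY0 : 0 ≤ Y := by rw [hY]; linarith
  have hq0 : 0 ≤ q := by linarith
  constructor
  · rw [hl]; linarith
  · refine Or.inr ⟨by linarith, (-109/500) + (83/250) * q, (24/25) - (131/1000) * q, (39/40) + (1/50) * q,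
      by linarith, mino_4 h0 h1, by linarith, ?_, ?_, ?_, ?_, ?_, ?_, ?_⟩
    · have key : 0 ≤ (211594/3796875)*Y^5 + (743287/3796875)*X*Y^4 + (9717941/30375000)*X^2*Y^3 +
        (10133167/30375000)*X^3*Y^2 + (1287827/6075000)*X^4*Y + (70813/1215000)*X^5 := by positivity
      refine sub_nonneg.1 (key.trans (le_of_eq ?_))
      simp only [hX, hY]; ring
    · have key : 0 ≤ (10637/21750)*Y + (10289/17400)*X := by positivity
      refine sub_nonneg.1 (key.trans (le_of_eq ?_))
      simp only [hX, hY]; ring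
    · have key : 0 ≤ (1423/62500)*Y^2 + (229/250000)*X*Y + (541/25000)*X^2 := by positivity
      refine sub_nonneg.1 (key.trans (le_of_eq ?_))
      simp only [hX, hY]; ring
    · have key : 0 ≤ (1261/8700)*Y + (337/1740)*X := by positivity
      refine sub_nonneg.1 (key.trans (le_of_eq ?_))
      simp only [hX, hY]; ring
    · have key : 0 ≤ (16883/26100)*Y + (2981/5220)*X := by positivity
      refine sub_nonneg.1 (key.trans (le_of_eq ?_))
      simp only [hX, hY]; ring
    · have key : 0 ≤ (93049/14500)*Y + (8771/1450)*X := by positivity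
      refine sub_nonneg.1 (key.trans (le_of_eq ?_))
      simp only [hX, hY]; ring
    · have key : 0 ≤ (39548401/210250000)*Y^2 + (3053979/10512500)*X*Y + (500361/2102500)*X^2 := by positivity
      refine sub_nonneg.1 (key.trans (le_of_eq ?_))
      simp only [hX, hY, hl]; ring
  · refine ⟨(57/125), (43/500) * q, by norm_num, by norm_num, by positivity, ?_, ?_, ?_, ?_, ?_⟩
    · have key : 0 ≤ (143/375)*Y + (443/1500)*X := by positivity
      refine sub_nonneg.1 (key.trans (le_of_eq ?_))
      simp only [hX, hY]; ring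
    · have key : 0 ≤ (1112381/375000)*Y^2 + (1906043/300000)*X*Y + (157018/46875)*X^2 := by positivity
      refine sub_nonneg.1 (key.trans (le_of_eq ?_))
      simp only [hX, hY, hl]; ring
    · have key : 0 ≤ (173/75000)*Y + (3841/150000)*X := by positivity
      refine sub_nonneg.1 (key.trans (le_of_eq ?_))
      simp only [hX, hY, hl]; ring
    · have key : 0 ≤ q * ((2237/250000)*Y + (1059/31250)*X) := by positivity
      refine sub_nonneg.1 (key.trans (le_of_eq ?_))
      simp only [hX, hY, hl]; ring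
    · have key : 0 ≤ (17159/28125)*Y^2 + (115583/93750)*X*Y + (1384631/2250000)*X^2 := by positivity
      refine sub_nonneg.1 (key.trans (le_of_eq ?_))
      simp only [hX, hY]; ring
  · rw [hl]
    have key : 0 ≤ (37841313/156250)*Y^5 + (6067461041/4687500)*X*Y^4 + (51779132329/18750000)*X^2*Y^3 +
      (330858638093/112500000)*X^3*Y^2 + (2815144949/1800000)*X^4*Y + (16617538267/50000000)*X^5 := by positivity
    refine sub_nonneg.1 (key.trans (le_of_eq ?_))
    simp only [hX, hY]; ring

lemma cell5_5 {q : ℝ} (h0 : (5/2) ≤ q) (h1 : q ≤ 3) :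
    CellM 5 3 (29/5) (2/3) (6/5) (3/100) (379/100) (49/50) (1/40) lam5 q := by
  have hl : lam5 q = (1791/1000) - (131/500) * q := by
    unfold lam5
    rw [max_eq_right (show (1/2) - q ≤ (0 : ℝ) by linarith)]
    rw [max_eq_right (show 1 - q ≤ (0 : ℝ) by linarith)]
    rw [max_eq_right (show (3/2) - q ≤ (0 : ℝ) by linarith)]
    rw [max_eq_right (show 2 - q ≤ (0 : ℝ) by linarith)]
    rw [max_eq_right (show (5/2) - q ≤ (0 : ℝ) by linarith)]
    rw [max_eq_left (show (0 : ℝ) ≤ 3 - q by linarith)]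
    rw [max_eq_left (show (0 : ℝ) ≤ (7/2) - q by linarith)]
    rw [max_eq_left (show (0 : ℝ) ≤ 4 - q by linarith)]
    rw [max_eq_left (show (0 : ℝ) ≤ (9/2) - q by linarith)]
    rw [max_eq_left (show (0 : ℝ) ≤ 5 - q by linarith)]
    rw [max_eq_left (show (0 : ℝ) ≤ (11/2) - q by linarith)]
    rw [max_eq_left (show (0 : ℝ) ≤ 6 - q by linarith)]
    ring
  obtain ⟨X, hX⟩ : ∃ X, X = q - (5/2) := ⟨_, rfl⟩
  obtain ⟨Y, hY⟩ : ∃ Y, Y = 3 - q := ⟨_, rfl⟩
  have hX0 : 0 ≤ X := by rw [hX]; linarith
  have hY0 : 0 ≤ Y := by rw [hY]; linarith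
  have hq0 : 0 ≤ q := by linarith
  constructor
  · rw [hl]; linarith
  · refine Or.inr ⟨by linarith, (-189/500) + (99/250) * q, (1883/2000) - (247/2000) * q, (959/1000) + (27/1000) * q,
      by linarith, mino_5 h0 h1, by linarith, ?_, ?_, ?_, ?_, ?_, ?_, ?_⟩
    · have key : 0 ≤ (5851477/121500000)*Y^5 + (6861229/40500000)*X*Y^4 + (3777199/13500000)*X^2*Y^3 +
        (1333223/4500000)*X^3*Y^2 + (35659/187500)*X^4*Y + (1639/31250)*X^5 := by positivity
      refine sub_nonneg.1 (key.trans (le_of_eq ?_))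
      simp only [hX, hY]; ring
    · have key : 0 ≤ (102803/174000)*Y + (9941/14500)*X := by positivity
      refine sub_nonneg.1 (key.trans (le_of_eq ?_))
      simp only [hX, hY]; ring
    · have key : 0 ≤ (6507/250000)*Y^2 + (1541/500000)*X*Y + (649/25000)*X^2 := by positivity
      refine sub_nonneg.1 (key.trans (le_of_eq ?_))
      simp only [hX, hY]; ring
    · have key : 0 ≤ (17111/87000)*Y + (183/725)*X := by positivity
      refine sub_nonneg.1 (key.trans (le_of_eq ?_))
      simp only [hX, hY]; ring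
    · have key : 0 ≤ (149833/261000)*Y + (1099/2175)*X := by positivity
      refine sub_nonneg.1 (key.trans (le_of_eq ?_))
      simp only [hX, hY]; ring
    · have key : 0 ≤ (87681/14500)*Y + (41229/7250)*X := by positivity
      refine sub_nonneg.1 (key.trans (le_of_eq ?_))
      simp only [hX, hY]; ring
    · have key : 0 ≤ (44949761/210250000)*Y^2 + (13837949/52562500)*X*Y + (9420441/52562500)*X^2 := by positivity
      refine sub_nonneg.1 (key.trans (le_of_eq ?_))
      simp only [hX, hY, hl]; ring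
  · refine ⟨(117/250), (9/100) * q, by norm_num, by norm_num, by positivity, ?_, ?_, ?_, ?_, ?_⟩
    · have key : 0 ≤ (389/1500)*Y + (127/750)*X := by positivity
      refine sub_nonneg.1 (key.trans (le_of_eq ?_))
      simp only [hX, hY]; ring
    · have key : 0 ≤ (172894/46875)*Y^2 + (11686453/1500000)*X*Y + (610079/150000)*X^2 := by positivity
      refine sub_nonneg.1 (key.trans (le_of_eq ?_))
      simp only [hX, hY, hl]; ring
    · have key : 0 ≤ (241/150000)*Y + (191/7500)*X := by positivity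
      refine sub_nonneg.1 (key.trans (le_of_eq ?_))
      simp only [hX, hY, hl]; ring
    · have key : 0 ≤ q * ((48/3125)*Y + (1947/50000)*X) := by positivity
      refine sub_nonneg.1 (key.trans (le_of_eq ?_))
      simp only [hX, hY, hl]; ring
    · have key : 0 ≤ (154031/250000)*Y^2 + (76653/62500)*X*Y + (37639/62500)*X^2 := by positivity
      refine sub_nonneg.1 (key.trans (le_of_eq ?_))
      simp only [hX, hY]; ring
  · rw [hl]
    have key : 0 ≤ (16617538267/50000000)*Y^5 + (12518405789/7031250)*X*Y^4 +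
      (428527481389/112500000)*X^2*Y^3 + (114459583651/28125000)*X^3*Y^2 +
      (7635362071/3515625)*X^4*Y + (36191506/78125)*X^5 := by positivity
    refine sub_nonneg.1 (key.trans (le_of_eq ?_))
    simp only [hX, hY]; ring

lemma cell5_6 {q : ℝ} (h0 : 3 ≤ q) (h1 : q ≤ (7/2)) :
    CellM 5 3 (29/5) (2/3) (6/5) (3/100) (379/100) (49/50) (1/40) lam5 q := by
  have hl : lam5 q = (1731/1000) - (121/500) * q := by
    unfold lam5
    rw [max_eq_right (show (1/2) - q ≤ (0 : ℝ) by linarith)]
    rw [max_eq_right (show 1 - q ≤ (0 : ℝ) by linarith)]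
    rw [max_eq_right (show (3/2) - q ≤ (0 : ℝ) by linarith)]
    rw [max_eq_right (show 2 - q ≤ (0 : ℝ) by linarith)]
    rw [max_eq_right (show (5/2) - q ≤ (0 : ℝ) by linarith)]
    rw [max_eq_right (show 3 - q ≤ (0 : ℝ) by linarith)]
    rw [max_eq_left (show (0 : ℝ) ≤ (7/2) - q by linarith)]
    rw [max_eq_left (show (0 : ℝ) ≤ 4 - q by linarith)]
    rw [max_eq_left (show (0 : ℝ) ≤ (9/2) - q by linarith)]
    rw [max_eq_left (show (0 : ℝ) ≤ 5 - q by linarith)]
    rw [max_eq_left (show (0 : ℝ) ≤ (11/2) - q by linarith)]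
    rw [max_eq_left (show (0 : ℝ) ≤ 6 - q by linarith)]
    ring
  obtain ⟨X, hX⟩ : ∃ X, X = q - 3 := ⟨_, rfl⟩
  obtain ⟨Y, hY⟩ : ∃ Y, Y = (7/2) - q := ⟨_, rfl⟩
  have hX0 : 0 ≤ X := by rw [hX]; linarith
  have hY0 : 0 ≤ Y := by rw [hY]; linarith
  have hq0 : 0 ≤ q := by linarith
  constructor
  · rw [hl]; linarith
  · refine Or.inr ⟨by linarith, (-291/500) + (58/125) * q, (1839/2000) - (29/250) * q, (383/400) + (7/250) * q,
      by linarith, mino_6 h0 h1, by linarith, ?_, ?_, ?_, ?_, ?_, ?_, ?_⟩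
    · have key : 0 ≤ (4271/125000)*Y^5 + (40393/375000)*X*Y^4 + (92011/562500)*X^2*Y^3 +
        (301273/1687500)*X^3*Y^2 + (1280971/10125000)*X^4*Y + (1154573/30375000)*X^5 := by positivity
      refine sub_nonneg.1 (key.trans (le_of_eq ?_))
      simp only [hX, hY]; ring
    · have key : 0 ≤ (19853/29000)*Y + (67151/87000)*X := by positivity
      refine sub_nonneg.1 (key.trans (le_of_eq ?_))
      simp only [hX, hY]; ring
    · have key : 0 ≤ (1417/50000)*Y^2 + (281/125000)*X*Y + (6933/250000)*X^2 := by positivity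
      refine sub_nonneg.1 (key.trans (le_of_eq ?_))
      simp only [hX, hY]; ring
    · have key : 0 ≤ (7407/29000)*Y + (27157/87000)*X := by positivity
      refine sub_nonneg.1 (key.trans (le_of_eq ?_))
      simp only [hX, hY]; ring
    · have key : 0 ≤ (44221/87000)*Y + (114971/261000)*X := by positivity
      refine sub_nonneg.1 (key.trans (le_of_eq ?_))
      simp only [hX, hY]; ring
    · have key : 0 ≤ (164887/29000)*Y + (154847/29000)*X := by positivity
      refine sub_nonneg.1 (key.trans (le_of_eq ?_))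
      simp only [hX, hY]; ring
    · have key : 0 ≤ (141162769/841000000)*Y^2 + (113873289/420500000)*X*Y + (187385409/841000000)*X^2 := by positivity
      refine sub_nonneg.1 (key.trans (le_of_eq ?_))
      simp only [hX, hY, hl]; ring
  · refine ⟨(12/25), (12/125) * q, by norm_num, by norm_num, by positivity, ?_, ?_, ?_, ?_, ?_⟩
    · have key : 0 ≤ (44/375)*Y + (8/375)*X := by positivity
      refine sub_nonneg.1 (key.trans (le_of_eq ?_))
      simp only [hX, hY]; ring
    · have key : 0 ≤ (170099/37500)*Y^2 + (1778681/187500)*X*Y + (230413/46875)*X^2 := by positivity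
      refine sub_nonneg.1 (key.trans (le_of_eq ?_))
      simp only [hX, hY, hl]; ring
    · have key : 0 ≤ (11/7500)*Y + (3859/150000)*X := by positivity
      refine sub_nonneg.1 (key.trans (le_of_eq ?_))
      simp only [hX, hY, hl]; ring
    · have key : 0 ≤ q * ((9/6250)*Y + (771/31250)*X) := by positivity
      refine sub_nonneg.1 (key.trans (le_of_eq ?_))
      simp only [hX, hY, hl]; ring
    · have key : 0 ≤ (27808/46875)*Y^2 + (18064/15625)*X*Y + (25952/46875)*X^2 := by positivity
      refine sub_nonneg.1 (key.trans (le_of_eq ?_))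
      simp only [hX, hY]; ring
  · rw [hl]
    have key : 0 ≤ (36191506/78125)*Y^5 + (8709695764/3515625)*X*Y^4 + (148892808617/28125000)*X^2*Y^3 +
      (211924899269/37500000)*X^3*Y^2 + (18839173029/6250000)*X^4*Y + (1285461753/2000000)*X^5 := by positivity
    refine sub_nonneg.1 (key.trans (le_of_eq ?_))
    simp only [hX, hY]; ring

lemma cell5_7 {q : ℝ} (h0 : (7/2) ≤ q) (h1 : q ≤ 4) :
    CellM 5 3 (29/5) (2/3) (6/5) (3/100) (379/100) (49/50) (1/40) lam5 q := by
  have hl : lam5 q = (1647/1000) - (109/500) * q := by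
    unfold lam5
    rw [max_eq_right (show (1/2) - q ≤ (0 : ℝ) by linarith)]
    rw [max_eq_right (show 1 - q ≤ (0 : ℝ) by linarith)]
    rw [max_eq_right (show (3/2) - q ≤ (0 : ℝ) by linarith)]
    rw [max_eq_right (show 2 - q ≤ (0 : ℝ) by linarith)]
    rw [max_eq_right (show (5/2) - q ≤ (0 : ℝ) by linarith)]
    rw [max_eq_right (show 3 - q ≤ (0 : ℝ) by linarith)]
    rw [max_eq_right (show (7/2) - q ≤ (0 : ℝ) by linarith)]
    rw [max_eq_left (show (0 : ℝ) ≤ 4 - q by linarith)]
    rw [max_eq_left (show (0 : ℝ) ≤ (9/2) - q by linarith)]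
    rw [max_eq_left (show (0 : ℝ) ≤ 5 - q by linarith)]
    rw [max_eq_left (show (0 : ℝ) ≤ (11/2) - q by linarith)]
    rw [max_eq_left (show (0 : ℝ) ≤ 6 - q by linarith)]
    ring
  obtain ⟨X, hX⟩ : ∃ X, X = q - (7/2) := ⟨_, rfl⟩
  obtain ⟨Y, hY⟩ : ∃ Y, Y = 4 - q := ⟨_, rfl⟩
  have hX0 : 0 ≤ X := by rw [hX]; linarith
  have hY0 : 0 ≤ Y := by rw [hY]; linarith
  have hq0 : 0 ≤ q := by linarith
  constructor
  · rw [hl]; linarith
  · refine Or.inr ⟨by linarith, (-459/500) + (14/25) * q, (1787/2000) - (217/2000) * q, (931/1000) + (9/250) * q,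
      by linarith, mino_7 h0 h1, by linarith, ?_, ?_, ?_, ?_, ?_, ?_, ?_⟩
    · have key : 0 ≤ (723961/24300000)*Y^5 + (2190127/24300000)*X*Y^4 + (15629063/121500000)*X^2*Y^3 +
        (16535029/121500000)*X^3*Y^2 + (744049/7593750)*X^4*Y + (916957/30375000)*X^5 := by positivity
      refine sub_nonneg.1 (key.trans (le_of_eq ?_))
      simp only [hX, hY]; ring
    · have key : 0 ≤ (26843/34800)*Y + (74047/87000)*X := by positivity
      refine sub_nonneg.1 (key.trans (le_of_eq ?_))
      simp only [hX, hY]; ring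
    · have key : 0 ≤ (3169/100000)*Y^2 + (1547/500000)*X*Y + (8041/250000)*X^2 := by positivity
      refine sub_nonneg.1 (key.trans (le_of_eq ?_))
      simp only [hX, hY]; ring
    · have key : 0 ≤ (13709/43500)*Y + (661/1740)*X := by positivity
      refine sub_nonneg.1 (key.trans (le_of_eq ?_))
      simp only [hX, hY]; ring
    · have key : 0 ≤ (57877/130500)*Y + (2003/5220)*X := by positivity
      refine sub_nonneg.1 (key.trans (le_of_eq ?_))
      simp only [hX, hY]; ring
    · have key : 0 ≤ (154789/29000)*Y + (18119/3625)*X := by positivity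
      refine sub_nonneg.1 (key.trans (le_of_eq ?_))
      simp only [hX, hY]; ring
    · have key : 0 ≤ (169426521/841000000)*Y^2 + (14183891/52562500)*X*Y + (2410661/13140625)*X^2 := by positivity
      refine sub_nonneg.1 (key.trans (le_of_eq ?_))
      simp only [hX, hY, hl]; ring
  · refine ⟨(123/250), (21/250) * q, by norm_num, by norm_num, by positivity, ?_, ?_, ?_, ?_, ?_⟩
    · have key : 0 ≤ (67/750)*Y + (2/375)*X := by positivity
      refine sub_nonneg.1 (key.trans (le_of_eq ?_))
      simp only [hX, hY]; ring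
    · have key : 0 ≤ (811339/187500)*Y^2 + (6724157/750000)*X*Y + (17291/3750)*X^2 := by positivity
      refine sub_nonneg.1 (key.trans (le_of_eq ?_))
      simp only [hX, hY, hl]; ring
    · have key : 0 ≤ (259/150000)*Y + (397/15000)*X := by positivity
      refine sub_nonneg.1 (key.trans (le_of_eq ?_))
      simp only [hX, hY, hl]; ring
    · have key : 0 ≤ q * ((5139/31250)*Y + (4569/25000)*X) := by positivity
      refine sub_nonneg.1 (key.trans (le_of_eq ?_))
      simp only [hX, hY, hl]; ring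
    · have key : 0 ≤ (22121/37500)*Y^2 + (53962/46875)*X*Y + (1732/3125)*X^2 := by positivity
      refine sub_nonneg.1 (key.trans (le_of_eq ?_))
      simp only [hX, hY]; ring
  · rw [hl]
    have key : 0 ≤ (1285461753/2000000)*Y^5 + (85889476677/25000000)*X*Y^4 + (55043510779/7500000)*X^2*Y^3 +
      (440610344789/56250000)*X^3*Y^2 + (19581901013/4687500)*X^4*Y + (1252528057/1406250)*X^5 := by positivity
    refine sub_nonneg.1 (key.trans (le_of_eq ?_))
    simp only [hX, hY]; ring

lemma cell5_8 {q : ℝ} (h0 : 4 ≤ q) (h1 : q ≤ (9/2)) :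
    CellM 5 3 (29/5) (2/3) (6/5) (3/100) (379/100) (49/50) (1/40) lam5 q := by
  have hl : lam5 q = (1559/1000) - (49/250) * q := by
    unfold lam5
    rw [max_eq_right (show (1/2) - q ≤ (0 : ℝ) by linarith)]
    rw [max_eq_right (show 1 - q ≤ (0 : ℝ) by linarith)]
    rw [max_eq_right (show (3/2) - q ≤ (0 : ℝ) by linarith)]
    rw [max_eq_right (show 2 - q ≤ (0 : ℝ) by linarith)]
    rw [max_eq_right (show (5/2) - q ≤ (0 : ℝ) by linarith)]
    rw [max_eq_right (show 3 - q ≤ (0 : ℝ) by linarith)]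
    rw [max_eq_right (show (7/2) - q ≤ (0 : ℝ) by linarith)]
    rw [max_eq_right (show 4 - q ≤ (0 : ℝ) by linarith)]
    rw [max_eq_left (show (0 : ℝ) ≤ (9/2) - q by linarith)]
    rw [max_eq_left (show (0 : ℝ) ≤ 5 - q by linarith)]
    rw [max_eq_left (show (0 : ℝ) ≤ (11/2) - q by linarith)]
    rw [max_eq_left (show (0 : ℝ) ≤ 6 - q by linarith)]
    ring
  obtain ⟨X, hX⟩ : ∃ X, X = q - 4 := ⟨_, rfl⟩
  obtain ⟨Y, hY⟩ : ∃ Y, Y = (9/2) - q := ⟨_, rfl⟩
  have hX0 : 0 ≤ X := by rw [hX]; linarith
  have hY0 : 0 ≤ Y := by rw [hY]; linarith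
  have hq0 : 0 ≤ q := by linarith
  constructor
  · rw [hl]; linarith
  · refine Or.inr ⟨by linarith, (-127/100) + (81/125) * q, (1731/2000) - (203/2000) * q, (1919/2000) + (29/1000) * q,
      by linarith, mino_8 h0 h1, by linarith, ?_, ?_, ?_, ?_, ?_, ?_, ?_⟩
    · have key : 0 ≤ (916957/30375000)*Y^5 + (127789/1265625)*X*Y^4 + (2157301/13500000)*X^2*Y^3 +
        (760909/4500000)*X^3*Y^2 + (33559/300000)*X^4*Y + (3179/100000)*X^5 := by positivity
      refine sub_nonneg.1 (key.trans (le_of_eq ?_))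
      simp only [hX, hY]; ring
    · have key : 0 ≤ (74047/87000)*Y + (10717/11600)*X := by positivity
      refine sub_nonneg.1 (key.trans (le_of_eq ?_))
      simp only [hX, hY]; ring
    · have key : 0 ≤ (8541/250000)*Y^2 + (1091/500000)*X*Y + (3379/100000)*X^2 := by positivity
      refine sub_nonneg.1 (key.trans (le_of_eq ?_))
      simp only [hX, hY]; ring
    · have key : 0 ≤ (33137/87000)*Y + (318/725)*X := by positivity
      refine sub_nonneg.1 (key.trans (le_of_eq ?_))
      simp only [hX, hY]; ring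
    · have key : 0 ≤ (100411/261000)*Y + (461/1450)*X := by positivity
      refine sub_nonneg.1 (key.trans (le_of_eq ?_))
      simp only [hX, hY]; ring
    · have key : 0 ≤ (144923/29000)*Y + (27139/5800)*X := by positivity
      refine sub_nonneg.1 (key.trans (le_of_eq ?_))
      simp only [hX, hY]; ring
    · have key : 0 ≤ (145875929/841000000)*Y^2 + (25442897/84100000)*X*Y + (7748361/33640000)*X^2 := by positivity
      refine sub_nonneg.1 (key.trans (le_of_eq ?_))
      simp only [hX, hY, hl]; ring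
  · refine ⟨(1/2), (37/500) * q, by norm_num, by norm_num, by positivity, ?_, ?_, ?_, ?_, ?_⟩
    · have key : 0 ≤ (28/375)*Y + (1/1500)*X := by positivity
      refine sub_nonneg.1 (key.trans (le_of_eq ?_))
      simp only [hX, hY]; ring
    · have key : 0 ≤ (30253/7500)*Y^2 + (12458443/1500000)*X*Y + (6375209/1500000)*X^2 := by positivity
      refine sub_nonneg.1 (key.trans (le_of_eq ?_))
      simp only [hX, hY, hl]; ring
    · have key : 0 ≤ (157/15000)*Y + (5347/150000)*X := by positivity
      refine sub_nonneg.1 (key.trans (le_of_eq ?_))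
      simp only [hX, hY, hl]; ring
    · have key : 0 ≤ q * ((2933/10000)*Y + (76951/250000)*X) := by positivity
      refine sub_nonneg.1 (key.trans (le_of_eq ?_))
      simp only [hX, hY, hl]; ring
    · have key : 0 ≤ (27592/46875)*Y^2 + (161926/140625)*X*Y + (1254079/2250000)*X^2 := by positivity
      refine sub_nonneg.1 (key.trans (le_of_eq ?_))
      simp only [hX, hY]; ring
  · rw [hl]
    have key : 0 ≤ (1252528057/1406250)*Y^5 + (66832219717/14062500)*X*Y^4 + (190046494451/18750000)*X^2*Y^3 +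
      (1215162693019/112500000)*X^3*Y^2 + (1294233236843/225000000)*X^4*Y +
      (36740653267/30000000)*X^5 := by positivity
    refine sub_nonneg.1 (key.trans (le_of_eq ?_))
    simp only [hX, hY]; ring

lemma cell5_9 {q : ℝ} (h0 : (9/2) ≤ q) (h1 : q ≤ 5) :
    CellM 5 3 (29/5) (2/3) (6/5) (3/100) (379/100) (49/50) (1/40) lam5 q := by
  have hl : lam5 q = (703/500) - (81/500) * q := by
    unfold lam5
    rw [max_eq_right (show (1/2) - q ≤ (0 : ℝ) by linarith)]
    rw [max_eq_right (show 1 - q ≤ (0 : ℝ) by linarith)]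
    rw [max_eq_right (show (3/2) - q ≤ (0 : ℝ) by linarith)]
    rw [max_eq_right (show 2 - q ≤ (0 : ℝ) by linarith)]
    rw [max_eq_right (show (5/2) - q ≤ (0 : ℝ) by linarith)]
    rw [max_eq_right (show 3 - q ≤ (0 : ℝ) by linarith)]
    rw [max_eq_right (show (7/2) - q ≤ (0 : ℝ) by linarith)]
    rw [max_eq_right (show 4 - q ≤ (0 : ℝ) by linarith)]
    rw [max_eq_right (show (9/2) - q ≤ (0 : ℝ) by linarith)]
    rw [max_eq_left (show (0 : ℝ) ≤ 5 - q by linarith)]
    rw [max_eq_left (show (0 : ℝ) ≤ (11/2) - q by linarith)]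
    rw [max_eq_left (show (0 : ℝ) ≤ 6 - q by linarith)]
    ring
  obtain ⟨X, hX⟩ : ∃ X, X = q - (9/2) := ⟨_, rfl⟩
  obtain ⟨Y, hY⟩ : ∃ Y, Y = 5 - q := ⟨_, rfl⟩
  have hX0 : 0 ≤ X := by rw [hX]; linarith
  have hY0 : 0 ≤ Y := by rw [hY]; linarith
  have hq0 : 0 ≤ q := by linarith
  constructor
  · rw [hl]; linarith
  · refine Or.inr ⟨by linarith, (-779/500) + (89/125) * q, (417/500) - (189/2000) * q, (527/500) + (1/125) * q,
      by linarith, mino_9 h0 h1, by linarith, ?_, ?_, ?_, ?_, ?_, ?_, ?_⟩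
    · have key : 0 ≤ (3179/100000)*Y^5 + (34343/300000)*X*Y^4 + (857341/4500000)*X^2*Y^3 +
        (2656709/13500000)*X^3*Y^2 + (306587/2531250)*X^4*Y + (976853/30375000)*X^5 := by positivity
      refine sub_nonneg.1 (key.trans (le_of_eq ?_))
      simp only [hX, hY]; ring
    · have key : 0 ≤ (10717/11600)*Y + (86099/87000)*X := by positivity
      refine sub_nonneg.1 (key.trans (le_of_eq ?_))
      simp only [hX, hY]; ring
    · have key : 0 ≤ (3379/100000)*Y^2 + (807/500000)*X*Y + (8777/250000)*X^2 := by positivity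
      refine sub_nonneg.1 (key.trans (le_of_eq ?_))
      simp only [hX, hY]; ring
    · have key : 0 ≤ (318/725)*Y + (10339/21750)*X := by positivity
      refine sub_nonneg.1 (key.trans (le_of_eq ?_))
      simp only [hX, hY]; ring
    · have key : 0 ≤ (461/1450)*Y + (15017/65250)*X := by positivity
      refine sub_nonneg.1 (key.trans (le_of_eq ?_))
      simp only [hX, hY]; ring
    · have key : 0 ≤ (27139/5800)*Y + (63741/14500)*X := by positivity
      refine sub_nonneg.1 (key.trans (le_of_eq ?_))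
      simp only [hX, hY]; ring
    · have key : 0 ≤ (7748361/33640000)*Y^2 + (16918199/42050000)*X*Y + (53027081/210250000)*X^2 := by positivity
      refine sub_nonneg.1 (key.trans (le_of_eq ?_))
      simp only [hX, hY, hl]; ring
  · refine ⟨(1/2), (33/500) * q, by norm_num, by norm_num, by positivity, ?_, ?_, ?_, ?_, ?_⟩
    · have key : 0 ≤ (109/1500)*Y + (1/150)*X := by positivity
      refine sub_nonneg.1 (key.trans (le_of_eq ?_))
      simp only [hX, hY]; ring
    · have key : 0 ≤ (5507861/1500000)*Y^2 + (5670779/750000)*X*Y + (145241/37500)*X^2 := by positivity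
      refine sub_nonneg.1 (key.trans (le_of_eq ?_))
      simp only [hX, hY, hl]; ring
    · have key : 0 ≤ (5347/150000)*Y + (4613/75000)*X := by positivity
      refine sub_nonneg.1 (key.trans (le_of_eq ?_))
      simp only [hX, hY, hl]; ring
    · have key : 0 ≤ q * ((95659/250000)*Y + (24583/62500)*X) := by positivity
      refine sub_nonneg.1 (key.trans (le_of_eq ?_))
      simp only [hX, hY, hl]; ring
    · have key : 0 ≤ (1322839/2250000)*Y^2 + (129667/112500)*X*Y + (12607/22500)*X^2 := by positivity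
      refine sub_nonneg.1 (key.trans (le_of_eq ?_))
      simp only [hX, hY]; ring
  · rw [hl]
    have key : 0 ≤ (36740653267/30000000)*Y^5 + (490097625679/75000000)*X*Y^4 + (65323915661/4687500)*X^2*Y^3 +
      (69605056163/4687500)*X^3*Y^2 + (24706341291/3125000)*X^4*Y + (2629333311/1562500)*X^5 := by positivity
    refine sub_nonneg.1 (key.trans (le_of_eq ?_))
    simp only [hX, hY]; ring

lemma cell5_10 {q : ℝ} (h0 : 5 ≤ q) (h1 : q ≤ (11/2)) :
    CellM 5 3 (29/5) (2/3) (6/5) (3/100) (379/100) (49/50) (1/40) lam5 q := by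
  have hl : lam5 q = (157/125) - (33/250) * q := by
    unfold lam5
    rw [max_eq_right (show (1/2) - q ≤ (0 : ℝ) by linarith)]
    rw [max_eq_right (show 1 - q ≤ (0 : ℝ) by linarith)]
    rw [max_eq_right (show (3/2) - q ≤ (0 : ℝ) by linarith)]
    rw [max_eq_right (show 2 - q ≤ (0 : ℝ) by linarith)]
    rw [max_eq_right (show (5/2) - q ≤ (0 : ℝ) by linarith)]
    rw [max_eq_right (show 3 - q ≤ (0 : ℝ) by linarith)]
    rw [max_eq_right (show (7/2) - q ≤ (0 : ℝ) by linarith)]
    rw [max_eq_right (show 4 - q ≤ (0 : ℝ) by linarith)]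
    rw [max_eq_right (show (9/2) - q ≤ (0 : ℝ) by linarith)]
    rw [max_eq_right (show 5 - q ≤ (0 : ℝ) by linarith)]
    rw [max_eq_left (show (0 : ℝ) ≤ (11/2) - q by linarith)]
    rw [max_eq_left (show (0 : ℝ) ≤ 6 - q by linarith)]
    ring
  obtain ⟨X, hX⟩ : ∃ X, X = q - 5 := ⟨_, rfl⟩
  obtain ⟨Y, hY⟩ : ∃ Y, Y = (11/2) - q := ⟨_, rfl⟩
  have hX0 : 0 ≤ X := by rw [hX]; linarith
  have hY0 : 0 ≤ Y := by rw [hY]; linarith
  have hq0 : 0 ≤ q := by linarith
  constructor
  · rw [hl]; linarith
  · refine Or.inr ⟨by linarith, (-969/500) + (197/250) * q, (1599/2000) - (7/80) * q, (2311/2000) + (-3/250) * q,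
      by linarith, mino_10 h0 h1, by linarith, ?_, ?_, ?_, ?_, ?_, ?_, ?_⟩
    · have key : 0 ≤ (78154/3796875)*Y^5 + (95713/1518750)*X*Y^4 + (2195401/24300000)*X^2*Y^3 +
        (2271611/24300000)*X^3*Y^2 + (1584923/24300000)*X^4*Y + (2387293/121500000)*X^5 := by positivity
      refine sub_nonneg.1 (key.trans (le_of_eq ?_))
      simp only [hX, hY]; ring
    · have key : 0 ≤ (21503/21750)*Y + (182249/174000)*X := by positivity
      refine sub_nonneg.1 (key.trans (le_of_eq ?_))
      simp only [hX, hY]; ring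
    · have key : 0 ≤ (1097/31250)*Y^2 + (523/500000)*X*Y + (8723/250000)*X^2 := by positivity
      refine sub_nonneg.1 (key.trans (le_of_eq ?_))
      simp only [hX, hY]; ring
    · have key : 0 ≤ (41617/87000)*Y + (43073/87000)*X := by positivity
      refine sub_nonneg.1 (key.trans (le_of_eq ?_))
      simp only [hX, hY]; ring
    · have key : 0 ≤ (60851/261000)*Y + (32719/261000)*X := by positivity
      refine sub_nonneg.1 (key.trans (le_of_eq ?_))
      simp only [hX, hY]; ring
    · have key : 0 ≤ (127453/29000)*Y + (60113/14500)*X := by positivity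
      refine sub_nonneg.1 (key.trans (le_of_eq ?_))
      simp only [hX, hY]; ring
    · have key : 0 ≤ (204715209/841000000)*Y^2 + (85854189/210250000)*X*Y + (47732769/210250000)*X^2 := by positivity
      refine sub_nonneg.1 (key.trans (le_of_eq ?_))
      simp only [hX, hY, hl]; ring
  · refine ⟨(1/2), (3/50) * q, by norm_num, by norm_num, by positivity, ?_, ?_, ?_, ?_, ?_⟩
    · have key : 0 ≤ (1/15)*Y + (1/150)*X := by positivity
      refine sub_nonneg.1 (key.trans (le_of_eq ?_))
      simp only [hX, hY]; ring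
    · have key : 0 ≤ (63859/18750)*Y^2 + (65839/9375)*X*Y + (54077/15000)*X^2 := by positivity
      refine sub_nonneg.1 (key.trans (le_of_eq ?_))
      simp only [hX, hY, hl]; ring
    · have key : 0 ≤ (4613/75000)*Y + (2639/30000)*X := by positivity
      refine sub_nonneg.1 (key.trans (le_of_eq ?_))
      simp only [hX, hY, hl]; ring
    · have key : 0 ≤ q * ((2803/6250)*Y + (1141/2500)*X) := by positivity
      refine sub_nonneg.1 (key.trans (le_of_eq ?_))
      simp only [hX, hY, hl]; ring
    · have key : 0 ≤ (659/1125)*Y^2 + (6467/5625)*X*Y + (12607/22500)*X^2 := by positivity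
      refine sub_nonneg.1 (key.trans (le_of_eq ?_))
      simp only [hX, hY]; ring
  · rw [hl]
    have key : 0 ≤ (2629333311/1562500)*Y^5 + (28002993069/3125000)*X*Y^4 + (178809692107/9375000)*X^2*Y^3 +
      (126776746803/6250000)*X^3*Y^2 + (269487702731/25000000)*X^4*Y +
      (68702359319/30000000)*X^5 := by positivity
    refine sub_nonneg.1 (key.trans (le_of_eq ?_))
    simp only [hX, hY]; ring

lemma cell5_11 {q : ℝ} (h0 : (11/2) ≤ q) (h1 : q ≤ 6) :
    CellM 5 3 (29/5) (2/3) (6/5) (3/100) (379/100) (49/50) (1/40) lam5 q := by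
  have hl : lam5 q = (159/25) - (53/50) * q := by
    unfold lam5
    rw [max_eq_right (show (1/2) - q ≤ (0 : ℝ) by linarith)]
    rw [max_eq_right (show 1 - q ≤ (0 : ℝ) by linarith)]
    rw [max_eq_right (show (3/2) - q ≤ (0 : ℝ) by linarith)]
    rw [max_eq_right (show 2 - q ≤ (0 : ℝ) by linarith)]
    rw [max_eq_right (show (5/2) - q ≤ (0 : ℝ) by linarith)]
    rw [max_eq_right (show 3 - q ≤ (0 : ℝ) by linarith)]
    rw [max_eq_right (show (7/2) - q ≤ (0 : ℝ) by linarith)]
    rw [max_eq_right (show 4 - q ≤ (0 : ℝ) by linarith)]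
    rw [max_eq_right (show (9/2) - q ≤ (0 : ℝ) by linarith)]
    rw [max_eq_right (show 5 - q ≤ (0 : ℝ) by linarith)]
    rw [max_eq_right (show (11/2) - q ≤ (0 : ℝ) by linarith)]
    rw [max_eq_left (show (0 : ℝ) ≤ 6 - q by linarith)]
    ring
  obtain ⟨X, hX⟩ : ∃ X, X = q - (11/2) := ⟨_, rfl⟩
  obtain ⟨Y, hY⟩ : ∃ Y, Y = 6 - q := ⟨_, rfl⟩
  have hX0 : 0 ≤ X := by rw [hX]; linarith
  have hY0 : 0 ≤ Y := by rw [hY]; linarith
  have hq0 : 0 ≤ q := by linarith
  constructor
  · rw [hl]; linarith
  · refine Or.inr ⟨by linarith, (-611/250) + (22/25) * q, (1527/2000) - (81/1000) * q, (1139/1000) + (-1/100) * q,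
      by linarith, mino_11 h0 h1, by linarith, ?_, ?_, ?_, ?_, ?_, ?_, ?_⟩
    · have key : 0 ≤ (93929/3796875)*Y^5 + (37913/421875)*X*Y^4 + (56221/375000)*X^2*Y^3 +
        (19149/125000)*X^3*Y^2 + (2313/25000)*X^4*Y + (603/25000)*X^5 := by positivity
      refine sub_nonneg.1 (key.trans (le_of_eq ?_))
      simp only [hX, hY]; ring
    · have key : 0 ≤ (11396/10875)*Y + (6381/5800)*X := by positivity
      refine sub_nonneg.1 (key.trans (le_of_eq ?_))
      simp only [hX, hY]; ring
    · have key : 0 ≤ (509/31250)*Y^2 + (381/125000)*X*Y + (1451/25000)*X^2 := by positivity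
      refine sub_nonneg.1 (key.trans (le_of_eq ?_))
      simp only [hX, hY]; ring
    · have key : 0 ≤ (10529/21750)*Y + (7291/14500)*X := by positivity
      refine sub_nonneg.1 (key.trans (le_of_eq ?_))
      simp only [hX, hY]; ring
    · have key : 0 ≤ (3731/32625)*Y + (373/43500)*X := by positivity
      refine sub_nonneg.1 (key.trans (le_of_eq ?_))
      simp only [hX, hY]; ring
    · have key : 0 ≤ (30129/7250)*Y + (14201/3625)*X := by positivity
      refine sub_nonneg.1 (key.trans (le_of_eq ?_))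
      simp only [hX, hY]; ring
    · have key : 0 ≤ (16296641/52562500)*Y^2 + (204996929/13140625)*X*Y + (201668401/13140625)*X^2 := by positivity
      refine sub_nonneg.1 (key.trans (le_of_eq ?_))
      simp only [hX, hY, hl]; ring
  · refine ⟨(1/2), (27/500) * q, by norm_num, by norm_num, by positivity, ?_, ?_, ?_, ?_, ?_⟩
    · have key : 0 ≤ (109/1500)*Y + (7/375)*X := by positivity
      refine sub_nonneg.1 (key.trans (le_of_eq ?_))
      simp only [hX, hY]; ring
    · have key : 0 ≤ (465629/150000)*Y^2 + (171427/37500)*X*Y + (518/375)*X^2 := by positivity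
      refine sub_nonneg.1 (key.trans (le_of_eq ?_))
      simp only [hX, hY, hl]; ring
    · have key : 0 ≤ (2639/30000)*Y + (719/7500)*X := by positivity
      refine sub_nonneg.1 (key.trans (le_of_eq ?_))
      simp only [hX, hY, hl]; ring
    · have key : 0 ≤ q * ((12769/25000)*Y + (71/125)*X) := by positivity
      refine sub_nonneg.1 (key.trans (le_of_eq ?_))
      simp only [hX, hY, hl]; ring
    · have key : 0 ≤ (1322839/2250000)*Y^2 + (325357/281250)*X*Y + (79591/140625)*X^2 := by positivity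
      refine sub_nonneg.1 (key.trans (le_of_eq ?_))
      simp only [hX, hY]; ring
  · rw [hl]
    have key : 0 ≤ (68702359319/30000000)*Y^5 + (242316640657/22500000)*X*Y^4 +
      (113244802601/5625000)*X^2*Y^3 + (26269092701/1406250)*X^3*Y^2 +
      (12081658693/1406250)*X^4*Y + (366566662/234375)*X^5 := by positivity
    refine sub_nonneg.1 (key.trans (le_of_eq ?_))
    simp only [hX, hY]; ring

lemma cell5_inf {q : ℝ} (h0 : 6 ≤ q) :
    CellM 5 3 (29/5) (2/3) (6/5) (3/100) (379/100) (49/50) (1/40) lam5 q := by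
  have hl : lam5 q = 0 := by
    unfold lam5
    rw [max_eq_right (show (1/2) - q ≤ (0 : ℝ) by linarith)]
    rw [max_eq_right (show 1 - q ≤ (0 : ℝ) by linarith)]
    rw [max_eq_right (show (3/2) - q ≤ (0 : ℝ) by linarith)]
    rw [max_eq_right (show 2 - q ≤ (0 : ℝ) by linarith)]
    rw [max_eq_right (show (5/2) - q ≤ (0 : ℝ) by linarith)]
    rw [max_eq_right (show 3 - q ≤ (0 : ℝ) by linarith)]
    rw [max_eq_right (show (7/2) - q ≤ (0 : ℝ) by linarith)]
    rw [max_eq_right (show 4 - q ≤ (0 : ℝ) by linarith)]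
    rw [max_eq_right (show (9/2) - q ≤ (0 : ℝ) by linarith)]
    rw [max_eq_right (show 5 - q ≤ (0 : ℝ) by linarith)]
    rw [max_eq_right (show (11/2) - q ≤ (0 : ℝ) by linarith)]
    rw [max_eq_right (show 6 - q ≤ (0 : ℝ) by linarith)]
    ring
  have hq0 : 0 ≤ q := by linarith
  constructor
  · exact hl.ge
  · exact Or.inl hl
  · rw [hl]
    refine ⟨(1/2), (83/250), by norm_num, by norm_num, by norm_num, by norm_num, by norm_num, ?_, ?_, by norm_num⟩ <;> linarith
  · rw [hl]
    obtain ⟨X, hX⟩ : ∃ X, X = q - 6 := ⟨_, rfl⟩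
    have hX0 : 0 ≤ X := by rw [hX]; linarith
    have key : 0 ≤ (183283331/3750000) + (406914973/7500000)*X + (11073461/937500)*X^2 +
      (8750107/7500000)*X^3 + (52611/1000000)*X^4 + (291/400000)*X^5 := by positivity
    refine sub_nonneg.1 (key.trans (le_of_eq ?_))
    simp only [hX]; ring

theorem cells5 (q : ℝ) (hq : 0 < q) :
    CellM 5 3 (29/5) (2/3) (6/5) (3/100) (379/100) (49/50) (1/40) lam5 q := by
  rcases le_total q (1/2) with h1 | h1
  · exact cell5_0 hq.le h1
  rcases le_total q 1 with h2 | h2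
  · exact cell5_1 h1 h2
  rcases le_total q (3/2) with h3 | h3
  · exact cell5_2 h2 h3
  rcases le_total q 2 with h4 | h4
  · exact cell5_3 h3 h4
  rcases le_total q (5/2) with h5 | h5
  · exact cell5_4 h4 h5
  rcases le_total q 3 with h6 | h6
  · exact cell5_5 h5 h6
  rcases le_total q (7/2) with h7 | h7
  · exact cell5_6 h6 h7
  rcases le_total q 4 with h8 | h8
  · exact cell5_7 h7 h8
  rcases le_total q (9/2) with h9 | h9
  · exact cell5_8 h8 h9
  rcases le_total q 5 with h10 | h10
  · exact cell5_9 h9 h10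
  rcases le_total q (11/2) with h11 | h11
  · exact cell5_10 h10 h11
  rcases le_total q 6 with h12 | h12
  · exact cell5_11 h11 h12
  exact cell5_inf h12

end Vale.Agent.P226
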