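import Vale.Agent.P226.FinMain
import Vale.Agent.P226.FinMinoTab0
import Vale.Agent.P226.FinMinoTab1
import Vale.Agent.P226.FinMinoTab2
import Vale.Agent.P226.FinMinoTab3

/-!
# P226: generated certificate cells (6)
-/

namespace Vale.Agent.P226

set_option linter.unusedVariables false

noncomputable def lam6 (q : ℝ) : ℝ :=
  (33/250) * max ((1/2) - q) 0 + (11/100) * max (1 - q) 0 + (11/100) * max ((3/2) - q) 0 +
    (9/100) * max (2 - q) 0 + (21/250) * max ((5/2) - q) 0 + (39/500) * max (3 - q) 0 +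
    (31/500) * max ((7/2) - q) 0 + (3/50) * max (4 - q) 0 + (7/125) * max ((9/2) - q) 0 +
    (7/250) * max (5 - q) 0 + (14/125) * max (6 - q) 0

lemma continuous_lam6 : Continuous lam6 := by
  unfold lam6
  fun_prop

lemma lam6_nonneg (q : ℝ) : 0 ≤ lam6 q := by
  unfold lam6
  have h : ∀ x : ℝ, 0 ≤ max (x - q) 0 := fun x => le_max_right _ _

  have := h (1/2)
  have := h 1
  have := h (3/2)
  have := h 2
  have := h (5/2)
  have := h 3
  have := h (7/2)
  have := h 4
  have := h (9/2)
  have := h 5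
  have := h 6
  positivity

lemma lam6_mono (q q' : ℝ) (hq : 0 < q) (h : q ≤ q') :
    (5/7) * lam6 q + q * (1 - (3/100)) ≤ (5/7) * lam6 q' + q' * (1 - (3/100)) := by
  have key : ∀ x : ℝ, max (x - q) 0 ≤ max (x - q') 0 + (q' - q) := by
    intro x
    apply max_le
    · have := le_max_left (x - q') 0
      linarith
    · have := le_max_right (x - q') 0
      linarith
  unfold lam6

  have h0 := key (1/2)
  have h1 := key 1
  have h2 := key (3/2)
  have h3 := key 2
  have h4 := key (5/2)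
  have h5 := key 3
  have h6 := key (7/2)
  have h7 := key 4
  have h8 := key (9/2)
  have h9 := key 5
  have h10 := key 6
  linarith

lemma cell6_0 {q : ℝ} (h0 : 0 ≤ q) (h1 : q ≤ (1/2)) :
    CellOk 6 (5/7) (7/6) (3/100) (29/4) (41/500) lam6 q := by
  have hl : lam6 q = (1243/500) - (461/500) * q := by
    unfold lam6
    rw [max_eq_left (show (0 : ℝ) ≤ (1/2) - q by linarith)]
    rw [max_eq_left (show (0 : ℝ) ≤ 1 - q by linarith)]
    rw [max_eq_left (show (0 : ℝ) ≤ (3/2) - q by linarith)]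
    rw [max_eq_left (show (0 : ℝ) ≤ 2 - q by linarith)]
    rw [max_eq_left (show (0 : ℝ) ≤ (5/2) - q by linarith)]
    rw [max_eq_left (show (0 : ℝ) ≤ 3 - q by linarith)]
    rw [max_eq_left (show (0 : ℝ) ≤ (7/2) - q by linarith)]
    rw [max_eq_left (show (0 : ℝ) ≤ 4 - q by linarith)]
    rw [max_eq_left (show (0 : ℝ) ≤ (9/2) - q by linarith)]
    rw [max_eq_left (show (0 : ℝ) ≤ 5 - q by linarith)]
    rw [max_eq_left (show (0 : ℝ) ≤ 6 - q by linarith)]
    ring
  obtain ⟨X, hX⟩ : ∃ X, X = q - 0 := ⟨_, rfl⟩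
  obtain ⟨Y, hY⟩ : ∃ Y, Y = (1/2) - q := ⟨_, rfl⟩
  have hX0 : 0 ≤ X := by rw [hX]; linarith
  have hY0 : 0 ≤ Y := by rw [hY]; linarith
  have hq0 : 0 ≤ q := by linarith
  constructor
  · exact lam6_nonneg q
  · refine Or.inr ⟨by linarith, (22/125) * q, by linarith, by linarith, mino_0 h0 h1, ?_⟩
    rw [hl]
    have key : 0 ≤ (448/25)*Y^7 + (5216/75)*X*Y^6 + (13539392/140625)*X^2*Y^5 + (26493184/421875)*X^3*Y^4 +
      (330323336/6328125)*X^4*Y^3 + (7188034372/94921875)*X^5*Y^2 +
      (26809686224/474609375)*X^6*Y + (175797013616/11865234375)*X^7 := by positivity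
    refine sub_nonneg.1 (key.trans (le_of_eq ?_))
    simp only [hX, hY]; ring
  · refine ⟨(19/50), (29/500) * q, by norm_num, by norm_num, by positivity, ?_, ?_, ?_, ?_, ?_⟩
    · have key : 0 ≤ (31/35)*Y + (2897/3500)*X := by positivity
      refine sub_nonneg.1 (key.trans (le_of_eq ?_))
      simp only [hX, hY]; ring
    · have key : 0 ≤ (30283/87500)*Y^2 + (1488539/2187500)*X*Y + (90831/350000)*X^2 := by positivity
      refine sub_nonneg.1 (key.trans (le_of_eq ?_))
      simp only [hX, hY, hl]; ring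
    · have key : 0 ≤ (129/35000)*Y + (57/4375)*X := by positivity
      refine sub_nonneg.1 (key.trans (le_of_eq ?_))
      simp only [hX, hY, hl]; ring
    · have key : 0 ≤ q * ((2753/125000)*Y + (151/2000)*X) := by positivity
      refine sub_nonneg.1 (key.trans (le_of_eq ?_))
      simp only [hX, hY, hl]; ring
    · have key : 0 ≤ (589/1225)*Y^2 + (24923/24500)*X*Y + (6530291/12250000)*X^2 := by positivity
      refine sub_nonneg.1 (key.trans (le_of_eq ?_))
      simp only [hX, hY]; ring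
  · rw [hl]
    have key : 0 ≤ (5938881/17500)*Y^5 + (609948967/367500)*X*Y^4 + (36801834719/11484375)*X^2*Y^3 +
      (112057615507/36750000)*X^3*Y^2 + (1747843324729/1225000000)*X^4*Y +
      (80169987649/306250000)*X^5 := by positivity
    refine sub_nonneg.1 (key.trans (le_of_eq ?_))
    simp only [hX, hY]; ring

lemma cell6_1 {q : ℝ} (h0 : (1/2) ≤ q) (h1 : q ≤ 1) :
    CellOk 6 (5/7) (7/6) (3/100) (29/4) (41/500) lam6 q := by
  have hl : lam6 q = (121/50) - (79/100) * q := by
    unfold lam6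
    rw [max_eq_right (show (1/2) - q ≤ (0 : ℝ) by linarith)]
    rw [max_eq_left (show (0 : ℝ) ≤ 1 - q by linarith)]
    rw [max_eq_left (show (0 : ℝ) ≤ (3/2) - q by linarith)]
    rw [max_eq_left (show (0 : ℝ) ≤ 2 - q by linarith)]
    rw [max_eq_left (show (0 : ℝ) ≤ (5/2) - q by linarith)]
    rw [max_eq_left (show (0 : ℝ) ≤ 3 - q by linarith)]
    rw [max_eq_left (show (0 : ℝ) ≤ (7/2) - q by linarith)]
    rw [max_eq_left (show (0 : ℝ) ≤ 4 - q by linarith)]
    rw [max_eq_left (show (0 : ℝ) ≤ (9/2) - q by linarith)]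
    rw [max_eq_left (show (0 : ℝ) ≤ 5 - q by linarith)]
    rw [max_eq_left (show (0 : ℝ) ≤ 6 - q by linarith)]
    ring
  obtain ⟨X, hX⟩ : ∃ X, X = q - (1/2) := ⟨_, rfl⟩
  obtain ⟨Y, hY⟩ : ∃ Y, Y = 1 - q := ⟨_, rfl⟩
  have hX0 : 0 ≤ X := by rw [hX]; linarith
  have hY0 : 0 ≤ Y := by rw [hY]; linarith
  have hq0 : 0 ≤ q := by linarith
  constructor
  · exact lam6_nonneg q
  · refine Or.inr ⟨by linarith, (-3/250) + (1/5) * q, by linarith, by linarith, mino_1 h0 h1, ?_⟩
    rw [hl]
    have key : 0 ≤ (175797013616/11865234375)*Y^7 + (637414889192/11865234375)*X*Y^6 +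
      (730489002101/11865234375)*X^2*Y^5 + (42849980924/2373046875)*X^3*Y^4 +
      (29679873536/2373046875)*X^4*Y^3 + (595086977152/11865234375)*X^5*Y^2 +
      (181146950368/3955078125)*X^6*Y + (16819384768/1318359375)*X^7 := by positivity
    refine sub_nonneg.1 (key.trans (le_of_eq ?_))
    simp only [hX, hY]; ring
  · refine ⟨(193/500), (8/125) * q, by norm_num, by norm_num, by positivity, ?_, ?_, ?_, ?_, ?_⟩
    · have key : 0 ≤ (1423/1750)*Y + (1311/1750)*X := by positivity
      refine sub_nonneg.1 (key.trans (le_of_eq ?_))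
      simp only [hX, hY]; ring
    · have key : 0 ≤ (37077/87500)*Y^2 + (373727/437500)*X*Y + (11241/31250)*X^2 := by positivity
      refine sub_nonneg.1 (key.trans (le_of_eq ?_))
      simp only [hX, hY, hl]; ring
    · have key : 0 ≤ (9/8750)*Y + (33/2500)*X := by positivity
      refine sub_nonneg.1 (key.trans (le_of_eq ?_))
      simp only [hX, hY, hl]; ring
    · have key : 0 ≤ q * ((181/12500)*Y + (813/12500)*X) := by positivity
      refine sub_nonneg.1 (key.trans (le_of_eq ?_))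
      simp only [hX, hY, hl]; ring
    · have key : 0 ≤ (1656731/3062500)*Y^2 + (1738187/1531250)*X*Y + (258157/437500)*X^2 := by positivity
      refine sub_nonneg.1 (key.trans (le_of_eq ?_))
      simp only [hX, hY]; ring
  · rw [hl]
    have key : 0 ≤ (80169987649/306250000)*Y^5 + (164790655503/122500000)*X*Y^4 +
      (7132491749/2625000)*X^2*Y^3 + (123955494631/45937500)*X^3*Y^2 + (720344098/546875)*X^4*Y +
      (4833818228/19140625)*X^5 := by positivity
    refine sub_nonneg.1 (key.trans (le_of_eq ?_))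
    simp only [hX, hY]; ring

lemma cell6_2 {q : ℝ} (h0 : 1 ≤ q) (h1 : q ≤ (3/2)) :
    CellOk 6 (5/7) (7/6) (3/100) (29/4) (41/500) lam6 q := by
  have hl : lam6 q = (231/100) - (17/25) * q := by
    unfold lam6
    rw [max_eq_right (show (1/2) - q ≤ (0 : ℝ) by linarith)]
    rw [max_eq_right (show 1 - q ≤ (0 : ℝ) by linarith)]
    rw [max_eq_left (show (0 : ℝ) ≤ (3/2) - q by linarith)]
    rw [max_eq_left (show (0 : ℝ) ≤ 2 - q by linarith)]
    rw [max_eq_left (show (0 : ℝ) ≤ (5/2) - q by linarith)]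
    rw [max_eq_left (show (0 : ℝ) ≤ 3 - q by linarith)]
    rw [max_eq_left (show (0 : ℝ) ≤ (7/2) - q by linarith)]
    rw [max_eq_left (show (0 : ℝ) ≤ 4 - q by linarith)]
    rw [max_eq_left (show (0 : ℝ) ≤ (9/2) - q by linarith)]
    rw [max_eq_left (show (0 : ℝ) ≤ 5 - q by linarith)]
    rw [max_eq_left (show (0 : ℝ) ≤ 6 - q by linarith)]
    ring
  obtain ⟨X, hX⟩ : ∃ X, X = q - 1 := ⟨_, rfl⟩
  obtain ⟨Y, hY⟩ : ∃ Y, Y = (3/2) - q := ⟨_, rfl⟩
  have hX0 : 0 ≤ X := by rw [hX]; linarith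
  have hY0 : 0 ≤ Y := by rw [hY]; linarith
  have hq0 : 0 ≤ q := by linarith
  constructor
  · exact lam6_nonneg q
  · refine Or.inr ⟨by linarith, (-13/250) + (6/25) * q, by linarith, by linarith, mino_2 h0 h1, ?_⟩
    rw [hl]
    have key : 0 ≤ (16819384768/1318359375)*Y^7 + (59272044736/1318359375)*X*Y^6 +
      (64092966208/1318359375)*X^2*Y^5 + (123956064/9765625)*X^3*Y^4 +
      (169454676/9765625)*X^4*Y^3 + (2714027241/48828125)*X^5*Y^2 + (2307272882/48828125)*X^6*Y +
      (622231521/48828125)*X^7 := by positivity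
    refine sub_nonneg.1 (key.trans (le_of_eq ?_))
    simp only [hX, hY]; ring
  · refine ⟨(49/125), (7/100) * q, by norm_num, by norm_num, by positivity, ?_, ?_, ?_, ?_, ?_⟩
    · have key : 0 ≤ (51/70)*Y + (461/700)*X := by positivity
      refine sub_nonneg.1 (key.trans (le_of_eq ?_))
      simp only [hX, hY]; ring
    · have key : 0 ≤ (711/1250)*Y^2 + (201869/175000)*X*Y + (90667/175000)*X^2 := by positivity
      refine sub_nonneg.1 (key.trans (le_of_eq ?_))
      simp only [hX, hY, hl]; ring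
    · have key : 0 ≤ (3/2500)*Y + (1101/70000)*X := by positivity
      refine sub_nonneg.1 (key.trans (le_of_eq ?_))
      simp only [hX, hY, hl]; ring
    · have key : 0 ≤ q * ((219/25000)*Y + (1409/25000)*X) := by positivity
      refine sub_nonneg.1 (key.trans (le_of_eq ?_))
      simp only [hX, hY, hl]; ring
    · have key : 0 ≤ (10519/17500)*Y^2 + (2187/1750)*X*Y + (45061/70000)*X^2 := by positivity
      refine sub_nonneg.1 (key.trans (le_of_eq ?_))
      simp only [hX, hY]; ring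
  · rw [hl]
    have key : 0 ≤ (4833818228/19140625)*Y^5 + (5102359216/3828125)*X*Y^4 + (12669028297/4593750)*X^2*Y^3 +
      (514952247539/183750000)*X^3*Y^2 + (514466048107/367500000)*X^4*Y +
      (2021360763703/7350000000)*X^5 := by positivity
    refine sub_nonneg.1 (key.trans (le_of_eq ?_))
    simp only [hX, hY]; ring

lemma cell6_3 {q : ℝ} (h0 : (3/2) ≤ q) (h1 : q ≤ 2) :
    CellOk 6 (5/7) (7/6) (3/100) (29/4) (41/500) lam6 q := by
  have hl : lam6 q = (429/200) - (57/100) * q := by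
    unfold lam6
    rw [max_eq_right (show (1/2) - q ≤ (0 : ℝ) by linarith)]
    rw [max_eq_right (show 1 - q ≤ (0 : ℝ) by linarith)]
    rw [max_eq_right (show (3/2) - q ≤ (0 : ℝ) by linarith)]
    rw [max_eq_left (show (0 : ℝ) ≤ 2 - q by linarith)]
    rw [max_eq_left (show (0 : ℝ) ≤ (5/2) - q by linarith)]
    rw [max_eq_left (show (0 : ℝ) ≤ 3 - q by linarith)]
    rw [max_eq_left (show (0 : ℝ) ≤ (7/2) - q by linarith)]
    rw [max_eq_left (show (0 : ℝ) ≤ 4 - q by linarith)]
    rw [max_eq_left (show (0 : ℝ) ≤ (9/2) - q by linarith)]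
    rw [max_eq_left (show (0 : ℝ) ≤ 5 - q by linarith)]
    rw [max_eq_left (show (0 : ℝ) ≤ 6 - q by linarith)]
    ring
  obtain ⟨X, hX⟩ : ∃ X, X = q - (3/2) := ⟨_, rfl⟩
  obtain ⟨Y, hY⟩ : ∃ Y, Y = 2 - q := ⟨_, rfl⟩
  have hX0 : 0 ≤ X := by rw [hX]; linarith
  have hY0 : 0 ≤ Y := by rw [hY]; linarith
  have hq0 : 0 ≤ q := by linarith
  constructor
  · exact lam6_nonneg q
  · refine Or.inr ⟨by linarith, (-53/500) + (69/250) * q, by linarith, by linarith, mino_3 h0 h1, ?_⟩
    rw [hl]
    have key : 0 ≤ (622231521/48828125)*Y^7 + (2343088119/48828125)*X*Y^6 + (12245993721/195312500)*X^2*Y^5 +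
      (727768551/19531250)*X^3*Y^4 + (350103394/9765625)*X^4*Y^3 +
      (77502440756/1318359375)*X^5*Y^2 + (19462257428/439453125)*X^6*Y +
      (1691249096/146484375)*X^7 := by positivity
    refine sub_nonneg.1 (key.trans (le_of_eq ?_))
    simp only [hX, hY]; ring
  · refine ⟨(199/500), (19/250) * q, by norm_num, by norm_num, by positivity, ?_, ?_, ?_, ?_, ?_⟩
    · have key : 0 ≤ (79/125)*Y + (139/250)*X := by positivity
      refine sub_nonneg.1 (key.trans (le_of_eq ?_))
      simp only [hX, hY]; ring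
    · have key : 0 ≤ (333757/437500)*Y^2 + (274009/175000)*X*Y + (81183/109375)*X^2 := by positivity
      refine sub_nonneg.1 (key.trans (le_of_eq ?_))
      simp only [hX, hY, hl]; ring
    · have key : 0 ≤ (261/70000)*Y + (1443/70000)*X := by positivity
      refine sub_nonneg.1 (key.trans (le_of_eq ?_))
      simp only [hX, hY, hl]; ring
    · have key : 0 ≤ q * ((13/3125)*Y + (1187/25000)*X) := by positivity
      refine sub_nonneg.1 (key.trans (le_of_eq ?_))
      simp only [hX, hY, hl]; ring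
    · have key : 0 ≤ (502006/765625)*Y^2 + (147613/109375)*X*Y + (2107451/3062500)*X^2 := by positivity
      refine sub_nonneg.1 (key.trans (le_of_eq ?_))
      simp only [hX, hY]; ring
  · rw [hl]
    have key : 0 ≤ (2021360763703/7350000000)*Y^5 + (721550540979/490000000)*X*Y^4 + (94676826/30625)*X^2*Y^3 +
      (1172295077041/367500000)*X^3*Y^2 + (49625469919/30625000)*X^4*Y +
      (6210376516/19140625)*X^5 := by positivity
    refine sub_nonneg.1 (key.trans (le_of_eq ?_))
    simp only [hX, hY]; ring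

lemma cell6_4 {q : ℝ} (h0 : 2 ≤ q) (h1 : q ≤ (5/2)) :
    CellOk 6 (5/7) (7/6) (3/100) (29/4) (41/500) lam6 q := by
  have hl : lam6 q = (393/200) - (12/25) * q := by
    unfold lam6
    rw [max_eq_right (show (1/2) - q ≤ (0 : ℝ) by linarith)]
    rw [max_eq_right (show 1 - q ≤ (0 : ℝ) by linarith)]
    rw [max_eq_right (show (3/2) - q ≤ (0 : ℝ) by linarith)]
    rw [max_eq_right (show 2 - q ≤ (0 : ℝ) by linarith)]
    rw [max_eq_left (show (0 : ℝ) ≤ (5/2) - q by linarith)]
    rw [max_eq_left (show (0 : ℝ) ≤ 3 - q by linarith)]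
    rw [max_eq_left (show (0 : ℝ) ≤ (7/2) - q by linarith)]
    rw [max_eq_left (show (0 : ℝ) ≤ 4 - q by linarith)]
    rw [max_eq_left (show (0 : ℝ) ≤ (9/2) - q by linarith)]
    rw [max_eq_left (show (0 : ℝ) ≤ 5 - q by linarith)]
    rw [max_eq_left (show (0 : ℝ) ≤ 6 - q by linarith)]
    ring
  obtain ⟨X, hX⟩ : ∃ X, X = q - 2 := ⟨_, rfl⟩
  obtain ⟨Y, hY⟩ : ∃ Y, Y = (5/2) - q := ⟨_, rfl⟩
  have hX0 : 0 ≤ X := by rw [hX]; linarith
  have hY0 : 0 ≤ Y := by rw [hY]; linarith
  have hq0 : 0 ≤ q := by linarith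
  constructor
  · exact lam6_nonneg q
  · refine Or.inr ⟨by linarith, (-109/500) + (83/250) * q, by linarith, by linarith, mino_4 h0 h1, ?_⟩
    rw [hl]
    have key : 0 ≤ (1691249096/146484375)*Y^7 + (57731196916/1318359375)*X*Y^6 +
      (704860491284/11865234375)*X^2*Y^5 + (3967809634/94921875)*X^3*Y^4 +
      (341333861/7593750)*X^4*Y^3 + (38698397/607500)*X^5*Y^2 + (271259/6075)*X^6*Y +
      (13681/1215)*X^7 := by positivity
    refine sub_nonneg.1 (key.trans (le_of_eq ?_))
    simp only [hX, hY]; ring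
  · refine ⟨(51/125), (41/500) * q, by norm_num, by norm_num, by positivity, ?_, ?_, ?_, ?_, ?_⟩
    · have key : 0 ≤ (453/875)*Y + (61/140)*X := by positivity
      refine sub_nonneg.1 (key.trans (le_of_eq ?_))
      simp only [hX, hY]; ring
    · have key : 0 ≤ (931333/875000)*Y^2 + (3825573/1750000)*X*Y + (74659/70000)*X^2 := by positivity
      refine sub_nonneg.1 (key.trans (le_of_eq ?_))
      simp only [hX, hY, hl]; ring
    · have key : 0 ≤ (43/70000)*Y + (17/875)*X := by positivity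
      refine sub_nonneg.1 (key.trans (le_of_eq ?_))
      simp only [hX, hY, hl]; ring
    · have key : 0 ≤ q * ((311/50000)*Y + (2279/50000)*X) := by positivity
      refine sub_nonneg.1 (key.trans (le_of_eq ?_))
      simp only [hX, hY, hl]; ring
    · have key : 0 ≤ (76558/109375)*Y^2 + (872677/612500)*X*Y + (351867/490000)*X^2 := by positivity
      refine sub_nonneg.1 (key.trans (le_of_eq ?_))
      simp only [hX, hY]; ring
  · rw [hl]
    have key : 0 ≤ (6210376516/19140625)*Y^5 + (26392973277/15312500)*X*Y^4 + (264796505717/73500000)*X^2*Y^3 +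
      (9093326003/2450000)*X^3*Y^2 + (7397945063/3920000)*X^4*Y + (1486407/3920)*X^5 := by positivity
    refine sub_nonneg.1 (key.trans (le_of_eq ?_))
    simp only [hX, hY]; ring

lemma cell6_5 {q : ℝ} (h0 : (5/2) ≤ q) (h1 : q ≤ 3) :
    CellOk 6 (5/7) (7/6) (3/100) (29/4) (41/500) lam6 q := by
  have hl : lam6 q = (351/200) - (99/250) * q := by
    unfold lam6
    rw [max_eq_right (show (1/2) - q ≤ (0 : ℝ) by linarith)]
    rw [max_eq_right (show 1 - q ≤ (0 : ℝ) by linarith)]
    rw [max_eq_right (show (3/2) - q ≤ (0 : ℝ) by linarith)]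
    rw [max_eq_right (show 2 - q ≤ (0 : ℝ) by linarith)]
    rw [max_eq_right (show (5/2) - q ≤ (0 : ℝ) by linarith)]
    rw [max_eq_left (show (0 : ℝ) ≤ 3 - q by linarith)]
    rw [max_eq_left (show (0 : ℝ) ≤ (7/2) - q by linarith)]
    rw [max_eq_left (show (0 : ℝ) ≤ 4 - q by linarith)]
    rw [max_eq_left (show (0 : ℝ) ≤ (9/2) - q by linarith)]
    rw [max_eq_left (show (0 : ℝ) ≤ 5 - q by linarith)]
    rw [max_eq_left (show (0 : ℝ) ≤ 6 - q by linarith)]
    ring
  obtain ⟨X, hX⟩ : ∃ X, X = q - (5/2) := ⟨_, rfl⟩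
  obtain ⟨Y, hY⟩ : ∃ Y, Y = 3 - q := ⟨_, rfl⟩
  have hX0 : 0 ≤ X := by rw [hX]; linarith
  have hY0 : 0 ≤ Y := by rw [hY]; linarith
  have hq0 : 0 ≤ q := by linarith
  constructor
  · exact lam6_nonneg q
  · refine Or.inr ⟨by linarith, (-189/500) + (99/250) * q, by linarith, by linarith, mino_5 h0 h1, ?_⟩
    rw [hl]
    have key : 0 ≤ (13681/1215)*Y^7 + (272059/6075)*X*Y^6 + (41297597/607500)*X^2*Y^5 +
      (75662594/1265625)*X^3*Y^4 + (643381376/10546875)*X^4*Y^3 +
      (30240495008/439453125)*X^5*Y^2 + (1281285472/29296875)*X^6*Y + (20695712/1953125)*X^7 := by positivity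
    refine sub_nonneg.1 (key.trans (le_of_eq ?_))
    simp only [hX, hY]; ring
  · refine ⟨(52/125), (11/125) * q, by norm_num, by norm_num, by positivity, ?_, ?_, ?_, ?_, ?_⟩
    · have key : 0 ≤ (69/175)*Y + (268/875)*X := by positivity
      refine sub_nonneg.1 (key.trans (le_of_eq ?_))
      simp only [hX, hY]; ring
    · have key : 0 ≤ (242777/175000)*Y^2 + (1253661/437500)*X*Y + (6253741/4375000)*X^2 := by positivity
      refine sub_nonneg.1 (key.trans (le_of_eq ?_))
      simp only [hX, hY, hl]; ring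
    · have key : 0 ≤ (3/875)*Y + (1683/70000)*X := by positivity
      refine sub_nonneg.1 (key.trans (le_of_eq ?_))
      simp only [hX, hY, hl]; ring
    · have key : 0 ≤ q * ((43/12500)*Y + (2393/62500)*X) := by positivity
      refine sub_nonneg.1 (key.trans (le_of_eq ?_))
      simp only [hX, hY, hl]; ring
    · have key : 0 ≤ (4436/6125)*Y^2 + (222867/153125)*X*Y + (553906/765625)*X^2 := by positivity
      refine sub_nonneg.1 (key.trans (le_of_eq ?_))
      simp only [hX, hY]; ring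
  · rw [hl]
    have key : 0 ≤ (1486407/3920)*Y^5 + (7831982863/3920000)*X*Y^4 + (10181038657/2450000)*X^2*Y^3 +
      (313956576037/73500000)*X^3*Y^2 + (199581657713/91875000)*X^4*Y +
      (14357481521/32812500)*X^5 := by positivity
    refine sub_nonneg.1 (key.trans (le_of_eq ?_))
    simp only [hX, hY]; ring

lemma cell6_6 {q : ℝ} (h0 : 3 ≤ q) (h1 : q ≤ (7/2)) :
    CellOk 6 (5/7) (7/6) (3/100) (29/4) (41/500) lam6 q := by
  have hl : lam6 q = (1521/1000) - (159/500) * q := by
    unfold lam6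
    rw [max_eq_right (show (1/2) - q ≤ (0 : ℝ) by linarith)]
    rw [max_eq_right (show 1 - q ≤ (0 : ℝ) by linarith)]
    rw [max_eq_right (show (3/2) - q ≤ (0 : ℝ) by linarith)]
    rw [max_eq_right (show 2 - q ≤ (0 : ℝ) by linarith)]
    rw [max_eq_right (show (5/2) - q ≤ (0 : ℝ) by linarith)]
    rw [max_eq_right (show 3 - q ≤ (0 : ℝ) by linarith)]
    rw [max_eq_left (show (0 : ℝ) ≤ (7/2) - q by linarith)]
    rw [max_eq_left (show (0 : ℝ) ≤ 4 - q by linarith)]
    rw [max_eq_left (show (0 : ℝ) ≤ (9/2) - q by linarith)]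
    rw [max_eq_left (show (0 : ℝ) ≤ 5 - q by linarith)]
    rw [max_eq_left (show (0 : ℝ) ≤ 6 - q by linarith)]
    ring
  obtain ⟨X, hX⟩ : ∃ X, X = q - 3 := ⟨_, rfl⟩
  obtain ⟨Y, hY⟩ : ∃ Y, Y = (7/2) - q := ⟨_, rfl⟩
  have hX0 : 0 ≤ X := by rw [hX]; linarith
  have hY0 : 0 ≤ Y := by rw [hY]; linarith
  have hq0 : 0 ≤ q := by linarith
  constructor
  · exact lam6_nonneg q
  · refine Or.inr ⟨by linarith, (-291/500) + (58/125) * q, by linarith, by linarith, mino_6 h0 h1, ?_⟩
    rw [hl]
    have key : 0 ≤ (20695712/1953125)*Y^7 + (1252204352/29296875)*X*Y^6 + (28986762848/439453125)*X^2*Y^5 +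
      (15062202208/263671875)*X^3*Y^4 + (41899768226/791015625)*X^4*Y^3 +
      (542559926299/9492187500)*X^5*Y^2 + (34533248503/949218750)*X^6*Y +
      (421557615263/47460937500)*X^7 := by positivity
    refine sub_nonneg.1 (key.trans (le_of_eq ?_))
    simp only [hX, hY]; ring
  · refine ⟨(107/250), (47/500) * q, by norm_num, by norm_num, by positivity, ?_, ?_, ?_, ?_, ?_⟩
    · have key : 0 ≤ (443/1750)*Y + (557/3500)*X := by positivity
      refine sub_nonneg.1 (key.trans (le_of_eq ?_))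
      simp only [hX, hY]; ring
    · have key : 0 ≤ (3962429/2187500)*Y^2 + (32913101/8750000)*X*Y + (2087151/1093750)*X^2 := by positivity
      refine sub_nonneg.1 (key.trans (le_of_eq ?_))
      simp only [hX, hY, hl]; ring
    · have key : 0 ≤ (3/70000)*Y + (1563/70000)*X := by positivity
      refine sub_nonneg.1 (key.trans (le_of_eq ?_))
      simp only [hX, hY, hl]; ring
    · have key : 0 ≤ q * ((1511/250000)*Y + (1123/31250)*X) := by positivity
      refine sub_nonneg.1 (key.trans (le_of_eq ?_))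
      simp only [hX, hY, hl]; ring
    · have key : 0 ≤ (2212681/3062500)*Y^2 + (156313/109375)*X*Y + (8548091/12250000)*X^2 := by positivity
      refine sub_nonneg.1 (key.trans (le_of_eq ?_))
      simp only [hX, hY]; ring
  · rw [hl]
    have key : 0 ≤ (14357481521/32812500)*Y^5 + (350882821697/153125000)*X*Y^4 +
      (2909502304159/612500000)*X^2*Y^3 + (1120514485627/229687500)*X^3*Y^2 +
      (6086654999119/2450000000)*X^4*Y + (1230424119443/2450000000)*X^5 := by positivity
    refine sub_nonneg.1 (key.trans (le_of_eq ?_))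
    simp only [hX, hY]; ring

lemma cell6_7 {q : ℝ} (h0 : (7/2) ≤ q) (h1 : q ≤ 4) :
    CellOk 6 (5/7) (7/6) (3/100) (29/4) (41/500) lam6 q := by
  have hl : lam6 q = (163/125) - (32/125) * q := by
    unfold lam6
    rw [max_eq_right (show (1/2) - q ≤ (0 : ℝ) by linarith)]
    rw [max_eq_right (show 1 - q ≤ (0 : ℝ) by linarith)]
    rw [max_eq_right (show (3/2) - q ≤ (0 : ℝ) by linarith)]
    rw [max_eq_right (show 2 - q ≤ (0 : ℝ) by linarith)]
    rw [max_eq_right (show (5/2) - q ≤ (0 : ℝ) by linarith)]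
    rw [max_eq_right (show 3 - q ≤ (0 : ℝ) by linarith)]
    rw [max_eq_right (show (7/2) - q ≤ (0 : ℝ) by linarith)]
    rw [max_eq_left (show (0 : ℝ) ≤ 4 - q by linarith)]
    rw [max_eq_left (show (0 : ℝ) ≤ (9/2) - q by linarith)]
    rw [max_eq_left (show (0 : ℝ) ≤ 5 - q by linarith)]
    rw [max_eq_left (show (0 : ℝ) ≤ 6 - q by linarith)]
    ring
  obtain ⟨X, hX⟩ : ∃ X, X = q - (7/2) := ⟨_, rfl⟩
  obtain ⟨Y, hY⟩ : ∃ Y, Y = 4 - q := ⟨_, rfl⟩
  have hX0 : 0 ≤ X := by rw [hX]; linarith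
  have hY0 : 0 ≤ Y := by rw [hY]; linarith
  have hq0 : 0 ≤ q := by linarith
  constructor
  · exact lam6_nonneg q
  · refine Or.inr ⟨by linarith, (-459/500) + (14/25) * q, by linarith, by linarith, mino_7 h0 h1, ?_⟩
    rw [hl]
    have key : 0 ≤ (421557615263/47460937500)*Y^7 + (420123273569/11865234375)*X*Y^6 +
      (2608241819003/47460937500)*X^2*Y^5 + (247276704379/4746093750)*X^3*Y^4 +
      (133488087698/2373046875)*X^4*Y^3 + (725060842828/11865234375)*X^5*Y^2 +
      (147759885652/3955078125)*X^6*Y + (11643785752/1318359375)*X^7 := by positivity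
    refine sub_nonneg.1 (key.trans (le_of_eq ?_))
    simp only [hX, hY]; ring
  · refine ⟨(219/500), (1/10) * q, by norm_num, by norm_num, by positivity, ?_, ?_, ?_, ?_, ?_⟩
    · have key : 0 ≤ (18/175)*Y + (1/350)*X := by positivity
      refine sub_nonneg.1 (key.trans (le_of_eq ?_))
      simp only [hX, hY]; ring
    · have key : 0 ≤ (250223/109375)*Y^2 + (521023/109375)*X*Y + (53376/21875)*X^2 := by positivity
      refine sub_nonneg.1 (key.trans (le_of_eq ?_))
      simp only [hX, hY, hl]; ring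
    · have key : 0 ≤ (163/70000)*Y + (227/8750)*X := by positivity
      refine sub_nonneg.1 (key.trans (le_of_eq ?_))
      simp only [hX, hY, hl]; ring
    · have key : 0 ≤ q * ((23/12500)*Y + (343/12500)*X) := by positivity
      refine sub_nonneg.1 (key.trans (le_of_eq ?_))
      simp only [hX, hY, hl]; ring
    · have key : 0 ≤ (20941/30625)*Y^2 + (40532/30625)*X*Y + (77139/122500)*X^2 := by positivity
      refine sub_nonneg.1 (key.trans (le_of_eq ?_))
      simp only [hX, hY]; ring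
  · rw [hl]
    have key : 0 ≤ (1230424119443/2450000000)*Y^5 + (799294178293/306250000)*X*Y^4 +
      (4945871010289/918750000)*X^2*Y^3 + (633214131943/114843750)*X^3*Y^2 +
      (429721761219/153125000)*X^4*Y + (1553633051/2734375)*X^5 := by positivity
    refine sub_nonneg.1 (key.trans (le_of_eq ?_))
    simp only [hX, hY]; ring

lemma cell6_8 {q : ℝ} (h0 : 4 ≤ q) (h1 : q ≤ (9/2)) :
    CellOk 6 (5/7) (7/6) (3/100) (29/4) (41/500) lam6 q := by
  have hl : lam6 q = (133/125) - (49/250) * q := by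
    unfold lam6
    rw [max_eq_right (show (1/2) - q ≤ (0 : ℝ) by linarith)]
    rw [max_eq_right (show 1 - q ≤ (0 : ℝ) by linarith)]
    rw [max_eq_right (show (3/2) - q ≤ (0 : ℝ) by linarith)]
    rw [max_eq_right (show 2 - q ≤ (0 : ℝ) by linarith)]
    rw [max_eq_right (show (5/2) - q ≤ (0 : ℝ) by linarith)]
    rw [max_eq_right (show 3 - q ≤ (0 : ℝ) by linarith)]
    rw [max_eq_right (show (7/2) - q ≤ (0 : ℝ) by linarith)]
    rw [max_eq_right (show 4 - q ≤ (0 : ℝ) by linarith)]
    rw [max_eq_left (show (0 : ℝ) ≤ (9/2) - q by linarith)]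
    rw [max_eq_left (show (0 : ℝ) ≤ 5 - q by linarith)]
    rw [max_eq_left (show (0 : ℝ) ≤ 6 - q by linarith)]
    ring
  obtain ⟨X, hX⟩ : ∃ X, X = q - 4 := ⟨_, rfl⟩
  obtain ⟨Y, hY⟩ : ∃ Y, Y = (9/2) - q := ⟨_, rfl⟩
  have hX0 : 0 ≤ X := by rw [hX]; linarith
  have hY0 : 0 ≤ Y := by rw [hY]; linarith
  have hq0 : 0 ≤ q := by linarith
  constructor
  · exact lam6_nonneg q
  · refine Or.inr ⟨by linarith, (-127/100) + (81/125) * q, by linarith, by linarith, mino_8 h0 h1, ?_⟩
    rw [hl]
    have key : 0 ≤ (11643785752/1318359375)*Y^7 + (51551058452/1318359375)*X*Y^6 +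
      (97932673708/1318359375)*X^2*Y^5 + (8057273266/87890625)*X^3*Y^4 +
      (5678506267/58593750)*X^4*Y^3 + (16106592187/195312500)*X^5*Y^2 +
      (2063436893/48828125)*X^6*Y + (1766813503/195312500)*X^7 := by positivity
    refine sub_nonneg.1 (key.trans (le_of_eq ?_))
    simp only [hX, hY]; ring
  · refine ⟨(9/20), (43/500) * q, by norm_num, by norm_num, by positivity, ?_, ?_, ?_, ?_, ?_⟩
    · have key : 0 ≤ (171/1750)*Y + (41/3500)*X := by positivity
      refine sub_nonneg.1 (key.trans (le_of_eq ?_))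
      simp only [hX, hY]; ring
    · have key : 0 ≤ (200646/109375)*Y^2 + (2102402/546875)*X*Y + (8690133/4375000)*X^2 := by positivity
      refine sub_nonneg.1 (key.trans (le_of_eq ?_))
      simp only [hX, hY, hl]; ring
    · have key : 0 ≤ (17/8750)*Y + (1879/70000)*X := by positivity
      refine sub_nonneg.1 (key.trans (le_of_eq ?_))
      simp only [hX, hY, hl]; ring
    · have key : 0 ≤ q * ((2123/12500)*Y + (23337/125000)*X) := by positivity
      refine sub_nonneg.1 (key.trans (le_of_eq ?_))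
      simp only [hX, hY, hl]; ring
    · have key : 0 ≤ (2118259/3062500)*Y^2 + (4126739/3062500)*X*Y + (7943319/12250000)*X^2 := by positivity
      refine sub_nonneg.1 (key.trans (le_of_eq ?_))
      simp only [hX, hY]; ring
  · rw [hl]
    have key : 0 ≤ (1553633051/2734375)*Y^5 + (9212934919/3125000)*X*Y^4 + (28519239887/4687500)*X^2*Y^3 +
      (819954622247/131250000)*X^3*Y^2 + (14971572143/4687500)*X^4*Y +
      (227786904057/350000000)*X^5 := by positivity
    refine sub_nonneg.1 (key.trans (le_of_eq ?_))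
    simp only [hX, hY]; ring

lemma cell6_9 {q : ℝ} (h0 : (9/2) ≤ q) (h1 : q ≤ 5) :
    CellOk 6 (5/7) (7/6) (3/100) (29/4) (41/500) lam6 q := by
  have hl : lam6 q = (203/250) - (7/50) * q := by
    unfold lam6
    rw [max_eq_right (show (1/2) - q ≤ (0 : ℝ) by linarith)]
    rw [max_eq_right (show 1 - q ≤ (0 : ℝ) by linarith)]
    rw [max_eq_right (show (3/2) - q ≤ (0 : ℝ) by linarith)]
    rw [max_eq_right (show 2 - q ≤ (0 : ℝ) by linarith)]
    rw [max_eq_right (show (5/2) - q ≤ (0 : ℝ) by linarith)]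
    rw [max_eq_right (show 3 - q ≤ (0 : ℝ) by linarith)]
    rw [max_eq_right (show (7/2) - q ≤ (0 : ℝ) by linarith)]
    rw [max_eq_right (show 4 - q ≤ (0 : ℝ) by linarith)]
    rw [max_eq_right (show (9/2) - q ≤ (0 : ℝ) by linarith)]
    rw [max_eq_left (show (0 : ℝ) ≤ 5 - q by linarith)]
    rw [max_eq_left (show (0 : ℝ) ≤ 6 - q by linarith)]
    ring
  obtain ⟨X, hX⟩ : ∃ X, X = q - (9/2) := ⟨_, rfl⟩
  obtain ⟨Y, hY⟩ : ∃ Y, Y = 5 - q := ⟨_, rfl⟩
  have hX0 : 0 ≤ X := by rw [hX]; linarith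
  have hY0 : 0 ≤ Y := by rw [hY]; linarith
  have hq0 : 0 ≤ q := by linarith
  constructor
  · exact lam6_nonneg q
  · refine Or.inr ⟨by linarith, (-779/500) + (89/125) * q, by linarith, by linarith, mino_9 h0 h1, ?_⟩
    rw [hl]
    have key : 0 ≤ (1766813503/195312500)*Y^7 + (4289855311/97656250)*X*Y^6 + (18368546007/195312500)*X^2*Y^5 +
      (737405641/5859375)*X^3*Y^4 + (439472824/3515625)*X^4*Y^3 + (64282976/703125)*X^5*Y^2 +
      (10440448/253125)*X^6*Y + (30912256/3796875)*X^7 := by positivity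
    refine sub_nonneg.1 (key.trans (le_of_eq ?_))
    simp only [hX, hY]; ring
  · refine ⟨(231/500), (19/250) * q, by norm_num, by norm_num, by positivity, ?_, ?_, ?_, ?_, ?_⟩
    · have key : 0 ≤ (74/875)*Y + (3/350)*X := by positivity
      refine sub_nonneg.1 (key.trans (le_of_eq ?_))
      simp only [hX, hY]; ring
    · have key : 0 ≤ (3371349/2187500)*Y^2 + (3584527/1093750)*X*Y + (188256/109375)*X^2 := by positivity
      refine sub_nonneg.1 (key.trans (le_of_eq ?_))
      simp only [hX, hY, hl]; ring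
    · have key : 0 ≤ (199/70000)*Y + (1013/35000)*X := by positivity
      refine sub_nonneg.1 (key.trans (le_of_eq ?_))
      simp only [hX, hY, hl]; ring
    · have key : 0 ≤ q * ((9153/31250)*Y + (18971/62500)*X) := by positivity
      refine sub_nonneg.1 (key.trans (le_of_eq ?_))
      simp only [hX, hY, hl]; ring
    · have key : 0 ≤ (532479/765625)*Y^2 + (208234/153125)*X*Y + (80683/122500)*X^2 := by positivity
      refine sub_nonneg.1 (key.trans (le_of_eq ?_))
      simp only [hX, hY]; ring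
  · rw [hl]
    have key : 0 ≤ (227786904057/350000000)*Y^5 + (84637143517/25000000)*X*Y^4 + (7675216471/1093750)*X^2*Y^3 +
      (7929614017/1093750)*X^3*Y^2 + (817207197/218750)*X^4*Y + (16812099/21875)*X^5 := by positivity
    refine sub_nonneg.1 (key.trans (le_of_eq ?_))
    simp only [hX, hY]; ring

lemma cell6_10 {q : ℝ} (h0 : 5 ≤ q) (h1 : q ≤ (11/2)) :
    CellOk 6 (5/7) (7/6) (3/100) (29/4) (41/500) lam6 q := by
  have hl : lam6 q = (84/125) - (14/125) * q := by
    unfold lam6
    rw [max_eq_right (show (1/2) - q ≤ (0 : ℝ) by linarith)]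
    rw [max_eq_right (show 1 - q ≤ (0 : ℝ) by linarith)]
    rw [max_eq_right (show (3/2) - q ≤ (0 : ℝ) by linarith)]
    rw [max_eq_right (show 2 - q ≤ (0 : ℝ) by linarith)]
    rw [max_eq_right (show (5/2) - q ≤ (0 : ℝ) by linarith)]
    rw [max_eq_right (show 3 - q ≤ (0 : ℝ) by linarith)]
    rw [max_eq_right (show (7/2) - q ≤ (0 : ℝ) by linarith)]
    rw [max_eq_right (show 4 - q ≤ (0 : ℝ) by linarith)]
    rw [max_eq_right (show (9/2) - q ≤ (0 : ℝ) by linarith)]
    rw [max_eq_right (show 5 - q ≤ (0 : ℝ) by linarith)]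
    rw [max_eq_left (show (0 : ℝ) ≤ 6 - q by linarith)]
    ring
  obtain ⟨X, hX⟩ : ∃ X, X = q - 5 := ⟨_, rfl⟩
  obtain ⟨Y, hY⟩ : ∃ Y, Y = (11/2) - q := ⟨_, rfl⟩
  have hX0 : 0 ≤ X := by rw [hX]; linarith
  have hY0 : 0 ≤ Y := by rw [hY]; linarith
  have hq0 : 0 ≤ q := by linarith
  constructor
  · exact lam6_nonneg q
  · refine Or.inr ⟨by linarith, (-969/500) + (197/250) * q, by linarith, by linarith, mino_10 h0 h1, ?_⟩
    rw [hl]
    have key : 0 ≤ (30912256/3796875)*Y^7 + (193542592/3796875)*X*Y^6 + (2871064352/18984375)*X^2*Y^5 +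
      (26071793432/94921875)*X^3*Y^4 + (152342059081/474609375)*X^4*Y^3 +
      (11088860884699/47460937500)*X^5*Y^2 + (378438581717/3955078125)*X^6*Y +
      (22097025811/1318359375)*X^7 := by positivity
    refine sub_nonneg.1 (key.trans (le_of_eq ?_))
    simp only [hX, hY]; ring
  · refine ⟨(119/250), (17/250) * q, by norm_num, by norm_num, by positivity, ?_, ?_, ?_, ?_, ?_⟩
    · have key : 0 ≤ (12/175)*Y + (1/1750)*X := by positivity
      refine sub_nonneg.1 (key.trans (le_of_eq ?_))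
      simp only [hX, hY]; ring
    · have key : 0 ≤ (149448/109375)*Y^2 + (1595147/546875)*X*Y + (842076/546875)*X^2 := by positivity
      refine sub_nonneg.1 (key.trans (le_of_eq ?_))
      simp only [hX, hY, hl]; ring
    · have key : 0 ≤ (33/35000)*Y + (387/14000)*X := by positivity
      refine sub_nonneg.1 (key.trans (le_of_eq ?_))
      simp only [hX, hY, hl]; ring
    · have key : 0 ≤ q * ((6182/15625)*Y + (6301/15625)*X) := by positivity
      refine sub_nonneg.1 (key.trans (le_of_eq ?_))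
      simp only [hX, hY, hl]; ring
    · have key : 0 ≤ (21403/30625)*Y^2 + (59959/43750)*X*Y + (2042669/3062500)*X^2 := by positivity
      refine sub_nonneg.1 (key.trans (le_of_eq ?_))
      simp only [hX, hY]; ring
  · rw [hl]
    have key : 0 ≤ (16812099/21875)*Y^5 + (872265563/218750)*X*Y^4 + (9033370447/1093750)*X^2*Y^3 +
      (112102238863/13125000)*X^3*Y^2 + (772168432759/175000000)*X^4*Y +
      (12759739961/14000000)*X^5 := by positivity
    refine sub_nonneg.1 (key.trans (le_of_eq ?_))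
    simp only [hX, hY]; ring

lemma cell6_11 {q : ℝ} (h0 : (11/2) ≤ q) (h1 : q ≤ 6) :
    CellOk 6 (5/7) (7/6) (3/100) (29/4) (41/500) lam6 q := by
  have hl : lam6 q = (84/125) - (14/125) * q := by
    unfold lam6
    rw [max_eq_right (show (1/2) - q ≤ (0 : ℝ) by linarith)]
    rw [max_eq_right (show 1 - q ≤ (0 : ℝ) by linarith)]
    rw [max_eq_right (show (3/2) - q ≤ (0 : ℝ) by linarith)]
    rw [max_eq_right (show 2 - q ≤ (0 : ℝ) by linarith)]
    rw [max_eq_right (show (5/2) - q ≤ (0 : ℝ) by linarith)]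
    rw [max_eq_right (show 3 - q ≤ (0 : ℝ) by linarith)]
    rw [max_eq_right (show (7/2) - q ≤ (0 : ℝ) by linarith)]
    rw [max_eq_right (show 4 - q ≤ (0 : ℝ) by linarith)]
    rw [max_eq_right (show (9/2) - q ≤ (0 : ℝ) by linarith)]
    rw [max_eq_right (show 5 - q ≤ (0 : ℝ) by linarith)]
    rw [max_eq_left (show (0 : ℝ) ≤ 6 - q by linarith)]
    ring
  obtain ⟨X, hX⟩ : ∃ X, X = q - (11/2) := ⟨_, rfl⟩
  obtain ⟨Y, hY⟩ : ∃ Y, Y = 6 - q := ⟨_, rfl⟩
  have hX0 : 0 ≤ X := by rw [hX]; linarith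
  have hY0 : 0 ≤ Y := by rw [hY]; linarith
  have hq0 : 0 ≤ q := by linarith
  constructor
  · exact lam6_nonneg q
  · refine Or.inr ⟨by linarith, (-611/250) + (22/25) * q, by linarith, by linarith, mino_11 h0 h1, ?_⟩
    rw [hl]
    have key : 0 ≤ (22097025811/1318359375)*Y^7 + (537278292236/3955078125)*X*Y^6 +
      (5647023558559/11865234375)*X^2*Y^5 + (244420443794/263671875)*X^3*Y^4 +
      (31612261544/29296875)*X^4*Y^3 + (36561195696/48828125)*X^5*Y^2 +
      (13988902672/48828125)*X^6*Y + (2275887456/48828125)*X^7 := by positivity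
    refine sub_nonneg.1 (key.trans (le_of_eq ?_))
    simp only [hX, hY]; ring
  · refine ⟨(61/125), (3/50) * q, by norm_num, by norm_num, by positivity, ?_, ?_, ?_, ?_, ?_⟩
    · have key : 0 ≤ (1/14)*Y + (2/175)*X := by positivity
      refine sub_nonneg.1 (key.trans (le_of_eq ?_))
      simp only [hX, hY]; ring
    · have key : 0 ≤ (4952/4375)*Y^2 + (261579/109375)*X*Y + (1094/875)*X^2 := by positivity
      refine sub_nonneg.1 (key.trans (le_of_eq ?_))
      simp only [hX, hY, hl]; ring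
    · have key : 0 ≤ (51/14000)*Y + (531/17500)*X := by positivity
      refine sub_nonneg.1 (key.trans (le_of_eq ?_))
      simp only [hX, hY, hl]; ring
    · have key : 0 ≤ q * ((3067/6250)*Y + (3109/6250)*X) := by positivity
      refine sub_nonneg.1 (key.trans (le_of_eq ?_))
      simp only [hX, hY, hl]; ring
    · have key : 0 ≤ (12379/17500)*Y^2 + (85327/61250)*X*Y + (4178/6125)*X^2 := by positivity
      refine sub_nonneg.1 (key.trans (le_of_eq ?_))
      simp only [hX, hY]; ring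
  · rw [hl]
    have key : 0 ≤ (12759739961/14000000)*Y^5 + (411399531183/87500000)*X*Y^4 +
      (1272914277451/131250000)*X^2*Y^3 + (109408588269/10937500)*X^3*Y^2 +
      (16127923127/3125000)*X^4*Y + (17488521409/16406250)*X^5 := by positivity
    refine sub_nonneg.1 (key.trans (le_of_eq ?_))
    simp only [hX, hY]; ring

lemma cell6_inf {q : ℝ} (h0 : 6 ≤ q) :
    CellOk 6 (5/7) (7/6) (3/100) (29/4) (41/500) lam6 q := by
  have hl : lam6 q = 0 := by
    unfold lam6
    rw [max_eq_right (show (1/2) - q ≤ (0 : ℝ) by linarith)]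
    rw [max_eq_right (show 1 - q ≤ (0 : ℝ) by linarith)]
    rw [max_eq_right (show (3/2) - q ≤ (0 : ℝ) by linarith)]
    rw [max_eq_right (show 2 - q ≤ (0 : ℝ) by linarith)]
    rw [max_eq_right (show (5/2) - q ≤ (0 : ℝ) by linarith)]
    rw [max_eq_right (show 3 - q ≤ (0 : ℝ) by linarith)]
    rw [max_eq_right (show (7/2) - q ≤ (0 : ℝ) by linarith)]
    rw [max_eq_right (show 4 - q ≤ (0 : ℝ) by linarith)]
    rw [max_eq_right (show (9/2) - q ≤ (0 : ℝ) by linarith)]
    rw [max_eq_right (show 5 - q ≤ (0 : ℝ) by linarith)]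
    rw [max_eq_right (show 6 - q ≤ (0 : ℝ) by linarith)]
    ring
  have hq0 : 0 ≤ q := by linarith
  constructor
  · exact lam6_nonneg q
  · exact Or.inl hl
  · rw [hl]
    refine ⟨(1/2), (89/250), by norm_num, by norm_num, by norm_num, by norm_num, by norm_num, ?_, ?_, by norm_num⟩ <;> linarith
  · rw [hl]
    obtain ⟨X, hX⟩ : ∃ X, X = q - 6 := ⟨_, rfl⟩
    have hX0 : 0 ≤ X := by rw [hX]; linarith
    have key : 0 ≤ (17488521409/525000000) + (641825459/30000000)*X + (212293429/52500000)*X^2 +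
      (151963753/105000000)*X^3 + (1911707/15000000)*X^4 + (1141399/150000000)*X^5 := by positivity
    refine sub_nonneg.1 (key.trans (le_of_eq ?_))
    simp only [hX]; ring

theorem cells6 (q : ℝ) (hq : 0 < q) :
    CellOk 6 (5/7) (7/6) (3/100) (29/4) (41/500) lam6 q := by
  rcases le_total q (1/2) with h1 | h1
  · exact cell6_0 hq.le h1
  rcases le_total q 1 with h2 | h2
  · exact cell6_1 h1 h2
  rcases le_total q (3/2) with h3 | h3
  · exact cell6_2 h2 h3
  rcases le_total q 2 with h4 | h4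
  · exact cell6_3 h3 h4
  rcases le_total q (5/2) with h5 | h5
  · exact cell6_4 h4 h5
  rcases le_total q 3 with h6 | h6
  · exact cell6_5 h5 h6
  rcases le_total q (7/2) with h7 | h7
  · exact cell6_6 h6 h7
  rcases le_total q 4 with h8 | h8
  · exact cell6_7 h7 h8
  rcases le_total q (9/2) with h9 | h9
  · exact cell6_8 h8 h9
  rcases le_total q 5 with h10 | h10
  · exact cell6_9 h9 h10
  rcases le_total q (11/2) with h11 | h11
  · exact cell6_10 h10 h11
  rcases le_total q 6 with h12 | h12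
  · exact cell6_11 h11 h12
  exact cell6_inf h12

end Vale.Agent.P226
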