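import Vale.Agent.P226.T0

/-!
# P226: the one-dimensional certificate
-/

open MeasureTheory ProbabilityTheory Finset Filter Topology
open scoped RealInnerProductSpace ENNReal BigOperators

namespace Vale.Agent.P226

lemma hasDerivAt_phi (t : ℝ) : HasDerivAt phi (-t * phi t) t := by
  unfold phi
  have h3 : HasDerivAt (fun t : ℝ => -t ^ 2 / 2) (-t) t := by
    have h5 := ((hasDerivAt_pow 2 t).fun_neg).div_const 2
    refine h5.congr_deriv ?_
    norm_num
    ring
  refine (h3.exp.const_mul _).congr_deriv ?_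
  ring

lemma tendsto_sq_phi : Tendsto (fun T : ℝ => T ^ 2 * phi T) atTop (𝓝 0) := by
  have h1 := Real.tendsto_pow_mul_exp_neg_atTop_nhds_zero 1
  have h2 : Tendsto (fun T : ℝ => T ^ 2 / 2) atTop atTop :=
    (tendsto_pow_atTop two_ne_zero).atTop_div_const (by norm_num)
  have h3 := (h1.comp h2).const_mul (2 * (Real.sqrt (2 * Real.pi))⁻¹)
  rw [mul_zero] at h3
  refine h3.congr (fun T => ?_)
  simp only [Function.comp, phi]
  rw [show -T ^ 2 / 2 = -(T ^ 2 / 2) by ring]
  ring

/-- **The certificate theorem.** -/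
theorem cert_main {V : ℝ → ℝ} (hV0 : ∀ t, 0 ≤ V t) (hV1 : ∀ t, V t ≤ 1) (hVc : Continuous V)
    {ω ω' : ℝ → ℝ} (hω0 : ∀ t, 0 < t → 0 < ω t) (hωd : ∀ t, 0 < t → HasDerivAt ω (ω' t) t)
    (hg : ∀ s t, 0 < s → s ≤ t → V s * ω t ≤ V t * ω s)
    {m : ℝ → ℝ} {M : ℝ} (hm : ∀ s t, 0 < s → s ≤ t → m s ≤ m t)
    (hmM : ∀ t, 0 < t → |m t| ≤ M) (hmpos : ∃ T, 0 < T ∧ 0 ≤ m T)
    {B B' : ℝ → ℝ} {K : ℝ} (hB0 : ∀ q, 0 < q → 0 ≤ B q) (hBK : ∀ q, 0 < q → B q ≤ K)
    (hBd : ∀ q, 0 < q → HasDerivAt B (B' q) q)
    (hcert : ∀ t, 0 < t → -(m t * ω t) ≤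
      ((2 - t ^ 2) * B (t ^ 2) + 2 * t ^ 2 * B' (t ^ 2)) * ω t + B (t ^ 2) * (t * ω' t)) :
    0 ≤ ∫ t in Set.Ioi 0, t * phi t * V t * m t := by
  set S : Set ℝ := {t | 0 < t ∧ m t < 0} with hS
  rcases S.eq_empty_or_nonempty with hSe | hSn
  · refine setIntegral_nonneg measurableSet_Ioi (fun t ht => ?_)
    have ht0 : (0 : ℝ) < t := ht
    have : 0 ≤ m t := by
      by_contra h
      have : t ∈ S := ⟨ht0, not_le.1 h⟩
      rw [hSe] at this
      exact this
    exact mul_nonneg (mul_nonneg (mul_nonneg ht0.le (phi_pos t).le) (hV0 t)) this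
  obtain ⟨T, hT0, hTm⟩ := hmpos
  have hbdd : BddAbove S := by
    refine ⟨T, fun t ht => ?_⟩
    by_contra h
    exact absurd (hTm.trans (hm T t hT0 (not_le.1 h).le)) (not_le.2 ht.2)
  set t0 := sSup S with ht0d
  have ht0 : 0 < t0 := by
    obtain ⟨t, ht⟩ := hSn
    exact lt_of_lt_of_le ht.1 (le_csSup hbdd ht)
  have hlt : ∀ t, 0 < t → t < t0 → m t ≤ 0 := by
    intro t ht h
    obtain ⟨t', ht', h'⟩ := exists_lt_of_lt_csSup hSn h
    exact (hm t t' ht h'.le).trans ht'.2.le
  have hgt : ∀ t, t0 < t → 0 ≤ m t := by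
    intro t h
    by_contra hc
    have : t ∈ S := ⟨ht0.trans h, not_le.1 hc⟩
    exact absurd (le_csSup hbdd this) (not_le.2 h)
  have hω00 := hω0 t0 ht0
  -- pointwise comparison
  have hpt : ∀ t, 0 < t → V t0 * ω t * m t ≤ V t * m t * ω t0 := by
    intro t ht
    rcases lt_trichotomy t t0 with h | h | h
    · have h1 := hg t t0 ht h.le
      have h2 := hlt t ht h
      nlinarith
    · rw [h]; ring_nf; exact le_refl _
    · have h1 := hg t0 t ht0 h.le
      have h2 := hgt t h
      nlinarith
  -- integrability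
  have hmeas : AEMeasurable m (volume.restrict (Set.Ioi (0 : ℝ))) :=
    aemeasurable_restrict_of_monotoneOn measurableSet_Ioi
      (fun s hs t _ hst => hm s t hs hst)
  have hint : IntegrableOn (fun t => t * phi t * V t * m t) (Set.Ioi 0) := by
    have hdom : IntegrableOn (fun t => |t * phi t| * M) (Set.Ioi 0) :=
      (integrable_id_phi.abs.mul_const M).integrableOn
    refine Integrable.mono' hdom ?_ ?_
    · refine AEStronglyMeasurable.mul ?_ hmeas.aestronglyMeasurable
      exact ((continuous_id.mul continuous_phi).mul hVc).aestronglyMeasurable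
    · rw [ae_restrict_iff' measurableSet_Ioi]
      refine Filter.Eventually.of_forall (fun t ht => ?_)
      rw [Real.norm_eq_abs, abs_mul, abs_mul, abs_of_nonneg (hV0 t)]
      have h1 : |t * phi t| * V t ≤ |t * phi t| * 1 :=
        mul_le_mul_of_nonneg_left (hV1 t) (abs_nonneg _)
      calc |t * phi t| * V t * |m t| ≤ (|t * phi t| * 1) * M :=
            mul_le_mul h1 (hmM t ht) (abs_nonneg _) (by positivity)
        _ = _ := by rw [mul_one]
  have hM0 : 0 ≤ M := (abs_nonneg _).trans (hmM t0 ht0)
  have hK0 : 0 ≤ K := (hB0 1 one_pos).trans (hBK 1 one_pos)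
  -- the truncated inequality
  have htrunc : ∀ a T', 0 < a → a ≤ T' → t0 ≤ T' →
      -(K * (T' ^ 2 * phi T')) ≤ ∫ t in a..T', t * phi t * V t * m t := by
    intro a T' ha haT hT'
    have hT'0 : 0 < T' := lt_of_lt_of_le ht0 hT'
    have hpos : ∀ t ∈ Set.Icc a T', 0 < t := fun t ht => lt_of_lt_of_le ha ht.1
    have hωc : ContinuousOn ω (Set.Icc a T') :=
      fun t ht => (hωd t (hpos t ht)).continuousAt.continuousWithinAt
    have hmi : IntervalIntegrable m volume a T' := by
      refine MonotoneOn.intervalIntegrable ?_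
      rw [Set.uIcc_of_le haT]
      exact fun s hs t _ hst => hm s t (hpos s hs) hst
    have hi1 : IntervalIntegrable (fun t => t * phi t * V t * m t) volume a T' := by
      refine IntervalIntegrable.continuousOn_mul hmi ?_
      exact ((continuous_id.mul continuous_phi).mul hVc).continuousOn
    have hi2 : IntervalIntegrable (fun t => (t * phi t * ω t) * m t) volume a T' := by
      refine IntervalIntegrable.continuousOn_mul hmi ?_
      rw [Set.uIcc_of_le haT]
      exact (continuous_id.mul continuous_phi).continuousOn.mul hωc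
    set P : ℝ → ℝ := fun t => t ^ 2 * B (t ^ 2) * phi t * ω t with hP
    have hPd : ∀ t, 0 < t → HasDerivAt P (t * phi t *
        (((2 - t ^ 2) * B (t ^ 2) + 2 * t ^ 2 * B' (t ^ 2)) * ω t + B (t ^ 2) * (t * ω' t))) t := by
      intro t ht
      have d1 : HasDerivAt (fun t : ℝ => t ^ 2) (2 * t) t := by
        simpa using hasDerivAt_pow 2 t
      have d2 : HasDerivAt (fun t : ℝ => B (t ^ 2)) (B' (t ^ 2) * (2 * t)) t :=
        HasDerivAt.comp t (hBd (t ^ 2) (by positivity)) d1
      have d3 := ((d1.fun_mul d2).fun_mul (hasDerivAt_phi t)).fun_mul (hωd t ht)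
      refine d3.congr_deriv ?_
      ring
    have h1 := intervalIntegral.integral_le_sub_of_hasDeriv_right_of_le (a := a) (b := T')
      (g := P) (φ := fun t => -((t * phi t * ω t) * m t)) haT
      (fun t ht => (hPd t (hpos t ht)).continuousAt.continuousWithinAt)
      (fun t ht => (hPd t (ha.trans ht.1)).hasDerivWithinAt) ?_ ?_
    · rw [intervalIntegral.integral_neg] at h1
      have hPa : 0 ≤ P a := by
        simp only [hP]
        exact mul_nonneg (mul_nonneg (mul_nonneg (by positivity) (hB0 _ (by positivity)))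
          (phi_pos a).le) (hω0 a ha).le
      have h2 : V t0 * ∫ t in a..T', (t * phi t * ω t) * m t ≤
          ω t0 * ∫ t in a..T', t * phi t * V t * m t := by
        rw [← intervalIntegral.integral_const_mul, ← intervalIntegral.integral_const_mul]
        refine intervalIntegral.integral_mono_on haT (hi2.const_mul _) (hi1.const_mul _) ?_
        intro t ht
        have h3 := hpt t (hpos t ht)
        have h4 : 0 < t * phi t := mul_pos (hpos t ht) (phi_pos t)
        have h5 := mul_le_mul_of_nonneg_left h3 h4.le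
        linarith
      have h3 : V t0 * P T' ≤ ω t0 * (K * (T' ^ 2 * phi T')) := by
        have h4 := hg t0 T' ht0 hT'
        have h5 : V t0 * ω T' ≤ ω t0 := by
          have := mul_le_mul_of_nonneg_right (hV1 T') hω00.le
          linarith
        have h6 : B (T' ^ 2) ≤ K := hBK _ (by positivity)
        have h7 : 0 ≤ B (T' ^ 2) := hB0 _ (by positivity)
        have hφ := phi_pos T'
        simp only [hP]
        calc V t0 * (T' ^ 2 * B (T' ^ 2) * phi T' * ω T')
            = (T' ^ 2 * B (T' ^ 2) * phi T') * (V t0 * ω T') := by ring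
          _ ≤ (T' ^ 2 * B (T' ^ 2) * phi T') * ω t0 := by gcongr
          _ ≤ (T' ^ 2 * K * phi T') * ω t0 := by gcongr
          _ = _ := by ring
      have h4 : V t0 * (-∫ t in a..T', (t * phi t * ω t) * m t) ≤ V t0 * P T' :=
        mul_le_mul_of_nonneg_left (by linarith) (hV0 t0)
      have h5 : ω t0 * (-(K * (T' ^ 2 * phi T'))) ≤
          ω t0 * ∫ t in a..T', t * phi t * V t * m t := by linarith
      exact le_of_mul_le_mul_left h5 hω00
    · have h2 := hi2.neg
      rw [intervalIntegrable_iff_integrableOn_Icc_of_le haT] at h2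
      exact h2
    · intro t ht
      have ht' := ha.trans ht.1
      have h2 := hcert t ht'
      have h4 : 0 < t * phi t := mul_pos ht' (phi_pos t)
      have h5 := mul_le_mul_of_nonneg_left h2 h4.le
      linarith
  -- lower limit to zero
  have hzero : ∀ T', t0 ≤ T' → 1 ≤ T' →
      -(K * (T' ^ 2 * phi T')) ≤ ∫ t in (0 : ℝ)..T', t * phi t * V t * m t := by
    intro T' hT' hT1
    have h1 : ∀ a, 0 < a → a ≤ 1 →
        -(K * (T' ^ 2 * phi T')) - M * a ≤ ∫ t in (0 : ℝ)..T', t * phi t * V t * m t := by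
      intro a ha ha1
      have haT : a ≤ T' := ha1.trans hT1
      have h2 := htrunc a T' ha haT hT'
      have hi : ∀ x y, 0 ≤ x → 0 ≤ y →
          IntervalIntegrable (fun t => t * phi t * V t * m t) volume x y := by
        intro x y hx hy
        rw [intervalIntegrable_iff]
        refine hint.mono_set ?_
        intro z hz
        rw [Set.uIoc, Set.mem_Ioc] at hz
        exact lt_of_le_of_lt (le_min hx hy) hz.1
      have h3 := intervalIntegral.integral_add_adjacent_intervals (hi 0 a le_rfl ha.le)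
        (hi a T' ha.le (ha.le.trans haT))
      have h4 : ‖∫ t in (0 : ℝ)..a, t * phi t * V t * m t‖ ≤ M * |a - 0| := by
        refine intervalIntegral.norm_integral_le_of_norm_le_const (fun t ht => ?_)
        rw [Set.uIoc_of_le ha.le] at ht
        have ht0 : 0 < t := ht.1
        have ht1 : t ≤ 1 := ht.2.trans ha1
        rw [Real.norm_eq_abs, abs_mul, abs_of_nonneg
          (mul_nonneg (mul_nonneg ht0.le (phi_pos t).le) (hV0 t))]
        have h5 : t * phi t * V t ≤ 1 := by
          calc t * phi t * V t ≤ 1 * 1 * 1 := by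
                have := phi_le_one t
                have := phi_pos t
                have := hV0 t
                have := hV1 t
                gcongr
            _ = 1 := by norm_num
        calc t * phi t * V t * |m t| ≤ 1 * M :=
              mul_le_mul h5 (hmM t ht0) (abs_nonneg _) zero_le_one
          _ = M := one_mul M
      rw [Real.norm_eq_abs, sub_zero, abs_of_pos ha] at h4
      have h5 := (abs_le.1 h4).1
      linarith
    have h2 : Tendsto (fun a : ℝ => -(K * (T' ^ 2 * phi T')) - M * a) (𝓝[>] 0)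
        (𝓝 (-(K * (T' ^ 2 * phi T')) - M * 0)) := by
      refine Tendsto.mono_left ?_ nhdsWithin_le_nhds
      exact (continuous_const.sub (continuous_const.mul continuous_id)).tendsto 0
    rw [mul_zero, sub_zero] at h2
    refine le_of_tendsto h2 ?_
    have : Set.Ioc (0 : ℝ) 1 ∈ 𝓝[>] (0 : ℝ) := Ioc_mem_nhdsGT one_pos
    filter_upwards [this] with a ha
    exact h1 a ha.1 ha.2
  -- upper limit to infinity
  have h1 := intervalIntegral_tendsto_integral_Ioi 0 hint tendsto_id
  have h2 : Tendsto (fun T : ℝ => -(K * (T ^ 2 * phi T))) atTop (𝓝 (-(K * 0))) :=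
    (tendsto_sq_phi.const_mul K).neg
  rw [mul_zero, neg_zero] at h2
  refine le_of_tendsto_of_tendsto h2 h1 ?_
  filter_upwards [eventually_ge_atTop t0, eventually_ge_atTop 1] with T' h3 h4
  exact hzero T' h3 h4

end Vale.Agent.P226
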