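import Vale.Agent.P226.FinHH
import Vale.Agent.P226.T0

/-!
# P226: configuration-free lower bounds for the exponents
-/

open MeasureTheory ProbabilityTheory Finset Filter Topology
open scoped RealInnerProductSpace ENNReal BigOperators

namespace Vale.Agent.P226

set_option linter.unusedSectionVars false

/-- the scalar minorant condition at `q = t²` -/
def Mino (q δ : ℝ) : Prop :=
  ∀ w : ℝ, 0 ≤ w → w ≤ 1 → 0 ≤ 2 * q - δ * (15 - q) * w →
    (2 * q - δ * (15 - q) * w) ^ 2 ≤ 2 * q * (2 * q + (15 - q) * w) * (1 - w) ^ 5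

/-- one term of the sum -/
lemma term_ge {t s b δ : ℝ} (ht : 0 < t) (hq : t ^ 2 < 15) (hb0 : 0 ≤ b) (hb1 : b < 1)
    (hs : 0 < s) (hσ : 1 - b ^ 2 ≤ s ^ 2) (hδ : 0 ≤ δ) (hm : Mino (t ^ 2) δ) :
    Real.sqrt ((1 - t ^ 2 / 15) ^ 5) * (1 - (1 + δ) * b) ≤
      Real.sqrt ((1 - b) / HH ((1 + b) * t / s)) := by
  rcases le_or_gt (1 - (1 + δ) * b) 0 with hneg | hpos
  · exact (mul_nonpos_of_nonneg_of_nonpos (Real.sqrt_nonneg _) hneg).trans (Real.sqrt_nonneg _)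
  set q := t ^ 2 with hqd
  have hq0 : 0 < q := by positivity
  have hP : 0 < 15 - q := by linarith
  have h1b : 0 < 1 - b := by linarith
  -- the argument
  set x := q * (1 + b) / (1 - b) with hx
  set w := 2 * q * b / ((1 - b) * (15 - q)) with hw
  have hw0 : 0 ≤ w := by positivity
  have hwP : (15 - q) * w = 2 * q * b / (1 - b) := by
    rw [hw]; field_simp
  have e1 : 2 * q - δ * (15 - q) * w = 2 * q * (1 - (1 + δ) * b) / (1 - b) := by
    have : δ * (15 - q) * w = δ * (2 * q * b / (1 - b)) := by rw [← hwP]; ring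
    rw [this]; field_simp; ring
  have e2 : 2 * q + (15 - q) * w = 2 * q / (1 - b) := by
    rw [hwP]; field_simp; ring
  have hlin : 0 < 2 * q - δ * (15 - q) * w := by
    rw [e1]; positivity
  have hw1 : w < 1 := by
    by_contra hcon
    push Not at hcon
    have h2 := hm 1 zero_le_one le_rfl (by
      have : 0 ≤ δ * (15 - q) := by positivity
      nlinarith)
    have h3 : 2 * q - δ * (15 - q) * 1 ≤ 0 := by
      have h4 : (2 * q - δ * (15 - q) * 1) ^ 2 ≤ 0 := by simpa using h2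
      have h5 : 2 * q - δ * (15 - q) * 1 = 0 := by
        have := sq_nonneg (2 * q - δ * (15 - q) * 1)
        exact pow_eq_zero_iff two_ne_zero |>.1 (le_antisymm h4 this)
      exact h5.le
    have : δ * (15 - q) * 1 ≤ δ * (15 - q) * w :=
      mul_le_mul_of_nonneg_left hcon (by positivity)
    linarith
  have hm' := hm w hw0 hw1.le hlin.le
  rw [e1, e2] at hm'
  have hm2 : (1 - (1 + δ) * b) ^ 2 ≤ (1 - b) * (1 - w) ^ 5 := by
    have h2 : (2 * q * (1 - (1 + δ) * b) / (1 - b)) ^ 2 =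
        (4 * q ^ 2 / (1 - b) ^ 2) * (1 - (1 + δ) * b) ^ 2 := by
      field_simp; ring
    have h3 : 2 * q * (2 * q / (1 - b)) * (1 - w) ^ 5 =
        (4 * q ^ 2 / (1 - b) ^ 2) * ((1 - b) * (1 - w) ^ 5) := by
      field_simp; ring
    rw [h2, h3] at hm'
    exact le_of_mul_le_mul_left hm' (by positivity)
  have hxw : 1 - x / 15 = (1 - q / 15) * (1 - w) := by
    have h2 : w = (x - q) / (15 - q) := by
      rw [hw, hx]; field_simp; ring
    rw [h2]; field_simp; ring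
  have hx0 : 0 ≤ x := by positivity
  have hx15 : x < 15 := by
    have : 0 < 1 - x / 15 := by
      rw [hxw]
      exact mul_pos (by linarith) (by linarith)
    linarith
  have hy : ((1 + b) * t / s) ^ 2 ≤ (Real.sqrt x) ^ 2 := by
    rw [Real.sq_sqrt hx0, div_pow, mul_pow, hx, ← hqd]
    rw [div_le_div_iff₀ (by positivity) h1b]
    have h2 : (1 + b) ^ 2 * q * (1 - b) = q * (1 + b) * (1 - b ^ 2) := by ring
    rw [h2]
    exact mul_le_mul_of_nonneg_left hσ (by positivity)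
  have hH1 : HH ((1 + b) * t / s) ≤ HH (Real.sqrt x) := HH_mono_sq hy
  have hH2 := HH_le (Real.sqrt_nonneg x) (by rw [Real.sq_sqrt hx0]; exact hx15)
  rw [Real.sq_sqrt hx0, hxw, mul_pow] at hH2
  have hH0 := HH_pos ((1 + b) * t / s)
  have hpw : 0 ≤ (1 - q / 15) ^ 5 := by
    apply pow_nonneg; linarith
  have hpw2 : 0 ≤ (1 - w) ^ 5 := by
    apply pow_nonneg; linarith
  rw [Real.le_sqrt' (by
    refine mul_pos (Real.sqrt_pos.2 (pow_pos (by linarith) 5)) hpos), mul_pow, Real.sq_sqrt hpw,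
    le_div_iff₀ hH0]
  calc (1 - q / 15) ^ 5 * (1 - (1 + δ) * b) ^ 2 * HH ((1 + b) * t / s)
      ≤ (1 - q / 15) ^ 5 * ((1 - b) * (1 - w) ^ 5) * HH (Real.sqrt x) := by gcongr
    _ = (1 - b) * (HH (Real.sqrt x) * ((1 - q / 15) ^ 5 * (1 - w) ^ 5)) := by ring
    _ ≤ (1 - b) * 1 := by gcongr
    _ = 1 - b := mul_one _

variable {E : Type*} [NormedAddCommGroup E] [InnerProductSpace ℝ E] [FiniteDimensional ℝ E]
  [MeasurableSpace E] [BorelSpace E]
variable {κ : Type*} [Fintype κ]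

/-- **Configuration-free lower bound for the sum.** -/
theorem sum_ge {v : κ → E} (hv : Frame v) (b : κ → ℝ) (hb0 : ∀ i, 0 ≤ b i)
    (hb1 : ∀ i, b i < 1) (hb : ∑ i, b i = 1) (hσ : ∀ i, 1 - b i ^ 2 ≤ ‖v i‖ ^ 2)
    {n : ℝ} (hn : (Fintype.card κ : ℝ) = n) {t δ : ℝ} (ht : 0 < t) (hq : t ^ 2 < 15)
    (hδ : 0 ≤ δ) (hδn : δ ≤ n - 1) (hm : Mino (t ^ 2) δ) :
    (n - 1 - δ) ^ 2 * (1 - t ^ 2 / 15) ^ 5 ≤
      (∑ i, Real.sqrt ((1 - b i) / HH ((1 + b i) * t / ‖v i‖))) ^ 2 := by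
  have hpw : 0 ≤ (1 - t ^ 2 / 15) ^ 5 := by
    apply pow_nonneg; linarith
  have h1 : Real.sqrt ((1 - t ^ 2 / 15) ^ 5) * (n - 1 - δ) ≤
      ∑ i, Real.sqrt ((1 - b i) / HH ((1 + b i) * t / ‖v i‖)) := by
    have h2 : Real.sqrt ((1 - t ^ 2 / 15) ^ 5) * (n - 1 - δ) =
        ∑ i, Real.sqrt ((1 - t ^ 2 / 15) ^ 5) * (1 - (1 + δ) * b i) := by
      rw [← Finset.mul_sum, Finset.sum_sub_distrib, ← Finset.mul_sum, hb]
      simp only [Finset.sum_const, Finset.card_univ, nsmul_eq_mul, mul_one, hn]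
      ring
    rw [h2]
    exact Finset.sum_le_sum (fun i _ => term_ge ht hq (hb0 i) (hb1 i)
      (norm_pos_iff.2 (hv.pos i)) (hσ i) hδ hm)
  have h3 : 0 ≤ Real.sqrt ((1 - t ^ 2 / 15) ^ 5) * (n - 1 - δ) :=
    mul_nonneg (Real.sqrt_nonneg _) (by linarith)
  calc (n - 1 - δ) ^ 2 * (1 - t ^ 2 / 15) ^ 5
      = (Real.sqrt ((1 - t ^ 2 / 15) ^ 5) * (n - 1 - δ)) ^ 2 := by
        rw [mul_pow, Real.sq_sqrt hpw]; ring
    _ ≤ _ := by gcongr

/-- The sum with `1 + b` is larger. -/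
lemma sum_plus_ge {v : κ → E} (b : κ → ℝ) (hb0 : ∀ i, 0 ≤ b i) {t : ℝ} :
    (∑ i, Real.sqrt ((1 - b i) / HH ((1 + b i) * t / ‖v i‖))) ^ 2 ≤
      (∑ i, Real.sqrt ((1 + b i) / HH ((1 + b i) * t / ‖v i‖))) ^ 2 := by
  have h1 : ∑ i, Real.sqrt ((1 - b i) / HH ((1 + b i) * t / ‖v i‖)) ≤
      ∑ i, Real.sqrt ((1 + b i) / HH ((1 + b i) * t / ‖v i‖)) := by
    refine Finset.sum_le_sum (fun i _ => Real.sqrt_le_sqrt ?_)
    have := HH_pos ((1 + b i) * t / ‖v i‖)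
    have := hb0 i
    gcongr
    linarith
  have h2 : 0 ≤ ∑ i, Real.sqrt ((1 - b i) / HH ((1 + b i) * t / ‖v i‖)) :=
    Finset.sum_nonneg (fun _ _ => Real.sqrt_nonneg _)
  gcongr

end Vale.Agent.P226
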