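import Vale.Agent.P226.FinGen
import Vale.Agent.P226.FinMin

/-!
# P226: lower bounds for the exponents with some long vectors
-/

open MeasureTheory ProbabilityTheory Finset Filter Topology
open scoped RealInnerProductSpace ENNReal BigOperators

namespace Vale.Agent.P226

set_option linter.unusedSectionVars false

lemma HH_le6 {y : ℝ} (hy : 0 ≤ y) (h6 : y ^ 2 ≤ 6) : HH y * (1 - y ^ 2 / 6) ^ 2 ≤ 1 := by
  have h1 := HH_le hy (by linarith)
  have hH := HH_pos y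
  refine le_trans (mul_le_mul_of_nonneg_left ?_ hH.le) h1
  set x := y ^ 2 with hx
  have hx0 : 0 ≤ x := by positivity
  have e1 : (1 - x / 15) ^ 5 - (1 - x / 6) ^ 2 =
      (x / 15) ^ 2 * (15 / 4 - 10 * (x / 15) + 5 * (x / 15) ^ 2 - (x / 15) ^ 3) := by ring
  have h2 : 0 ≤ 15 / 4 - 10 * (x / 15) + 5 * (x / 15) ^ 2 - (x / 15) ^ 3 := by
    have h3 : x / 15 ≤ 2 / 5 := by linarith
    have h4 : 0 ≤ x / 15 := by positivity
    nlinarith [mul_nonneg h4 h4, mul_nonneg (mul_nonneg h4 h4) (sub_nonneg.2 h3),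
      mul_nonneg h4 (sub_nonneg.2 h3)]
  have : 0 ≤ (x / 15) ^ 2 * (15 / 4 - 10 * (x / 15) + 5 * (x / 15) ^ 2 - (x / 15) ^ 3) := by
    positivity
  linarith

/-- one term with a long vector -/
lemma flat_term {t s b R g β κ' : ℝ} (ht : 0 < t) (hb0 : 0 ≤ b) (hb1 : b < 1)
    (hs : 0 < s) (hR : 1 < R) (hσ : R - b ^ 2 ≤ s ^ 2) (hg : g = 1 - t ^ 2 / (6 * R))
    (hκ : κ' = (3 + 4 / (R - 1)) / (6 * R)) (hg0 : 0 ≤ g) (hgβ : g ≤ β)
    (hβ : κ' * t ^ 2 + g / 2 ≤ β) :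
    g - β * b ≤ Real.sqrt ((1 - b) / HH ((1 + b) * t / s)) := by
  rcases le_or_gt (g - β * b) 0 with hneg | hD
  · exact hneg.trans (Real.sqrt_nonneg _)
  set q := t ^ 2 with hq
  have hq0 : 0 < q := by positivity
  have hR1 : 0 < R - 1 := by linarith
  have hR0 : 0 < R := by linarith
  have h1b : 0 < 1 - b := by linarith
  set A := g - κ' * q * b with hA
  have hAD : (g - β * b) + g * b / 2 ≤ A := by
    rw [hA]
    nlinarith
  have hA0 : 0 < A := by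
    have : 0 ≤ g * b / 2 := by positivity
    linarith
  have hRb : 0 < R - b ^ 2 := by nlinarith
  -- the argument
  have hy2 : ((1 + b) * t / s) ^ 2 ≤ 6 * (1 - A) := by
    rw [div_pow, mul_pow, ← hq, div_le_iff₀ (by positivity)]
    have hkey : (1 + b) ^ 2 * R ≤ (R - b ^ 2) * (1 + (3 + 4 / (R - 1)) * b) := by
      have e1 : (R - b ^ 2) * (1 + (3 + 4 / (R - 1)) * b) - (1 + b) ^ 2 * R =
          b * (1 - b) * (R * (R + 3) + (3 * R + 1) * b) / (R - 1) := by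
        field_simp
        ring
      have h2 : 0 ≤ b * (1 - b) * (R * (R + 3) + (3 * R + 1) * b) / (R - 1) := by
        positivity
      linarith
    have h6A : 6 * (1 - A) = q / R * (1 + (3 + 4 / (R - 1)) * b) := by
      rw [hA, hg, hκ]
      field_simp
      ring
    rw [h6A]
    have h3 : 0 ≤ q / R * (1 + (3 + 4 / (R - 1)) * b) := by positivity
    calc (1 + b) ^ 2 * q = q / R * ((1 + b) ^ 2 * R) := by field_simp
      _ ≤ q / R * ((R - b ^ 2) * (1 + (3 + 4 / (R - 1)) * b)) := by gcongr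
      _ = q / R * (1 + (3 + 4 / (R - 1)) * b) * (R - b ^ 2) := by ring
      _ ≤ q / R * (1 + (3 + 4 / (R - 1)) * b) * s ^ 2 := by gcongr
  have hy0 : 0 ≤ (1 + b) * t / s := by positivity
  have hA1 : 0 ≤ 6 * (1 - A) := le_trans (sq_nonneg _) hy2
  have hH := HH_le6 hy0 (by linarith)
  have hHp := HH_pos ((1 + b) * t / s)
  have hA' : A ≤ 1 - ((1 + b) * t / s) ^ 2 / 6 := by linarith
  have hH2 : HH ((1 + b) * t / s) * A ^ 2 ≤ 1 := by
    refine le_trans (mul_le_mul_of_nonneg_left ?_ hHp.le) hH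
    gcongr
  rw [Real.le_sqrt' hD, le_div_iff₀ hHp]
  have h5 : (g - β * b) ^ 2 ≤ (1 - b) * A ^ 2 := by
    set D := g - β * b with hDd
    have hDg : D ≤ g * (1 - b) := by
      rw [hDd]; nlinarith
    have h6 : D ^ 2 ≤ (1 - b) * (D + g * b / 2) ^ 2 := by
      have e2 : (1 - b) * (D + g * b / 2) ^ 2 - D ^ 2 =
          b * (D * (g * (1 - b) - D) + g ^ 2 * b * (1 - b) / 4) := by ring
      have : 0 ≤ b * (D * (g * (1 - b) - D) + g ^ 2 * b * (1 - b) / 4) := by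
        apply mul_nonneg hb0
        have h7 : 0 ≤ D * (g * (1 - b) - D) := mul_nonneg hD.le (by linarith)
        positivity
      linarith
    refine h6.trans ?_
    have h8 : 0 ≤ D + g * b / 2 := by positivity
    gcongr
  calc (g - β * b) ^ 2 * HH ((1 + b) * t / s)
      ≤ ((1 - b) * A ^ 2) * HH ((1 + b) * t / s) := by gcongr
    _ = (1 - b) * (HH ((1 + b) * t / s) * A ^ 2) := by ring
    _ ≤ (1 - b) * 1 := by gcongr
    _ = 1 - b := mul_one _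

/-- one term with a short vector, with a linear minorant -/
lemma short_term {t s b δ G0 β : ℝ} (ht : 0 < t) (hq : t ^ 2 < 15) (hb0 : 0 ≤ b) (hb1 : b < 1)
    (hs : 0 < s) (hσ : 1 - b ^ 2 ≤ s ^ 2) (hδ : 0 ≤ δ) (hm : Mino (t ^ 2) δ)
    (hG0 : 0 ≤ G0) (hG : G0 ^ 2 ≤ (1 - t ^ 2 / 15) ^ 5) (hβ : G0 * (1 + δ) ≤ β) :
    G0 - β * b ≤ Real.sqrt ((1 - b) / HH ((1 + b) * t / s)) := by
  have h1 := term_ge ht hq hb0 hb1 hs hσ hδ hm
  have h2 : G0 ≤ Real.sqrt ((1 - t ^ 2 / 15) ^ 5) := Real.le_sqrt_of_sq_le hG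
  rcases le_or_gt (1 - (1 + δ) * b) 0 with hneg | hpos
  · refine le_trans ?_ (Real.sqrt_nonneg _)
    have h3 : G0 * ((1 + δ) * b) ≤ β * b := by
      have := mul_le_mul_of_nonneg_right hβ hb0
      linarith
    nlinarith
  · refine le_trans ?_ h1
    have h3 : G0 * ((1 + δ) * b) ≤ β * b := by
      have := mul_le_mul_of_nonneg_right hβ hb0
      linarith
    nlinarith [mul_le_mul_of_nonneg_right h2 hpos.le]

variable {E : Type*} [NormedAddCommGroup E] [InnerProductSpace ℝ E] [FiniteDimensional ℝ E]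
  [MeasurableSpace E] [BorelSpace E]
variable {κ : Type*} [Fintype κ]

/-- **Lower bound for the sum with `m` long vectors.** -/
theorem sum_ge_flat {v : κ → E} (hv : Frame v) (b : κ → ℝ) (hb0 : ∀ i, 0 ≤ b i)
    (hb1 : ∀ i, b i < 1) (hb : ∑ i, b i = 1) (hσ : ∀ i, 1 - b i ^ 2 ≤ ‖v i‖ ^ 2)
    (F : Finset κ) {R m n : ℝ} (hR : 1 < R) (hF : ∀ i ∈ F, R - b i ^ 2 ≤ ‖v i‖ ^ 2)
    (hm : m ≤ F.card) (hn : (Fintype.card κ : ℝ) = n)
    {t δ G0 g β κ' : ℝ} (ht : 0 < t) (hq : t ^ 2 < 15) (hδ : 0 ≤ δ) (hM : Mino (t ^ 2) δ)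
    (hg : g = 1 - t ^ 2 / (6 * R)) (hκ : κ' = (3 + 4 / (R - 1)) / (6 * R))
    (hG0 : 0 ≤ G0) (hG : G0 ^ 2 ≤ (1 - t ^ 2 / 15) ^ 5) (hGg : G0 ≤ g)
    (hβ1 : G0 * (1 + δ) ≤ β) (hβ2 : g ≤ β) (hβ3 : κ' * t ^ 2 + g / 2 ≤ β)
    (hΨ : 0 ≤ (n - m) * G0 + m * g - β) :
    ((n - m) * G0 + m * g - β) ^ 2 ≤
      (∑ i, Real.sqrt ((1 - b i) / HH ((1 + b i) * t / ‖v i‖))) ^ 2 := by
  classical
  have h1 : (n - m) * G0 + m * g - β ≤
      ∑ i, Real.sqrt ((1 - b i) / HH ((1 + b i) * t / ‖v i‖)) := by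
    have h2 : ∑ i, ((if i ∈ F then g else G0) - β * b i) ≤
        ∑ i, Real.sqrt ((1 - b i) / HH ((1 + b i) * t / ‖v i‖)) := by
      refine Finset.sum_le_sum (fun i _ => ?_)
      have hs : 0 < ‖v i‖ := norm_pos_iff.2 (hv.pos i)
      split_ifs with hi
      · exact flat_term ht (hb0 i) (hb1 i) hs hR (hF i hi) hg hκ (hG0.trans hGg) hβ2 hβ3
      · exact short_term ht hq (hb0 i) (hb1 i) hs (hσ i) hδ hM hG0 hG hβ1
    refine le_trans ?_ h2
    rw [Finset.sum_sub_distrib, ← Finset.mul_sum, hb, mul_one]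
    have h3 : ∑ i : κ, (if i ∈ F then g else G0) = n * G0 + F.card * (g - G0) := by
      have h4 : ∀ i : κ, (if i ∈ F then g else G0) = G0 + (if i ∈ F then (g - G0) else 0) := by
        intro i; split_ifs <;> ring
      rw [Finset.sum_congr rfl (fun i _ => h4 i), Finset.sum_add_distrib]
      simp only [Finset.sum_const, Finset.card_univ, nsmul_eq_mul, hn, Finset.sum_ite_mem,
        Finset.univ_inter]
    rw [h3]
    have h5 : m * (g - G0) ≤ F.card * (g - G0) := by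
      apply mul_le_mul_of_nonneg_right hm; linarith
    linarith
  gcongr

/-- the pointwise conditions at `q`, with `m` long vectors among `n` -/
structure CellM (n m R c kap p0 a σ η : ℝ) (lam : ℝ → ℝ) (q : ℝ) : Prop where
  lam0 : 0 ≤ lam q
  minor : lam q = 0 ∨ (q < 15 ∧ ∃ δ G0 β : ℝ, 0 ≤ δ ∧ Mino q δ ∧ 0 ≤ G0 ∧
    G0 ^ 2 ≤ (1 - q / 15) ^ 5 ∧ G0 ≤ 1 - q / (6 * R) ∧ G0 * (1 + δ) ≤ β ∧
    1 - q / (6 * R) ≤ β ∧
    (3 + 4 / (R - 1)) / (6 * R) * q + (1 - q / (6 * R)) / 2 ≤ β ∧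
    0 ≤ (n - m) * G0 + m * (1 - q / (6 * R)) - β ∧
    2 * (n - 1) * lam q ≤ ((n - m) * G0 + m * (1 - q / (6 * R)) - β) ^ 2)
  fc : FcOk c p0 (lam q) q
  cert : 4 * (a + σ * q + η * q ^ 2) ^ 2 ≤
    (kap * (a + σ * q + η * q ^ 2) ^ 2 + (2 + c * lam q - q) * (a + σ * q + η * q ^ 2) -
      2 * q * (σ + 2 * η * q)) * (c * (lam q + 1) + q * (1 - p0))

theorem fin_flat {v : κ → E} (hv : Frame v) (b : κ → ℝ) (hb0 : ∀ i, 0 ≤ b i)
    (hb1 : ∀ i, b i < 1) (hb : ∑ i, b i = 1) (hσ : ∀ i, 1 - b i ^ 2 ≤ ‖v i‖ ^ 2)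
    (F : Finset κ) {R m n : ℝ} (hR : 1 < R) (hF : ∀ i ∈ F, R - b i ^ 2 ≤ ‖v i‖ ^ 2)
    (hm : m ≤ F.card) (hn : (Fintype.card κ : ℝ) = n) (hn1 : 1 < n)
    {c kap p0 a σ η : ℝ} {lam : ℝ → ℝ}
    (hc : 0 < c) (hcn : c * (n + 1) ≤ n - 1) (hkap0 : 0 < kap) (hkap : kap ≤ 1 + 1 / n)
    (hp0 : 0 ≤ p0) (hp0' : p0 ≤ 1 / 2) (ha : 0 < a) (hs : 0 ≤ σ) (hη : 0 ≤ η)
    (hlc : Continuous lam)
    (hL : ∀ q q', 0 < q → q ≤ q' → c * lam q + q * (1 - p0) ≤ c * lam q' + q' * (1 - p0))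
    (hcell : ∀ q, 0 < q → CellM n m R c kap p0 a σ η lam q) :
    4 * ∫ t in Set.Ioi 0, ∫ r in Set.Ioi 0, phi (t + r) * Gam v b t r ≤
      (1 + 1 / n) * ∫ t in Set.Ioi 0, t * phi t * Vf v b t := by
  have hsum : ∀ t, 0 < t → 2 * (n - 1) * lam (t ^ 2) ≤
      (∑ i, Real.sqrt ((1 - b i) / HH ((1 + b i) * t / ‖v i‖))) ^ 2 := by
    intro t ht
    rcases (hcell (t ^ 2) (by positivity)).minor with h | h
    · rw [h, mul_zero]; exact sq_nonneg _
    · obtain ⟨h15, δ, G0, β, hδ, hM, hG0, hG, hGg, hβ1, hβ2, hβ3, hΨ, hle⟩ := h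
      exact hle.trans (sum_ge_flat hv b hb0 hb1 hb hσ F hR hF hm hn ht h15 hδ hM rfl rfl hG0 hG
        hGg hβ1 hβ2 hβ3 hΨ)
  refine fin_gen hv b hb0 hb1 hb hn hn1 (c := c) (kap := kap) (p0 := p0) (a := a) (σ := σ)
    (η := η) (lam := lam) (gam := fun q => c * lam q) hc hcn hkap0 hkap hp0 hp0' ha hs hη
    hlc (continuous_const.mul hlc) hsum ?_ hL ?_
  · intro t ht
    have h1 := hsum t ht
    have h2 := sum_plus_ge (v := v) b hb0 (t := t)
    have h5 : 0 ≤ lam (t ^ 2) := (hcell _ (by positivity)).lam0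
    refine le_trans ?_ (h1.trans h2)
    have h6 : c * (n + 1) * lam (t ^ 2) ≤ (n - 1) * lam (t ^ 2) := by gcongr
    show 2 * (n + 1) * (c * lam (t ^ 2)) ≤ _
    linarith
  · intro q hq
    have h := hcell q hq
    exact ⟨h.lam0, mul_nonneg hc.le h.lam0, h.fc, h.cert⟩

end Vale.Agent.P226
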