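import Vale.Agent.P226.FinFlat

/-!
# P226: certificates with one special vector and long vectors
-/

open MeasureTheory ProbabilityTheory Finset Filter Topology
open scoped RealInnerProductSpace ENNReal BigOperators

namespace Vale.Agent.P226

set_option linter.unusedSectionVars false

/-- linear minorant for one term with `1 - b` -/
def TermM (r bm q g β : ℝ) : Prop :=
  ∀ t s b : ℝ, 0 < t → t ^ 2 = q → 0 ≤ b → b ≤ bm → b < 1 → 0 < s → r - b ^ 2 ≤ s ^ 2 →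
    g - β * b ≤ Real.sqrt ((1 - b) / HH ((1 + b) * t / s))

/-- linear minorant for one term with `1 + b` -/
def TermP (r bm q g β : ℝ) : Prop :=
  ∀ t s b : ℝ, 0 < t → t ^ 2 = q → 0 ≤ b → b ≤ bm → b < 1 → 0 < s → r - b ^ 2 ≤ s ^ 2 →
    g - β * b ≤ Real.sqrt ((1 + b) / HH ((1 + b) * t / s))

lemma termM_flat {R bm q g β κ' : ℝ} (hR : 1 < R) (hg : g = 1 - q / (6 * R))
    (hκ : κ' = (3 + 4 / (R - 1)) / (6 * R)) (hg0 : 0 ≤ g) (hgβ : g ≤ β)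
    (hβ : κ' * q + g / 2 ≤ β) : TermM R bm q g β := by
  intro t s b ht hq hb0 _ hb1 hs hσ
  exact flat_term ht hb0 hb1 hs hR hσ (by rw [hg, hq]) hκ hg0 hgβ (by rw [hq]; exact hβ)

lemma termM_short {bm q δ G0 β : ℝ} (h15 : q < 15) (hδ : 0 ≤ δ) (hm : Mino q δ)
    (hG0 : 0 ≤ G0) (hG : G0 ^ 2 ≤ (1 - q / 15) ^ 5) (hβ : G0 * (1 + δ) ≤ β) :
    TermM 1 bm q G0 β := by
  intro t s b ht hq hb0 _ hb1 hs hσ
  subst hq
  exact short_term ht h15 hb0 hb1 hs hσ hδ hm hG0 hG hβ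

/-- the argument is controlled by a polynomial -/
lemma arg_le {r t s b U : ℝ} (ht : 0 < t) (hb0 : 0 ≤ b) (hb1 : b < 1) (hs : 0 < s)
    (hr : 1 ≤ r) (hσ : r - b ^ 2 ≤ s ^ 2) (hU0 : 0 ≤ U) (hU : (1 + b) ^ 2 ≤ (r - b ^ 2) * U) :
    ((1 + b) * t / s) ^ 2 ≤ t ^ 2 * U := by
  rw [div_pow, mul_pow, div_le_iff₀ (by positivity)]
  calc (1 + b) ^ 2 * t ^ 2 ≤ ((r - b ^ 2) * U) * t ^ 2 := by gcongr
    _ ≤ (s ^ 2 * U) * t ^ 2 := by gcongr
    _ = _ := by ring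

/-- the `1 - b` term with the bound `1 - y²/6` -/
lemma termM_poly {r bm q g β : ℝ} {U : ℝ → ℝ} (hr : 1 ≤ r)
    (hU : ∀ b, 0 ≤ b → b ≤ bm → b < 1 → 0 ≤ U b ∧ (1 + b) ^ 2 ≤ (r - b ^ 2) * U b)
    (h : ∀ b, 0 ≤ b → b ≤ bm → 0 ≤ g - β * b →
      0 ≤ 1 - q * U b / 6 ∧ (g - β * b) ^ 2 ≤ (1 - b) * (1 - q * U b / 6) ^ 2) :
    TermM r bm q g β := by
  intro t s b ht hq hb0 hbm hb1 hs hσ
  rcases le_or_gt (g - β * b) 0 with hneg | hD
  · exact hneg.trans (Real.sqrt_nonneg _)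
  obtain ⟨hU0, hU1⟩ := hU b hb0 hbm hb1
  obtain ⟨hA, h2⟩ := h b hb0 hbm hD.le
  have hy := arg_le ht hb0 hb1 hs hr hσ hU0 hU1
  rw [hq] at hy
  have hy0 : 0 ≤ (1 + b) * t / s := by positivity
  have hH := HH_le6 hy0 (by linarith)
  have hHp := HH_pos ((1 + b) * t / s)
  have hA' : 1 - q * U b / 6 ≤ 1 - ((1 + b) * t / s) ^ 2 / 6 := by linarith
  have hH2 : HH ((1 + b) * t / s) * (1 - q * U b / 6) ^ 2 ≤ 1 := by
    refine le_trans (mul_le_mul_of_nonneg_left ?_ hHp.le) hH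
    gcongr
  have h1b : 0 < 1 - b := by linarith
  rw [Real.le_sqrt' hD, le_div_iff₀ hHp]
  calc (g - β * b) ^ 2 * HH ((1 + b) * t / s)
      ≤ ((1 - b) * (1 - q * U b / 6) ^ 2) * HH ((1 + b) * t / s) := by gcongr
    _ = (1 - b) * (HH ((1 + b) * t / s) * (1 - q * U b / 6) ^ 2) := by ring
    _ ≤ (1 - b) * 1 := by gcongr
    _ = 1 - b := mul_one _

lemma sqrt_one_add {b : ℝ} (hb0 : 0 ≤ b) (hb1 : b ≤ 1) : (1 + 41 / 100 * b) ^ 2 ≤ 1 + b := by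
  nlinarith [mul_nonneg hb0 (sub_nonneg.2 hb1)]

/-- the `1 + b` term for a long vector -/
lemma termP_flat {R bm q g β κ' : ℝ} (hq0 : 0 < q) (hR : 1 < R) (hg : g = 1 - q / (6 * R))
    (hκ : κ' = (3 + 4 / (R - 1)) / (6 * R)) (hg0 : κ' * q ≤ g)
    (hβ : β = 141 / 100 * (κ' * q) - 41 / 100 * g) : TermP R bm q g β := by
  intro t s b ht hq hb0 _ hb1 hs hσ
  have hR1 : 0 < R - 1 := by linarith
  have hR0 : 0 < R := by linarith
  have h1b : 0 < 1 - b := by linarith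
  have hκ0 : 0 < κ' := by rw [hκ]; positivity
  set A := g - κ' * q * b with hA
  have hA0 : 0 ≤ A := by
    have : κ' * q * b ≤ κ' * q * 1 := by gcongr
    linarith
  have hy2 : ((1 + b) * t / s) ^ 2 ≤ 6 * (1 - A) := by
    have h6A : 6 * (1 - A) = t ^ 2 * (1 / R * (1 + (3 + 4 / (R - 1)) * b)) := by
      rw [hA, hg, hκ, hq]
      field_simp
      ring
    rw [h6A]
    refine arg_le ht hb0 hb1 hs hR.le hσ (by positivity) ?_
    have e1 : (R - b ^ 2) * (1 + (3 + 4 / (R - 1)) * b) - (1 + b) ^ 2 * R =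
        b * (1 - b) * (R * (R + 3) + (3 * R + 1) * b) / (R - 1) := by
      field_simp
      ring
    have h2 : 0 ≤ b * (1 - b) * (R * (R + 3) + (3 * R + 1) * b) / (R - 1) := by
      positivity
    have h3 : (1 + b) ^ 2 * R ≤ (R - b ^ 2) * (1 + (3 + 4 / (R - 1)) * b) := by linarith
    have e2 : (R - b ^ 2) * (1 / R * (1 + (3 + 4 / (R - 1)) * b)) =
        (R - b ^ 2) * (1 + (3 + 4 / (R - 1)) * b) / R := by field_simp
    rw [e2, le_div_iff₀ hR0]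
    exact h3
  have hy0 : 0 ≤ (1 + b) * t / s := by positivity
  have hH := HH_le6 hy0 (by linarith)
  have hHp := HH_pos ((1 + b) * t / s)
  have hA' : A ≤ 1 - ((1 + b) * t / s) ^ 2 / 6 := by linarith
  have hH2 : HH ((1 + b) * t / s) * A ^ 2 ≤ 1 := by
    refine le_trans (mul_le_mul_of_nonneg_left ?_ hHp.le) hH
    gcongr
  have h5 : g - β * b ≤ (1 + 41 / 100 * b) * A := by
    rw [hβ, hA]
    have : 0 ≤ κ' * q * (b * (1 - b)) := by positivity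
    nlinarith
  refine h5.trans ?_
  refine Real.le_sqrt_of_sq_le ?_
  rw [le_div_iff₀ hHp, mul_pow]
  have h6 := sqrt_one_add hb0 hb1.le
  calc (1 + 41 / 100 * b) ^ 2 * A ^ 2 * HH ((1 + b) * t / s)
      = (1 + 41 / 100 * b) ^ 2 * (HH ((1 + b) * t / s) * A ^ 2) := by ring
    _ ≤ (1 + b) * 1 := by gcongr
    _ = 1 + b := mul_one _

/-- the `1 + b` term with the bound `(1 - x)(1 - 3x/2)`, `x = y²/15` -/
lemma termP_poly {r bm q g β : ℝ} {U : ℝ → ℝ} (hr : 1 ≤ r)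
    (hU : ∀ b, 0 ≤ b → b ≤ bm → b < 1 → 0 ≤ U b ∧ (1 + b) ^ 2 ≤ (r - b ^ 2) * U b)
    (h : ∀ b, 0 ≤ b → b ≤ bm → 0 ≤ g - β * b →
      0 ≤ 1 - 3 / 2 * (q * U b / 15) ∧
      g - β * b ≤ (1 + 41 / 100 * b) * ((1 - q * U b / 15) * (1 - 3 / 2 * (q * U b / 15)))) :
    TermP r bm q g β := by
  intro t s b ht hq hb0 hbm hb1 hs hσ
  rcases le_or_gt (g - β * b) 0 with hneg | hD
  · exact hneg.trans (Real.sqrt_nonneg _)
  obtain ⟨hU0, hU1⟩ := hU b hb0 hbm hb1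
  obtain ⟨hA, h2⟩ := h b hb0 hbm hD.le
  have hy := arg_le ht hb0 hb1 hs hr hσ hU0 hU1
  rw [hq] at hy
  have hy0 : 0 ≤ (1 + b) * t / s := by positivity
  set y := (1 + b) * t / s with hyd
  have hH := HH_le hy0 (by linarith)
  have hHp := HH_pos y
  set x := q * U b / 15 with hx
  have hx0 : 0 ≤ x := by
    rw [hx, ← hq]; positivity
  have hyx : y ^ 2 / 15 ≤ x := by rw [hx]; linarith
  have h3 : ((1 - x) * (1 - 3 / 2 * x)) ^ 2 ≤ (1 - y ^ 2 / 15) ^ 5 := by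
    have h4 : (1 - x) ^ 5 ≤ (1 - y ^ 2 / 15) ^ 5 := by
      have : 0 ≤ 1 - x := by linarith
      gcongr
    refine le_trans ?_ h4
    have e1 : (1 - x) ^ 5 - ((1 - x) * (1 - 3 / 2 * x)) ^ 2 =
        (1 - x) ^ 2 * (x ^ 2 * (3 / 4 - x)) := by ring
    have : 0 ≤ (1 - x) ^ 2 * (x ^ 2 * (3 / 4 - x)) := by
      have : 0 ≤ 3 / 4 - x := by linarith
      positivity
    linarith
  have hH2 : HH y * ((1 - x) * (1 - 3 / 2 * x)) ^ 2 ≤ 1 :=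
    le_trans (mul_le_mul_of_nonneg_left h3 hHp.le) hH
  refine h2.trans ?_
  refine Real.le_sqrt_of_sq_le ?_
  rw [le_div_iff₀ hHp, mul_pow]
  have h6 := sqrt_one_add hb0 hb1.le
  calc (1 + 41 / 100 * b) ^ 2 * ((1 - x) * (1 - 3 / 2 * x)) ^ 2 * HH y
      = (1 + 41 / 100 * b) ^ 2 * (HH y * ((1 - x) * (1 - 3 / 2 * x)) ^ 2) := by ring
    _ ≤ (1 + b) * 1 := by gcongr
    _ = 1 + b := mul_one _

variable {E : Type*} [NormedAddCommGroup E] [InnerProductSpace ℝ E] [FiniteDimensional ℝ E]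
  [MeasurableSpace E] [BorelSpace E]
variable {κ : Type*} [Fintype κ]

/-- sum of linear minorants, one special index -/
lemma sum_minorants [DecidableEq κ] (b : κ → ℝ) (hb0 : ∀ i, 0 ≤ b i) (hb : ∑ i, b i = 1)
    (i1 : κ) {bm n g1 β1 g β Λ : ℝ} (hbm : b i1 ≤ bm) (hn : (Fintype.card κ : ℝ) = n)
    (hΛ1 : β ≤ Λ) (hΛ2 : β + bm * (β1 - β) ≤ Λ) (T : κ → ℝ)
    (h1 : g1 - β1 * b i1 ≤ T i1) (h2 : ∀ i, i ≠ i1 → g - β * b i ≤ T i) :
    g1 + (n - 1) * g - Λ ≤ ∑ i, T i := by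
  have hs := Finset.add_sum_erase Finset.univ T (Finset.mem_univ i1)
  have hsb := Finset.add_sum_erase Finset.univ b (Finset.mem_univ i1)
  have h3 : ∑ i ∈ Finset.univ.erase i1, (g - β * b i) ≤ ∑ i ∈ Finset.univ.erase i1, T i :=
    Finset.sum_le_sum (fun i hi => h2 i (Finset.ne_of_mem_erase hi))
  rw [Finset.sum_sub_distrib, ← Finset.mul_sum, Finset.sum_const, Finset.card_erase_of_mem
    (Finset.mem_univ i1), Finset.card_univ, nsmul_eq_mul, Nat.cast_sub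
    (Fintype.card_pos_iff.2 ⟨i1⟩), hn] at h3
  rw [hb] at hsb
  have hb1 : ∑ i ∈ Finset.univ.erase i1, b i = 1 - b i1 := by linarith
  rw [hb1] at h3
  have h4 : β + b i1 * (β1 - β) ≤ Λ := by
    rcases le_total β β1 with h | h
    · refine le_trans ?_ hΛ2
      have : b i1 * (β1 - β) ≤ bm * (β1 - β) := by
        apply mul_le_mul_of_nonneg_right hbm; linarith
      linarith
    · refine le_trans ?_ hΛ1
      have : b i1 * (β1 - β) ≤ 0 := mul_nonpos_of_nonneg_of_nonpos (hb0 i1) (by linarith)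
      linarith
  push_cast at h3
  nlinarith

/-- the pointwise conditions at `q`, one special vector and `n - 1` long vectors -/
structure CellP (n r bm R c kap p0 a σ η : ℝ) (lam gam : ℝ → ℝ) (q : ℝ) : Prop where
  lam0 : 0 ≤ lam q
  gam0 : 0 ≤ gam q
  lamb : lam q = 0 ∨ ∃ g1 β1 g β Λ : ℝ, TermM r bm q g1 β1 ∧ TermM R 1 q g β ∧ β ≤ Λ ∧
    β + bm * (β1 - β) ≤ Λ ∧ 0 ≤ g1 + (n - 1) * g - Λ ∧
    2 * (n - 1) * lam q ≤ (g1 + (n - 1) * g - Λ) ^ 2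
  gamb : gam q = 0 ∨ ∃ g1 β1 g β Λ : ℝ, TermP r bm q g1 β1 ∧ TermP R 1 q g β ∧ β ≤ Λ ∧
    β + bm * (β1 - β) ≤ Λ ∧ 0 ≤ g1 + (n - 1) * g - Λ ∧
    2 * (n + 1) * gam q ≤ (g1 + (n - 1) * g - Λ) ^ 2
  fc : FcOk c p0 (lam q) q
  cert : 4 * (a + σ * q + η * q ^ 2) ^ 2 ≤
    (kap * (a + σ * q + η * q ^ 2) ^ 2 + (2 + gam q - q) * (a + σ * q + η * q ^ 2) -
      2 * q * (σ + 2 * η * q)) * (c * (lam q + 1) + q * (1 - p0))

theorem fin_special [DecidableEq κ] {v : κ → E} (hv : Frame v) (b : κ → ℝ) (hb0 : ∀ i, 0 ≤ b i)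
    (hb1 : ∀ i, b i < 1) (hb : ∑ i, b i = 1)
    (i1 : κ) {r bm R n : ℝ} (hbm : b i1 ≤ bm) (hr : r - b i1 ^ 2 ≤ ‖v i1‖ ^ 2)
    (hF : ∀ i, i ≠ i1 → R - b i ^ 2 ≤ ‖v i‖ ^ 2)
    (hn : (Fintype.card κ : ℝ) = n) (hn1 : 1 < n)
    {c kap p0 a σ η : ℝ} {lam gam : ℝ → ℝ}
    (hc : 0 < c) (hcn : c * (n + 1) ≤ n - 1) (hkap0 : 0 < kap) (hkap : kap ≤ 1 + 1 / n)
    (hp0 : 0 ≤ p0) (hp0' : p0 ≤ 1 / 2) (ha : 0 < a) (hs : 0 ≤ σ) (hη : 0 ≤ η)
    (hlc : Continuous lam) (hgc : Continuous gam)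
    (hL : ∀ q q', 0 < q → q ≤ q' → c * lam q + q * (1 - p0) ≤ c * lam q' + q' * (1 - p0))
    (hcell : ∀ q, 0 < q → CellP n r bm R c kap p0 a σ η lam gam q) :
    4 * ∫ t in Set.Ioi 0, ∫ r in Set.Ioi 0, phi (t + r) * Gam v b t r ≤
      (1 + 1 / n) * ∫ t in Set.Ioi 0, t * phi t * Vf v b t := by
  have hpos : ∀ i, 0 < ‖v i‖ := fun i => norm_pos_iff.2 (hv.pos i)
  refine fin_gen hv b hb0 hb1 hb hn hn1 (c := c) (kap := kap) (p0 := p0) (a := a) (σ := σ)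
    (η := η) (lam := lam) (gam := gam) hc hcn hkap0 hkap hp0 hp0' ha hs hη
    hlc hgc ?_ ?_ hL ?_
  · intro t ht
    rcases (hcell (t ^ 2) (by positivity)).lamb with h | h
    · rw [h, mul_zero]; exact sq_nonneg _
    · obtain ⟨g1, β1, g, β, Λ, hT1, hT, hΛ1, hΛ2, h0, hle⟩ := h
      refine hle.trans ?_
      have h3 := sum_minorants b hb0 hb i1 hbm hn hΛ1 hΛ2
        (fun i => Real.sqrt ((1 - b i) / HH ((1 + b i) * t / ‖v i‖)))
        (hT1 t ‖v i1‖ (b i1) ht rfl (hb0 i1) hbm (hb1 i1) (hpos i1) hr)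
        (fun i hi => hT t ‖v i‖ (b i) ht rfl (hb0 i) (hb1 i).le (hb1 i) (hpos i) (hF i hi))
      gcongr
  · intro t ht
    rcases (hcell (t ^ 2) (by positivity)).gamb with h | h
    · rw [h, mul_zero]; exact sq_nonneg _
    · obtain ⟨g1, β1, g, β, Λ, hT1, hT, hΛ1, hΛ2, h0, hle⟩ := h
      refine hle.trans ?_
      have h3 := sum_minorants b hb0 hb i1 hbm hn hΛ1 hΛ2
        (fun i => Real.sqrt ((1 + b i) / HH ((1 + b i) * t / ‖v i‖)))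
        (hT1 t ‖v i1‖ (b i1) ht rfl (hb0 i1) hbm (hb1 i1) (hpos i1) hr)
        (fun i hi => hT t ‖v i‖ (b i) ht rfl (hb0 i) (hb1 i).le (hb1 i) (hpos i) (hF i hi))
      gcongr
  · intro q hq
    have h := hcell q hq
    exact ⟨h.lam0, h.gam0, h.fc, h.cert⟩

end Vale.Agent.P226
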