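import Vale.Agent.P226.FinInt
import Vale.Agent.P226.T0

/-!
# P226: the inner integral `∫ φ(t+r) Γ(t,r) dr`
-/

open MeasureTheory ProbabilityTheory Finset Filter Topology
open scoped RealInnerProductSpace ENNReal BigOperators

namespace Vale.Agent.P226

set_option linter.unusedSectionVars false

variable {E : Type*} [NormedAddCommGroup E] [InnerProductSpace ℝ E] [FiniteDimensional ℝ E]
  [MeasurableSpace E] [BorelSpace E]
variable {κ : Type*} [Fintype κ]

/-- pointwise bound for `Γ(t,r)` -/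
lemma Gam_le {v : κ → E} (hv : Frame v) (b : κ → ℝ) (hb0 : ∀ i, 0 ≤ b i) (hb1 : ∀ i, b i ≤ 1)
    (hb : ∑ i, b i = 1) {n : ℝ} (hn : (Fintype.card κ : ℝ) = n) (hn1 : 1 < n) {t r e c : ℝ}
    (ht : 0 < t) (hr : 0 ≤ r) (he : 0 ≤ e) (hc : 0 < c) (hcc : c * (n + 1) ≤ n - 1)
    (hE : e ≤ (∑ i, Real.sqrt ((1 - b i) / HH ((1 + b i) * t / ‖v i‖))) ^ 2 / (2 * (n - 1)))
    (hX : 0 < (n + 1) * t - (n - 1) * r) :
    Gam v b t r ≤ Vf v b t * (1 - c * (r / t)) ^ e := by
  have hs1 : ∑ i, (1 - b i) = n - 1 := by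
    rw [Finset.sum_sub_distrib, hb]; simp [hn]
  have hs2 : ∑ i, (1 + b i) = n + 1 := by
    rw [Finset.sum_add_distrib, hb]; simp [hn]
  have hs3 : ∑ i, ((1 + b i) * t - (1 - b i) * r) = (n + 1) * t - (n - 1) * r := by
    rw [Finset.sum_sub_distrib, ← Finset.sum_mul, ← Finset.sum_mul, hs1, hs2]
  have key := hv.grow (fun i => (1 + b i) * t - (1 - b i) * r) (fun i => 1 - b i)
    (fun i => HH ((1 + b i) * t / ‖v i‖)) (fun i => by linarith [hb1 i]) (τ := r) hr
    (by rw [hs3]; exact hX) (by rw [hs1]; linarith) (by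
      intro i
      refine HH_mono (by positivity) ?_
      have h1 : (1 + b i) * t - (1 - b i) * r + r * (1 - b i) = (1 + b i) * t := by ring
      rw [h1, max_eq_left (mul_nonneg (by linarith [hb0 i]) ht.le)])
  rw [hs1, hs3] at key
  have h2 : ∀ i, (1 + b i) * t - (1 - b i) * r + r * (1 - b i) = (1 + b i) * t := fun i => by ring
  simp_rw [h2] at key
  rw [← Finset.sum_mul, hs2] at key
  set e' := (∑ i, Real.sqrt ((1 - b i) / HH ((1 + b i) * t / ‖v i‖))) ^ 2 / (2 * (n - 1)) with he'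
  have hnt : 0 < (n + 1) * t := by positivity
  set ρ := ((n + 1) * t - (n - 1) * r) / ((n + 1) * t) with hρ
  have hρ0 : 0 < ρ := by positivity
  have hρ1 : ρ ≤ 1 := by
    rw [hρ, div_le_one hnt]
    nlinarith
  have hρ2 : ρ ≤ 1 - c * (r / t) := by
    rw [hρ, div_le_iff₀ hnt]
    have h3 : (1 - c * (r / t)) * ((n + 1) * t) = (n + 1) * t - (c * (n + 1)) * r := by
      field_simp
    rw [h3]
    nlinarith
  have h4 : Gam v b t r ≤ Vf v b t * ρ ^ e' := by
    have h5 : 0 < ((n + 1) * t) ^ e' := Real.rpow_pos_of_pos hnt _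
    have h6 : ρ ^ e' * ((n + 1) * t) ^ e' = ((n + 1) * t - (n - 1) * r) ^ e' := by
      rw [← Real.mul_rpow hρ0.le hnt.le, hρ, div_mul_cancel₀ _ hnt.ne']
    rw [← h6, ← mul_assoc] at key
    exact le_of_mul_le_mul_right key h5
  refine h4.trans (mul_le_mul_of_nonneg_left ?_ (Vf_nonneg _ _ _))
  calc ρ ^ e' ≤ ρ ^ e := Real.rpow_le_rpow_of_exponent_ge hρ0 hρ1 hE
    _ ≤ _ := Real.rpow_le_rpow hρ0.le hρ2 he

lemma phi_scale (t s : ℝ) : phi (t + t * s) = phi t * Real.exp (-(t ^ 2 * (s + s ^ 2 / 2))) := by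
  unfold phi
  rw [mul_assoc, ← Real.exp_add]
  congr 2; ring

/-- **The inner integral.** -/
theorem int_Gam_le {v : κ → E} (hv : Frame v) (b : κ → ℝ) (hb0 : ∀ i, 0 ≤ b i)
    (hb1 : ∀ i, b i ≤ 1) (hb : ∑ i, b i = 1) {n : ℝ} (hn : (Fintype.card κ : ℝ) = n)
    (hn1 : 1 < n) {t e c : ℝ} (ht : 0 < t) (he : 0 ≤ e) (hc : 0 < c)
    (hcc : c * (n + 1) ≤ n - 1)
    (hE : e ≤ (∑ i, Real.sqrt ((1 - b i) / HH ((1 + b i) * t / ‖v i‖))) ^ 2 / (2 * (n - 1))) :
    ∫ r in Set.Ioi 0, phi (t + r) * Gam v b t r ≤ t * phi t * Vf v b t * Fc c e (t ^ 2) := by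
  have htc : 0 < t / c := by positivity
  -- reduce to `(0, t/c]`
  have h1 : ∫ r in Set.Ioi 0, phi (t + r) * Gam v b t r =
      ∫ r in Set.Ioc 0 (t / c), phi (t + r) * Gam v b t r := by
    refine setIntegral_eq_of_subset_of_forall_diff_eq_zero measurableSet_Ioi
      (fun r hr => hr.1) ?_
    intro r hr
    have hr0 : 0 < r := hr.1
    have hr1 : t / c < r := by
      by_contra h
      exact hr.2 ⟨hr0, not_lt.1 h⟩
    have : Gam v b t r = 0 := by
      unfold Gam
      apply hv.PiG_eq_zero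
      rw [Finset.sum_sub_distrib, ← Finset.sum_mul, ← Finset.sum_mul, Finset.sum_sub_distrib,
        Finset.sum_add_distrib, hb]
      simp only [Finset.sum_const, Finset.card_univ, nsmul_eq_mul, mul_one, hn]
      rw [div_lt_iff₀ hc] at hr1
      nlinarith
    rw [this, mul_zero]
  -- the bound
  have hcont : Continuous (fun r : ℝ => phi (t + r) * (Vf v b t * (1 - c * (r / t)) ^ e)) := by
    refine Continuous.mul (continuous_phi.comp (by fun_prop)) (Continuous.mul continuous_const ?_)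
    exact Continuous.rpow_const (by fun_prop) (fun s => Or.inr he)
  have hcont2 : Continuous (fun r : ℝ => phi (t + r) * Gam v b t r) :=
    (continuous_phi.comp (by fun_prop)).mul
      ((continuous_Gam hv b).comp (continuous_const.prodMk continuous_id))
  have h2 : ∫ r in Set.Ioc 0 (t / c), phi (t + r) * Gam v b t r ≤
      ∫ r in Set.Ioc 0 (t / c), phi (t + r) * (Vf v b t * (1 - c * (r / t)) ^ e) := by
    refine setIntegral_mono_on_ae (hcont2.integrableOn_Icc.mono_set Set.Ioc_subset_Icc_self)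
      (hcont.integrableOn_Icc.mono_set Set.Ioc_subset_Icc_self) measurableSet_Ioc ?_
    have h3 : ∀ᵐ r : ℝ, r ≠ (n + 1) * t / (n - 1) := by
      have := Measure.ae_ne (μ := (volume : Measure ℝ)) ((n + 1) * t / (n - 1))
      exact this
    filter_upwards [h3] with r hr hmem
    refine mul_le_mul_of_nonneg_left ?_ (phi_pos _).le
    rcases lt_trichotomy ((n + 1) * t - (n - 1) * r) 0 with h | h | h
    · have : Gam v b t r = 0 := by
        unfold Gam
        apply hv.PiG_eq_zero
        rw [Finset.sum_sub_distrib, ← Finset.sum_mul, ← Finset.sum_mul, Finset.sum_sub_distrib,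
          Finset.sum_add_distrib, hb]
        simp only [Finset.sum_const, Finset.card_univ, nsmul_eq_mul, mul_one, hn]
        exact h
      rw [this]
      refine mul_nonneg (Vf_nonneg _ _ _) (Real.rpow_nonneg ?_ _)
      have h4 : r ≤ t / c := hmem.2
      rw [le_div_iff₀ hc] at h4
      rw [sub_nonneg, ← mul_div_assoc, div_le_one ht]
      linarith
    · exfalso
      apply hr
      rw [eq_div_iff (by linarith)]
      linarith
    · exact Gam_le hv b hb0 hb1 hb hn hn1 ht hmem.1.le he hc hcc hE h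
  rw [h1]
  refine h2.trans (le_of_eq ?_)
  rw [← intervalIntegral.integral_of_le htc.le]
  have h4 := intervalIntegral.mul_integral_comp_mul_left (a := 0) (b := 1 / c) (c := t)
    (f := fun r : ℝ => phi (t + r) * (Vf v b t * (1 - c * (r / t)) ^ e))
  rw [mul_zero, mul_one_div] at h4
  rw [← h4]
  unfold Fc
  rw [← intervalIntegral.integral_const_mul, ← intervalIntegral.integral_const_mul]
  congr 1
  ext s
  rw [phi_scale, mul_div_cancel_left₀ _ ht.ne']
  ring

end Vale.Agent.P226
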