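import Vale.Agent.P226.FinMin
import Vale.Agent.P226.FinR
import Vale.Agent.P226.FinCert

/-!
# P226: the final functional inequality from a pointwise certificate
-/

open MeasureTheory ProbabilityTheory Finset Filter Topology
open scoped RealInnerProductSpace ENNReal BigOperators

namespace Vale.Agent.P226

set_option linter.unusedSectionVars false

/-- conditions for the kernel integral bound -/
def FcOk (c p0 e q : ℝ) : Prop :=
  ∃ p1 p2 : ℝ, 0 ≤ p1 ∧ p1 ≤ 1 / 2 ∧ 0 ≤ p2 ∧ c * p1 + p2 ≤ c ∧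
    1 + c ≤ (e + 2) * (c * p0 + p1 + p2 / c) ∧
    p1 - (1 - c) ≤ p0 * (c * (e + 2) + q * (1 - p0)) ∧
    (e + 4) * p2 ≤ q * (p0 + p1 - 2 * p0 * p1) ∧
    p2 ^ 2 ≤ c ^ 2 * (p1 * (1 - p1) + p2 * (1 - 2 * p0))

lemma FcOk.le {c p0 e q : ℝ} (h : FcOk c p0 e q) (hc : 0 < c) (he : 0 ≤ e) (hq : 0 ≤ q)
    (h0 : 0 ≤ p0) (h0' : p0 ≤ 1 / 2) : Fc c e q ≤ 1 / (c * (e + 1) + q * (1 - p0)) := by
  obtain ⟨p1, p2, h1, h1', h2, h12, ha, hb, hc1, hc2⟩ := h
  exact Fc_le hc he hq h0 h0' h1 h1' h2 h12 ha hb hc1 hc2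

/-- the pointwise conditions at `q`, general form -/
structure CellG (c kap p0 a σ η : ℝ) (lam gam : ℝ → ℝ) (q : ℝ) : Prop where
  lam0 : 0 ≤ lam q
  gam0 : 0 ≤ gam q
  fc : FcOk c p0 (lam q) q
  cert : 4 * (a + σ * q + η * q ^ 2) ^ 2 ≤
    (kap * (a + σ * q + η * q ^ 2) ^ 2 + (2 + gam q - q) * (a + σ * q + η * q ^ 2) -
      2 * q * (σ + 2 * η * q)) * (c * (lam q + 1) + q * (1 - p0))

variable {E : Type*} [NormedAddCommGroup E] [InnerProductSpace ℝ E] [FiniteDimensional ℝ E]
  [MeasurableSpace E] [BorelSpace E]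
variable {κ : Type*} [Fintype κ]

/-- **The general certificate theorem.** -/
theorem fin_gen {v : κ → E} (hv : Frame v) (b : κ → ℝ) (hb0 : ∀ i, 0 ≤ b i)
    (hb1 : ∀ i, b i < 1) (hb : ∑ i, b i = 1)
    {n : ℝ} (hn : (Fintype.card κ : ℝ) = n) (hn1 : 1 < n)
    {c kap p0 a σ η : ℝ} {lam gam : ℝ → ℝ}
    (hc : 0 < c) (hcn : c * (n + 1) ≤ n - 1) (hkap0 : 0 < kap) (hkap : kap ≤ 1 + 1 / n)
    (hp0 : 0 ≤ p0) (hp0' : p0 ≤ 1 / 2) (ha : 0 < a) (hσ : 0 ≤ σ) (hη : 0 ≤ η)
    (hlc : Continuous lam) (hgc : Continuous gam)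
    (hlam : ∀ t, 0 < t → 2 * (n - 1) * lam (t ^ 2) ≤
      (∑ i, Real.sqrt ((1 - b i) / HH ((1 + b i) * t / ‖v i‖))) ^ 2)
    (hgam : ∀ t, 0 < t → 2 * (n + 1) * gam (t ^ 2) ≤
      (∑ i, Real.sqrt ((1 + b i) / HH ((1 + b i) * t / ‖v i‖))) ^ 2)
    (hL : ∀ q q', 0 < q → q ≤ q' → c * lam q + q * (1 - p0) ≤ c * lam q' + q' * (1 - p0))
    (hcell : ∀ q, 0 < q → CellG c kap p0 a σ η lam gam q) :
    4 * ∫ t in Set.Ioi 0, ∫ r in Set.Ioi 0, phi (t + r) * Gam v b t r ≤
      (1 + 1 / n) * ∫ t in Set.Ioi 0, t * phi t * Vf v b t := by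
  set L : ℝ → ℝ := fun q => c * (lam q + 1) + q * (1 - p0) with hLd
  have hLpos : ∀ q, 0 < q → c ≤ L q := by
    intro q hq
    have h1 := (hcell q hq).lam0
    have h2 : 0 ≤ q * (1 - p0) := mul_nonneg hq.le (by linarith)
    simp only [hLd]
    nlinarith
  have hVc := continuous_Vf hv b
  -- inner integral
  have hK : ∀ t, 0 < t → ∫ r in Set.Ioi 0, phi (t + r) * Gam v b t r ≤
      t * phi t * Vf v b t / L (t ^ 2) := by
    intro t ht
    have hq : 0 < t ^ 2 := by positivity
    have hcl := hcell _ hq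
    have h1 := int_Gam_le hv b hb0 (fun i => (hb1 i).le) hb hn hn1 ht hcl.lam0 hc hcn (by
      rw [le_div_iff₀ (by linarith)]
      have := hlam t ht
      linarith)
    refine h1.trans ?_
    have h2 := hcl.fc.le hc hcl.lam0 hq.le hp0 hp0'
    have h3 : 0 ≤ t * phi t * Vf v b t :=
      mul_nonneg (mul_nonneg ht.le (phi_pos t).le) (Vf_nonneg _ _ _)
    calc t * phi t * Vf v b t * Fc c (lam (t ^ 2)) (t ^ 2)
        ≤ t * phi t * Vf v b t * (1 / (c * (lam (t ^ 2) + 1) + t ^ 2 * (1 - p0))) := by gcongr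
      _ = _ := by simp only [hLd]; ring
  -- the weight
  have hcont1 : ∀ t, 0 < t → ContinuousAt (fun u : ℝ => gam (u ^ 2) / u) t := by
    intro t ht
    refine ContinuousAt.div ?_ continuousAt_id ht.ne'
    exact (hgc.comp (by fun_prop)).continuousAt
  set I : ℝ → ℝ := fun t => ∫ u in (1 : ℝ)..t, gam (u ^ 2) / u with hI
  have hId : ∀ t, 0 < t → HasDerivAt I (gam (t ^ 2) / t) t := by
    intro t ht
    refine intervalIntegral.integral_hasDerivAt_right ?_ ?_ (hcont1 t ht)
    · refine ContinuousOn.intervalIntegrable (fun u hu => ?_)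
      have : 0 < u := by
        rw [Set.mem_uIcc] at hu
        rcases hu with h | h
        · linarith [h.1]
        · linarith [h.1]
      exact (hcont1 u this).continuousWithinAt
    · refine ContinuousOn.stronglyMeasurableAtFilter isOpen_Ioi (s := Set.Ioi (0 : ℝ))
        (fun u hu => (hcont1 u hu).continuousWithinAt) t ht
  set ω : ℝ → ℝ := fun t => Real.exp (I t) with hω
  set ω' : ℝ → ℝ := fun t => Real.exp (I t) * (gam (t ^ 2) / t) with hω'
  have hωpos : ∀ t, 0 < t → 0 < ω t := fun t _ => Real.exp_pos _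
  have hωd : ∀ t, 0 < t → HasDerivAt ω (ω' t) t := fun t ht => (hId t ht).exp
  have htω : ∀ t, 0 < t → t * ω' t = ω t * gam (t ^ 2) := by
    intro t ht
    simp only [hω', hω]
    field_simp
  have hs2 : ∑ i, (1 + b i) = n + 1 := by
    rw [Finset.sum_add_distrib, hb]; simp [hn]
  have hgrow : ∀ s t, 0 < s → s ≤ t → Vf v b s * ω t ≤ Vf v b t * ω s := by
    intro s t hs hst
    have h1 := hv.growV (fun i => 1 + b i) (fun i => by linarith [hb0 i])
      (by rw [hs2]; linarith) hωpos hωd (by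
        intro u hu
        rw [htω u hu, hs2]
        refine mul_le_mul_of_nonneg_left ?_ (hωpos u hu).le
        have h3 := hgam u hu
        have h4 : ∀ i, u * (1 + b i) / ‖v i‖ = (1 + b i) * u / ‖v i‖ := fun i => by ring
        simp_rw [h4]
        rw [le_div_iff₀ (by linarith)]
        linarith) hs hst
    unfold Vf
    have h2 : ∀ x : ℝ, (fun i => (1 + b i) * x) = (fun i => x * (1 + b i)) := by
      intro x; ext i; ring
    rw [h2, h2]
    exact h1
  -- the certificate
  set m : ℝ → ℝ := fun t => kap - 4 / L (t ^ 2) with hm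
  set B : ℝ → ℝ := fun q => 1 / (a + σ * q + η * q ^ 2) with hB
  set B' : ℝ → ℝ := fun q => -(σ + 2 * η * q) / (a + σ * q + η * q ^ 2) ^ 2 with hB'
  have hD : ∀ q : ℝ, 0 < q → 0 < a + σ * q + η * q ^ 2 := fun q hq => by positivity
  have hBd : ∀ q, 0 < q → HasDerivAt B (B' q) q := by
    intro q hq
    have h1 : HasDerivAt (fun q : ℝ => a + σ * q + η * q ^ 2) (σ + η * (2 * q)) q := by
      have h11 := ((hasDerivAt_id q).const_mul σ).const_add a
      have h12 := h11.fun_add ((hasDerivAt_pow 2 q).const_mul η)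
      refine (h12.congr_deriv ?_)
      norm_num
    have h2 := (hasDerivAt_const q (1 : ℝ)).fun_div h1 (hD q hq).ne'
    refine h2.congr_deriv ?_
    simp only [hB']
    ring
  have key := cert_main (V := Vf v b) (Vf_nonneg v b) (Vf_le_one v b) hVc hωpos hωd hgrow
    (m := m) (M := kap + 4 / c) ?_ ?_ ?_ (B := B) (B' := B') (K := 1 / a) ?_ ?_ hBd ?_
  · -- conclusion
    have hi0 : IntegrableOn (fun t => t * phi t * Vf v b t) (Set.Ioi 0) := by
      refine Integrable.mono' integrable_id_phi.abs.integrableOn ?_ ?_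
      · exact ((continuous_id.mul continuous_phi).mul hVc).aestronglyMeasurable
      · refine Filter.Eventually.of_forall (fun t => ?_)
        rw [Real.norm_eq_abs, abs_mul, abs_of_nonneg (Vf_nonneg v b t)]
        exact mul_le_of_le_one_right (abs_nonneg _) (Vf_le_one _ _ _)
    have hLc : Continuous L := by
      simp only [hLd]
      exact (continuous_const.mul (hlc.add continuous_const)).add
        (continuous_id.mul continuous_const)
    have hi1 : IntegrableOn (fun t => t * phi t * Vf v b t / L (t ^ 2)) (Set.Ioi 0) := by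
      have hdom : IntegrableOn (fun t => |t * phi t| * (1 / c)) (Set.Ioi 0) :=
        (integrable_id_phi.abs.mul_const _).integrableOn
      refine Integrable.mono' hdom ?_ ?_
      · refine ContinuousOn.aestronglyMeasurable ?_ measurableSet_Ioi
        refine ContinuousOn.div ((continuous_id.mul continuous_phi).mul hVc).continuousOn
          (hLc.comp (by fun_prop)).continuousOn (fun t ht => ?_)
        have ht0 : (0 : ℝ) < t := ht
        have := hLpos (t ^ 2) (by positivity)
        linarith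
      · rw [ae_restrict_iff' measurableSet_Ioi]
        refine Filter.Eventually.of_forall (fun t ht => ?_)
        have ht0 : (0 : ℝ) < t := ht
        have hLp := hLpos (t ^ 2) (by positivity)
        rw [Real.norm_eq_abs, abs_div, abs_mul, abs_of_nonneg (Vf_nonneg v b t),
          abs_of_pos (hc.trans_le hLp), div_eq_mul_one_div]
        have h5 : |t * phi t| * Vf v b t ≤ |t * phi t| :=
          mul_le_of_le_one_right (abs_nonneg _) (Vf_le_one _ _ _)
        have h6 : 1 / L (t ^ 2) ≤ 1 / c := one_div_le_one_div_of_le hc hLp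
        have h7 : 0 ≤ 1 / L (t ^ 2) := by
          have := hc.trans_le hLp; positivity
        calc |t * phi t| * Vf v b t * (1 / L (t ^ 2)) ≤ |t * phi t| * (1 / L (t ^ 2)) := by gcongr
          _ ≤ _ := by gcongr
    have h1 : ∫ t in Set.Ioi 0, ∫ r in Set.Ioi 0, phi (t + r) * Gam v b t r ≤
        ∫ t in Set.Ioi 0, t * phi t * Vf v b t / L (t ^ 2) := by
      refine integral_mono_of_nonneg ?_ hi1 ?_
      · refine Filter.Eventually.of_forall (fun t => ?_)
        exact integral_nonneg (fun r => mul_nonneg (phi_pos _).le (Gam_nonneg _ _ _ _))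
      · rw [Filter.EventuallyLE, ae_restrict_iff' measurableSet_Ioi]
        exact Filter.Eventually.of_forall (fun t ht => hK t ht)
    have h2 : ∫ t in Set.Ioi 0, t * phi t * Vf v b t * m t =
        kap * (∫ t in Set.Ioi 0, t * phi t * Vf v b t) -
          4 * ∫ t in Set.Ioi 0, t * phi t * Vf v b t / L (t ^ 2) := by
      rw [← integral_const_mul, ← integral_const_mul, ← integral_sub (hi0.const_mul _)
        (hi1.const_mul _)]
      refine setIntegral_congr_fun measurableSet_Ioi (fun t _ => ?_)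
      simp only [hm]
      ring
    rw [h2] at key
    have h3 : 0 ≤ ∫ t in Set.Ioi 0, t * phi t * Vf v b t :=
      setIntegral_nonneg measurableSet_Ioi (fun t ht =>
        mul_nonneg (mul_nonneg (le_of_lt ht) (phi_pos t).le) (Vf_nonneg _ _ _))
    have h4 : kap * (∫ t in Set.Ioi 0, t * phi t * Vf v b t) ≤
        (1 + 1 / n) * ∫ t in Set.Ioi 0, t * phi t * Vf v b t :=
      mul_le_mul_of_nonneg_right hkap h3
    linarith
  · -- monotone
    intro s t hs hst
    have h1 := hL (s ^ 2) (t ^ 2) (by positivity) (by gcongr)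
    have h2 : L (s ^ 2) ≤ L (t ^ 2) := by simp only [hLd]; linarith
    have h3 := hLpos (s ^ 2) (by positivity)
    have h4 : 0 < L (s ^ 2) := hc.trans_le h3
    simp only [hm]
    have : 4 / L (t ^ 2) ≤ 4 / L (s ^ 2) := by gcongr
    linarith
  · -- bounded
    intro t ht
    have h3 := hLpos (t ^ 2) (by positivity)
    have h4 : 0 < L (t ^ 2) := hc.trans_le h3
    have h5 : 4 / L (t ^ 2) ≤ 4 / c := by gcongr
    have h6 : 0 ≤ 4 / L (t ^ 2) := by positivity
    simp only [hm]
    rw [abs_le]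
    constructor <;> linarith
  · -- eventually nonneg
    refine ⟨8 / kap + 1, by positivity, ?_⟩
    set T := 8 / kap + 1 with hT
    have hT1 : 1 ≤ T := by rw [hT]; have : 0 < 8 / kap := by positivity
                           linarith
    have h7 : T ≤ T ^ 2 := by nlinarith
    have h8 : T ^ 2 / 2 ≤ L (T ^ 2) := by
      have h1 := (hcell (T ^ 2) (by positivity)).lam0
      simp only [hLd]
      nlinarith [mul_nonneg hc.le h1, sq_nonneg T]
    have h9 : 8 / kap ≤ T ^ 2 := by rw [hT] at h7 ⊢; linarith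
    have h10 : 8 ≤ T ^ 2 * kap := by rwa [div_le_iff₀ hkap0] at h9
    simp only [hm]
    have h11 : 0 < L (T ^ 2) := lt_of_lt_of_le (by positivity) h8
    rw [sub_nonneg, div_le_iff₀ h11]
    nlinarith
  · intro q hq; have := hD q hq; simp only [hB]; positivity
  · intro q hq
    simp only [hB]
    apply one_div_le_one_div_of_le ha
    nlinarith [mul_nonneg hη (sq_nonneg q), mul_nonneg hσ hq.le]
  · -- certificate
    intro t ht
    have hq : 0 < t ^ 2 := by positivity
    have hcl := (hcell _ hq).cert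
    rw [htω t ht]
    have hωt := hωpos t ht
    set q := t ^ 2 with hqd
    have hLq : 0 < L q := hc.trans_le (hLpos q hq)
    have hDq := hD q hq
    have h1 : 4 / L q ≤ kap + ((2 - q) * B q + 2 * q * B' q) + B q * gam q := by
      rw [div_le_iff₀ hLq]
      simp only [hB, hB', hLd]
      have e1 : (kap + ((2 - q) * (1 / (a + σ * q + η * q ^ 2)) +
          2 * q * (-(σ + 2 * η * q) / (a + σ * q + η * q ^ 2) ^ 2)) +
          1 / (a + σ * q + η * q ^ 2) * gam q) * (c * (lam q + 1) + q * (1 - p0)) =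
          ((kap * (a + σ * q + η * q ^ 2) ^ 2 + (2 + gam q - q) * (a + σ * q + η * q ^ 2) -
            2 * q * (σ + 2 * η * q)) * (c * (lam q + 1) + q * (1 - p0))) /
              (a + σ * q + η * q ^ 2) ^ 2 := by
        field_simp
        ring
      rw [e1, le_div_iff₀ (by positivity)]
      exact hcl
    have h2 : -m t ≤ ((2 - q) * B q + 2 * q * B' q) + B q * gam q := by
      simp only [hm]; linarith
    have h3 := mul_le_mul_of_nonneg_right h2 hωt.le
    calc -(m t * ω t) = -m t * ω t := by ring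
      _ ≤ _ := h3
      _ = _ := by ring

end Vale.Agent.P226
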