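import Vale.Agent.P226.Rho

/-!
# P226: explicit bounds for `HH`
-/

open MeasureTheory intervalIntegral

namespace Vale.Agent.P226

lemma HH_shift {y z : ℝ} (h : y ^ 2 ≤ z ^ 2) :
    HH z ≤ Real.exp ((z ^ 2 - y ^ 2) / 2) * HH y := by
  unfold HH
  rw [← intervalIntegral.integral_const_mul]
  refine intervalIntegral.integral_mono_on zero_le_one (Continuous.intervalIntegrable (by fun_prop) _ _)
    (Continuous.intervalIntegrable (by fun_prop) _ _) ?_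
  intro τ hτ
  rw [← Real.exp_add]
  apply Real.exp_le_exp.2
  have h1 : 0 ≤ τ ^ 2 := sq_nonneg τ
  nlinarith

lemma HH_int (y : ℝ) : y * Real.exp (-(y ^ 2 / 2)) * HH y = ∫ s in (0 : ℝ)..y, Real.exp (-(s ^ 2 / 2)) := by
  have h1 := Ik_self y
  have h2 : Ik y y = Real.exp (y ^ 2 / 2) * ∫ s in (0 : ℝ)..y, Real.exp (-(s ^ 2 / 2)) := by
    unfold Ik
    have h := intervalIntegral.integral_comp_sub_left (a := 0) (b := y)
      (fun s : ℝ => Ek y s) y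
    simp only [sub_zero, sub_self] at h
    rw [← h, ← intervalIntegral.integral_const_mul]
    congr 1
    ext s
    unfold Ek
    rw [← Real.exp_add]
    congr 1
    ring
  have h3 : y * HH y = Real.exp (y ^ 2 / 2) * ∫ s in (0 : ℝ)..y, Real.exp (-(s ^ 2 / 2)) := by
    rw [← h1, h2]
  have h4 : Real.exp (-(y ^ 2 / 2)) * Real.exp (y ^ 2 / 2) = 1 := by
    rw [← Real.exp_add]; simp
  calc y * Real.exp (-(y ^ 2 / 2)) * HH y = Real.exp (-(y ^ 2 / 2)) * (y * HH y) := by ring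
    _ = (Real.exp (-(y ^ 2 / 2)) * Real.exp (y ^ 2 / 2)) *
        ∫ s in (0 : ℝ)..y, Real.exp (-(s ^ 2 / 2)) := by rw [h3]; ring
    _ = _ := by rw [h4, one_mul]

lemma poly6 {x : ℝ} (h0 : 0 ≤ x) (h1 : x ≤ 1) : (1 - x) ^ 6 ≤ 1 - 6 * x + 15 * x ^ 2 := by
  have : 0 ≤ x ^ 3 * (20 - 15 * x + 6 * x ^ 2 - x ^ 3) := by
    apply mul_nonneg (by positivity)
    nlinarith [pow_le_one₀ h0 h1 (n := 3), pow_nonneg h0 2]
  nlinarith

/-- `HH y ≤ (1 - y²/15)⁻⁵`. -/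
theorem HH_le {y : ℝ} (hy : 0 ≤ y) (h : y ^ 2 < 15) : HH y * (1 - y ^ 2 / 15) ^ 5 ≤ 1 := by
  rcases hy.eq_or_lt with h0 | hpos
  · rw [← h0]; simp [HH_zero]
  set g : ℝ → ℝ := fun s => s * Real.exp (-(s ^ 2 / 2)) / (1 - s ^ 2 / 15) ^ 5 with hg
  have hd : ∀ s ∈ Set.Icc 0 y, 0 < 1 - s ^ 2 / 15 := by
    intro s hs
    have : s ^ 2 ≤ y ^ 2 := by
      have := hs.1; have := hs.2; gcongr
    linarith
  have hder : ∀ s ∈ Set.Icc 0 y, HasDerivAt g
      (((1 * Real.exp (-(s ^ 2 / 2)) + s * (Real.exp (-(s ^ 2 / 2)) * (-s))) * (1 - s ^ 2 / 15) ^ 5 -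
        s * Real.exp (-(s ^ 2 / 2)) * (5 * (1 - s ^ 2 / 15) ^ 4 * (-(2 * s / 15)))) /
        ((1 - s ^ 2 / 15) ^ 5) ^ 2) s := by
    intro s hs
    have d0 : HasDerivAt (fun s : ℝ => s ^ 2) (2 * s) s := by simpa using hasDerivAt_pow 2 s
    have d1 : HasDerivAt (fun s : ℝ => Real.exp (-(s ^ 2 / 2))) (Real.exp (-(s ^ 2 / 2)) * (-s)) s := by
      refine ((d0.div_const 2).fun_neg).exp.congr_deriv ?_
      ring
    have d2 : HasDerivAt (fun s : ℝ => (1 - s ^ 2 / 15) ^ 5)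
        (5 * (1 - s ^ 2 / 15) ^ 4 * (-(2 * s / 15))) s := by
      have := ((d0.div_const 15).const_sub 1).fun_pow 5
      refine this.congr_deriv ?_
      norm_num
    exact ((hasDerivAt_id' s).fun_mul d1).fun_div d2 (pow_pos (hd s hs) 5).ne'
  have key := intervalIntegral.integral_le_sub_of_hasDeriv_right_of_le (a := 0) (b := y)
    (g := g) (φ := fun s => Real.exp (-(s ^ 2 / 2))) hpos.le
    (fun s hs => (hder s hs).continuousAt.continuousWithinAt)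
    (fun s hs => (hder s ⟨hs.1.le, hs.2.le⟩).hasDerivWithinAt) ?_ ?_
  · have hg0 : g 0 = 0 := by simp [hg]
    rw [hg0, sub_zero, ← HH_int] at key
    have h5 : 0 < (1 - y ^ 2 / 15) ^ 5 := pow_pos (hd y ⟨hpos.le, le_rfl⟩) 5
    have h6 : 0 < y * Real.exp (-(y ^ 2 / 2)) := mul_pos hpos (Real.exp_pos _)
    simp only [hg] at key
    rw [le_div_iff₀ h5] at key
    have h7 : y * Real.exp (-(y ^ 2 / 2)) * (HH y * (1 - y ^ 2 / 15) ^ 5) ≤
        y * Real.exp (-(y ^ 2 / 2)) * 1 := by linarith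
    exact le_of_mul_le_mul_left h7 h6
  · exact Continuous.integrableOn_Icc (by fun_prop)
  · intro s hs
    have hp := hd s ⟨hs.1.le, hs.2.le⟩
    have hE : 0 < Real.exp (-(s ^ 2 / 2)) := Real.exp_pos _
    rw [le_div_iff₀ (by positivity)]
    have h8 := poly6 (x := s ^ 2 / 15) (by positivity) (by linarith)
    have h9 : (1 * Real.exp (-(s ^ 2 / 2)) + s * (Real.exp (-(s ^ 2 / 2)) * (-s))) *
        (1 - s ^ 2 / 15) ^ 5 -
        s * Real.exp (-(s ^ 2 / 2)) * (5 * (1 - s ^ 2 / 15) ^ 4 * (-(2 * s / 15))) =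
        Real.exp (-(s ^ 2 / 2)) * (1 - s ^ 2 / 15) ^ 4 *
          (1 - 6 * (s ^ 2 / 15) + 15 * (s ^ 2 / 15) ^ 2) := by ring
    rw [h9]
    have h10 : Real.exp (-(s ^ 2 / 2)) * ((1 - s ^ 2 / 15) ^ 5) ^ 2 =
        Real.exp (-(s ^ 2 / 2)) * (1 - s ^ 2 / 15) ^ 4 * (1 - s ^ 2 / 15) ^ 6 := by ring
    rw [h10]
    exact mul_le_mul_of_nonneg_left h8 (by positivity)

end Vale.Agent.P226
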