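import Mathlib

/-!
# P226: an explicit bound for `∫₀^{1/c} exp(-q(s+s²/2)) (1-cs)^e ds`
-/

open MeasureTheory intervalIntegral Set

namespace Vale.Agent.P226

/-- the kernel integral -/
noncomputable def Fc (c e q : ℝ) : ℝ :=
  ∫ s in (0 : ℝ)..(1 / c), Real.exp (-(q * (s + s ^ 2 / 2))) * (1 - c * s) ^ e

lemma continuous_Fc_integrand {c e q : ℝ} (he : 0 ≤ e) :
    Continuous (fun s : ℝ => Real.exp (-(q * (s + s ^ 2 / 2))) * (1 - c * s) ^ e) := by
  refine Continuous.mul (by fun_prop) ?_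
  exact Continuous.rpow_const (by fun_prop) (fun s => Or.inr he)

/-- **Explicit bound for the kernel integral** (supersolution
`(1-cs)/(c(e+1)+q(1-cs)(1+s-p₀-p₁s-p₂s²))`). -/
theorem Fc_le {c e q p0 p1 p2 : ℝ} (hc : 0 < c) (he : 0 ≤ e) (hq : 0 ≤ q)
    (h0 : 0 ≤ p0) (h0' : p0 ≤ 1 / 2) (h1 : 0 ≤ p1) (h1' : p1 ≤ 1 / 2) (h2 : 0 ≤ p2)
    (h12 : c * p1 + p2 ≤ c)
    (ha : 1 + c ≤ (e + 2) * (c * p0 + p1 + p2 / c))
    (hb : p1 - (1 - c) ≤ p0 * (c * (e + 2) + q * (1 - p0)))
    (hc1 : (e + 4) * p2 ≤ q * (p0 + p1 - 2 * p0 * p1))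
    (hc2 : p2 ^ 2 ≤ c ^ 2 * (p1 * (1 - p1) + p2 * (1 - 2 * p0))) :
    Fc c e q ≤ 1 / (c * (e + 1) + q * (1 - p0)) := by
  set p : ℝ → ℝ := fun s => p0 + p1 * s + p2 * s ^ 2 with hp
  set D : ℝ → ℝ := fun s => c * (e + 1) + q * ((1 - c * s) * (1 + s - p s)) with hD
  set E : ℝ → ℝ := fun s => Real.exp (-(q * (s + s ^ 2 / 2))) with hE
  set g : ℝ → ℝ := fun s => -(E s * (1 - c * s) ^ (e + 1) / D s) with hg
  have hc' : 0 < 1 / c := by positivity
  -- facts on [0, 1/c]
  have hmem : ∀ s, s ∈ Icc 0 (1 / c) → 0 ≤ s ∧ 0 ≤ 1 - c * s := by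
    intro s hs
    refine ⟨hs.1, ?_⟩
    have := hs.2
    rw [le_div_iff₀ hc] at this
    linarith
  have hu : ∀ s, s ∈ Icc 0 (1 / c) → 0 ≤ 1 + s - p s := by
    intro s hs
    obtain ⟨hs0, hs1⟩ := hmem s hs
    have h3 : c * (p2 * s) ≤ p2 := by nlinarith
    have h4 : c * (s * (p1 + p2 * s)) ≤ c * s := by
      have : c * (p1 + p2 * s) ≤ c := by nlinarith
      nlinarith
    have h5 : s * (p1 + p2 * s) ≤ s := le_of_mul_le_mul_left (by linarith) hc
    simp only [hp]
    nlinarith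
  have hDpos : ∀ s, s ∈ Icc 0 (1 / c) → 0 < D s := by
    intro s hs
    obtain ⟨hs0, hs1⟩ := hmem s hs
    have h3 : 0 ≤ q * ((1 - c * s) * (1 + s - p s)) :=
      mul_nonneg hq (mul_nonneg hs1 (hu s hs))
    simp only [hD]
    positivity
  have hDc : Continuous D := by simp only [hD, hp]; fun_prop
  have hgc : ContinuousOn g (Icc 0 (1 / c)) := by
    simp only [hg]
    refine ContinuousOn.neg (ContinuousOn.div ?_ hDc.continuousOn (fun s hs => (hDpos s hs).ne'))
    refine ContinuousOn.mul (by simp only [hE]; fun_prop) ?_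
    exact (Continuous.rpow_const (by fun_prop) (fun s => Or.inr (by linarith))).continuousOn
  have hder : ∀ s ∈ Ioo 0 (1 / c), HasDerivAt g
      (-(((-(q * (1 + s)) * E s) * (1 - c * s) ^ (e + 1) +
        E s * (-c * (e + 1) * (1 - c * s) ^ e)) * D s -
        E s * (1 - c * s) ^ (e + 1) *
          (q * (-c * (1 + s - p s) + (1 - c * s) * (1 - (p1 + p2 * (2 * s)))))) / D s ^ 2) s := by
    intro s hs
    have hs' : s ∈ Icc 0 (1 / c) := ⟨hs.1.le, hs.2.le⟩
    have hpos : 0 < 1 - c * s := by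
      have := hs.2
      rw [lt_div_iff₀ hc] at this
      linarith
    have d1 : HasDerivAt E (-(q * (1 + s)) * E s) s := by
      have h3 : HasDerivAt (fun s : ℝ => -(q * (s + s ^ 2 / 2))) (-(q * (1 + s))) s := by
        have h4 : HasDerivAt (fun s : ℝ => s + s ^ 2 / 2) (1 + s) s := by
          have h5 := (hasDerivAt_id' s).fun_add ((hasDerivAt_pow 2 s).div_const 2)
          refine h5.congr_deriv ?_
          norm_num
        exact (h4.const_mul q).fun_neg
      refine h3.exp.congr_deriv ?_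
      simp only [hE]; ring
    have d2 : HasDerivAt (fun s : ℝ => (1 - c * s) ^ (e + 1)) (-c * (e + 1) * (1 - c * s) ^ e) s := by
      have h3 : HasDerivAt (fun s : ℝ => 1 - c * s) (-c) s := by
        simpa using ((hasDerivAt_id' s).const_mul c).const_sub 1
      have h4 := h3.rpow_const (p := e + 1) (Or.inl hpos.ne')
      rwa [add_sub_cancel_right] at h4
    have d3 : HasDerivAt D
        (q * (-c * (1 + s - p s) + (1 - c * s) * (1 - (p1 + p2 * (2 * s))))) s := by
      have h3 : HasDerivAt (fun s : ℝ => 1 - c * s) (-c) s := by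
        simpa using ((hasDerivAt_id' s).const_mul c).const_sub 1
      have h4 : HasDerivAt (fun s : ℝ => 1 + s - p s) (1 - (p1 + p2 * (2 * s))) s := by
        have h5 : HasDerivAt (fun s : ℝ => p0 + p1 * s + p2 * s ^ 2) (p1 + p2 * (2 * s)) s := by
          have h6 := (((hasDerivAt_id' s).const_mul p1).const_add p0).fun_add
            ((hasDerivAt_pow 2 s).const_mul p2)
          refine h6.congr_deriv ?_
          norm_num
        exact ((hasDerivAt_id' s).const_add 1).fun_sub h5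
      exact ((h3.fun_mul h4).const_mul q).const_add (c * (e + 1))
    exact ((d1.fun_mul d2).fun_div d3 (hDpos s hs').ne').fun_neg.congr_deriv (neg_div _ _).symm
  have key := intervalIntegral.integral_le_sub_of_hasDeriv_right_of_le (a := 0) (b := 1 / c)
    (g := g) (φ := fun s => E s * (1 - c * s) ^ e) hc'.le hgc
    (fun s hs => (hder s hs).hasDerivWithinAt) ?_ ?_
  · have hg0 : g 0 = -(1 / (c * (e + 1) + q * (1 - p0))) := by
      simp [hg, hE, hD, hp]
    have hg1 : g (1 / c) = 0 := by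
      simp only [hg]
      rw [mul_one_div_cancel hc.ne', sub_self, Real.zero_rpow (by linarith), mul_zero, zero_div,
        neg_zero]
    rw [hg0, hg1] at key
    unfold Fc
    linarith
  · exact (continuous_Fc_integrand he).continuousOn.integrableOn_Icc
  · intro s hs
    have hs' : s ∈ Icc 0 (1 / c) := ⟨hs.1.le, hs.2.le⟩
    obtain ⟨hs0, hs1⟩ := hmem s hs'
    have hpos : 0 < 1 - c * s := by
      have := hs.2
      rw [lt_div_iff₀ hc] at this
      linarith
    have hDp := hDpos s hs'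
    have hEp : 0 < E s := Real.exp_pos _
    have hR : 0 < (1 - c * s) ^ e := Real.rpow_pos_of_pos hpos _
    have hR1 : (1 - c * s) ^ (e + 1) = (1 - c * s) ^ e * (1 - c * s) := by
      rw [Real.rpow_add_one hpos.ne']
    -- the polynomial inequality
    have hpoly : 0 ≤ p s * (D s + c) + (1 - c) - 2 * c * s - (1 - c * s) * (p1 + p2 * (2 * s)) := by
      have hsc : c * s ≤ 1 := by linarith
      have e1 : p s * (D s + c) + (1 - c) - 2 * c * s - (1 - c * s) * (p1 + p2 * (2 * s)) =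
          (c * s) * ((e + 2) * (c * p0 + p1 + p2 / c) - (1 + c)) +
          (1 - c * s) * ((p0 * (c * (e + 2) + q * (1 - p0)) - (p1 - (1 - c))) +
            s * (q * (p0 + p1 - 2 * p0 * p1) - (e + 4) * p2) +
            q * s ^ 2 * (p1 * (1 - p1) + p2 * (1 - 2 * p0) + s * p2 * (1 - 2 * p1)
              - s ^ 2 * p2 ^ 2)) := by
        simp only [hD, hp]
        field_simp
        ring
      rw [e1]
      have t1 : 0 ≤ (c * s) * ((e + 2) * (c * p0 + p1 + p2 / c) - (1 + c)) :=
        mul_nonneg (by positivity) (by linarith)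
      have t2 : 0 ≤ p1 * (1 - p1) + p2 * (1 - 2 * p0) + s * p2 * (1 - 2 * p1)
              - s ^ 2 * p2 ^ 2 := by
        have t3 : s ^ 2 * p2 ^ 2 ≤ p1 * (1 - p1) + p2 * (1 - 2 * p0) := by
          have t4 : (c * s) ^ 2 ≤ 1 := by
            have : 0 ≤ c * s := by positivity
            nlinarith
          have t5 : 0 ≤ p1 * (1 - p1) + p2 * (1 - 2 * p0) := by
            have : 0 ≤ p1 * (1 - p1) := mul_nonneg h1 (by linarith)
            have : 0 ≤ p2 * (1 - 2 * p0) := mul_nonneg h2 (by linarith)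
            linarith
          calc s ^ 2 * p2 ^ 2 ≤ s ^ 2 * (c ^ 2 * (p1 * (1 - p1) + p2 * (1 - 2 * p0))) := by
                gcongr
            _ = (c * s) ^ 2 * (p1 * (1 - p1) + p2 * (1 - 2 * p0)) := by ring
            _ ≤ 1 * (p1 * (1 - p1) + p2 * (1 - 2 * p0)) := by gcongr
            _ = _ := one_mul _
        have t6 : 0 ≤ s * p2 * (1 - 2 * p1) := mul_nonneg (mul_nonneg hs0 h2) (by linarith)
        linarith
      have t7 : 0 ≤ q * s ^ 2 * (p1 * (1 - p1) + p2 * (1 - 2 * p0) + s * p2 * (1 - 2 * p1)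
              - s ^ 2 * p2 ^ 2) := mul_nonneg (by positivity) t2
      have t8 : 0 ≤ s * (q * (p0 + p1 - 2 * p0 * p1) - (e + 4) * p2) :=
        mul_nonneg hs0 (by linarith)
      have t9 : 0 ≤ (1 - c * s) * ((p0 * (c * (e + 2) + q * (1 - p0)) - (p1 - (1 - c))) +
            s * (q * (p0 + p1 - 2 * p0 * p1) - (e + 4) * p2) +
            q * s ^ 2 * (p1 * (1 - p1) + p2 * (1 - 2 * p0) + s * p2 * (1 - 2 * p1)
              - s ^ 2 * p2 ^ 2)) := mul_nonneg hs1 (by linarith)
      linarith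
    rw [hR1]
    rw [le_div_iff₀ (by positivity)]
    have e2 : -(((-(q * (1 + s)) * E s) * ((1 - c * s) ^ e * (1 - c * s)) +
        E s * (-c * (e + 1) * (1 - c * s) ^ e)) * D s -
        E s * ((1 - c * s) ^ e * (1 - c * s)) *
          (q * (-c * (1 + s - p s) + (1 - c * s) * (1 - (p1 + p2 * (2 * s)))))) =
        E s * (1 - c * s) ^ e * (D s ^ 2 + q * (1 - c * s) *
          (p s * (D s + c) + (1 - c) - 2 * c * s - (1 - c * s) * (p1 + p2 * (2 * s)))) := by
      generalize (1 - c * s) ^ e = R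
      simp only [hD]
      ring
    rw [e2]
    have : 0 ≤ q * (1 - c * s) *
          (p s * (D s + c) + (1 - c) - 2 * c * s - (1 - c * s) * (p1 + p2 * (2 * s))) :=
      mul_nonneg (mul_nonneg hq hs1) hpoly
    have h9 : 0 < E s * (1 - c * s) ^ e := mul_pos hEp hR
    exact mul_le_mul_of_nonneg_left (by linarith) h9.le

end Vale.Agent.P226
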