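import Vale.Agent.P226.FinGen

/-!
# P226: the final functional inequality from a pointwise certificate
-/

open MeasureTheory ProbabilityTheory Finset Filter Topology
open scoped RealInnerProductSpace ENNReal BigOperators

namespace Vale.Agent.P226

set_option linter.unusedSectionVars false

/-- the pointwise conditions at `q` -/
structure CellOk (N0 c kap p0 a η : ℝ) (lam : ℝ → ℝ) (q : ℝ) : Prop where
  lam0 : 0 ≤ lam q
  minor : lam q = 0 ∨ (q < 15 ∧ ∃ δ : ℝ, 0 ≤ δ ∧ δ ≤ N0 - 1 ∧ Mino q δ ∧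
    2 * (N0 - 1) * lam q ≤ (N0 - 1 - δ) ^ 2 * (1 - q / 15) ^ 5)
  fc : FcOk c p0 (lam q) q
  cert : 4 * (a + η * q ^ 2) ^ 2 ≤
    (kap * (a + η * q ^ 2) ^ 2 + (2 + c * lam q - q) * (a + η * q ^ 2) - 4 * η * q ^ 2) *
      (c * (lam q + 1) + q * (1 - p0))

variable {E : Type*} [NormedAddCommGroup E] [InnerProductSpace ℝ E] [FiniteDimensional ℝ E]
  [MeasurableSpace E] [BorelSpace E]
variable {κ : Type*} [Fintype κ]

theorem fin_main {v : κ → E} (hv : Frame v) (b : κ → ℝ) (hb0 : ∀ i, 0 ≤ b i)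
    (hb1 : ∀ i, b i < 1) (hb : ∑ i, b i = 1) (hσ : ∀ i, 1 - b i ^ 2 ≤ ‖v i‖ ^ 2)
    {n : ℝ} (hn : (Fintype.card κ : ℝ) = n)
    {N0 c kap p0 a η : ℝ} {lam : ℝ → ℝ} (hN : N0 ≤ n) (hN0 : 2 ≤ N0)
    (hc : 0 < c) (hcN : c * (N0 + 1) ≤ N0 - 1) (hkap0 : 0 < kap) (hkap : kap ≤ 1 + 1 / n)
    (hp0 : 0 ≤ p0) (hp0' : p0 ≤ 1 / 2) (ha : 0 < a) (hη : 0 ≤ η)
    (hlc : Continuous lam)
    (hL : ∀ q q', 0 < q → q ≤ q' → c * lam q + q * (1 - p0) ≤ c * lam q' + q' * (1 - p0))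
    (hcell : ∀ q, 0 < q → CellOk N0 c kap p0 a η lam q) :
    4 * ∫ t in Set.Ioi 0, ∫ r in Set.Ioi 0, phi (t + r) * Gam v b t r ≤
      (1 + 1 / n) * ∫ t in Set.Ioi 0, t * phi t * Vf v b t := by
  have hn2 : 2 ≤ n := hN0.trans hN
  have hn1 : 1 < n := by linarith
  -- the exponents
  set S : ℝ → ℝ := fun t => (∑ i, Real.sqrt ((1 - b i) / HH ((1 + b i) * t / ‖v i‖))) ^ 2 with hS
  have hS0 : ∀ t, 0 ≤ S t := fun t => sq_nonneg _
  have hsum : ∀ t, 0 < t → 2 * (n - 1) * lam (t ^ 2) ≤ S t := by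
    intro t ht
    have hq : 0 < t ^ 2 := by positivity
    rcases (hcell _ hq).minor with h | ⟨h15, δ, hδ0, hδN, hM, hle⟩
    · rw [h, mul_zero]; exact hS0 t
    · have h1 := sum_ge hv b hb0 hb1 hb hσ hn ht h15 hδ0 (by linarith) hM
      refine le_trans ?_ h1
      set P := (1 - t ^ 2 / 15) ^ 5
      have hP : 0 ≤ P := by
        apply pow_nonneg; linarith
      -- monotonicity in `n`
      have h2 : (N0 - 1 - δ) ^ 2 * (n - 1) ≤ (n - 1 - δ) ^ 2 * (N0 - 1) := by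
        obtain ⟨k, hk⟩ : ∃ k, k = n - N0 := ⟨_, rfl⟩
        obtain ⟨u, hu⟩ : ∃ u, u = N0 - 1 - δ := ⟨_, rfl⟩
        have hk0 : 0 ≤ k := by rw [hk]; linarith
        have hu0 : 0 ≤ u := by rw [hu]; linarith
        have e1 : (n - 1 - δ) ^ 2 * (N0 - 1) - (N0 - 1 - δ) ^ 2 * (n - 1) =
            k * (u * (2 * (N0 - 1) - u) + k * (N0 - 1)) := by
          rw [hk, hu]; ring
        have : 0 ≤ k * (u * (2 * (N0 - 1) - u) + k * (N0 - 1)) := by
          apply mul_nonneg hk0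
          have h3 : 0 ≤ 2 * (N0 - 1) - u := by rw [hu]; linarith
          have h4 : 0 ≤ N0 - 1 := by linarith
          positivity
        linarith
      have hN1 : 0 < N0 - 1 := by linarith
      have h3 : (N0 - 1) * (2 * (n - 1) * lam (t ^ 2)) ≤ (N0 - 1) * ((n - 1 - δ) ^ 2 * P) := by
        calc (N0 - 1) * (2 * (n - 1) * lam (t ^ 2)) = (n - 1) * (2 * (N0 - 1) * lam (t ^ 2)) := by
              ring
          _ ≤ (n - 1) * ((N0 - 1 - δ) ^ 2 * P) := by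
              apply mul_le_mul_of_nonneg_left hle; linarith
          _ = ((N0 - 1 - δ) ^ 2 * (n - 1)) * P := by ring
          _ ≤ ((n - 1 - δ) ^ 2 * (N0 - 1)) * P := by gcongr
          _ = _ := by ring
      exact le_of_mul_le_mul_left h3 hN1
  have hcn : c * (n + 1) ≤ n - 1 := by
    -- (n-1)/(n+1) is increasing
    have h1 : c ≤ 1 := by nlinarith
    nlinarith
  refine fin_gen hv b hb0 hb1 hb hn hn1 (c := c) (kap := kap) (p0 := p0) (a := a) (σ := 0)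
    (η := η) (lam := lam) (gam := fun q => c * lam q) hc hcn hkap0 hkap hp0 hp0' ha le_rfl hη
    hlc (continuous_const.mul hlc) hsum ?_ hL ?_
  · intro t ht
    have h1 := hsum t ht
    have h2 := sum_plus_ge (v := v) b hb0 (t := t)
    have h5 : 0 ≤ lam (t ^ 2) := (hcell _ (by positivity)).lam0
    refine le_trans ?_ (h1.trans h2)
    have h6 : c * (n + 1) * lam (t ^ 2) ≤ (n - 1) * lam (t ^ 2) := by gcongr
    show 2 * (n + 1) * (c * lam (t ^ 2)) ≤ _
    linarith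
  · intro q hq
    have h := hcell q hq
    refine ⟨h.lam0, mul_nonneg hc.le h.lam0, h.fc, ?_⟩
    have h2 := h.cert
    have e1 : a + 0 * q + η * q ^ 2 = a + η * q ^ 2 := by ring
    rw [e1]
    refine h2.trans (le_of_eq ?_)
    ring

end Vale.Agent.P226
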