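import Vale.Agent.P226.Fin4

/-!
# P226: five cells, case A1: steep minorants (generated certificates)
-/

namespace Vale.Agent.P226

set_option linter.unusedVariables false

lemma steep_dom {q b : ℝ} (hq0 : 0 ≤ q) (hq : q ≤ 4) (hb0 : 0 ≤ b) (hb : b ≤ 1 / 2) :
    0 < (1 - b) - (1 + b) * q / 15 := by
  have h1 : (1 + b) * q ≤ (3 / 2) * 4 := by
    apply mul_le_mul _ hq hq0 (by norm_num)
    linarith
  linarith

lemma stM_aux_0_0 {X Y U V : ℝ} (hX : 0 ≤ X) (hY : 0 ≤ Y) (hU : 0 ≤ U) (hV : 0 ≤ V) :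
    0 ≤ V^6*((63968/15625)*Y^5 + (591872/46875)*X*Y^4 + (2632376/140625)*X^2*Y^3 +
      (8681656/421875)*X^3*Y^2 + (3809384/253125)*X^4*Y + (3536456/759375)*X^5) +
      U*V^5*((132352/625)*Y^5 + (17107488/15625)*X*Y^4 + (324152816/140625)*X^2*Y^3 +
      (1037258288/421875)*X^3*Y^2 + (558101936/421875)*X^4*Y + (217326992/759375)*X^5) +
      U^2*V^4*((6732848/15625)*Y^5 + (103365856/46875)*X*Y^4 + (14373796/3125)*X^2*Y^3 +
      (2052060116/421875)*X^3*Y^2 + (3285275564/1265625)*X^4*Y + (78329108/140625)*X^5) +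
      U^3*V^3*((5353616/15625)*Y^5 + (79905232/46875)*X*Y^4 + (98288108/28125)*X^2*Y^3 +
      (1546278652/421875)*X^3*Y^2 + (91515404/46875)*X^4*Y + (6558524/15625)*X^5) +
      U^4*V^2*((2007182/15625)*Y^5 + (9469088/15625)*X*Y^4 + (67861099/56250)*X^2*Y^3 +
      (39229749/31250)*X^3*Y^2 + (21051217/31250)*X^4*Y + (4598111/31250)*X^5) +
      U^5*V*((336388/15625)*Y^5 + (4233974/46875)*X*Y^4 + (2630952/15625)*X^2*Y^3 +
      (2718788/15625)*X^3*Y^2 + (1510912/15625)*X^4*Y + (348096/15625)*X^5) +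
      U^6*((17198/15625)*Y^5 + (45846/15625)*X*Y^4 + (57612/15625)*X^2*Y^3 +
      (11948/3125)*X^3*Y^2 + (44538/15625)*X^4*Y + (13752/15625)*X^5) := by
  positivity

lemma stM_0 {q : ℝ} (hq : 0 < q) (h0 : 0 ≤ q) (h1 : q ≤ (1/2)) :
    LinM q 1 (1 / 2) ((999/1000) + (-163/1000) * q) (2 * (((701/1000) + (-41/125) * q) - ((999/1000) + (-163/1000) * q))) := by
  refine linM_of_poly hq (fun b hb0 hb1 hb2 => steep_dom hq.le (by linarith) hb0 hb1) ?_
  intro b hb0 hb1 _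
  have hX : 0 ≤ q - 0 := by linarith
  have hY : 0 ≤ (1/2) - q := by linarith
  have key := stM_aux_0_0 hX hY (U := b - 0) (V := (1/2) - b) (by linarith) (by linarith)
  refine sub_nonneg.1 (key.trans (le_of_eq ?_))
  ring

lemma stM_aux_1_0 {X Y U V : ℝ} (hX : 0 ≤ X) (hY : 0 ≤ Y) (hU : 0 ≤ U) (hV : 0 ≤ V) :
    0 ≤ V^6*((3536456/759375)*Y^5 + (11094344/759375)*X*Y^4 + (77004976/3796875)*X^2*Y^3 +
      (72316208/3796875)*X^3*Y^2 + (47139368/3796875)*X^4*Y + (14038376/3796875)*X^5) +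
      U*V^5*((217326992/759375)*Y^5 + (5313571648/3796875)*X*Y^4 + (2110209536/759375)*X^2*Y^3 +
      (10620755552/3796875)*X^3*Y^2 + (5409826256/3796875)*X^4*Y + (1113178976/3796875)*X^5) +
      U^2*V^4*((78329108/140625)*Y^5 + (135745012/50625)*X*Y^4 + (265614224/50625)*X^2*Y^3 +
      (439603648/84375)*X^3*Y^2 + (663417196/253125)*X^4*Y + (674720332/1265625)*X^5) +
      U^3*V^3*((6558524/15625)*Y^5 + (18430316/9375)*X*Y^4 + (317964152/84375)*X^2*Y^3 +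
      (103837496/28125)*X^3*Y^2 + (17286772/9375)*X^4*Y + (157876988/421875)*X^5) +
      U^4*V^2*((4598111/31250)*Y^5 + (4123139/6250)*X*Y^4 + (3840393/3125)*X^2*Y^3 +
      (33445057/28125)*X^3*Y^2 + (33470411/56250)*X^4*Y + (34377199/281250)*X^5) +
      U^5*V*((348096/15625)*Y^5 + (285721/3125)*X*Y^4 + (2523786/15625)*X^2*Y^3 +
      (2421588/15625)*X^3*Y^2 + (3745124/46875)*X^4*Y + (810061/46875)*X^5) +
      U^6*((13752/15625)*Y^5 + (38208/15625)*X*Y^4 + (19939/6250)*X^2*Y^3 +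
      (99429/31250)*X^3*Y^2 + (68817/31250)*X^4*Y + (20151/31250)*X^5) := by
  positivity

lemma stM_1 {q : ℝ} (hq : 0 < q) (h0 : (1/2) ≤ q) (h1 : q ≤ 1) :
    LinM q 1 (1 / 2) ((1989/2000) + (-77/500) * q) (2 * (((1351/2000) + (-277/1000) * q) - ((1989/2000) + (-77/500) * q))) := by
  refine linM_of_poly hq (fun b hb0 hb1 hb2 => steep_dom hq.le (by linarith) hb0 hb1) ?_
  intro b hb0 hb1 _
  have hX : 0 ≤ q - (1/2) := by linarith
  have hY : 0 ≤ 1 - q := by linarith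
  have key := stM_aux_1_0 hX hY (U := b - 0) (V := (1/2) - b) (by linarith) (by linarith)
  refine sub_nonneg.1 (key.trans (le_of_eq ?_))
  ring

lemma stM_aux_2_0 {X Y U V : ℝ} (hX : 0 ≤ X) (hY : 0 ≤ Y) (hU : 0 ≤ U) (hV : 0 ≤ V) :
    0 ≤ V^6*((14038376/3796875)*Y^5 + (1759048/140625)*X*Y^4 + (320296/15625)*X^2*Y^3 +
      (355576/15625)*X^3*Y^2 + (243392/15625)*X^4*Y + (70432/15625)*X^5) +
      U*V^5*((1113178976/3796875)*Y^5 + (1767197648/1265625)*X*Y^4 + (126301424/46875)*X^2*Y^3 +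
      (41142096/15625)*X^3*Y^2 + (4069648/3125)*X^4*Y + (4070336/15625)*X^5) +
      U^2*V^4*((674720332/1265625)*Y^5 + (3139448516/1265625)*X*Y^4 +
      (1974642692/421875)*X^2*Y^3 + (69985092/15625)*X^3*Y^2 + (6790936/3125)*X^4*Y +
      (1335144/3125)*X^5) + U^3*V^3*((157876988/421875)*Y^5 + (711147164/421875)*X*Y^4 +
      (1306787324/421875)*X^2*Y^3 + (408818956/140625)*X^3*Y^2 + (4355048/3125)*X^4*Y +
      (851776/3125)*X^5) + U^4*V^2*((34377199/281250)*Y^5 + (16427273/31250)*X*Y^4 +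
      (87621439/93750)*X^2*Y^3 + (242668199/281250)*X^3*Y^2 + (3877976/9375)*X^4*Y +
      (256286/3125)*X^5) + U^5*V*((810061/46875)*Y^5 + (3202712/46875)*X*Y^4 +
      (1802536/15625)*X^2*Y^3 + (4959962/46875)*X^3*Y^2 + (2464843/46875)*X^4*Y +
      (173236/15625)*X^5) + U^6*((20151/31250)*Y^5 + (2311/1250)*X*Y^4 + (7909/3125)*X^2*Y^3 +
      (7933/3125)*X^3*Y^2 + (10507/6250)*X^4*Y + (14651/31250)*X^5) := by
  positivity

lemma stM_2 {q : ℝ} (hq : 0 < q) (h0 : 1 ≤ q) (h1 : q ≤ (3/2)) :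
    LinM q 1 (1 / 2) ((79/80) + (-147/1000) * q) (2 * (((1257/2000) + (-23/100) * q) - ((79/80) + (-147/1000) * q))) := by
  refine linM_of_poly hq (fun b hb0 hb1 hb2 => steep_dom hq.le (by linarith) hb0 hb1) ?_
  intro b hb0 hb1 _
  have hX : 0 ≤ q - 1 := by linarith
  have hY : 0 ≤ (3/2) - q := by linarith
  have key := stM_aux_2_0 hX hY (U := b - 0) (V := (1/2) - b) (by linarith) (by linarith)
  refine sub_nonneg.1 (key.trans (le_of_eq ?_))
  ring

lemma stM_aux_3_0 {X Y U V : ℝ} (hX : 0 ≤ X) (hY : 0 ≤ Y) (hU : 0 ≤ U) (hV : 0 ≤ V) :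
    0 ≤ V^6*((70432/15625)*Y^5 + (240032/15625)*X*Y^4 + (362656/15625)*X^2*Y^3 +
      (342496/15625)*X^3*Y^2 + (1846528/140625)*X^4*Y + (13542016/3796875)*X^5) +
      U*V^5*((4070336/15625)*Y^5 + (749088/625)*X*Y^4 + (34831456/15625)*X^2*Y^3 +
      (98322784/46875)*X^3*Y^2 + (1264619648/1265625)*X^4*Y + (732136576/3796875)*X^5) +
      U^2*V^4*((1335144/3125)*Y^5 + (5938136/3125)*X*Y^4 + (53374232/15625)*X^2*Y^3 +
      (1311803032/421875)*X^3*Y^2 + (1817313536/1265625)*X^4*Y + (113667424/421875)*X^5) +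
      U^3*V^3*((851776/3125)*Y^5 + (3621488/3125)*X*Y^4 + (281348176/140625)*X^2*Y^3 +
      (743517904/421875)*X^3*Y^2 + (111907648/140625)*X^4*Y + (6926272/46875)*X^5) +
      U^4*V^2*((256286/3125)*Y^5 + (3079066/9375)*X*Y^4 + (76024102/140625)*X^2*Y^3 +
      (7240674/15625)*X^3*Y^2 + (3265104/15625)*X^4*Y + (621128/15625)*X^5) +
      U^5*V*((173236/15625)*Y^5 + (1897478/46875)*X*Y^4 + (979814/15625)*X^2*Y^3 +
      (836946/15625)*X^3*Y^2 + (400424/15625)*X^4*Y + (83992/15625)*X^5) +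
      U^6*((14651/31250)*Y^5 + (8589/6250)*X*Y^4 + (11929/6250)*X^2*Y^3 + (2319/1250)*X^3*Y^2 +
      (3624/3125)*X^4*Y + (4798/15625)*X^5) := by
  positivity

lemma stM_3 {q : ℝ} (hq : 0 < q) (h0 : (3/2) ≤ q) (h1 : q ≤ 2) :
    LinM q 1 (1 / 2) ((487/500) + (-69/500) * q) (2 * (((561/1000) + (-37/200) * q) - ((487/500) + (-69/500) * q))) := by
  refine linM_of_poly hq (fun b hb0 hb1 hb2 => steep_dom hq.le (by linarith) hb0 hb1) ?_
  intro b hb0 hb1 _
  have hX : 0 ≤ q - (3/2) := by linarith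
  have hY : 0 ≤ 2 - q := by linarith
  have key := stM_aux_3_0 hX hY (U := b - 0) (V := (1/2) - b) (by linarith) (by linarith)
  refine sub_nonneg.1 (key.trans (le_of_eq ?_))
  ring

lemma stM_aux_4_0 {X Y U V : ℝ} (hX : 0 ≤ X) (hY : 0 ≤ Y) (hU : 0 ≤ U) (hV : 0 ≤ V) :
    0 ≤ V^6*((13542016/3796875)*Y^5 + (362373952/3796875)*X*Y^4 + (1300877224/3796875)*X^2*Y^3 +
      (372328984/759375)*X^3*Y^2 + (1202485496/3796875)*X^4*Y + (292885544/3796875)*X^5) +
      U*V^5*((732136576/3796875)*Y^5 + (786867872/759375)*X*Y^4 + (8454671824/3796875)*X^2*Y^3 +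
      (9065949872/3796875)*X^3*Y^2 + (4844864432/3796875)*X^4*Y + (206276176/759375)*X^5) +
      U^2*V^4*((113667424/421875)*Y^5 + (1612957888/1265625)*X*Y^4 + (621229444/253125)*X^2*Y^3 +
      (1013257684/421875)*X^3*Y^2 + (1508228636/1265625)*X^4*Y + (302643988/1265625)*X^5) +
      U^3*V^3*((6926272/46875)*Y^5 + (88341104/140625)*X*Y^4 + (92730596/84375)*X^2*Y^3 +
      (139906516/140625)*X^3*Y^2 + (65682388/140625)*X^4*Y + (38291732/421875)*X^5) +
      U^4*V^2*((621128/15625)*Y^5 + (2339452/15625)*X*Y^4 + (1471243/6250)*X^2*Y^3 +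
      (55880029/281250)*X^3*Y^2 + (25767277/281250)*X^4*Y + (5161951/281250)*X^5) +
      U^5*V*((83992/15625)*Y^5 + (276446/15625)*X*Y^4 + (393304/15625)*X^2*Y^3 +
      (329556/15625)*X^3*Y^2 + (500972/46875)*X^4*Y + (114724/46875)*X^5) +
      U^6*((4798/15625)*Y^5 + (14198/15625)*X*Y^4 + (20044/15625)*X^2*Y^3 +
      (19324/15625)*X^3*Y^2 + (11618/15625)*X^4*Y + (2928/15625)*X^5) := by
  positivity

lemma stM_4 {q : ℝ} (hq : 0 < q) (h0 : 2 ≤ q) (h1 : q ≤ (5/2)) :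
    LinM q 1 (1 / 2) ((269/250) + (-189/1000) * q) (2 * (((479/1000) + (-18/125) * q) - ((269/250) + (-189/1000) * q))) := by
  refine linM_of_poly hq (fun b hb0 hb1 hb2 => steep_dom hq.le (by linarith) hb0 hb1) ?_
  intro b hb0 hb1 _
  have hX : 0 ≤ q - 2 := by linarith
  have hY : 0 ≤ (5/2) - q := by linarith
  have key := stM_aux_4_0 hX hY (U := b - 0) (V := (1/2) - b) (by linarith) (by linarith)
  refine sub_nonneg.1 (key.trans (le_of_eq ?_))
  ring

lemma stM_aux_5_0 {X Y U V : ℝ} (hX : 0 ≤ X) (hY : 0 ≤ Y) (hU : 0 ≤ U) (hV : 0 ≤ V) :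
    0 ≤ V^6*((292885544/3796875)*Y^5 + (480036056/1265625)*X*Y^4 + (316636304/421875)*X^2*Y^3 +
      (21002864/28125)*X^3*Y^2 + (17501704/46875)*X^4*Y + (1171832/15625)*X^5) +
      U*V^5*((206276176/759375)*Y^5 + (1574218144/1265625)*X*Y^4 + (64436192/28125)*X^2*Y^3 +
      (298605184/140625)*X^3*Y^2 + (46444784/46875)*X^4*Y + (2910688/15625)*X^5) +
      U^2*V^4*((302643988/1265625)*Y^5 + (50060996/50625)*X*Y^4 + (3062336/1875)*X^2*Y^3 +
      (12657488/9375)*X^3*Y^2 + (5255252/9375)*X^4*Y + (1467788/15625)*X^5) +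
      U^3*V^3*((38291732/421875)*Y^5 + (27172972/84375)*X*Y^4 + (37536952/84375)*X^2*Y^3 +
      (8461496/28125)*X^3*Y^2 + (954164/9375)*X^4*Y + (226836/15625)*X^5) +
      U^4*V^2*((5161951/281250)*Y^5 + (1034717/18750)*X*Y^4 + (607129/9375)*X^2*Y^3 +
      (1158659/28125)*X^3*Y^2 + (325589/18750)*X^4*Y + (127879/31250)*X^5) +
      U^5*V*((114724/46875)*Y^5 + (369389/46875)*X*Y^4 + (192396/15625)*X^2*Y^3 +
      (117994/9375)*X^3*Y^2 + (357562/46875)*X^4*Y + (5999/3125)*X^5) + U^6*((2928/15625)*Y^5 +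
      (11712/15625)*X*Y^4 + (1839/1250)*X^2*Y^3 + (50941/31250)*X^3*Y^2 + (28873/31250)*X^4*Y +
      (6319/31250)*X^5) := by
  positivity

lemma stM_5 {q : ℝ} (hq : 0 < q) (h0 : (5/2) ≤ q) (h1 : q ≤ 3) :
    LinM q 1 (1 / 2) ((1847/2000) + (-16/125) * q) (2 * (((833/2000) + (-119/1000) * q) - ((1847/2000) + (-16/125) * q))) := by
  refine linM_of_poly hq (fun b hb0 hb1 hb2 => steep_dom hq.le (by linarith) hb0 hb1) ?_
  intro b hb0 hb1 _
  have hX : 0 ≤ q - (5/2) := by linarith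
  have hY : 0 ≤ 3 - q := by linarith
  have key := stM_aux_5_0 hX hY (U := b - 0) (V := (1/2) - b) (by linarith) (by linarith)
  refine sub_nonneg.1 (key.trans (le_of_eq ?_))
  ring

lemma stM_aux_6_0 {X Y U V : ℝ} (hX : 0 ≤ X) (hY : 0 ≤ Y) (hU : 0 ≤ U) (hV : 0 ≤ V) :
    0 ≤ V^6*((74997248/15625)*Y^5 + (217343488/9375)*X*Y^4 + (1266954752/28125)*X^2*Y^3 +
      (3713274368/84375)*X^3*Y^2 + (1094070272/50625)*X^4*Y + (16197013504/3796875)*X^5) +
      U*V^5*((63626752/3125)*Y^5 + (4501167104/46875)*X*Y^4 + (25645641728/140625)*X^2*Y^3 +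
      (24521741312/140625)*X^3*Y^2 + (106246318592/1265625)*X^4*Y + (61796086784/3796875)*X^5) +
      U^2*V^4*((537579328/15625)*Y^5 + (7420576576/46875)*X*Y^4 + (1651539776/5625)*X^2*Y^3 +
      (12870910784/46875)*X^3*Y^2 + (163957323904/1265625)*X^4*Y + (93682173056/3796875)*X^5) +
      U^3*V^3*((469132064/15625)*Y^5 + (2102817056/15625)*X*Y^4 + (6846176416/28125)*X^2*Y^3 +
      (31279210976/140625)*X^3*Y^2 + (130127661632/1265625)*X^4*Y + (24363977216/1265625)*X^5) +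
      U^4*V^2*((224942142/15625)*Y^5 + (2941781054/46875)*X*Y^4 + (3109155394/28125)*X^2*Y^3 +
      (13870864718/140625)*X^3*Y^2 + (56567573056/1265625)*X^4*Y + (31301375104/3796875)*X^5) +
      U^5*V*((56587932/15625)*Y^5 + (718792642/46875)*X*Y^4 + (147863834/5625)*X^2*Y^3 +
      (3222433874/140625)*X^3*Y^2 + (12914464658/1265625)*X^4*Y + (282964732/151875)*X^5) +
      U^6*((5874238/15625)*Y^5 + (72449764/46875)*X*Y^4 + (725826407/281250)*X^2*Y^3 +
      (1859951671/843750)*X^3*Y^2 + (2455913281/2531250)*X^4*Y + (1343380693/7593750)*X^5) := by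
  positivity

lemma stM_aux_6_1 {X Y U V : ℝ} (hX : 0 ≤ X) (hY : 0 ≤ Y) (hU : 0 ≤ U) (hV : 0 ≤ V) :
    0 ≤ V^6*((5874238/15625)*Y^5 + (72449764/46875)*X*Y^4 + (725826407/281250)*X^2*Y^3 +
      (1859951671/843750)*X^3*Y^2 + (2455913281/2531250)*X^4*Y + (1343380693/7593750)*X^5) +
      U*V^5*((13902924/15625)*Y^5 + (150604526/46875)*X*Y^4 + (658362592/140625)*X^2*Y^3 +
      (165823156/46875)*X^3*Y^2 + (1821015028/1265625)*X^4*Y + (986165858/3796875)*X^5) +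
      U^2*V^4*((11517102/15625)*Y^5 + (100840474/46875)*X*Y^4 + (23640712/9375)*X^2*Y^3 +
      (246042688/140625)*X^3*Y^2 + (1100324906/1265625)*X^4*Y + (95734766/421875)*X^5) +
      U^3*V^3*((6765872/15625)*Y^5 + (66053824/46875)*X*Y^4 + (67522448/28125)*X^2*Y^3 +
      (1167189104/421875)*X^3*Y^2 + (256377664/140625)*X^4*Y + (22528304/46875)*X^5) +
      U^4*V^2*((4180912/15625)*Y^5 + (57146864/46875)*X*Y^4 + (74670008/28125)*X^2*Y^3 +
      (49064072/15625)*X^3*Y^2 + (29204056/15625)*X^4*Y + (6748168/15625)*X^5) +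
      U^5*V*((1566464/15625)*Y^5 + (4732448/9375)*X*Y^4 + (17142336/15625)*X^2*Y^3 +
      (18896768/15625)*X^3*Y^2 + (10171328/15625)*X^4*Y + (418528/3125)*X^5) +
      U^6*((202208/15625)*Y^5 + (999136/15625)*X*Y^4 + (2024512/15625)*X^2*Y^3 +
      (79936/625)*X^3*Y^2 + (921568/15625)*X^4*Y + (150112/15625)*X^5) := by
  positivity

lemma stM_6 {q : ℝ} (hq : 0 < q) (h0 : 3 ≤ q) (h1 : q ≤ (7/2)) :
    LinM q 1 (1 / 2) ((1769/2000) + (-23/200) * q) (2 * (((151/400) + (-53/500) * q) - ((1769/2000) + (-23/200) * q))) := by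
  refine linM_of_poly hq (fun b hb0 hb1 hb2 => steep_dom hq.le (by linarith) hb0 hb1) ?_
  intro b hb0 hb1 _
  have hX : 0 ≤ q - 3 := by linarith
  have hY : 0 ≤ (7/2) - q := by linarith
  rcases le_total b (1/4) with hs0 | hs0
  · have key := stM_aux_6_0 hX hY (U := b - 0) (V := (1/4) - b) (by linarith) (by linarith)
    refine sub_nonneg.1 (key.trans (le_of_eq ?_))
    ring
  have key := stM_aux_6_1 hX hY (U := b - (1/4)) (V := (1/2) - b) (by linarith) (by linarith)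
  refine sub_nonneg.1 (key.trans (le_of_eq ?_))
  ring

lemma stM_aux_7_0 {X Y U V : ℝ} (hX : 0 ≤ X) (hY : 0 ≤ Y) (hU : 0 ≤ U) (hV : 0 ≤ V) :
    0 ≤ V^6*((16197013504/3796875)*Y^5 + (122612445184/3796875)*X*Y^4 +
      (320290458112/3796875)*X^2*Y^3 + (387058499072/3796875)*X^3*Y^2 +
      (222712692224/3796875)*X^4*Y + (49529199104/3796875)*X^5) +
      U*V^5*((61796086784/3796875)*Y^5 + (459145989632/3796875)*X*Y^4 +
      (1188615531008/3796875)*X^2*Y^3 + (1428287375872/3796875)*X^3*Y^2 +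
      (818347222528/3796875)*X^4*Y + (181325326336/3796875)*X^5) +
      U^2*V^4*((93682173056/3796875)*Y^5 + (689714164352/3796875)*X*Y^4 +
      (1778045561024/3796875)*X^2*Y^3 + (426221059904/759375)*X^3*Y^2 +
      (1218562012096/3796875)*X^4*Y + (269469834304/3796875)*X^5) +
      U^3*V^3*((24363977216/1265625)*Y^5 + (59501938624/421875)*X*Y^4 +
      (459557729824/1265625)*X^2*Y^3 + (22024505056/50625)*X^3*Y^2 + (104925226912/421875)*X^4*Y +
      (69578705504/1265625)*X^5) + U^4*V^2*((31301375104/3796875)*Y^5 +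
      (227971656448/3796875)*X*Y^4 + (586539833866/3796875)*X^2*Y^3 +
      (28136192558/151875)*X^3*Y^2 + (402618226574/3796875)*X^4*Y + (89082315146/3796875)*X^5) +
      U^5*V*((282964732/151875)*Y^5 + (50787154582/3796875)*X*Y^4 +
      (130300567132/3796875)*X^2*Y^3 + (156409831904/3796875)*X^3*Y^2 +
      (17943235348/759375)*X^4*Y + (19893563186/3796875)*X^5) + U^6*((1343380693/7593750)*Y^5 +
      (9335216557/7593750)*X*Y^4 + (2372777191/759375)*X^2*Y^3 + (14227286659/3796875)*X^3*Y^2 +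
      (16356668669/7593750)*X^4*Y + (3637906397/7593750)*X^5) := by
  positivity

lemma stM_aux_7_1 {X Y U V : ℝ} (hX : 0 ≤ X) (hY : 0 ≤ Y) (hU : 0 ≤ U) (hV : 0 ≤ V) :
    0 ≤ V^6*((42988182176/3796875)*Y^5 + (298726929824/3796875)*X*Y^4 +
      (151857740224/759375)*X^2*Y^3 + (910546346176/3796875)*X^3*Y^2 +
      (523413397408/3796875)*X^4*Y + (116413004704/3796875)*X^5) +
      U*V^5*((160521853984/3796875)*Y^5 + (1063353421792/3796875)*X*Y^4 +
      (2663980161856/3796875)*X^2*Y^3 + (3189802494656/3796875)*X^3*Y^2 +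
      (1839802920992/3796875)*X^4*Y + (411123020384/3796875)*X^5) +
      U^2*V^4*((253884758104/3796875)*Y^5 + (1540663285048/3796875)*X*Y^4 +
      (3738494892976/3796875)*X^2*Y^3 + (889411309936/759375)*X^3*Y^2 +
      (2575211370104/3796875)*X^4*Y + (579800786456/3796875)*X^5) +
      U^3*V^3*((15235578512/253125)*Y^5 + (79897060144/253125)*X*Y^4 +
      (60311500576/84375)*X^2*Y^3 + (42119446688/50625)*X^3*Y^2 + (122099365712/253125)*X^4*Y +
      (1028458384/9375)*X^5) + U^4*V^2*((5155339814/151875)*Y^5 + (22262224838/151875)*X*Y^4 +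
      (44256991076/151875)*X^2*Y^3 + (9725536532/30375)*X^3*Y^2 + (27889818214/151875)*X^4*Y +
      (6408940726/151875)*X^5) + U^5*V*((8667968794/759375)*Y^5 + (6214565726/151875)*X*Y^4 +
      (10207984868/151875)*X^2*Y^3 + (9907489372/151875)*X^3*Y^2 + (5433844834/151875)*X^4*Y +
      (6259697006/759375)*X^5) + U^6*((2611622113/1518750)*Y^5 + (1659433097/303750)*X*Y^4 +
      (1125575593/151875)*X^2*Y^3 + (896563217/151875)*X^3*Y^2 + (876010273/303750)*X^4*Y +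
      (982054937/1518750)*X^5) := by
  positivity

lemma stM_aux_7_2 {X Y U V : ℝ} (hX : 0 ≤ X) (hY : 0 ≤ Y) (hU : 0 ≤ U) (hV : 0 ≤ V) :
    0 ≤ V^6*((83571907616/759375)*Y^5 + (53101859104/151875)*X*Y^4 + (72036837952/151875)*X^2*Y^3 +
      (57380045888/151875)*X^3*Y^2 + (28032328736/151875)*X^4*Y + (31425757984/759375)*X^5) +
      U*V^5*((474772167136/759375)*Y^5 + (279050628704/151875)*X*Y^4 +
      (321676025792/151875)*X^2*Y^3 + (199380753088/151875)*X^3*Y^2 + (78407923936/151875)*X^4*Y +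
      (82521517664/759375)*X^5) + U^2*V^4*((46106662264/30375)*Y^5 + (656887567928/151875)*X*Y^4 +
      (689438769776/151875)*X^2*Y^3 + (2694576176/1215)*X^3*Y^2 + (88205426104/151875)*X^4*Y +
      (2840292344/30375)*X^5) + U^3*V^3*((503025152944/253125)*Y^5 + (479753256976/84375)*X*Y^4 +
      (1488204986336/253125)*X^2*Y^3 + (132383854816/50625)*X^3*Y^2 + (4392561872/9375)*X^4*Y +
      (8035778416/253125)*X^5) + U^4*V^2*((5551338816886/3796875)*Y^5 +
      (16251540828382/3796875)*X*Y^4 + (17378943562684/3796875)*X^2*Y^3 +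
      (1617084865324/759375)*X^3*Y^2 + (1476019918286/3796875)*X^4*Y +
      (62163479654/3796875)*X^5) + U^5*V*((431408275646/759375)*Y^5 +
      (6502028419702/3796875)*X*Y^4 + (1461510191084/759375)*X^2*Y^3 +
      (3723599620748/3796875)*X^3*Y^2 + (822679290494/3796875)*X^4*Y +
      (58666075454/3796875)*X^5) + U^6*((137455394153/1518750)*Y^5 +
      (426171791789/1518750)*X*Y^4 + (1255843090721/3796875)*X^2*Y^3 +
      (695692347553/3796875)*X^3*Y^2 + (359163963041/7593750)*X^4*Y + (34853646317/7593750)*X^5) := by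
  positivity

lemma stM_aux_7_3 {X Y U V : ℝ} (hX : 0 ≤ X) (hY : 0 ≤ Y) (hU : 0 ≤ U) (hV : 0 ≤ V) :
    0 ≤ V^6*((137455394153/1518750)*Y^5 + (426171791789/1518750)*X*Y^4 +
      (1255843090721/3796875)*X^2*Y^3 + (695692347553/3796875)*X^3*Y^2 +
      (359163963041/7593750)*X^4*Y + (34853646317/7593750)*X^5) +
      U*V^5*((393324089272/759375)*Y^5 + (6283125333968/3796875)*X*Y^4 +
      (7762566133232/3796875)*X^2*Y^3 + (4624708549888/3796875)*X^3*Y^2 +
      (1332304487752/3796875)*X^4*Y + (150455802448/3796875)*X^5) +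
      U^2*V^4*((511026017504/421875)*Y^5 + (5052341799904/1265625)*X*Y^4 +
      (6551339817248/1265625)*X^2*Y^3 + (93266436832/28125)*X^3*Y^2 +
      (1341381968192/1265625)*X^4*Y + (173704038208/1265625)*X^5) +
      U^3*V^3*((68714021888/46875)*Y^5 + (696704073728/140625)*X*Y^4 +
      (2815703333888/421875)*X^2*Y^3 + (42275052544/9375)*X^3*Y^2 + (216856193024/140625)*X^4*Y +
      (90935538688/421875)*X^5) + U^4*V^2*((14951139328/15625)*Y^5 + (51302844416/15625)*X*Y^4 +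
      (70742515712/15625)*X^2*Y^3 + (88712544256/28125)*X^3*Y^2 + (157074839552/140625)*X^4*Y +
      (22699685888/140625)*X^5) + U^5*V*((4909727744/15625)*Y^5 + (16852779008/15625)*X*Y^4 +
      (4665901056/3125)*X^2*Y^3 + (16340549632/15625)*X^3*Y^2 + (17413931008/46875)*X^4*Y +
      (501219328/9375)*X^5) + U^6*((614858752/15625)*Y^5 + (2056912896/15625)*X*Y^4 +
      (2764701696/15625)*X^2*Y^3 + (1865285632/15625)*X^3*Y^2 + (25165824/625)*X^4*Y +
      (16777216/3125)*X^5) := by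
  positivity

lemma stM_7 {q : ℝ} (hq : 0 < q) (h0 : (7/2) ≤ q) (h1 : q ≤ 4) :
    LinM q 1 (1 / 2) ((603/400) + (-293/1000) * q) (2 * (((13/250) + (-13/1000) * q) - ((603/400) + (-293/1000) * q))) := by
  refine linM_of_poly hq (fun b hb0 hb1 hb2 => steep_dom hq.le (by linarith) hb0 hb1) ?_
  intro b hb0 hb1 _
  have hX : 0 ≤ q - (7/2) := by linarith
  have hY : 0 ≤ 4 - q := by linarith
  rcases le_total b (1/4) with hs0 | hs0
  · have key := stM_aux_7_0 hX hY (U := b - 0) (V := (1/4) - b) (by linarith) (by linarith)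
    refine sub_nonneg.1 (key.trans (le_of_eq ?_))
    ring
  rcases le_total b (3/8) with hs1 | hs1
  · have key := stM_aux_7_1 hX hY (U := b - (1/4)) (V := (3/8) - b) (by linarith) (by linarith)
    refine sub_nonneg.1 (key.trans (le_of_eq ?_))
    ring
  rcases le_total b (7/16) with hs2 | hs2
  · have key := stM_aux_7_2 hX hY (U := b - (3/8)) (V := (7/16) - b) (by linarith) (by linarith)
    refine sub_nonneg.1 (key.trans (le_of_eq ?_))
    ring
  have key := stM_aux_7_3 hX hY (U := b - (7/16)) (V := (1/2) - b) (by linarith) (by linarith)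
  refine sub_nonneg.1 (key.trans (le_of_eq ?_))
  ring

lemma stP_aux_0_0 {X Y U V : ℝ} (hX : 0 ≤ X) (hY : 0 ≤ Y) (hU : 0 ≤ U) (hV : 0 ≤ V) :
    0 ≤ V^7*((127936/15625)*Y^5 + (1183744/46875)*X*Y^4 + (5264752/140625)*X^2*Y^3 +
      (17363312/421875)*X^3*Y^2 + (7618768/253125)*X^4*Y + (7072912/759375)*X^5) +
      U*V^6*((4763552/15625)*Y^5 + (6962784/3125)*X*Y^4 + (833199352/140625)*X^2*Y^3 +
      (3139978168/421875)*X^3*Y^2 + (1898082008/421875)*X^4*Y + (803414248/759375)*X^5) +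
      U^2*V^5*((12717296/15625)*Y^5 + (296421056/46875)*X*Y^4 + (806564552/46875)*X^2*Y^3 +
      (367482232/16875)*X^3*Y^2 + (16654671256/1265625)*X^4*Y + (3897470104/1265625)*X^5) +
      U^3*V^4*((2897928/3125)*Y^5 + (67714984/9375)*X*Y^4 + (554353972/28125)*X^2*Y^3 +
      (2108841172/84375)*X^3*Y^2 + (255033548/16875)*X^4*Y + (33132916/9375)*X^5) +
      U^4*V^3*((1763012/3125)*Y^5 + (12974144/3125)*X*Y^4 + (313797463/28125)*X^2*Y^3 +
      (397307693/28125)*X^3*Y^2 + (26779849/3125)*X^4*Y + (6289727/3125)*X^5) +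
      U^5*V^2*((3002878/15625)*Y^5 + (57444862/46875)*X*Y^4 + (295182569/93750)*X^2*Y^3 +
      (124020681/31250)*X^3*Y^2 + (15213129/6250)*X^4*Y + (3629539/6250)*X^5) +
      U^6*V*((541421/15625)*Y^5 + (506332/3125)*X*Y^4 + (5712564/15625)*X^2*Y^3 +
      (7131942/15625)*X^3*Y^2 + (4555227/15625)*X^4*Y + (229092/3125)*X^5) +
      U^7*((80511/31250)*Y^5 + (161577/31250)*X*Y^4 + (119709/31250)*X^2*Y^3 +
      (5391/1250)*X^3*Y^2 + (78588/15625)*X^4*Y + (30492/15625)*X^5) := by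
  positivity

lemma stP_0 {q : ℝ} (hq : 0 < q) (h0 : 0 ≤ q) (h1 : q ≤ (1/2)) :
    LinP q 1 (1 / 2) ((999/1000) + (-163/1000) * q) (2 * (((2433/2000) + (-567/1000) * q) - ((999/1000) + (-163/1000) * q))) := by
  refine linP_of_poly hq (fun b hb0 hb1 hb2 => steep_dom hq.le (by linarith) hb0 hb1) ?_
  intro b hb0 hb1 _
  have hX : 0 ≤ q - 0 := by linarith
  have hY : 0 ≤ (1/2) - q := by linarith
  have key := stP_aux_0_0 hX hY (U := b - 0) (V := (1/2) - b) (by linarith) (by linarith)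
  refine sub_nonneg.1 (key.trans (le_of_eq ?_))
  ring

lemma stP_aux_1_0 {X Y U V : ℝ} (hX : 0 ≤ X) (hY : 0 ≤ Y) (hU : 0 ≤ U) (hV : 0 ≤ V) :
    0 ≤ V^7*((7072912/759375)*Y^5 + (22188688/759375)*X*Y^4 + (154009952/3796875)*X^2*Y^3 +
      (144632416/3796875)*X^3*Y^2 + (94278736/3796875)*X^4*Y + (28076752/3796875)*X^5) +
      U*V^6*((803414248/759375)*Y^5 + (21394933064/3796875)*X*Y^4 +
      (45680178416/3796875)*X^2*Y^3 + (48798961264/3796875)*X^3*Y^2 +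
      (26052595336/3796875)*X^4*Y + (5555944264/3796875)*X^5) +
      U^2*V^5*((3897470104/1265625)*Y^5 + (275318632/16875)*X*Y^4 + (8757050704/253125)*X^2*Y^3 +
      (74224016/2025)*X^3*Y^2 + (60576664/3125)*X^4*Y + (5177356024/1265625)*X^5) +
      U^3*V^4*((33132916/9375)*Y^5 + (1556874068/84375)*X*Y^4 + (3263642264/84375)*X^2*Y^3 +
      (1142020808/28125)*X^3*Y^2 + (1797857908/84375)*X^4*Y + (376758484/84375)*X^5) +
      U^4*V^3*((6289727/3125)*Y^5 + (32075407/3125)*X*Y^4 + (595863938/28125)*X^2*Y^3 +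
      (619684466/28125)*X^3*Y^2 + (64702531/5625)*X^4*Y + (22540109/9375)*X^5) +
      U^5*V^2*((3629539/6250)*Y^5 + (17772427/6250)*X*Y^4 + (89611537/15625)*X^2*Y^3 +
      (277086443/46875)*X^3*Y^2 + (96535567/31250)*X^4*Y + (60957797/93750)*X^5) +
      U^6*V*((229092/3125)*Y^5 + (5099514/15625)*X*Y^4 + (9783036/15625)*X^2*Y^3 +
      (10013124/15625)*X^3*Y^2 + (5356646/15625)*X^4*Y + (1172354/15625)*X^5) +
      U^7*((30492/15625)*Y^5 + (12798/3125)*X*Y^4 + (10908/3125)*X^2*Y^3 + (2412/625)*X^3*Y^2 +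
      (12366/3125)*X^4*Y + (22542/15625)*X^5) := by
  positivity

lemma stP_1 {q : ℝ} (hq : 0 < q) (h0 : (1/2) ≤ q) (h1 : q ≤ 1) :
    LinP q 1 (1 / 2) ((1989/2000) + (-77/500) * q) (2 * (((1173/1000) + (-12/25) * q) - ((1989/2000) + (-77/500) * q))) := by
  refine linP_of_poly hq (fun b hb0 hb1 hb2 => steep_dom hq.le (by linarith) hb0 hb1) ?_
  intro b hb0 hb1 _
  have hX : 0 ≤ q - (1/2) := by linarith
  have hY : 0 ≤ 1 - q := by linarith
  have key := stP_aux_1_0 hX hY (U := b - 0) (V := (1/2) - b) (by linarith) (by linarith)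
  refine sub_nonneg.1 (key.trans (le_of_eq ?_))
  ring

lemma stP_aux_2_0 {X Y U V : ℝ} (hX : 0 ≤ X) (hY : 0 ≤ Y) (hU : 0 ≤ U) (hV : 0 ≤ V) :
    0 ≤ V^7*((28076752/3796875)*Y^5 + (3518096/140625)*X*Y^4 + (640592/15625)*X^2*Y^3 +
      (711152/15625)*X^3*Y^2 + (486784/15625)*X^4*Y + (140864/15625)*X^5) +
      U*V^6*((5555944264/3796875)*Y^5 + (1875386312/253125)*X*Y^4 + (706816024/46875)*X^2*Y^3 +
      (240705944/15625)*X^3*Y^2 + (123337664/15625)*X^4*Y + (25336416/15625)*X^5) +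
      U^2*V^5*((5177356024/1265625)*Y^5 + (25913090056/1265625)*X*Y^4 +
      (3473879384/84375)*X^2*Y^3 + (649094264/15625)*X^3*Y^2 + (328336832/15625)*X^4*Y +
      (66556736/15625)*X^5) + U^3*V^4*((376758484/84375)*Y^5 + (206038732/9375)*X*Y^4 +
      (3674462684/84375)*X^2*Y^3 + (1219954588/28125)*X^3*Y^2 + (67780704/3125)*X^4*Y +
      (13595792/3125)*X^5) + U^4*V^3*((22540109/9375)*Y^5 + (325489753/28125)*X*Y^4 +
      (633905341/28125)*X^2*Y^3 + (24931903/1125)*X^3*Y^2 + (102930568/9375)*X^4*Y +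
      (6836596/3125)*X^5) + U^5*V^2*((60957797/93750)*Y^5 + (283771547/93750)*X*Y^4 +
      (180134317/31250)*X^2*Y^3 + (524944741/93750)*X^3*Y^2 + (129553316/46875)*X^4*Y +
      (8624862/15625)*X^5) + U^6*V*((1172354/15625)*Y^5 + (1016566/3125)*X*Y^4 +
      (9293254/15625)*X^2*Y^3 + (8946322/15625)*X^3*Y^2 + (4490432/15625)*X^4*Y +
      (926738/15625)*X^5) + U^7*((22542/15625)*Y^5 + (49938/15625)*X*Y^4 + (9746/3125)*X^2*Y^3 +
      (52782/15625)*X^3*Y^2 + (47616/15625)*X^4*Y + (16138/15625)*X^5) := by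
  positivity

lemma stP_2 {q : ℝ} (hq : 0 < q) (h0 : 1 ≤ q) (h1 : q ≤ (3/2)) :
    LinP q 1 (1 / 2) ((79/80) + (-147/1000) * q) (2 * (((1091/1000) + (-199/500) * q) - ((79/80) + (-147/1000) * q))) := by
  refine linP_of_poly hq (fun b hb0 hb1 hb2 => steep_dom hq.le (by linarith) hb0 hb1) ?_
  intro b hb0 hb1 _
  have hX : 0 ≤ q - 1 := by linarith
  have hY : 0 ≤ (3/2) - q := by linarith
  have key := stP_aux_2_0 hX hY (U := b - 0) (V := (1/2) - b) (by linarith) (by linarith)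
  refine sub_nonneg.1 (key.trans (le_of_eq ?_))
  ring

lemma stP_aux_3_0 {X Y U V : ℝ} (hX : 0 ≤ X) (hY : 0 ≤ Y) (hU : 0 ≤ U) (hV : 0 ≤ V) :
    0 ≤ V^7*((140864/15625)*Y^5 + (480064/15625)*X*Y^4 + (725312/15625)*X^2*Y^3 +
      (684992/15625)*X^3*Y^2 + (3693056/140625)*X^4*Y + (27084032/3796875)*X^5) +
      U*V^6*((25336416/15625)*Y^5 + (124857696/15625)*X*Y^4 + (247343328/15625)*X^2*Y^3 +
      (738295904/46875)*X^3*Y^2 + (9956451136/1265625)*X^4*Y + (5988136448/3796875)*X^5) +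
      U^2*V^5*((66556736/15625)*Y^5 + (323530816/15625)*X*Y^4 + (631995248/15625)*X^2*Y^3 +
      (16736932016/421875)*X^3*Y^2 + (24716212336/1265625)*X^4*Y + (4882121776/1265625)*X^5) +
      U^3*V^4*((13595792/3125)*Y^5 + (64817392/3125)*X*Y^4 + (1119399784/28125)*X^2*Y^3 +
      (3240562792/84375)*X^3*Y^2 + (1571504344/84375)*X^4*Y + (102052088/28125)*X^5) +
      U^4*V^3*((6836596/3125)*Y^5 + (95384588/9375)*X*Y^4 + (537778012/28125)*X^2*Y^3 +
      (510235892/28125)*X^3*Y^2 + (81385928/9375)*X^4*Y + (5230536/3125)*X^5) +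
      U^5*V^2*((8624862/15625)*Y^5 + (116211706/46875)*X*Y^4 + (212857798/46875)*X^2*Y^3 +
      (66230206/15625)*X^3*Y^2 + (31447112/15625)*X^4*Y + (6056812/15625)*X^5) +
      U^6*V*((926738/15625)*Y^5 + (3889178/15625)*X*Y^4 + (6832329/15625)*X^2*Y^3 +
      (6299799/15625)*X^3*Y^2 + (3032883/15625)*X^4*Y + (602823/15625)*X^5) +
      U^7*((16138/15625)*Y^5 + (37688/15625)*X*Y^4 + (81503/31250)*X^2*Y^3 +
      (85613/31250)*X^3*Y^2 + (68941/31250)*X^4*Y + (21671/31250)*X^5) := by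
  positivity

lemma stP_3 {q : ℝ} (hq : 0 < q) (h0 : (3/2) ≤ q) (h1 : q ≤ 2) :
    LinP q 1 (1 / 2) ((487/500) + (-69/500) * q) (2 * (((1951/2000) + (-321/1000) * q) - ((487/500) + (-69/500) * q))) := by
  refine linP_of_poly hq (fun b hb0 hb1 hb2 => steep_dom hq.le (by linarith) hb0 hb1) ?_
  intro b hb0 hb1 _
  have hX : 0 ≤ q - (3/2) := by linarith
  have hY : 0 ≤ 2 - q := by linarith
  have key := stP_aux_3_0 hX hY (U := b - 0) (V := (1/2) - b) (by linarith) (by linarith)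
  refine sub_nonneg.1 (key.trans (le_of_eq ?_))
  ring

lemma stP_aux_4_0 {X Y U V : ℝ} (hX : 0 ≤ X) (hY : 0 ≤ Y) (hU : 0 ≤ U) (hV : 0 ≤ V) :
    0 ≤ V^7*((27084032/3796875)*Y^5 + (95140736/3796875)*X*Y^4 + (155487056/3796875)*X^2*Y^3 +
      (162130672/3796875)*X^3*Y^2 + (20605232/759375)*X^4*Y + (1133008/151875)*X^5) +
      U*V^6*((5988136448/3796875)*Y^5 + (29015011232/3796875)*X*Y^4 +
      (56492699528/3796875)*X^2*Y^3 + (55236115672/3796875)*X^3*Y^2 +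
      (27114231448/3796875)*X^4*Y + (1068786824/759375)*X^5) + U^2*V^5*((4882121776/1265625)*Y^5 +
      (516586816/28125)*X*Y^4 + (8893009336/253125)*X^2*Y^3 + (8540526856/253125)*X^3*Y^2 +
      (1372404008/84375)*X^4*Y + (3984178456/1265625)*X^5) + U^3*V^4*((102052088/28125)*Y^5 +
      (56906168/3375)*X*Y^4 + (2659111172/84375)*X^2*Y^3 + (92555428/3125)*X^3*Y^2 +
      (1180618276/84375)*X^4*Y + (224233516/84375)*X^5) + U^4*V^3*((5230536/3125)*Y^5 +
      (70707544/9375)*X*Y^4 + (385862639/28125)*X^2*Y^3 + (70866313/5625)*X^3*Y^2 +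
      (164240021/28125)*X^4*Y + (3413623/3125)*X^5) + U^5*V^2*((6056812/15625)*Y^5 +
      (26179106/15625)*X*Y^4 + (92170847/31250)*X^2*Y^3 + (248239327/93750)*X^3*Y^2 +
      (7576321/6250)*X^4*Y + (4236469/18750)*X^5) + U^6*V*((602823/15625)*Y^5 +
      (2417992/15625)*X*Y^4 + (4054488/15625)*X^2*Y^3 + (3581742/15625)*X^3*Y^2 +
      (1664373/15625)*X^4*Y + (12872/625)*X^5) + U^7*((21671/31250)*Y^5 + (10611/6250)*X*Y^4 +
      (6261/3125)*X^2*Y^3 + (6461/3125)*X^3*Y^2 + (9411/6250)*X^4*Y + (13611/31250)*X^5) := by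
  positivity

lemma stP_4 {q : ℝ} (hq : 0 < q) (h0 : 2 ≤ q) (h1 : q ≤ (5/2)) :
    LinP q 1 (1 / 2) ((24/25) + (-131/1000) * q) (2 * (((1667/2000) + (-1/4) * q) - ((24/25) + (-131/1000) * q))) := by
  refine linP_of_poly hq (fun b hb0 hb1 hb2 => steep_dom hq.le (by linarith) hb0 hb1) ?_
  intro b hb0 hb1 _
  have hX : 0 ≤ q - 2 := by linarith
  have hY : 0 ≤ (5/2) - q := by linarith
  have key := stP_aux_4_0 hX hY (U := b - 0) (V := (1/2) - b) (by linarith) (by linarith)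
  refine sub_nonneg.1 (key.trans (le_of_eq ?_))
  ring

lemma stP_aux_5_0 {X Y U V : ℝ} (hX : 0 ≤ X) (hY : 0 ≤ Y) (hU : 0 ≤ U) (hV : 0 ≤ V) :
    0 ≤ V^7*((1133008/151875)*Y^5 + (6768848/253125)*X*Y^4 + (18228592/421875)*X^2*Y^3 +
      (6008432/140625)*X^3*Y^2 + (1195904/46875)*X^4*Y + (104896/15625)*X^5) +
      U*V^6*((1068786824/759375)*Y^5 + (8490963752/1265625)*X*Y^4 + (1806195208/140625)*X^2*Y^3 +
      (1736052056/140625)*X^3*Y^2 + (11169184/1875)*X^4*Y + (18034976/15625)*X^5) +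
      U^2*V^5*((3984178456/1265625)*Y^5 + (18574733464/1265625)*X*Y^4 + (257511448/9375)*X^2*Y^3 +
      (403133336/15625)*X^3*Y^2 + (570161984/46875)*X^4*Y + (35975984/15625)*X^5) +
      U^3*V^4*((224233516/84375)*Y^5 + (337195292/28125)*X*Y^4 + (366675676/16875)*X^2*Y^3 +
      (556486348/28125)*X^3*Y^2 + (84897208/9375)*X^4*Y + (5208904/3125)*X^5) +
      U^4*V^3*((3413623/3125)*Y^5 + (26578301/5625)*X*Y^4 + (231675661/28125)*X^2*Y^3 +
      (203822023/28125)*X^3*Y^2 + (30205016/9375)*X^4*Y + (1811012/3125)*X^5) +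
      U^5*V^2*((4236469/18750)*Y^5 + (17331007/18750)*X*Y^4 + (48075701/31250)*X^2*Y^3 +
      (122734549/93750)*X^3*Y^2 + (26798102/46875)*X^4*Y + (1602358/15625)*X^5) +
      U^6*V*((12872/625)*Y^5 + (1202451/15625)*X*Y^4 + (1883446/15625)*X^2*Y^3 +
      (1576132/15625)*X^3*Y^2 + (141696/3125)*X^4*Y + (134993/15625)*X^5) +
      U^7*((13611/31250)*Y^5 + (35679/31250)*X*Y^4 + (4701/3125)*X^2*Y^3 + (24033/15625)*X^3*Y^2 +
      (31263/31250)*X^4*Y + (8079/31250)*X^5) := by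
  positivity

lemma stP_5 {q : ℝ} (hq : 0 < q) (h0 : (5/2) ≤ q) (h1 : q ≤ 3) :
    LinP q 1 (1 / 2) ((47/50) + (-123/1000) * q) (2 * (((1347/2000) + (-93/500) * q) - ((47/50) + (-123/1000) * q))) := by
  refine linP_of_poly hq (fun b hb0 hb1 hb2 => steep_dom hq.le (by linarith) hb0 hb1) ?_
  intro b hb0 hb1 _
  have hX : 0 ≤ q - (5/2) := by linarith
  have hY : 0 ≤ 3 - q := by linarith
  have key := stP_aux_5_0 hX hY (U := b - 0) (V := (1/2) - b) (by linarith) (by linarith)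
  refine sub_nonneg.1 (key.trans (le_of_eq ?_))
  ring

lemma stP_aux_6_0 {X Y U V : ℝ} (hX : 0 ≤ X) (hY : 0 ≤ Y) (hU : 0 ≤ U) (hV : 0 ≤ V) :
    0 ≤ V^7*((104896/15625)*Y^5 + (214784/9375)*X*Y^4 + (192752/5625)*X^2*Y^3 +
      (2657968/84375)*X^3*Y^2 + (4631504/253125)*X^4*Y + (18473168/3796875)*X^5) +
      U*V^6*((18034976/15625)*Y^5 + (252981344/46875)*X*Y^4 + (1424141048/140625)*X^2*Y^3 +
      (1340882792/140625)*X^3*Y^2 + (5702125832/1265625)*X^4*Y + (3245354312/3796875)*X^5) +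
      U^2*V^5*((35975984/15625)*Y^5 + (489002272/46875)*X*Y^4 + (887861576/46875)*X^2*Y^3 +
      (807801016/46875)*X^3*Y^2 + (9947261464/1265625)*X^4*Y + (1819880824/1265625)*X^5) +
      U^3*V^4*((5208904/3125)*Y^5 + (67173608/9375)*X*Y^4 + (346392628/28125)*X^2*Y^3 +
      (7148132/675)*X^3*Y^2 + (384655996/84375)*X^4*Y + (22131292/28125)*X^5) +
      U^4*V^3*((1811012/3125)*Y^5 + (21754912/9375)*X*Y^4 + (104363191/28125)*X^2*Y^3 +
      (83583437/28125)*X^3*Y^2 + (2245487/1875)*X^4*Y + (610639/3125)*X^5) +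
      U^5*V^2*((1602358/15625)*Y^5 + (3506594/9375)*X*Y^4 + (410653/750)*X^2*Y^3 +
      (2552101/6250)*X^3*Y^2 + (198021/1250)*X^4*Y + (815991/31250)*X^5) +
      U^6*V*((134993/15625)*Y^5 + (435934/15625)*X*Y^4 + (586556/15625)*X^2*Y^3 +
      (437994/15625)*X^3*Y^2 + (190091/15625)*X^4*Y + (37562/15625)*X^5) + U^7*((8079/31250)*Y^5 +
      (22269/31250)*X*Y^4 + (30557/31250)*X^2*Y^3 + (29247/31250)*X^3*Y^2 + (8352/15625)*X^4*Y +
      (1882/15625)*X^5) := by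
  positivity

lemma stP_6 {q : ℝ} (hq : 0 < q) (h0 : 3 ≤ q) (h1 : q ≤ (7/2)) :
    LinP q 1 (1 / 2) ((229/250) + (-23/200) * q) (2 * (((993/2000) + (-127/1000) * q) - ((229/250) + (-23/200) * q))) := by
  refine linP_of_poly hq (fun b hb0 hb1 hb2 => steep_dom hq.le (by linarith) hb0 hb1) ?_
  intro b hb0 hb1 _
  have hX : 0 ≤ q - 3 := by linarith
  have hY : 0 ≤ (7/2) - q := by linarith
  have key := stP_aux_6_0 hX hY (U := b - 0) (V := (1/2) - b) (by linarith) (by linarith)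
  refine sub_nonneg.1 (key.trans (le_of_eq ?_))
  ring

lemma stP_aux_7_0 {X Y U V : ℝ} (hX : 0 ≤ X) (hY : 0 ≤ Y) (hU : 0 ≤ U) (hV : 0 ≤ V) :
    0 ≤ V^7*((18473168/3796875)*Y^5 + (97247408/151875)*X*Y^4 + (1796029744/759375)*X^2*Y^3 +
      (2506936208/759375)*X^3*Y^2 + (1552272896/759375)*X^4*Y + (1794119488/3796875)*X^5) +
      U*V^6*((3245354312/3796875)*Y^5 + (20972207384/3796875)*X*Y^4 +
      (50072452856/3796875)*X^2*Y^3 + (56812633384/3796875)*X^3*Y^2 +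
      (31070606176/3796875)*X^4*Y + (6603566176/3796875)*X^5) +
      U^2*V^5*((1819880824/1265625)*Y^5 + (3343565192/421875)*X*Y^4 +
      (4312310536/253125)*X^2*Y^3 + (22674152024/1265625)*X^3*Y^2 + (3895933664/421875)*X^4*Y +
      (2364377776/1265625)*X^5) + U^3*V^4*((22131292/28125)*Y^5 + (332213564/84375)*X*Y^4 +
      (662501012/84375)*X^2*Y^3 + (218511604/28125)*X^3*Y^2 + (320553064/84375)*X^4*Y +
      (61698136/84375)*X^5) + U^4*V^3*((610639/3125)*Y^5 + (1624111/1875)*X*Y^4 +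
      (44484317/28125)*X^2*Y^3 + (41491271/28125)*X^3*Y^2 + (19535696/28125)*X^4*Y +
      (1220716/9375)*X^5) + U^5*V^2*((815991/31250)*Y^5 + (593049/6250)*X*Y^4 +
      (948997/6250)*X^2*Y^3 + (2538677/18750)*X^3*Y^2 + (203526/3125)*X^4*Y +
      (598834/46875)*X^5) + U^6*V*((37562/15625)*Y^5 + (112339/15625)*X*Y^4 +
      (161406/15625)*X^2*Y^3 + (148304/15625)*X^3*Y^2 + (78186/15625)*X^4*Y + (16361/15625)*X^5) +
      U^7*((1882/15625)*Y^5 + (5268/15625)*X*Y^4 + (591/1250)*X^2*Y^3 + (13349/31250)*X^3*Y^2 +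
      (6597/31250)*X^4*Y + (1191/31250)*X^5) := by
  positivity

lemma stP_7 {q : ℝ} (hq : 0 < q) (h0 : (7/2) ≤ q) (h1 : q ≤ 4) :
    LinP q 1 (1 / 2) ((1931/1000) + (-81/200) * q) (2 * (((643/2000) + (-77/1000) * q) - ((1931/1000) + (-81/200) * q))) := by
  refine linP_of_poly hq (fun b hb0 hb1 hb2 => steep_dom hq.le (by linarith) hb0 hb1) ?_
  intro b hb0 hb1 _
  have hX : 0 ≤ q - (7/2) := by linarith
  have hY : 0 ≤ 4 - q := by linarith
  have key := stP_aux_7_0 hX hY (U := b - 0) (V := (1/2) - b) (by linarith) (by linarith)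
  refine sub_nonneg.1 (key.trans (le_of_eq ?_))
  ring

end Vale.Agent.P226
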