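import Vale.Agent.P226.CaseA
import Vale.Agent.P226.CaseB

/-!
# P226: no critical configuration with five cells
-/

open MeasureTheory ProbabilityTheory Finset
open scoped RealInnerProductSpace ENNReal BigOperators

namespace Vale.Agent.P226

variable {E : Type*} [NormedAddCommGroup E] [InnerProductSpace ℝ E] [FiniteDimensional ℝ E]
  [MeasurableSpace E] [BorelSpace E]
variable {ι : Type*} [Fintype ι] [DecidableEq ι] {z : ι → E}

theorem no_crit5 (hz : Crit z) (h5 : Fintype.card ι = 5) : False := by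
  obtain ⟨e, hmono⟩ := exists_sorted h5 z
  rcases le_or_gt (‖z (e 1)‖ ^ 2) (3 * ‖z (e 0)‖ ^ 2) with h31 | h31
  · rcases le_or_gt ⟪z (e 0), z (e 1)⟫ (-(41 / 100) * ‖z (e 0)‖ ^ 2) with hb | hb
    · exact hz.caseB h5 e hmono h31 hb
    · exact hz.caseA1 h5 e hmono hb
  · exact hz.caseA2 h5 e hmono h31.le

end Vale.Agent.P226
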