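import Vale.Agent.P226.Grow
import Vale.Agent.P226.Removal

/-!
# P226: the frame attached to a cell of a critical configuration; weak removal inequality
-/

open MeasureTheory ProbabilityTheory Finset Filter Topology
open scoped RealInnerProductSpace ENNReal BigOperators

namespace Vale.Agent.P226

set_option linter.unusedSectionVars false

variable {E : Type*} [NormedAddCommGroup E] [InnerProductSpace ℝ E] [FiniteDimensional ℝ E]
  [MeasurableSpace E] [BorelSpace E]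
variable {ι : Type*} [Fintype ι] [DecidableEq ι]

/-- the coefficients `b_i = -⟪z_i, z_0⟫ / |z_0|²` -/
noncomputable def bb (z : ι → E) (i0 : ι) (i : {i // i ≠ i0}) : ℝ :=
  -⟪z i, z i0⟫ / ‖z i0‖ ^ 2

/-- the vectors `v_i = P z_i / |z_0|`, `P` the projection off `z_0` -/
noncomputable def vv (z : ι → E) (i0 : ι) (i : {i // i ≠ i0}) : E :=
  ‖z i0‖⁻¹ • pj (un (z i0)) (z i)

variable {z : ι → E}

lemma sum_others (hz : Crit z) (i0 : ι) : ∑ i : {i // i ≠ i0}, z i = - z i0 := by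
  have h := hz.sum_zero
  rw [← Finset.add_sum_erase Finset.univ _ (Finset.mem_univ i0),
    Finset.sum_subtype (Finset.univ.erase i0) (p := fun l => l ≠ i0)
    (f := fun l : ι => z l) (by simp)] at h
  exact (neg_eq_of_add_eq_zero_right h).symm

lemma Crit.ne_zero (hz : Crit z) {i0 j : ι} (hj : j ≠ i0) : z i0 ≠ 0 := by
  intro h
  have := hz.inner_neg j i0 hj
  rw [h, inner_zero_right] at this
  exact lt_irrefl _ this

lemma bb_pos (hz : Crit z) {i0 : ι} (i : {i // i ≠ i0}) : 0 < bb z i0 i := by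
  have h0 : 0 < ‖z i0‖ := norm_pos_iff.2 (hz.ne_zero i.2)
  have h1 := hz.inner_neg i i0 i.2
  unfold bb
  apply div_pos (by linarith) (by positivity)

lemma bb_sum (hz : Crit z) (i0 : ι) (hne : Nonempty {i // i ≠ i0}) :
    ∑ i, bb z i0 i = 1 := by
  obtain ⟨j⟩ := hne
  have h0 : 0 < ‖z i0‖ := norm_pos_iff.2 (hz.ne_zero j.2)
  unfold bb
  rw [← Finset.sum_div, Finset.sum_neg_distrib, ← sum_inner, sum_others hz i0, inner_neg_left,
    real_inner_self_eq_norm_sq, neg_neg]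
  exact div_self (by positivity)

lemma inner_un_z {i0 : ι} (h0 : z i0 ≠ 0) (i : {i // i ≠ i0}) :
    ⟪z i, un (z i0)⟫ = -(‖z i0‖ * bb z i0 i) := by
  have hp : 0 < ‖z i0‖ := norm_pos_iff.2 h0
  unfold un bb
  rw [real_inner_smul_right]
  field_simp

lemma inner_vv {i0 : ι} (h0 : z i0 ≠ 0) (i l : {i // i ≠ i0}) :
    ⟪vv z i0 i, vv z i0 l⟫ = ⟪z i, z l⟫ / ‖z i0‖ ^ 2 - bb z i0 i * bb z i0 l := by
  have hp : 0 < ‖z i0‖ := norm_pos_iff.2 h0
  have hu := norm_un h0
  unfold vv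
  rw [real_inner_smul_left, real_inner_smul_right, inner_pj]
  have h1 : pj (un (z i0)) (pj (un (z i0)) (z i)) = pj (un (z i0)) (z i) := by
    conv_lhs => unfold pj
    have := inner_pj_self hu (z i)
    unfold pj at this
    rw [this]
    simp [pj]
  rw [h1]
  unfold pj
  rw [inner_sub_left, real_inner_smul_left, real_inner_comm (z i) (un (z i0)), inner_un_z h0 i,
    real_inner_comm (z l) (un (z i0)), inner_un_z h0 l]
  field_simp

lemma norm_vv_sq {i0 : ι} (h0 : z i0 ≠ 0) (i : {i // i ≠ i0}) :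
    ‖vv z i0 i‖ ^ 2 = ‖z i‖ ^ 2 / ‖z i0‖ ^ 2 - bb z i0 i ^ 2 := by
  rw [← real_inner_self_eq_norm_sq, inner_vv h0, real_inner_self_eq_norm_sq]
  ring

lemma Crit.frame (hz : Crit z) (i0 : ι) (h3 : 3 ≤ Fintype.card ι) : Frame (vv z i0) := by
  have hex : ∀ i : ι, i ≠ i0 → ∃ l, l ≠ i0 ∧ l ≠ i := by
    intro i hi
    by_contra h
    push Not at h
    have h1 : (Finset.univ : Finset ι) ⊆ {i0, i} := by
      intro l _
      by_cases hl : l = i0
      · simp [hl]
      · simp [h l hl]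
    have h2 := Finset.card_le_card h1
    have h4 : Finset.card ({i0, i} : Finset ι) ≤ 2 := Finset.card_le_two
    rw [Finset.card_univ] at h2
    omega
  have hne0 : z i0 ≠ 0 := by
    obtain ⟨i, hi⟩ : ∃ i, i ≠ i0 := by
      have : Nontrivial ι := Fintype.one_lt_card_iff_nontrivial.1 (by omega)
      exact exists_ne i0
    exact hz.ne_zero hi
  have hp : 0 < ‖z i0‖ := norm_pos_iff.2 hne0
  refine ⟨?_, ?_, ?_⟩
  · unfold vv
    rw [← Finset.smul_sum]
    have : ∑ i : {i // i ≠ i0}, pj (un (z i0)) (z i) =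
        pj (un (z i0)) (∑ i : {i // i ≠ i0}, z i) := by
      unfold pj
      rw [Finset.sum_sub_distrib, inner_sum, Finset.sum_smul]
    rw [this, sum_others hz i0]
    have h1 : pj (un (z i0)) (-z i0) = 0 := by
      unfold pj un
      rw [inner_neg_right, real_inner_smul_left, real_inner_self_eq_norm_sq, smul_smul]
      have : -(‖z i0‖⁻¹ * ‖z i0‖ ^ 2) * ‖z i0‖⁻¹ = -1 := by field_simp
      rw [this]
      simp
    rw [h1, smul_zero]
  · intro i l hil
    rw [inner_vv hne0]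
    have h1 := hz.inner_neg i l (fun h => hil (Subtype.ext h))
    have h2 : ⟪z i, z l⟫ / ‖z i0‖ ^ 2 ≤ 0 := div_nonpos_of_nonpos_of_nonneg h1.le (by positivity)
    have h4 := mul_pos (bb_pos hz i) (bb_pos hz l)
    linarith
  · intro i hi
    obtain ⟨l, hl0, hli⟩ := hex i i.2
    have h1 := inner_vv hne0 i ⟨l, hl0⟩
    rw [hi, inner_zero_left] at h1
    have h2 : ⟪z i, z l⟫ / ‖z i0‖ ^ 2 < 0 :=
      div_neg_of_neg_of_pos (hz.inner_neg i l (fun h => hli h.symm)) (by positivity)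
    have h4 := mul_pos (bb_pos hz i) (bb_pos hz ⟨l, hl0⟩)
    simp only at h1
    linarith

lemma inner_z_rec {i0 : ι} (h0 : z i0 ≠ 0) (i : {i // i ≠ i0}) (t : ℝ) (y : E) :
    ⟪z i, t • un (z i0) + pj (un (z i0)) y⟫ = ‖z i0‖ * (⟪vv z i0 i, y⟫ - bb z i0 i * t) := by
  have hp : 0 < ‖z i0‖ := norm_pos_iff.2 h0
  rw [inner_add_right, real_inner_smul_right, inner_un_z h0, inner_pj]
  unfold vv
  rw [real_inner_smul_left]
  field_simp
  ring

lemma inner_z0_rec {i0 : ι} (h0 : z i0 ≠ 0) (t : ℝ) (y : E) :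
    ⟪z i0, t • un (z i0) + pj (un (z i0)) y⟫ = ‖z i0‖ * t := by
  rw [inner_un (z i0) _ h0, inner_add_right, real_inner_smul_right, inner_pj_self (norm_un h0),
    real_inner_self_eq_norm_sq, norm_un h0]
  ring

/-- the cells `A ∩ g⁻¹ i` add up -/
lemma sum_mom_inter {κ : Type*} [Fintype κ] {A : Set E} (hA : MeasurableSet A) {g : E → κ}
    (hg : IsLab g) : ∑ i, mom (A ∩ g ⁻¹' {i}) = mom A := by
  classical
  refine ext_inner_left ℝ (fun w => ?_)
  rw [inner_sum, inner_mom]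
  have h1 : ∀ i, ⟪w, mom (A ∩ g ⁻¹' {i})⟫ =
      ∫ x, (A ∩ g ⁻¹' {i}).indicator (fun x => ⟪w, x⟫) x ∂(stdGaussian E) := by
    intro i
    rw [inner_mom, integral_indicator (hA.inter (hg i))]
  simp_rw [h1]
  rw [← integral_finsetSum _ (fun i _ => (integrable_inner w).indicator
      (hA.inter (hg i))), ← integral_indicator hA]
  congr 1
  ext x
  by_cases hx : x ∈ A
  · rw [Set.indicator_of_mem hx]
    have : ∀ i, (A ∩ g ⁻¹' {i}).indicator (fun x => ⟪w, x⟫) x
        = if g x = i then ⟪w, x⟫ else 0 := by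
      intro i
      by_cases h : g x = i
      · rw [if_pos h, Set.indicator_of_mem (Set.mem_inter hx h)]
      · rw [if_neg h, Set.indicator_of_notMem (fun h' => h h'.2)]
    simp_rw [this]
    rw [Finset.sum_ite_eq]
    simp
  · rw [Set.indicator_of_notMem hx]
    refine Finset.sum_eq_zero (fun i _ => ?_)
    rw [Set.indicator_of_notMem (fun h' => hx h'.1)]

lemma mom_cell2 (hz : Crit z) (i0 : ι) [Nonempty {i // i ≠ i0}] (i : {i // i ≠ i0}) :
    mom (cell z i0 ∩ am (fun i : {i // i ≠ i0} => z i) ⁻¹' {i}) = mom (cell2 z i0 i) := by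
  set z' : {i // i ≠ i0} → E := fun i => z i with hz'
  have hinj' : Function.Injective z' := fun i j hij => Subtype.ext (hz.inj hij)
  apply mom_congr
  unfold cell2
  refine Filter.EventuallyEq.rfl.inter ?_
  refine (cell_ae_eq_am hinj' i).trans ?_
  refine Filter.EventuallyEq.of_eq ?_
  ext x
  simp [cell, hz']

/-- **Weak removal inequality**: `(1 + 1/N) s_0 < 2 δ_0`. -/
theorem Crit.weak (hz : Crit z) (i0 : ι) [Nonempty {i // i ≠ i0}] :
    (1 + 1 / (Fintype.card {i // i ≠ i0} : ℝ)) * ‖z i0‖ ^ 2 < 2 * del z i0 := by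
  have : Nonempty ι := ⟨i0⟩
  have h1 := hz.removal2 i0
  have h2 := sum_mom_inter (measurableSet_cell z i0)
    (isLab_am (fun i : {i // i ≠ i0} => z i))
  simp_rw [mom_cell2 hz i0] at h2
  rw [hz.mom_eq i0] at h2
  have hN : (0 : ℝ) < Fintype.card {i // i ≠ i0} := by
    exact_mod_cast Fintype.card_pos
  have h3 : ‖z i0‖ ^ 2 ≤ (Fintype.card {i // i ≠ i0} : ℝ) *
      ∑ i : {i // i ≠ i0}, ‖mom (cell2 z i0 i)‖ ^ 2 := by
    have h4 : ‖z i0‖ ≤ ∑ i : {i // i ≠ i0}, ‖mom (cell2 z i0 i)‖ := by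
      rw [← h2]; exact norm_sum_le _ _
    have h5 : ‖z i0‖ ^ 2 ≤ (∑ i : {i // i ≠ i0}, ‖mom (cell2 z i0 i)‖) ^ 2 := by
      gcongr
    refine h5.trans ?_
    have := sq_sum_le_card_mul_sum_sq (s := (Finset.univ : Finset {i // i ≠ i0}))
      (f := fun i => ‖mom (cell2 z i0 i)‖)
    rwa [Finset.card_univ] at this
  have h6 : ‖z i0‖ ^ 2 / (Fintype.card {i // i ≠ i0} : ℝ) ≤
      ∑ i : {i // i ≠ i0}, ‖mom (cell2 z i0 i)‖ ^ 2 := by
    rw [div_le_iff₀ hN]; linarith
  have h7 : (1 + 1 / (Fintype.card {i // i ≠ i0} : ℝ)) * ‖z i0‖ ^ 2 =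
      ‖z i0‖ ^ 2 + ‖z i0‖ ^ 2 / (Fintype.card {i // i ≠ i0} : ℝ) := by ring
  rw [h7]
  linarith

end Vale.Agent.P226
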