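import Vale.Agent.P226.Growth

/-!
# P226: consequences of the growth theorem
-/

open MeasureTheory ProbabilityTheory Finset Filter Topology
open scoped RealInnerProductSpace ENNReal BigOperators

namespace Vale.Agent.P226

set_option linter.unusedSectionVars false

variable {E : Type*} [NormedAddCommGroup E] [InnerProductSpace ℝ E] [FiniteDimensional ℝ E]
  [MeasurableSpace E] [BorelSpace E]
variable {κ : Type*} [Fintype κ]

/-- Power form of the growth theorem, constant `h`. -/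
theorem Frame.grow {v : κ → E} (hv : Frame v) (x0 θ h : κ → ℝ) (hθ : ∀ i, 0 ≤ θ i) {τ : ℝ}
    (hτ : 0 ≤ τ) (hX0 : 0 < ∑ i, x0 i) (hΘ : 0 < ∑ i, θ i)
    (hh : ∀ i, HH (max (x0 i + τ * θ i) 0 / ‖v i‖) ≤ h i) :
    PiG v x0 * (∑ i, (x0 i + τ * θ i)) ^ ((∑ i, Real.sqrt (θ i / h i)) ^ 2 / (2 * ∑ i, θ i)) ≤
      PiG v (fun i => x0 i + τ * θ i) *
        (∑ i, x0 i) ^ ((∑ i, Real.sqrt (θ i / h i)) ^ 2 / (2 * ∑ i, θ i)) := by
  set S := ∑ i, Real.sqrt (θ i / h i) with hS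
  obtain ⟨X0, hX0d⟩ : ∃ X : ℝ, X = ∑ i, x0 i := ⟨_, rfl⟩
  obtain ⟨Θ, hΘd⟩ : ∃ X : ℝ, X = ∑ i, θ i := ⟨_, rfl⟩
  rw [← hX0d] at hX0 ⊢
  rw [← hΘd] at hΘ ⊢
  set e := S ^ 2 / (2 * Θ) with he
  have hsum : ∀ s : ℝ, ∑ i, (x0 i + s * θ i) = X0 + s * Θ := by
    intro s
    rw [Finset.sum_add_distrib, ← Finset.mul_sum, hX0d, hΘd]
  have hpos : ∀ s : ℝ, 0 ≤ s → 0 < X0 + s * Θ := fun s hs => by positivity
  have hder : ∀ s : ℝ, 0 ≤ s →
      HasDerivAt (fun s : ℝ => (X0 + s * Θ) ^ e) (Θ * e * (X0 + s * Θ) ^ (e - 1)) s := by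
    intro s hs
    have h1 : HasDerivAt (fun s : ℝ => X0 + s * Θ) Θ s := by
      simpa using ((hasDerivAt_id s).mul_const Θ).const_add X0
    exact h1.rpow_const (Or.inl (hpos s hs).ne')
  have key := hv.growth x0 θ hθ (τ0 := 0) (τ1 := τ) hτ
    (ω := fun s => (X0 + s * Θ) ^ e) (ω' := fun s => Θ * e * (X0 + s * Θ) ^ (e - 1))
    (fun s hs => (hder s hs.1).continuousAt.continuousWithinAt)
    (fun s hs => Real.rpow_pos_of_pos (hpos s hs.1) _)
    (fun s hs => hder s hs.1) (fun _ => h) ?_ ?_ ?_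
  · simp only [zero_mul, add_zero] at key
    rw [hsum τ]
    exact key
  · intro s hs i
    refine le_trans (HH_mono (by positivity) ?_) (hh i)
    gcongr
    · exact hθ i
    · exact hs.2.le
  · intro s hs
    rw [hsum]
    exact hpos s hs.1
  · intro s hs
    rw [hsum]
    have hp := hpos s hs.1
    refine le_of_eq ?_
    rw [Real.rpow_sub_one hp.ne', he, ← hS]
    clear_value S
    field_simp

/-- Lipschitz bound for `PiG` in all coordinates. -/
lemma Frame.abs_sub_le {v : κ → E} (hv : Frame v) (x x' : κ → ℝ) :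
    |PiG v x - PiG v x'| ≤ ∑ i, |x i - x' i| / ‖v i‖ := by
  have h1 : ∀ p q : κ → ℝ, PiG v p - PiG v q ≤ ∑ i, |p i - q i| / ‖v i‖ := by
    intro p q
    have h2 := hv.incr_le q (fun i => |p i - q i|) (fun i => abs_nonneg _)
    have h3 : PiG v p ≤ PiG v (fun i => q i + |p i - q i|) := by
      refine PiG_mono v (fun i => ?_)
      have := le_abs_self (p i - q i)
      linarith
    linarith
  rw [abs_le]
  constructor
  · have := h1 x' x
    simp_rw [abs_sub_comm (x' _) (x _)] at this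
    linarith
  · exact h1 x x'

lemma Frame.continuous_PiG {v : κ → E} (hv : Frame v) : Continuous (PiG v) := by
  rw [continuous_iff_continuousAt]
  intro x
  rw [Metric.continuousAt_iff]
  intro ε hε
  have hC : 0 ≤ ∑ i, 1 / ‖v i‖ := Finset.sum_nonneg (fun i _ => by positivity)
  refine ⟨ε / (∑ i, 1 / ‖v i‖ + 1), by positivity, fun {y} hy => ?_⟩
  rw [Real.dist_eq]
  have h1 := hv.abs_sub_le y x
  have h2 : ∑ i, |y i - x i| / ‖v i‖ ≤ dist y x * ∑ i, 1 / ‖v i‖ := by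
    rw [Finset.mul_sum]
    refine Finset.sum_le_sum (fun i _ => ?_)
    have h3 : |y i - x i| ≤ dist y x := by
      rw [← Real.dist_eq]; exact dist_le_pi_dist y x i
    have h4 : 0 ≤ 1 / ‖v i‖ := by positivity
    calc |y i - x i| / ‖v i‖ = |y i - x i| * (1 / ‖v i‖) := by ring
      _ ≤ dist y x * (1 / ‖v i‖) := by gcongr
  have h5 : dist y x * ∑ i, 1 / ‖v i‖ ≤ dist y x * (∑ i, 1 / ‖v i‖ + 1) := by
    gcongr
    linarith
  rw [lt_div_iff₀ (by positivity)] at hy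
  linarith

/-- `P(u ≤ x) = 0` if `∑ x < 0`. -/
lemma Frame.PiG_eq_zero {v : κ → E} (hv : Frame v) {x : κ → ℝ} (hx : ∑ i, x i < 0) :
    PiG v x = 0 := by
  unfold PiG
  have : {y : E | ∀ i, ⟪v i, y⟫ ≤ x i} = ∅ := by
    ext y
    simp only [Set.mem_ofPred_eq, Set.mem_empty_iff_false, iff_false, not_forall, not_le]
    by_contra h
    push Not at h
    have h1 : ∑ i, ⟪v i, y⟫ ≤ ∑ i, x i := Finset.sum_le_sum (fun i _ => h i)
    rw [← sum_inner, hv.sum_zero, inner_zero_left] at h1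
    linarith
  rw [this]
  simp

/-- `V/ω` is monotone. -/
theorem Frame.growV {v : κ → E} (hv : Frame v) (θ : κ → ℝ) (hθ : ∀ i, 0 ≤ θ i)
    (hΘ : 0 < ∑ i, θ i) {ω ω' : ℝ → ℝ} (hωpos : ∀ t, 0 < t → 0 < ω t)
    (hωd : ∀ t, 0 < t → HasDerivAt ω (ω' t) t)
    (hω : ∀ t, 0 < t → t * ω' t ≤
      ω t * ((∑ i, Real.sqrt (θ i / HH (t * θ i / ‖v i‖))) ^ 2 / (2 * ∑ i, θ i)))
    {s t : ℝ} (hs : 0 < s) (hst : s ≤ t) :
    PiG v (fun i => s * θ i) * ω t ≤ PiG v (fun i => t * θ i) * ω s := by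
  have key := hv.growth (fun _ => 0) θ hθ hst (ω := ω) (ω' := ω')
    (fun u hu => (hωd u (lt_of_lt_of_le hs hu.1)).continuousAt.continuousWithinAt)
    (fun u hu => hωpos u (lt_of_lt_of_le hs hu.1))
    (fun u hu => hωd u (lt_of_lt_of_le hs hu.1))
    (fun u i => HH (u * θ i / ‖v i‖)) ?_ ?_ ?_
  · simpa using key
  · intro u hu i
    have hu0 : 0 < u := lt_of_lt_of_le hs hu.1
    rw [zero_add, max_eq_left (mul_nonneg hu0.le (hθ i))]
  · intro u hu
    have hu0 : 0 < u := lt_of_lt_of_le hs hu.1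
    simp only [zero_add]
    rw [← Finset.mul_sum]
    positivity
  · intro u hu
    have hu0 : 0 < u := lt_of_lt_of_le hs hu.1
    simp only [zero_add]
    rw [← Finset.mul_sum]
    have h1 := hω u hu0
    have h2 : ω u * ((∑ i, Real.sqrt (θ i / HH (u * θ i / ‖v i‖))) ^ 2 /
        (2 * (u * ∑ i, θ i))) =
        (ω u * ((∑ i, Real.sqrt (θ i / HH (u * θ i / ‖v i‖))) ^ 2 / (2 * ∑ i, θ i))) / u := by
      generalize (∑ i, Real.sqrt (θ i / HH (u * θ i / ‖v i‖))) = W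
      field_simp
    rw [h2, le_div_iff₀ hu0]
    linarith

end Vale.Agent.P226
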