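import Vale.Agent.P226.MS

/-!
# P226: growth of `P(u ≤ x)` along nonnegative directions
-/

open MeasureTheory ProbabilityTheory Finset Filter Topology
open scoped RealInnerProductSpace ENNReal BigOperators

namespace Vale.Agent.P226

set_option linter.unusedSectionVars false

variable {E : Type*} [NormedAddCommGroup E] [InnerProductSpace ℝ E] [FiniteDimensional ℝ E]
  [MeasurableSpace E] [BorelSpace E]
variable {κ : Type*} [Fintype κ]

lemma phi_le_one (t : ℝ) : phi t ≤ 1 := by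
  unfold phi
  have h1 : Real.exp (-t ^ 2 / 2) ≤ 1 := by
    rw [Real.exp_le_one_iff]; nlinarith [sq_nonneg t]
  have h2 : (Real.sqrt (2 * Real.pi))⁻¹ ≤ 1 := by
    apply inv_le_one_of_one_le₀
    rw [Real.one_le_sqrt]
    nlinarith [Real.pi_gt_three]
  calc (Real.sqrt (2 * Real.pi))⁻¹ * Real.exp (-t ^ 2 / 2) ≤ 1 * 1 := by gcongr
    _ = 1 := one_mul 1

lemma gaussian_Ioc (p q : ℝ) (hpq : p ≤ q) :
    (gaussianReal 0 1).real (Set.Ioc p q) = ∫ t in p..q, phi t := by
  unfold Measure.real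
  rw [gaussianReal_apply_eq_integral _ one_ne_zero, ENNReal.toReal_ofReal
    (integral_nonneg (fun t => gaussianPDFReal_nonneg _ _ _)),
    intervalIntegral.integral_of_le hpq]
  simp_rw [pdf_eq_phi]

lemma measurableSet_all (v : κ → E) (x : κ → ℝ) :
    MeasurableSet {y : E | ∀ l, ⟪v l, y⟫ ≤ x l} := by
  have : {y : E | ∀ l, ⟪v l, y⟫ ≤ x l} = ⋂ l, {y | ⟪v l, y⟫ ≤ x l} := by
    ext y; simp
  rw [this]
  exact MeasurableSet.iInter fun l => measurableSet_le (by fun_prop) measurable_const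

/-- **Increment lower bound.** -/
theorem Frame.incr {v : κ → E} (hv : Frame v) (x δ : κ → ℝ) (hδ : ∀ i, 0 ≤ δ i) :
    ∑ i, psi v x i (x i / ‖v i‖) * (∫ t in (x i / ‖v i‖)..((x i + δ i) / ‖v i‖), phi t) ≤
      PiG v (fun i => x i + δ i) - PiG v x := by
  classical
  set D : κ → Set E := fun i =>
    {y | ⟪un (v i), y⟫ ∈ Set.Ioc (x i / ‖v i‖) ((x i + δ i) / ‖v i‖) ∧
      ∀ l, l ≠ i → ⟪v l, y⟫ ≤ x l} with hD
  have hσ : ∀ i, 0 < ‖v i‖ := fun i => norm_pos_iff.2 (hv.pos i)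
  have hDm : ∀ i, MeasurableSet (D i) := by
    intro i
    have : MeasurableSet {y : E | ⟪un (v i), y⟫ ∈ Set.Ioc (x i / ‖v i‖) ((x i + δ i) / ‖v i‖)} := by
      have : Measurable (fun y : E => ⟪un (v i), y⟫) := by fun_prop
      exact this measurableSet_Ioc
    exact this.inter (measurableSet_others v x i)
  have hmem : ∀ i y, y ∈ D i → x i < ⟪v i, y⟫ ∧ ⟪v i, y⟫ ≤ x i + δ i := by
    intro i y hy
    have h1 := hy.1
    rw [inner_un (v i) y (hv.pos i)]
    rw [Set.mem_Ioc, div_lt_iff₀ (hσ i), le_div_iff₀ (hσ i)] at h1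
    constructor <;> nlinarith [h1.1, h1.2]
  -- each piece
  have h1 : ∀ i, psi v x i (x i / ‖v i‖) * (∫ t in (x i / ‖v i‖)..((x i + δ i) / ‖v i‖), phi t) ≤
      (stdGaussian E).real (D i) := by
    intro i
    have hle : x i / ‖v i‖ ≤ (x i + δ i) / ‖v i‖ := by
      have := hδ i
      gcongr
      linarith
    have h2 := disint v hv.pos x i (S := Set.Ioc (x i / ‖v i‖) ((x i + δ i) / ‖v i‖))
      measurableSet_Ioc (g := fun _ => 1) (integrable_const _)
    rw [setIntegral_const, smul_eq_mul, mul_one] at h2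
    show _ ≤ (stdGaussian E).real {y | _}
    rw [h2, ← gaussian_Ioc _ _ hle]
    have hmono := hv.psi_mono x i
    have h3 : ∫ t in Set.Ioc (x i / ‖v i‖) ((x i + δ i) / ‖v i‖), psi v x i (x i / ‖v i‖)
        ∂(gaussianReal 0 1) ≤
        ∫ t in Set.Ioc (x i / ‖v i‖) ((x i + δ i) / ‖v i‖), 1 * psi v x i t
        ∂(gaussianReal 0 1) := by
      refine setIntegral_mono_on (integrable_const _) ?_ measurableSet_Ioc ?_
      · refine Integrable.integrableOn ?_
        refine Integrable.of_bound (C := 1)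
          (measurable_const.mul hmono.measurable).aestronglyMeasurable ?_
        refine Filter.Eventually.of_forall (fun t => ?_)
        rw [one_mul, Real.norm_eq_abs, abs_of_nonneg (psi_nonneg _ _ _ _)]
        exact psi_le_one _ _ _ _
      · intro t ht
        rw [one_mul]
        exact hmono ht.1.le
    rw [setIntegral_const, smul_eq_mul, mul_comm] at h3
    exact h3
  refine (Finset.sum_le_sum (fun i _ => h1 i)).trans ?_
  -- disjointness
  have hdisj : Set.PairwiseDisjoint (↑(Finset.univ : Finset κ)) D := by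
    intro i _ j _ hij
    rw [Function.onFun, Set.disjoint_left]
    intro y hyi hyj
    have h2 := (hmem i y hyi).1
    have h3 := hyj.2 i hij
    linarith
  have h2 : ∑ i, (stdGaussian E).real (D i) = (stdGaussian E).real (⋃ i ∈ Finset.univ, D i) := by
    rw [measureReal_biUnion_finset hdisj (fun i _ => hDm i)]
  rw [h2]
  unfold PiG
  rw [← measureReal_sdiff ?_ (measurableSet_all v x)]
  · refine measureReal_mono ?_ (measure_ne_top _ _)
    intro y hy
    simp only [Finset.mem_univ, Set.iUnion_true, Set.mem_iUnion] at hy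
    obtain ⟨i, hi⟩ := hy
    constructor
    · intro l
      by_cases hl : l = i
      · rw [hl]; exact (hmem i y hi).2
      · have h3 := hi.2 l hl
        have h4 := hδ l
        simp only
        linarith
    · intro h
      have h3 := h i
      have h4 := (hmem i y hi).1
      linarith
  · intro y hy l
    have h3 := hy l
    have h4 := hδ l
    simp only
    linarith

/-- **Increment upper bound.** -/
theorem Frame.incr_le {v : κ → E} (hv : Frame v) (x δ : κ → ℝ) (hδ : ∀ i, 0 ≤ δ i) :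
    PiG v (fun i => x i + δ i) - PiG v x ≤ ∑ i, δ i / ‖v i‖ := by
  classical
  have hσ : ∀ i, 0 < ‖v i‖ := fun i => norm_pos_iff.2 (hv.pos i)
  set D : κ → Set E := fun i =>
    {y | ⟪un (v i), y⟫ ∈ Set.Ioc (x i / ‖v i‖) ((x i + δ i) / ‖v i‖)} with hD
  have hsub : {y : E | ∀ i, ⟪v i, y⟫ ≤ x i + δ i} \ {y : E | ∀ i, ⟪v i, y⟫ ≤ x i} ⊆
      ⋃ i ∈ Finset.univ, D i := by
    intro y hy
    obtain ⟨h1, h2⟩ := hy
    simp only [Set.mem_ofPred_eq, not_forall, not_le] at h2
    obtain ⟨i, hi⟩ := h2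
    simp only [Finset.mem_univ, Set.iUnion_true, Set.mem_iUnion]
    refine ⟨i, ?_⟩
    have h3 := h1 i
    show ⟪un (v i), y⟫ ∈ Set.Ioc (x i / ‖v i‖) ((x i + δ i) / ‖v i‖)
    rw [inner_un (v i) y (hv.pos i)] at h3 hi
    rw [Set.mem_Ioc, div_lt_iff₀ (hσ i), le_div_iff₀ (hσ i)]
    constructor <;> nlinarith
  have hD1 : ∀ i, (stdGaussian E).real (D i) ≤ δ i / ‖v i‖ := by
    intro i
    have hle : x i / ‖v i‖ ≤ (x i + δ i) / ‖v i‖ := by
      have := hδ i
      gcongr
      linarith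
    have h2 : (stdGaussian E).real (D i) = (gaussianReal 0 1).real
        (Set.Ioc (x i / ‖v i‖) ((x i + δ i) / ‖v i‖)) := by
      have h3 := law_inner (un (v i))
      rw [norm_un (hv.pos i)] at h3
      simp only [one_mul, Measure.map_id'] at h3
      rw [← h3, map_measureReal_apply (by fun_prop) measurableSet_Ioc]
      rfl
    rw [h2, gaussian_Ioc _ _ hle]
    have h3 : ∫ t in (x i / ‖v i‖)..((x i + δ i) / ‖v i‖), phi t ≤
        ∫ t in (x i / ‖v i‖)..((x i + δ i) / ‖v i‖), (1 : ℝ) :=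
      intervalIntegral.integral_mono_on hle (continuous_phi.intervalIntegrable _ _)
        (continuous_const.intervalIntegrable _ _) (fun t _ => phi_le_one t)
    rw [intervalIntegral.integral_const, smul_eq_mul, mul_one] at h3
    refine h3.trans (le_of_eq ?_)
    ring
  unfold PiG
  have hsub2 : {y : E | ∀ i, ⟪v i, y⟫ ≤ x i} ⊆ {y : E | ∀ i, ⟪v i, y⟫ ≤ x i + δ i} := by
    intro y hy l
    have h3 := hy l
    have h4 := hδ l
    linarith
  rw [← measureReal_sdiff hsub2 (measurableSet_all v x)]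
  calc (stdGaussian E).real ({y : E | ∀ i, ⟪v i, y⟫ ≤ x i + δ i} \ {y : E | ∀ i, ⟪v i, y⟫ ≤ x i})
      ≤ (stdGaussian E).real (⋃ i ∈ Finset.univ, D i) := measureReal_mono hsub (measure_ne_top _ _)
    _ ≤ ∑ i, (stdGaussian E).real (D i) := measureReal_biUnion_finset_le _ _
    _ ≤ ∑ i, δ i / ‖v i‖ := Finset.sum_le_sum (fun i _ => hD1 i)

lemma PiG_mono (v : κ → E) {x x' : κ → ℝ} (h : ∀ i, x i ≤ x' i) : PiG v x ≤ PiG v x' := by
  unfold PiG
  refine measureReal_mono ?_ (measure_ne_top _ _)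
  intro y hy l
  exact (hy l).trans (h l)

lemma Frame.lip {v : κ → E} (hv : Frame v) (x : κ → ℝ) {θ : κ → ℝ} (hθ : ∀ i, 0 ≤ θ i)
    {s t : ℝ} (hst : s ≤ t) :
    |PiG v (fun i => x i + t * θ i) - PiG v (fun i => x i + s * θ i)| ≤
      (∑ i, θ i / ‖v i‖) * (t - s) := by
  have h1 := hv.incr_le (fun i => x i + s * θ i) (fun i => (t - s) * θ i)
    (fun i => mul_nonneg (by linarith) (hθ i))
  have h2 : (fun i => x i + s * θ i + (t - s) * θ i) = fun i => x i + t * θ i := by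
    ext i; ring
  simp only [h2] at h1
  rw [abs_of_nonneg]
  · refine h1.trans (le_of_eq ?_)
    rw [Finset.sum_mul]
    refine Finset.sum_congr rfl (fun i _ => ?_)
    ring
  · rw [sub_nonneg]
    refine PiG_mono v (fun i => ?_)
    have := mul_le_mul_of_nonneg_right hst (hθ i)
    linarith

lemma Frame.continuous_path {v : κ → E} (hv : Frame v) (x : κ → ℝ) {θ : κ → ℝ}
    (hθ : ∀ i, 0 ≤ θ i) : Continuous (fun t : ℝ => PiG v (fun i => x i + t * θ i)) := by
  have hC : 0 ≤ ∑ i, θ i / ‖v i‖ := Finset.sum_nonneg (fun i _ => div_nonneg (hθ i) (norm_nonneg _))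
  have : LipschitzWith (Real.toNNReal (∑ i, θ i / ‖v i‖))
      (fun t : ℝ => PiG v (fun i => x i + t * θ i)) := by
    refine LipschitzWith.of_dist_le_mul (fun s t => ?_)
    rw [Real.coe_toNNReal _ hC, Real.dist_eq, Real.dist_eq]
    rcases le_total s t with h | h
    · have h1 := hv.lip x hθ h
      rw [abs_sub_comm] at h1
      rw [abs_sub_comm s t, abs_of_nonneg (show (0 : ℝ) ≤ t - s by linarith)]
      exact h1
    · rw [abs_of_nonneg (show (0 : ℝ) ≤ s - t by linarith)]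
      exact hv.lip x hθ h
  exact this.continuous

/-- `∑ θ_i f_i(x_i) ψ_i ≥ S²/(2X) Π(x)` -/
theorem Frame.ms_dir {v : κ → E} (hv : Frame v) (x θ h : κ → ℝ) (hθ : ∀ i, 0 ≤ θ i)
    (hh : ∀ i, HH (max (x i) 0 / ‖v i‖) ≤ h i) (hX : 0 < ∑ i, x i) :
    (∑ i, Real.sqrt (θ i / h i)) ^ 2 / (2 * ∑ i, x i) * PiG v x ≤
      ∑ i, psi v x i (x i / ‖v i‖) * (phi (x i / ‖v i‖) * (θ i / ‖v i‖)) := by
  have hhpos : ∀ i, 0 < h i := fun i => lt_of_lt_of_le (HH_pos _) (hh i)
  set S := ∑ i, Real.sqrt (θ i / h i) with hS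
  obtain ⟨X, hXd⟩ : ∃ X : ℝ, X = ∑ i, x i := ⟨_, rfl⟩
  rw [← hXd] at hX ⊢
  have hσ : ∀ i, 0 < ‖v i‖ := fun i => norm_pos_iff.2 (hv.pos i)
  have hS0 : 0 ≤ S := Finset.sum_nonneg (fun i _ => Real.sqrt_nonneg _)
  rcases hS0.eq_or_lt with hS1 | hS1
  · rw [← hS1]
    simp only [ne_eq, OfNat.ofNat_ne_zero, not_false_eq_true, zero_pow, zero_div, zero_mul]
    refine Finset.sum_nonneg (fun i _ => ?_)
    exact mul_nonneg (psi_nonneg _ _ _ _) (mul_nonneg (phi_pos _).le
      (div_nonneg (hθ i) (norm_nonneg _)))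
  · have h1 := hv.ms x (fun i => 2 * X * Real.sqrt (θ i / h i) / S) (fun i => by positivity)
    have h2 : ∑ i, 2 * X * Real.sqrt (θ i / h i) / S = 2 * X := by
      rw [← Finset.sum_div, ← Finset.mul_sum, ← hS]
      field_simp
    rw [h2, ← hXd] at h1
    have h3 : ∑ i, (2 * X * Real.sqrt (θ i / h i) / S) ^ 2 / 2 * HH (max (x i) 0 / ‖v i‖) *
        (phi (x i / ‖v i‖) / ‖v i‖) * psi v x i (x i / ‖v i‖) ≤
        2 * X ^ 2 / S ^ 2 *
        ∑ i, psi v x i (x i / ‖v i‖) * (phi (x i / ‖v i‖) * (θ i / ‖v i‖)) := by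
      rw [Finset.mul_sum]
      refine Finset.sum_le_sum (fun i _ => ?_)
      have h4 : (2 * X * Real.sqrt (θ i / h i) / S) ^ 2 / 2 * HH (max (x i) 0 / ‖v i‖) ≤
          (2 * X * Real.sqrt (θ i / h i) / S) ^ 2 / 2 * h i :=
        mul_le_mul_of_nonneg_left (hh i) (by positivity)
      have h5 : (2 * X * Real.sqrt (θ i / h i) / S) ^ 2 / 2 * h i = 2 * X ^ 2 / S ^ 2 * θ i := by
        have := Real.sq_sqrt (div_nonneg (hθ i) (hhpos i).le)
        have h6 := (hhpos i).ne'
        rw [div_pow, mul_pow, this]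
        field_simp
      rw [h5] at h4
      have h7 : 0 ≤ phi (x i / ‖v i‖) / ‖v i‖ * psi v x i (x i / ‖v i‖) :=
        mul_nonneg (div_nonneg (phi_pos _).le (norm_nonneg _)) (psi_nonneg _ _ _ _)
      have h8 := mul_le_mul_of_nonneg_right h4 h7
      calc _ = (2 * X * Real.sqrt (θ i / h i) / S) ^ 2 / 2 * HH (max (x i) 0 / ‖v i‖) *
            (phi (x i / ‖v i‖) / ‖v i‖ * psi v x i (x i / ‖v i‖)) := by ring
        _ ≤ _ := h8
        _ = _ := by ring
    have h9 := h1.trans h3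
    have h10 : (2 * X - X) * PiG v x = X * PiG v x := by ring
    rw [h10] at h9
    have h11 : S ^ 2 / (2 * X) * PiG v x = S ^ 2 / (2 * X ^ 2) * (X * PiG v x) := by
      field_simp
    rw [h11]
    refine (mul_le_mul_of_nonneg_left h9 (by positivity)).trans (le_of_eq ?_)
    rw [← mul_assoc]
    have : S ^ 2 / (2 * X ^ 2) * (2 * X ^ 2 / S ^ 2) = 1 := by field_simp
    rw [this, one_mul]

/-- **Growth along a nonnegative direction** (Gronwall form of the mean-sum lemma). -/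
theorem Frame.growth {v : κ → E} (hv : Frame v) (x0 θ : κ → ℝ) (hθ : ∀ i, 0 ≤ θ i)
    {τ0 τ1 : ℝ} (h01 : τ0 ≤ τ1) {ω ω' : ℝ → ℝ} (hωc : ContinuousOn ω (Set.Icc τ0 τ1))
    (hωpos : ∀ τ ∈ Set.Icc τ0 τ1, 0 < ω τ) (hωd : ∀ τ ∈ Set.Ico τ0 τ1, HasDerivAt ω (ω' τ) τ)
    (h : ℝ → κ → ℝ)
    (hh : ∀ τ ∈ Set.Ico τ0 τ1, ∀ i, HH (max (x0 i + τ * θ i) 0 / ‖v i‖) ≤ h τ i)
    (hX : ∀ τ ∈ Set.Ico τ0 τ1, 0 < ∑ i, (x0 i + τ * θ i))
    (hω : ∀ τ ∈ Set.Ico τ0 τ1, ω' τ ≤
      ω τ * ((∑ i, Real.sqrt (θ i / h τ i)) ^ 2 / (2 * ∑ i, (x0 i + τ * θ i)))) :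
    PiG v (fun i => x0 i + τ0 * θ i) * ω τ1 ≤ PiG v (fun i => x0 i + τ1 * θ i) * ω τ0 := by
  set F : ℝ → ℝ := fun t => PiG v (fun i => x0 i + t * θ i) with hF
  have hFc : Continuous F := hv.continuous_path x0 hθ
  have key := image_le_of_liminf_slope_right_le_deriv_boundary (f := fun t => -(F t / ω t))
    (a := τ0) (b := τ1) (B := fun _ => -(F τ0 / ω τ0)) (B' := fun _ => 0)
    ((hFc.continuousOn.div hωc (fun t ht => (hωpos t ht).ne')).neg) le_rfl
    continuousOn_const (fun _ _ => hasDerivWithinAt_const _ _ _) ?_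
  · have h1 := key (Set.right_mem_Icc.2 h01)
    have hp0 := hωpos τ0 (Set.left_mem_Icc.2 h01)
    have hp1 := hωpos τ1 (Set.right_mem_Icc.2 h01)
    simp only [neg_le_neg_iff] at h1
    rw [div_le_div_iff₀ hp0 hp1] at h1
    exact h1
  · intro τ hτ r hr
    have hp := hωpos τ ⟨hτ.1, hτ.2.le⟩
    set x : κ → ℝ := fun i => x0 i + τ * θ i with hx
    set c : κ → ℝ := fun i => psi v x i (x i / ‖v i‖) with hc
    have hσ : ∀ i, 0 < ‖v i‖ := fun i => norm_pos_iff.2 (hv.pos i)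
    -- the comparison function
    set L : ℝ → ℝ := fun z => ∑ i, c i * (∫ t in (x i / ‖v i‖)..((x0 i + z * θ i) / ‖v i‖), phi t)
      with hL
    have hLτ : L τ = 0 := by
      simp only [hL, hx, intervalIntegral.integral_same, mul_zero, Finset.sum_const_zero]
    have hLd : HasDerivAt L (∑ i, c i * (phi (x i / ‖v i‖) * (θ i / ‖v i‖))) τ := by
      have : ∀ i ∈ (Finset.univ : Finset κ), HasDerivAt
          (fun z => c i * (∫ t in (x i / ‖v i‖)..((x0 i + z * θ i) / ‖v i‖), phi t))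
          (c i * (phi (x i / ‖v i‖) * (θ i / ‖v i‖))) τ := by
        intro i _
        have h1 : HasDerivAt (fun u => ∫ t in (x i / ‖v i‖)..u, phi t) (phi (x i / ‖v i‖))
            (x i / ‖v i‖) :=
          intervalIntegral.integral_hasDerivAt_right (continuous_phi.intervalIntegrable _ _)
            (continuous_phi.stronglyMeasurableAtFilter _ _) continuous_phi.continuousAt
        have h2 : HasDerivAt (fun z : ℝ => (x0 i + z * θ i) / ‖v i‖) (θ i / ‖v i‖) τ := by
          have h3 : HasDerivAt (fun z : ℝ => x0 i + z * θ i) (θ i) τ := by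
            simpa using ((hasDerivAt_id τ).mul_const (θ i)).const_add (x0 i)
          exact h3.div_const _
        exact (HasDerivAt.comp τ h1 h2).const_mul _
      have h1 := HasDerivAt.sum this
      refine h1.congr_of_eventuallyEq (Filter.Eventually.of_forall (fun z => ?_))
      simp [hL]
    set M : ℝ → ℝ := fun z => -(L z / ω z + F τ * (1 / ω z - 1 / ω τ)) with hM
    have hMτ : M τ = 0 := by simp [hM, hLτ]
    have hMd : HasDerivAt M (-((∑ i, c i * (phi (x i / ‖v i‖) * (θ i / ‖v i‖))) / ω τ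
        - F τ * (ω' τ / ω τ ^ 2))) τ := by
      have h1 := hLd.div (hωd τ hτ) hp.ne'
      have h2 := (((hωd τ hτ).inv hp.ne').sub_const (1 / ω τ)).const_mul (F τ)
      have h3 := (h1.add h2).neg
      have h4 : M = -(fun z => L z / ω z + F τ * ((ω z)⁻¹ - 1 / ω τ)) := by
        ext z
        simp [hM, one_div]
      rw [h4]
      refine HasDerivAt.congr_deriv h3 ?_
      rw [hLτ]
      field_simp
      ring
    have hM0 : -((∑ i, c i * (phi (x i / ‖v i‖) * (θ i / ‖v i‖))) / ω τ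
        - F τ * (ω' τ / ω τ ^ 2)) ≤ 0 := by
      have h1 := hv.ms_dir x θ (h τ) hθ (hh τ hτ) (hX τ hτ)
      have h2 := hω τ hτ
      have hF0 : 0 ≤ F τ := PiG_nonneg _ _
      have h3 : F τ * (ω' τ / ω τ ^ 2) ≤
          (((∑ i, Real.sqrt (θ i / h τ i)) ^ 2 / (2 * ∑ i, (x0 i + τ * θ i))) * F τ) / ω τ := by
        have h4 : F τ * (ω' τ / ω τ ^ 2) ≤ F τ *
            (ω τ * ((∑ i, Real.sqrt (θ i / h τ i)) ^ 2 / (2 * ∑ i, (x0 i + τ * θ i))) /
              ω τ ^ 2) := by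
          apply mul_le_mul_of_nonneg_left _ hF0
          exact div_le_div_of_nonneg_right h2 (by positivity)
        refine h4.trans (le_of_eq ?_)
        field_simp
      have h5 : (((∑ i, Real.sqrt (θ i / h τ i)) ^ 2 / (2 * ∑ i, (x0 i + τ * θ i))) * F τ) / ω τ ≤
          (∑ i, c i * (phi (x i / ‖v i‖) * (θ i / ‖v i‖))) / ω τ :=
        div_le_div_of_nonneg_right h1 hp.le
      linarith
    have hslope : Tendsto (slope M τ) (𝓝[>] τ) (𝓝 (-((∑ i, c i *
        (phi (x i / ‖v i‖) * (θ i / ‖v i‖))) / ω τ - F τ * (ω' τ / ω τ ^ 2)))) := by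
      have := hMd.hasDerivWithinAt (s := Set.Ioi τ)
      rw [hasDerivWithinAt_iff_tendsto_slope' (by simp)] at this
      exact this
    have hev : ∀ᶠ z in 𝓝[>] τ, slope M τ z < r :=
      hslope.eventually (gt_mem_nhds (lt_of_le_of_lt hM0 hr))
    have hev2 : ∀ᶠ z in 𝓝[>] τ, z ∈ Set.Ioo τ τ1 := Ioo_mem_nhdsGT hτ.2
    refine (hev.and hev2).frequently.mono ?_
    rintro z ⟨hz1, hz2⟩
    refine lt_of_le_of_lt ?_ hz1
    have hzτ : 0 < z - τ := by linarith [hz2.1]
    have hpz := hωpos z ⟨by linarith [hτ.1, hz2.1], hz2.2.le⟩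
    rw [slope_def_field, slope_def_field]
    refine div_le_div_of_nonneg_right ?_ hzτ.le
    rw [hMτ, sub_zero]
    have hinc := hv.incr x (fun i => (z - τ) * θ i) (fun i => mul_nonneg hzτ.le (hθ i))
    have h6 : (fun i => x i + (z - τ) * θ i) = fun i => x0 i + z * θ i := by
      ext i; simp only [hx]; ring
    have h7 : ∀ i, x i + (z - τ) * θ i = x0 i + z * θ i := fun i => congrFun h6 i
    simp only [h7] at hinc
    have h8 : L z ≤ F z - F τ := hinc
    have h9 : L z / ω z ≤ (F z - F τ) / ω z := div_le_div_of_nonneg_right h8 hpz.le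
    simp only [hM]
    have h10 : -(F z / ω z) - -(F τ / ω τ) =
        -((F z - F τ) / ω z + F τ * (1 / ω z - 1 / ω τ)) := by
      field_simp
      ring
    rw [h10]
    linarith

end Vale.Agent.P226
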