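import Vale.Agent.P226.Rho

open MeasureTheory intervalIntegral Set

namespace Vale.Agent.P226

lemma HH_scaled (y : ℝ) : y * Real.exp (-y ^ 2 / 2) * HH y =
    ∫ s in (0 : ℝ)..y, Real.exp (-s ^ 2 / 2) := by
  have h1 := Ik_self y
  unfold Ik at h1
  have h2 : y * Real.exp (-y ^ 2 / 2) * HH y = Real.exp (-y ^ 2 / 2) * (y * HH y) := by ring
  rw [h2, ← h1, ← intervalIntegral.integral_const_mul]
  have h3 : ∀ s, Real.exp (-y ^ 2 / 2) * Ek y s = Real.exp (-(y - s) ^ 2 / 2) := by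
    intro s
    unfold Ek
    rw [← Real.exp_add]
    congr 1
    ring
  simp_rw [h3]
  rw [intervalIntegral.integral_comp_sub_left (fun s => Real.exp (-s ^ 2 / 2)) y]
  simp

lemma gint_deriv (y : ℝ) : HasDerivAt (fun y => ∫ s in (0 : ℝ)..y, Real.exp (-s ^ 2 / 2))
    (Real.exp (-y ^ 2 / 2)) y := by
  have hc : Continuous (fun s : ℝ => Real.exp (-s ^ 2 / 2)) := by fun_prop
  exact intervalIntegral.integral_hasDerivAt_right (hc.intervalIntegrable _ _)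
    (hc.stronglyMeasurableAtFilter _ _) hc.continuousAt

lemma HH_poly {y : ℝ} (hy0 : 0 ≤ y) (hy : y ^ 2 < 6) : HH y * (1 - y ^ 2 / 6) ^ 2 ≤ 1 := by
  rcases hy0.eq_or_lt with h0 | hy1
  · rw [← h0, HH_zero]; norm_num
  set F : ℝ → ℝ := fun y => y * Real.exp (-y ^ 2 / 2) * ((1 - y ^ 2 / 6) ^ 2)⁻¹ -
    ∫ s in (0 : ℝ)..y, Real.exp (-s ^ 2 / 2) with hF
  have hpos : ∀ u ∈ Icc 0 y, 0 < 1 - u ^ 2 / 6 := by
    intro u hu
    have : u ^ 2 ≤ y ^ 2 := by nlinarith [hu.1, hu.2]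
    linarith
  have hd : ∀ u ∈ Icc 0 y, HasDerivAt F (Real.exp (-u ^ 2 / 2) *
      ((1 - u ^ 2) * ((1 - u ^ 2 / 6) ^ 2)⁻¹ + u * (2 * u / 3 * ((1 - u ^ 2 / 6) ^ 3)⁻¹) - 1)) u := by
    intro u hu
    have hp := hpos u hu
    have h1 : HasDerivAt (fun y : ℝ => Real.exp (-y ^ 2 / 2)) (Real.exp (-u ^ 2 / 2) * (-u)) u := by
      have : HasDerivAt (fun y : ℝ => -y ^ 2 / 2) (-u) u := by
        have := ((hasDerivAt_pow 2 u).neg).div_const 2
        refine this.congr_deriv ?_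
        simp
        ring
      exact this.exp
    have h2 : HasDerivAt (fun y : ℝ => (1 - y ^ 2 / 6) ^ 2) (2 * (1 - u ^ 2 / 6) * (-(u / 3))) u := by
      have h3 : HasDerivAt (fun y : ℝ => 1 - y ^ 2 / 6) (-(u / 3)) u := by
        have := ((hasDerivAt_pow 2 u).div_const 6).const_sub 1
        refine this.congr_deriv ?_
        simp
        ring
      have := h3.pow 2
      refine this.congr_deriv ?_
      simp
    have h4 := ((hasDerivAt_id u).mul h1).mul (h2.inv (by positivity))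
    have h5 := h4.sub (gint_deriv u)
    refine h5.congr_deriv ?_
    simp only [Pi.mul_apply, Pi.inv_apply, id]
    obtain ⟨q, hq⟩ : ∃ q, q = 1 - u ^ 2 / 6 := ⟨_, rfl⟩
    rw [← hq] at hp ⊢
    have hq0 : q ≠ 0 := hp.ne'
    field_simp
    ring
  have hmono : MonotoneOn F (Icc 0 y) := by
    refine monotoneOn_of_deriv_nonneg (convex_Icc 0 y)
      (fun u hu => (hd u hu).continuousAt.continuousWithinAt)
      (fun u hu => (hd u (interior_subset hu)).differentiableAt.differentiableWithinAt) ?_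
    intro u hu
    have hu' := interior_subset hu
    rw [(hd u hu').deriv]
    have hp := hpos u hu'
    apply mul_nonneg (Real.exp_pos _).le
    have h1 : (1 - u ^ 2) * ((1 - u ^ 2 / 6) ^ 2)⁻¹ + u * (2 * u / 3 * ((1 - u ^ 2 / 6) ^ 3)⁻¹) - 1 =
        (u ^ 4 / 12 + u ^ 6 / 216) / (1 - u ^ 2 / 6) ^ 3 := by
      obtain ⟨q, hq⟩ : ∃ q, q = 1 - u ^ 2 / 6 := ⟨_, rfl⟩
      rw [← hq] at hp ⊢
      have hq0 : q ≠ 0 := hp.ne'
      have hu2 : u ^ 2 = 6 * (1 - q) := by rw [hq]; ring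
      have hu4 : u ^ 4 = (6 * (1 - q)) ^ 2 := by rw [← hu2]; ring
      have hu6 : u ^ 6 = (6 * (1 - q)) ^ 3 := by rw [← hu2]; ring
      have huu : u * (2 * u / 3 * (q ^ 3)⁻¹) = 2 * u ^ 2 / 3 * (q ^ 3)⁻¹ := by ring
      rw [huu, hu2, hu4, hu6]
      field_simp
      ring
    rw [h1]
    positivity
  have h1 := hmono (left_mem_Icc.2 hy0) (right_mem_Icc.2 hy0) hy0
  have h2 : F 0 = 0 := by simp [hF]
  rw [h2] at h1
  simp only [hF] at h1
  rw [← HH_scaled y] at h1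
  have hp := hpos y (right_mem_Icc.2 hy0)
  have he : 0 < y * Real.exp (-y ^ 2 / 2) := by positivity
  have h3 : y * Real.exp (-y ^ 2 / 2) * HH y ≤
      y * Real.exp (-y ^ 2 / 2) * ((1 - y ^ 2 / 6) ^ 2)⁻¹ := by linarith
  have h4 := le_of_mul_le_mul_left h3 he
  rw [← le_div_iff₀ (by positivity), one_div]
  exact h4

lemma sqrt_HH_ge {y : ℝ} (hy0 : 0 ≤ y) : 1 - y ^ 2 / 6 ≤ Real.sqrt (1 / HH y) := by
  rcases lt_or_ge (y ^ 2) 6 with hy | hy
  · apply Real.le_sqrt_of_sq_le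
    rw [le_div_iff₀ (HH_pos y)]
    have := HH_poly hy0 hy
    linarith [mul_comm (HH y) ((1 - y ^ 2 / 6) ^ 2)]
  · have := Real.sqrt_nonneg (1 / HH y)
    linarith

lemma frac_bound3 {S Y : ℝ} (_hS : 0 ≤ S) (hY : 0 ≤ Y) (h : 3 - Y / 6 ≤ S) :
    1 / (S ^ 2 / (2 * 3) + 1) ≤ 2 / 5 + 23 / 600 * Y := by
  rw [div_le_iff₀ (by positivity)]
  rcases le_or_gt 18 Y with h18 | h18
  · have h1 : 1 ≤ 2 / 5 + 23 / 600 * Y := by linarith
    have h2 : 1 ≤ S ^ 2 / (2 * 3) + 1 := by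
      have : 0 ≤ S ^ 2 / (2 * 3) := by positivity
      linarith
    nlinarith
  · have h1 : (3 - Y / 6) ^ 2 ≤ S ^ 2 := by
      have : 0 ≤ 3 - Y / 6 := by linarith
      gcongr
    have h2 : (2 / 5 + 23 / 600 * Y) * ((3 - Y / 6) ^ 2 / (2 * 3) + 1) ≤
        (2 / 5 + 23 / 600 * Y) * (S ^ 2 / (2 * 3) + 1) := by
      gcongr
    refine le_trans ?_ h2
    have h3 : (2 / 5 + 23 / 600 * Y) * ((3 - Y / 6) ^ 2 / (2 * 3) + 1) - 1 =
        Y * ((23 / 600 * (5 / 2) - 1 / 15) + (1 / 540 - 23 / 3600) * Y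
          + 23 / 600 / 216 * Y ^ 2) := by ring
    have h4 : 0 ≤ (23 / 600 * (5 / 2) - 1 / 15) + (1 / 540 - 23 / 3600) * Y
          + 23 / 600 / 216 * Y ^ 2 := by
      nlinarith [sq_nonneg (Y - 64 / 5), sq_nonneg (Y - 12.78)]
    have h5 := mul_nonneg hY h4
    linarith

end Vale.Agent.P226
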