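import Mathlib

/-!
# P226: the final inequality for the four-cell case
-/

namespace Vale.Agent.P226

lemma e2_lower {g1 g2 g3 Λ : ℝ} (h1 : 0 ≤ g1) (h2 : 0 ≤ g2) (h3 : 0 ≤ g3)
    (hΛ : Λ = g1 + g2 + g3) (hΛ' : 16135 / 100000 ≤ Λ) (k1 : 287 / 10000 ≤ Λ - g1)
    (k2 : 287 / 10000 ≤ Λ - g2) (k3 : 287 / 10000 ≤ Λ - g3) :
    38 / 10000 ≤ g1 * g2 + g1 * g3 + g2 * g3 := by
  have key : ∀ u : ℝ, Λ / 3 ≤ u → 287 / 10000 ≤ Λ - u → 38 / 10000 ≤ u * (Λ - u) := by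
    intro u hu hu2
    have h : 0 ≤ (u - 287 / 10000) * (Λ - 287 / 10000 - u) :=
      mul_nonneg (by linarith) (by linarith)
    nlinarith
  rcases le_total g1 g2 with a | a
  · rcases le_total g2 g3 with b | b
    · have := key g3 (by linarith) k3
      nlinarith [mul_nonneg h1 h2]
    · have := key g2 (by linarith) k2
      nlinarith [mul_nonneg h1 h3]
  · rcases le_total g1 g3 with b | b
    · have := key g3 (by linarith) k3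
      nlinarith [mul_nonneg h1 h2]
    · have := key g1 (by linarith) k1
      nlinarith [mul_nonneg h2 h3]

/-- one pair -/
lemma pair_le {l1 l2 g1 g2 b1 b2 s a1 a2 M : ℝ}
    (ha1 : l1 ^ 2 = a1) (ha2 : l2 ^ 2 = a2) (hM : a1 + a2 ≤ M)
    (hg : 3 * (g1 - g2) = (a1 - a2) + s * (b1 - b2)) :
    9 * (g1 - g2) ^ 2 ≤ 5 / 4 * (2 * M * (l1 - l2) ^ 2) + 5 * (s * (b1 - b2)) ^ 2 := by
  have h1 : (a1 - a2) ^ 2 ≤ 2 * M * (l1 - l2) ^ 2 := by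
    have e : a1 - a2 = (l1 - l2) * (l1 + l2) := by rw [← ha1, ← ha2]; ring
    rw [e, mul_pow]
    have h2 : (l1 + l2) ^ 2 ≤ 2 * M := by nlinarith [sq_nonneg (l1 - l2)]
    have := mul_le_mul_of_nonneg_left h2 (sq_nonneg (l1 - l2))
    linarith
  have h3 : 9 * (g1 - g2) ^ 2 = ((a1 - a2) + s * (b1 - b2)) ^ 2 := by
    rw [← hg]; ring
  rw [h3]
  nlinarith [sq_nonneg ((a1 - a2) / 2 - 2 * (s * (b1 - b2)))]

lemma e2_lower2 {g1 g2 g3 b1 b2 b3 s l1 l2 l3 Λ x : ℝ} (h1 : 0 ≤ g1) (h2 : 0 ≤ g2) (h3 : 0 ≤ g3)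
    (hb1 : 0 ≤ b1) (hb2 : 0 ≤ b2) (hb3 : 0 ≤ b3) (hb : b1 + b2 + b3 = 1) (hs : 0 < s)
    (hΛ : Λ = g1 + g2 + g3)
    (e1 : l1 ^ 2 = 3 * g1 + Λ + s * (1 - b1)) (e2 : l2 ^ 2 = 3 * g2 + Λ + s * (1 - b2))
    (e3 : l3 ^ 2 = 3 * g3 + Λ + s * (1 - b3))
    (hx : x = (l1 - l2) ^ 2 + (l2 - l3) ^ 2 + (l3 - l1) ^ 2) :
    Λ ^ 2 / 3 - (5 / 2 * (5 * Λ + 2 * s) * x + 10 * s ^ 2) / 54 ≤
      g1 * g2 + g1 * g3 + g2 * g3 := by
  have b1' : b1 ≤ 1 := by linarith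
  have b2' : b2 ≤ 1 := by linarith
  have b3' : b3 ≤ 1 := by linarith
  have sb1 : s * b1 ≤ s := by nlinarith
  have sb2 : s * b2 ≤ s := by nlinarith
  have sb3 : s * b3 ≤ s := by nlinarith
  have hsb : s * b1 + s * b2 + s * b3 = s := by rw [← mul_add, ← mul_add, hb, mul_one]
  have p1 := pair_le (g1 := g1) (g2 := g2) (b1 := b1) (b2 := b2) (s := s) (M := 5 * Λ + 2 * s)
    e1 e2 (by linarith) (by ring)
  have p2 := pair_le (g1 := g2) (g2 := g3) (b1 := b2) (b2 := b3) (s := s) (M := 5 * Λ + 2 * s)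
    e2 e3 (by linarith) (by ring)
  have p3 := pair_le (g1 := g3) (g2 := g1) (b1 := b3) (b2 := b1) (s := s) (M := 5 * Λ + 2 * s)
    e3 e1 (by linarith) (by ring)
  have hB : (s * (b1 - b2)) ^ 2 + (s * (b2 - b3)) ^ 2 + (s * (b3 - b1)) ^ 2 ≤ 2 * s ^ 2 := by
    have e : (s * (b1 - b2)) ^ 2 + (s * (b2 - b3)) ^ 2 + (s * (b3 - b1)) ^ 2 =
      s ^ 2 * (2 * (b1 + b2 + b3) ^ 2 - 6 * (b1 * b2 + b1 * b3 + b2 * b3)) := by ring
    rw [e, hb]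
    have : 0 ≤ b1 * b2 + b1 * b3 + b2 * b3 := by positivity
    nlinarith [sq_nonneg s]
  have hE : g1 * g2 + g1 * g3 + g2 * g3 = Λ ^ 2 / 3 -
      (9 * (g1 - g2) ^ 2 + 9 * (g2 - g3) ^ 2 + 9 * (g3 - g1) ^ 2) / 54 := by
    rw [hΛ]; ring
  rw [hE, hx]
  have e : 5 / 2 * (5 * Λ + 2 * s) * ((l1 - l2) ^ 2 + (l2 - l3) ^ 2 + (l3 - l1) ^ 2) =
      5 / 4 * (2 * (5 * Λ + 2 * s) * (l1 - l2) ^ 2) + 5 / 4 * (2 * (5 * Λ + 2 * s) * (l2 - l3) ^ 2)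
      + 5 / 4 * (2 * (5 * Λ + 2 * s) * (l3 - l1) ^ 2) := by ring
  rw [e]
  linarith

lemma fin4aux {x : ℝ} (hx0 : 0 ≤ x) (hc : x ≤ 11 / 100) :
    116927 / 100000 ≤ (861 / 100000 - 39 / 1000 * x) * (12 + 56 * x) ^ 2 := by
  have h1 : 0 ≤ 861 / 100000 - 39 / 1000 * x := by linarith
  have h2 : 144 + 1344 * x ≤ (12 + 56 * x) ^ 2 := by nlinarith [sq_nonneg x]
  have h3 := mul_le_mul_of_nonneg_left h2 h1
  have h4 : 0 ≤ x * (11 / 100 - x) := mul_nonneg hx0 (by linarith)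
  refine le_trans ?_ h3
  nlinarith

/-- **The final inequality.** -/
theorem final4 {g1 g2 g3 b1 b2 b3 s l1 l2 l3 Λ x : ℝ} (h1 : 0 ≤ g1) (h2 : 0 ≤ g2) (h3 : 0 ≤ g3)
    (hb1 : 0 ≤ b1) (hb2 : 0 ≤ b2) (hb3 : 0 ≤ b3) (hb : b1 + b2 + b3 = 1) (hs : 0 < s)
    (hs' : s ≤ 177 / 10000)
    (hΛ : Λ = g1 + g2 + g3) (hΛ' : 16135 / 100000 ≤ Λ) (k1 : 287 / 10000 ≤ Λ - g1)
    (k2 : 287 / 10000 ≤ Λ - g2) (k3 : 287 / 10000 ≤ Λ - g3)
    (e1 : l1 ^ 2 = 3 * g1 + Λ + s * (1 - b1)) (e2 : l2 ^ 2 = 3 * g2 + Λ + s * (1 - b2))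
    (e3 : l3 ^ 2 = 3 * g3 + Λ + s * (1 - b3))
    (hx : x = (l1 - l2) ^ 2 + (l2 - l3) ^ 2 + (l3 - l1) ^ 2) :
    6606 / 100 * s ^ 3 ≤ (g1 * g2 + g1 * g3 + g2 * g3) * (12 * s + x) ^ 2 := by
  have hx0 : 0 ≤ x := by rw [hx]; positivity
  have hE1 := e2_lower h1 h2 h3 hΛ hΛ' k1 k2 k3
  have hE2 := e2_lower2 h1 h2 h3 hb1 hb2 hb3 hb hs hΛ e1 e2 e3 hx
  set e := g1 * g2 + g1 * g3 + g2 * g3 with he
  have hs3 : 6606 / 100 * s ^ 3 ≤ 116927 / 100000 * s ^ 2 := by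
    have : 6606 / 100 * s ≤ 116927 / 100000 := by linarith
    have := mul_le_mul_of_nonneg_right this (sq_nonneg s)
    nlinarith
  rcases le_total (11 / 100) x with hc | hc
  · have h4 : 182 / 10 * s ≤ 12 * s + x := by linarith
    have h5 : (182 / 10 * s) ^ 2 ≤ (12 * s + x) ^ 2 := by gcongr
    have h6 : 38 / 10000 * (182 / 10 * s) ^ 2 ≤ e * (12 * s + x) ^ 2 :=
      mul_le_mul hE1 h5 (by positivity) (by linarith)
    nlinarith [sq_nonneg s]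
  · have hR : 861 / 100000 - 39 / 1000 * x ≤ e := by
      refine le_trans ?_ hE2
      have t1 : 0 ≤ (Λ - 16135 / 100000) * ((Λ + 16135 / 100000) / 3 - 25 / 108 * x) := by
        apply mul_nonneg (by linarith)
        linarith
      have t2 : s * x ≤ 177 / 10000 * x := mul_le_mul_of_nonneg_right hs' hx0
      have t3 : s ^ 2 ≤ (177 / 10000) ^ 2 := by gcongr
      nlinarith
    have h4 : (12 + 56 * x) * s ≤ 12 * s + x := by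
      have : 56 * s ≤ 1 := by linarith
      nlinarith
    have h5 : ((12 + 56 * x) * s) ^ 2 ≤ (12 * s + x) ^ 2 := by
      gcongr
    have hR0 : 0 ≤ 861 / 100000 - 39 / 1000 * x := by linarith
    have h6 : (861 / 100000 - 39 / 1000 * x) * ((12 + 56 * x) * s) ^ 2 ≤ e * (12 * s + x) ^ 2 :=
      mul_le_mul hR h5 (by positivity) (by linarith)
    have h7 := fin4aux hx0 hc
    have h8 : 116927 / 100000 * s ^ 2 ≤
        (861 / 100000 - 39 / 1000 * x) * ((12 + 56 * x) * s) ^ 2 := by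
      have h9 := mul_le_mul_of_nonneg_right h7 (sq_nonneg s)
      have h10 : (861 / 100000 - 39 / 1000 * x) * ((12 + 56 * x) * s) ^ 2 =
        (861 / 100000 - 39 / 1000 * x) * (12 + 56 * x) ^ 2 * s ^ 2 := by ring
      rw [h10]
      exact h9
    exact hs3.trans (h8.trans h6)

end Vale.Agent.P226
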