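import Mathlib

/-!
# P226: polynomial inequalities for the four-cell case
-/

namespace Vale.Agent.P226

/-- the normalised cap function `p²(1-p)²` -/
def gp (p : ℝ) : ℝ := p ^ 2 * (1 - p) ^ 2

lemma gp_nonneg (p : ℝ) : 0 ≤ gp p := by unfold gp; positivity

/-- tangent line bound -/
lemma gp_tangent {p p0 m : ℝ} (hm : p0 = 1 - 3 * m) (hp0 : 0 ≤ p0) (hm0 : 0 ≤ m) (hp : p0 ≤ p)
    (hp1 : p ≤ 1) : gp p ≤ gp m + 2 * m * (1 - m) * (1 - 2 * m) * (p - m) := by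
  have h1 : gp p - gp m - 2 * m * (1 - m) * (1 - 2 * m) * (p - m) =
      (p - m) ^ 2 * ((p - p0) * (p - 1) - m * (p + p0)) := by
    rw [hm]; unfold gp; ring
  have h2 : (p - p0) * (p - 1) - m * (p + p0) ≤ 0 := by
    have h3 : (p - p0) * (p - 1) ≤ 0 :=
      mul_nonpos_of_nonneg_of_nonpos (by linarith) (by linarith)
    have h4 : 0 ≤ m * (p + p0) := by
      have : 0 ≤ p := hp0.trans hp
      positivity
    linarith
  have h3 := mul_nonpos_of_nonneg_of_nonpos (sq_nonneg (p - m)) h2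
  linarith

/-- If the cap bound sum exceeds `9/64` the smallest probability is small. -/
lemma capA {p0 p1 p2 p3 : ℝ} (h0 : 0 ≤ p0) (h01 : p0 ≤ p1) (h02 : p0 ≤ p2) (h03 : p0 ≤ p3)
    (hsum : p0 + p1 + p2 + p3 = 1) (hg : 9 / 64 < gp p0 + gp p1 + gp p2 + gp p3) :
    p0 < 9174 / 100000 := by
  by_contra hcon
  push Not at hcon
  set m := (1 - p0) / 3 with hm
  have hm1 : p0 = 1 - 3 * m := by rw [hm]; ring
  have hm0 : 0 ≤ m := by rw [hm]; linarith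
  have t1 := gp_tangent hm1 h0 hm0 h01 (by linarith)
  have t2 := gp_tangent hm1 h0 hm0 h02 (by linarith)
  have t3 := gp_tangent hm1 h0 hm0 h03 (by linarith)
  have h1 : 2 * m * (1 - m) * (1 - 2 * m) * (p1 - m) + 2 * m * (1 - m) * (1 - 2 * m) * (p2 - m)
      + 2 * m * (1 - m) * (1 - 2 * m) * (p3 - m) = 0 := by
    have : p1 + p2 + p3 = 3 * m := by linarith
    linear_combination 2 * m * (1 - m) * (1 - 2 * m) * this
  have h2 : gp p0 + 3 * gp m - 9 / 64 = (p0 - 1 / 4) ^ 2 *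
      (-1 / 6 - 8 / 9 * (p0 - 1 / 4) + 28 / 27 * (p0 - 1 / 4) ^ 2) := by
    rw [hm]; unfold gp; ring
  have h3 : -1 / 6 - 8 / 9 * (p0 - 1 / 4) + 28 / 27 * (p0 - 1 / 4) ^ 2 ≤ 0 := by
    nlinarith
  have h4 := mul_nonpos_of_nonneg_of_nonpos (sq_nonneg (p0 - 1 / 4)) h3
  linarith

lemma gp_add {x y : ℝ} (hx : 0 ≤ x) (hy : 0 ≤ y) (hxy : x + y ≤ 1 / 3) :
    gp x + gp y ≤ gp (x + y) := by
  have h1 : gp (x + y) - gp x - gp y =
      2 * (x * y) * (1 - 3 * (x + y) + (2 * x ^ 2 + 3 * x * y + 2 * y ^ 2)) := by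
    unfold gp; ring
  have h2 : 0 ≤ 2 * (x * y) * (1 - 3 * (x + y) + (2 * x ^ 2 + 3 * x * y + 2 * y ^ 2)) := by
    have h3 : 0 ≤ 1 - 3 * (x + y) := by linarith
    have h4 : 0 ≤ 2 * x ^ 2 + 3 * x * y + 2 * y ^ 2 := by positivity
    have h5 : 0 ≤ x * y := by positivity
    positivity
  linarith

lemma gp_pair {x y P : ℝ} (hx : 0 ≤ x) (hy : 0 ≤ y) (hP : 0 ≤ P) (hxy : x + y = 1 - P)
    (hP2 : P ≤ 1 / 3) : gp x + gp y ≤ (1 - P ^ 2) ^ 2 / 8 := by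
  obtain ⟨d, hd⟩ : ∃ d, d = (x - y) / 2 := ⟨_, rfl⟩
  have hx1 : x = (1 - P) / 2 + d := by rw [hd]; linarith
  have hy1 : y = (1 - P) / 2 - d := by rw [hd]; linarith
  have h1 : gp x + gp y - (1 - P ^ 2) ^ 2 / 8 =
      2 * d ^ 2 * (-(1 - 3 * P ^ 2) / 2 + d ^ 2) := by
    rw [hx1, hy1]; unfold gp; ring
  have hd2 : d ^ 2 ≤ ((1 - P) / 2) ^ 2 := by
    have h2 : -((1 - P) / 2) ≤ d := by linarith
    have h3 : d ≤ (1 - P) / 2 := by linarith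
    exact sq_le_sq' h2 h3
  have h2 : -(1 - 3 * P ^ 2) / 2 + d ^ 2 ≤ 0 := by nlinarith
  have h3 := mul_nonpos_of_nonneg_of_nonpos (by positivity : 0 ≤ 2 * d ^ 2) h2
  linarith

/-- If the cap bound sum exceeds `9/64`, any two probabilities have sum at least `.1975`. -/
lemma capB {p0 p1 p2 p3 : ℝ} (h0 : 0 ≤ p0) (h1 : 0 ≤ p1) (h2 : 0 ≤ p2) (h3 : 0 ≤ p3)
    (hsum : p0 + p1 + p2 + p3 = 1) (hg : 9 / 64 < gp p0 + gp p1 + gp p2 + gp p3) :
    1975 / 10000 < p0 + p1 := by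
  by_contra hcon
  push Not at hcon
  set P := p0 + p1 with hP
  have hP0 : 0 ≤ P := by positivity
  have t1 := gp_add h0 h1 (by linarith)
  have t2 := gp_pair (P := P) h2 h3 hP0 (by linarith) (by linarith)
  have h4 : gp P + (1 - P ^ 2) ^ 2 / 8 - 9 / 64 =
      -1 / 64 + P ^ 2 * (3 / 4 - 2 * P + 9 / 8 * P ^ 2) := by
    unfold gp; ring
  have h5 : P ^ 2 * (3 / 4 - 2 * P + 9 / 8 * P ^ 2) ≤
      (1975 / 10000 : ℝ) ^ 2 * (3 / 4 - 2 * (1975 / 10000) + 9 / 8 * (1975 / 10000) ^ 2) := by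
    obtain ⟨c, hc⟩ : ∃ c : ℝ, c = 1975 / 10000 := ⟨_, rfl⟩
    rw [← hc] at hcon ⊢
    have e : c ^ 2 * (3 / 4 - 2 * c + 9 / 8 * c ^ 2) - P ^ 2 * (3 / 4 - 2 * P + 9 / 8 * P ^ 2) =
        (c - P) * (3 / 4 * (c + P) - 2 * (c ^ 2 + c * P + P ^ 2) +
          9 / 8 * (c + P) * (c ^ 2 + P ^ 2)) := by ring
    have hc0 : 0 ≤ c := by rw [hc]; norm_num
    have hc1 : c ≤ 1 / 5 := by rw [hc]; norm_num
    have e2 : 0 ≤ 3 / 4 * (c + P) - 2 * (c ^ 2 + c * P + P ^ 2) := by nlinarith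
    have e3 : 0 ≤ 9 / 8 * (c + P) * (c ^ 2 + P ^ 2) := by positivity
    have e4 := mul_nonneg (sub_nonneg.2 hcon) (add_nonneg e2 e3)
    nlinarith
  norm_num at h5
  linarith

/-- The bound for the two other cells. -/
lemma capC {x y P : ℝ} (hx : 0 ≤ x) (hy : 0 ≤ y) (hxy : x + y = 1 - P)
    (hP : 1975 / 10000 ≤ P) : gp x + gp y ≤ 11544 / 100000 := by
  rcases le_total P (1 / 3) with h | h
  · have h1 := gp_pair (P := P) hx hy (by linarith) hxy h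
    have h2 : (1 - P ^ 2) ^ 2 / 8 ≤ (1 - (1975 / 10000) ^ 2) ^ 2 / 8 := by
      have h3 : (1975 / 10000 : ℝ) ^ 2 ≤ P ^ 2 := by gcongr
      have h4 : P ^ 2 ≤ 1 := by nlinarith
      gcongr
    norm_num at h2
    linarith
  · -- `x + y ≤ 2/3`
    have hx1 : x ≤ 2 / 3 := by linarith
    have hy1 : y ≤ 2 / 3 := by linarith
    have key : ∀ t : ℝ, 0 ≤ t → t ≤ 2 / 3 → gp t ≤ 4 / 27 * t := by
      intro t ht0 ht1
      have e : 4 / 27 * t - gp t = t * (t - 1 / 3) ^ 2 * (4 / 3 - t) := by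
        unfold gp; ring
      have e2 : 0 ≤ 4 / 3 - t := by linarith
      have e3 : 0 ≤ t * (t - 1 / 3) ^ 2 * (4 / 3 - t) := by positivity
      linarith
    have e1 := key x hx hx1
    have e2 := key y hy hy1
    linarith

end Vale.Agent.P226
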