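import Vale.Agent.P226.Removal

/-!
# P226: reduction of the propeller conjecture to the non-existence of critical configurations
-/

open MeasureTheory ProbabilityTheory Finset
open scoped RealInnerProductSpace ENNReal BigOperators

namespace Vale.Agent.P226

set_option linter.unusedSectionVars false

lemma C0_pos : 0 < C0 := by unfold C0; positivity

/-- If all partitions with at most three cells satisfy the bound and there is no critical
configuration with at least four cells, then the propeller bound holds for all partitions. -/
theorem reduce {E : Type*} [NormedAddCommGroup E] [InnerProductSpace ℝ E] [FiniteDimensional ℝ E]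
    [MeasurableSpace E] [BorelSpace E]
    (h3 : ∀ f : E → Fin 3, IsLab f → Fval f ≤ C0)
    (hT : ∀ (ι : Type) [Fintype ι] [DecidableEq ι], 4 ≤ Fintype.card ι →
      ∀ z : ι → E, ¬ Crit z) :
    ∀ (n : ℕ) (ι : Type) [Fintype ι], Fintype.card ι = n → ∀ f : E → ι, IsLab f →
      Fval f ≤ C0 := by
  intro n
  induction n using Nat.strong_induction_on with
  | _ n ih =>
    intro ι _ hcard f hf
    classical
    by_cases hn : n ≤ 3
    · have : Fintype.card ι ≤ Fintype.card (Fin 3) := by simpa [hcard] using hn
      obtain ⟨e⟩ := Function.Embedding.nonempty_of_card_le this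
      rw [← Fval_comp_of_injective f e.injective]
      exact h3 _ (hf.comp e)
    · push Not at hn
      by_contra hcon
      push Not at hcon
      have hne : Nonempty ι := Fintype.card_pos_iff.1 (by omega)
      have hless : ∀ i0 : ι, ∀ f : E → {i // i ≠ i0}, IsLab f → Fval f ≤ C0 := by
        intro i0 f hf
        refine ih (n - 1) (by omega) {i // i ≠ i0} ?_ f hf
        rw [Fintype.card_subtype_compl, Fintype.card_subtype_eq, hcard]
      obtain ⟨z, hz⟩ := exists_crit C0_pos.le hless ⟨f, hf, hcon⟩
      exact hT ι (by omega) z hz

end Vale.Agent.P226
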