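import Vale.Agent.P226.Vol4
import Vale.Agent.P226.K4ineq
import Vale.Agent.P226.K4fin
import Vale.Agent.P226.Reduce

/-!
# P226: there is no critical configuration with four cells
-/

open MeasureTheory ProbabilityTheory Finset Filter Topology
open scoped RealInnerProductSpace ENNReal BigOperators

namespace Vale.Agent.P226

set_option linter.unusedSectionVars false

variable {E : Type*} [NormedAddCommGroup E] [InnerProductSpace ℝ E] [FiniteDimensional ℝ E]
  [MeasurableSpace E] [BorelSpace E]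
variable {ι : Type*} [Fintype ι] [DecidableEq ι] {z : ι → E}

/-- the dual functional of the configuration is its squared norm -/
lemma Crit.G_eq (hz : Crit z) [Nonempty ι] : G z = nsq z := by
  rw [← sum_inner_am z]
  unfold nsq
  refine Finset.sum_congr rfl (fun i _ => ?_)
  rw [mom_congr (cell_ae_eq_am hz.inj i), hz.mom_eq, real_inner_self_eq_norm_sq]

/-- the dual functional of the remaining vectors -/
lemma Crit.G_others (hz : Crit z) (i0 : ι) [Nonempty {i // i ≠ i0}] :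
    G (fun i : {i // i ≠ i0} => z i) = nsq z - del z i0 := by
  have : Nonempty ι := ⟨i0⟩
  rw [← hz.G_eq]
  have h1 : Integrable (fun x => Nx z i0 x) (stdGaussian E) := integrable_Mx _
  have h2 : Integrable (fun x => ⟪z i0, x⟫ - Nx z i0 x) (stdGaussian E) :=
    (integrable_inner _).sub h1
  unfold G del
  rw [← integral_indicator (measurableSet_cell z i0),
    ← integral_sub (integrable_Mx z) (h2.indicator (measurableSet_cell z i0))]
  congr 1
  ext x
  by_cases hx : x ∈ cell z i0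
  · rw [Set.indicator_of_mem hx]
    have h3 : Mx z x = ⟪z i0, x⟫ := le_antisymm (Mx_le hx) (le_Mx z x i0)
    rw [h3]
    unfold Nx
    ring
  · rw [Set.indicator_of_notMem hx, sub_zero]
    apply le_antisymm
    · exact Mx_le (fun i => le_Mx z x i)
    · obtain ⟨i, hi⟩ := exists_Mx z x
      have hne : i ≠ i0 := by
        rintro rfl
        exact hx (fun j => by rw [hi]; exact le_Mx z x j)
      rw [← hi]
      exact le_Mx (fun i : {i // i ≠ i0} => z i) x ⟨i, hne⟩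

lemma sum_four {i0 j k l : ι} (hj : j ≠ i0) (hk : k ≠ i0) (hl : l ≠ i0)
    (hjk : j ≠ k) (hjl : j ≠ l) (hkl : k ≠ l) (hall : ∀ i, i = i0 ∨ i = j ∨ i = k ∨ i = l)
    {M : Type*} [AddCommMonoid M] (f : ι → M) : ∑ i, f i = f i0 + (f j + (f k + f l)) := by
  have : (Finset.univ : Finset ι) = {i0, j, k, l} := by
    ext i
    simp only [Finset.mem_univ, Finset.mem_insert, Finset.mem_singleton, true_iff]
    exact hall i
  rw [this, Finset.sum_insert (by simp [hj.symm, hk.symm, hl.symm]),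
    Finset.sum_insert (by simp [hjk, hjl]), Finset.sum_pair hkl]

/-- the mean-width identity for the remaining three vectors -/
lemma Crit.sub_del (hz : Crit z) {i0 j k l : ι} (hj : j ≠ i0) (hk : k ≠ i0) (hl : l ≠ i0)
    (hall : ∀ i, i = i0 ∨ i = j ∨ i = k ∨ i = l) [Nonempty {i // i ≠ i0}] :
    8 * Real.pi * (nsq z - del z i0) ^ 2 =
      (‖z j - z k‖ + ‖z k - z l‖ + ‖z l - z j‖) ^ 2 := by
  rw [← hz.G_others i0]
  have h1 : G (fun i : {i // i ≠ i0} => z i) = G ![z j, z k, z l] := by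
    unfold G
    congr 1
    ext x
    apply le_antisymm
    · refine Mx_le (fun i => ?_)
      rcases hall i with h | h | h | h
      · exact absurd h i.2
      · rw [h]; exact le_Mx ![z j, z k, z l] x 0
      · rw [h]; exact le_Mx ![z j, z k, z l] x 1
      · rw [h]; exact le_Mx ![z j, z k, z l] x 2
    · refine Mx_le (fun i => ?_)
      fin_cases i
      · exact le_Mx (fun i : {i // i ≠ i0} => z i) x ⟨j, hj⟩
      · exact le_Mx (fun i : {i // i ≠ i0} => z i) x ⟨k, hk⟩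
      · exact le_Mx (fun i : {i // i ≠ i0} => z i) x ⟨l, hl⟩
  rw [h1, G_three]
  simp only [Matrix.cons_val_zero, Matrix.cons_val_one, Matrix.cons_val]
  rw [mul_pow, div_pow, Real.sq_sqrt (by positivity)]
  have : Real.pi ≠ 0 := Real.pi_ne_zero
  field_simp
  norm_num

/-- the sum of the cap functions exceeds `9/64` -/
lemma Crit.sum_gp (hz : Crit z) (h4 : Fintype.card ι = 4) :
    9 / 64 < ∑ i, gp (pc z i) := by
  have h1 : ∀ i, ‖z i‖ ^ 2 ≤ 8 / Real.pi * gp (pc z i) := by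
    intro i
    have h := hz.cap3 h4 i
    have h2 : ‖z i‖ ^ 2 ≤ (4 * (Real.sqrt (2 * Real.pi))⁻¹ * (pc z i * (1 - pc z i))) ^ 2 := by
      gcongr
    refine h2.trans (le_of_eq ?_)
    unfold gp
    rw [mul_pow, mul_pow, inv_pow, Real.sq_sqrt (by positivity)]
    field_simp
    ring
  have h2 := hz.big
  unfold C0 nsq at h2
  have h3 : ∑ i, ‖z i‖ ^ 2 ≤ 8 / Real.pi * ∑ i, gp (pc z i) := by
    rw [Finset.mul_sum]
    exact Finset.sum_le_sum (fun i _ => h1 i)
  have h4 := lt_of_lt_of_le h2 h3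
  have hpi := Real.pi_pos
  rw [div_lt_iff₀ (by positivity)] at h4
  have h5 : 8 / Real.pi * (∑ i, gp (pc z i)) * (8 * Real.pi) = 64 * ∑ i, gp (pc z i) := by
    field_simp
    ring
  rw [h5] at h4
  linarith

lemma Crit.sq_le (hz : Crit z) (h4 : Fintype.card ι = 4) (i : ι) :
    Real.pi * ‖z i‖ ^ 2 ≤ 8 * gp (pc z i) := by
  have h := hz.cap3 h4 i
  have h2 : ‖z i‖ ^ 2 ≤ (4 * (Real.sqrt (2 * Real.pi))⁻¹ * (pc z i * (1 - pc z i))) ^ 2 := by
    gcongr
  have h3 : (4 * (Real.sqrt (2 * Real.pi))⁻¹ * (pc z i * (1 - pc z i))) ^ 2 =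
      8 / Real.pi * gp (pc z i) := by
    unfold gp
    rw [mul_pow, mul_pow, inv_pow, Real.sq_sqrt (by positivity)]
    field_simp
    ring
  rw [h3] at h2
  have hpi := Real.pi_pos
  calc Real.pi * ‖z i‖ ^ 2 ≤ Real.pi * (8 / Real.pi * gp (pc z i)) := by gcongr
    _ = _ := by field_simp

lemma gp_le {p c : ℝ} (hp : 0 ≤ p) (hpc : p ≤ c) (hc : c ≤ 1 / 2) : gp p ≤ gp c := by
  have h1 : p * (1 - p) ≤ c * (1 - c) := by nlinarith
  have h2 : 0 ≤ p * (1 - p) := mul_nonneg hp (by linarith)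
  have h3 : (p * (1 - p)) ^ 2 ≤ (c * (1 - c)) ^ 2 := by gcongr
  unfold gp
  rw [← mul_pow, ← mul_pow]
  exact h3

lemma exists_others (h4 : Fintype.card ι = 4) (i0 : ι) :
    ∃ j k l : ι, j ≠ i0 ∧ k ≠ i0 ∧ l ≠ i0 ∧ j ≠ k ∧ j ≠ l ∧ k ≠ l ∧
      ∀ i, i = i0 ∨ i = j ∨ i = k ∨ i = l := by
  have h1 : (Finset.univ.erase i0).card = 3 := by
    rw [Finset.card_erase_of_mem (Finset.mem_univ i0), Finset.card_univ, h4]
  obtain ⟨j, k, l, hjk, hjl, hkl, he⟩ := Finset.card_eq_three.1 h1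
  refine ⟨j, k, l, ?_, ?_, ?_, hjk, hjl, hkl, ?_⟩
  · exact Finset.ne_of_mem_erase (by rw [he]; simp : j ∈ Finset.univ.erase i0)
  · exact Finset.ne_of_mem_erase (by rw [he]; simp : k ∈ Finset.univ.erase i0)
  · exact Finset.ne_of_mem_erase (by rw [he]; simp : l ∈ Finset.univ.erase i0)
  · intro i
    by_cases hi : i = i0
    · exact Or.inl hi
    · have : i ∈ Finset.univ.erase i0 := Finset.mem_erase.2 ⟨hi, Finset.mem_univ i⟩
      rw [he] at this
      simpa [hi] using this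

/-- a small cell -/
lemma Crit.exists_small (hz : Crit z) (h4 : Fintype.card ι = 4) :
    ∃ q : ι, ‖z q‖ ^ 2 ≤ 1768 / 100000 := by
  have hne : Nonempty ι := Fintype.card_pos_iff.1 (by omega)
  obtain ⟨q, -, hq⟩ := Finset.exists_min_image Finset.univ (pc z) Finset.univ_nonempty
  obtain ⟨j, k, l, hj, hk, hl, hjk, hjl, hkl, hall⟩ := exists_others h4 q
  have h1 := hz.sum_gp h4
  have h2 := hz.sum_pc
  rw [sum_four hj hk hl hjk hjl hkl hall] at h1 h2
  have h3 := capA (pc_nonneg z q) (hq j (Finset.mem_univ _)) (hq k (Finset.mem_univ _))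
    (hq l (Finset.mem_univ _)) (by linarith) (by linarith)
  refine ⟨q, ?_⟩
  have h5 := hz.sq_le h4 q
  have h6 := gp_le (pc_nonneg z q) h3.le (by norm_num)
  have h7 : gp (9174 / 100000) ≤ 555429 / 80000000 := by
    unfold gp; norm_num
  have h8 := Real.pi_gt_d6
  by_contra hcon
  push Not at hcon
  nlinarith

/-- the other cells are not small -/
lemma Crit.other_ge (hz : Crit z) (h4 : Fintype.card ι = 4) {i0 j k l : ι} (hj : j ≠ i0)
    (hk : k ≠ i0) (hl : l ≠ i0) (hjk : j ≠ k) (hjl : j ≠ l) (hkl : k ≠ l)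
    (hall : ∀ i, i = i0 ∨ i = j ∨ i = k ∨ i = l) (hs : ‖z i0‖ ^ 2 ≤ 1768 / 100000) :
    287 / 10000 + ‖z i0‖ ^ 2 ≤ ‖z j‖ ^ 2 := by
  have hne : Nonempty ι := ⟨i0⟩
  have h1 := hz.sum_gp h4
  have h2 := hz.sum_pc
  rw [sum_four hj hk hl hjk hjl hkl hall] at h1 h2
  have h3 := capB (pc_nonneg z i0) (pc_nonneg z j) (pc_nonneg z k) (pc_nonneg z l)
    (by linarith) (by linarith)
  have h5 := capC (pc_nonneg z k) (pc_nonneg z l) (P := pc z i0 + pc z j) (by linarith) h3.le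
  have h6 := hz.sq_le h4 k
  have h7 := hz.sq_le h4 l
  have h8 := hz.big
  unfold C0 nsq at h8
  rw [sum_four hj hk hl hjk hjl hkl hall, div_lt_iff₀ (by positivity)] at h8
  have h9 := Real.pi_gt_d6
  have h10 := Real.pi_lt_d6
  by_contra hcon
  push Not at hcon
  have h11 : 0 ≤ ‖z i0‖ ^ 2 := by positivity
  nlinarith

/-- the arithmetic part of the four-cell case -/
lemma k4_arith {s sj sk sl l1 l2 l3 G1 G2 G3 B1 B2 B3 δ : ℝ} (hs0 : 0 < s)
    (hs : s ≤ 1768 / 100000) (oj : 287 / 10000 + s ≤ sj) (ok : 287 / 10000 + s ≤ sk)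
    (ol : 287 / 10000 + s ≤ sl)
    (hdel : δ ^ 2 * (G3 * G2 + G3 * G1 + G2 * G1) ≤ 512 / (81 * Real.pi ^ 3) * s ^ 3)
    (hsub : 8 * Real.pi * (s + (sj + (sk + sl)) - δ) ^ 2 = (l3 + l1 + l2) ^ 2)
    (ij : B1 + (sj + (G3 + G2)) = 0) (ik : B2 + (G3 + (sk + G1)) = 0)
    (il : B3 + (G2 + (G1 + sl)) = 0) (i0' : s + (B1 + (B2 + B3)) = 0)
    (n1 : G1 < 0) (n2 : G2 < 0) (n3 : G3 < 0) (m1 : B1 < 0) (m2 : B2 < 0) (m3 : B3 < 0)
    (L3 : l3 ^ 2 = sj - 2 * G3 + sk) (L1 : l1 ^ 2 = sk - 2 * G1 + sl)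
    (L2 : l2 ^ 2 = sl - 2 * G2 + sj) (hbig : 9 / (8 * Real.pi) < s + (sj + (sk + sl)))
    (hdel0 : 0 ≤ δ) : False := by
  have hpi := Real.pi_pos
  have hpi1 := Real.pi_gt_d6
  have hpi2 := Real.pi_lt_d6
  -- abbreviations
  have hb1 : s * (-B1 / s) = -B1 := by field_simp
  have hb2 : s * (-B2 / s) = -B2 := by field_simp
  have hb3 : s * (-B3 / s) = -B3 := by field_simp
  rw [div_lt_iff₀ (by positivity)] at hbig
  have hΛ0 : 16135 / 100000 ≤ -G1 + -G2 + -G3 := by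
    by_contra hcon
    push Not at hcon
    have e : s + (sj + (sk + sl)) = 2 * (-G1 + -G2 + -G3) + 2 * s := by linarith
    have h1 : s + (sj + (sk + sl)) ≤ 35806 / 100000 := by linarith
    have h2 := mul_le_mul_of_nonneg_right h1 hpi.le
    linarith
  have hbsum : -B1 / s + -B2 / s + -B3 / s = 1 := by
    have : -B1 / s + -B2 / s + -B3 / s = (-B1 + -B2 + -B3) / s := by ring
    rw [this, div_eq_one_iff_eq hs0.ne']
    linarith
  have p1 : 0 ≤ -B1 / s := by
    have : 0 ≤ -B1 := by linarith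
    positivity
  have p2 : 0 ≤ -B2 / s := by
    have : 0 ≤ -B2 := by linarith
    positivity
  have p3 : 0 ≤ -B3 / s := by
    have : 0 ≤ -B3 := by linarith
    positivity
  have hfin := final4 (g1 := -G1) (g2 := -G2) (g3 := -G3) (b1 := -B1 / s) (b2 := -B2 / s)
    (b3 := -B3 / s) (s := s) (l1 := l1) (l2 := l2) (l3 := l3) (Λ := -G1 + -G2 + -G3)
    (x := (l1 - l2) ^ 2 + (l2 - l3) ^ 2 + (l3 - l1) ^ 2)
    (by linarith) (by linarith) (by linarith) p1 p2 p3 hbsum hs0 (by linarith) rfl hΛ0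
    (by linarith) (by linarith) (by linarith)
    (by rw [mul_sub, hb1]; linarith) (by rw [mul_sub, hb2]; linarith)
    (by rw [mul_sub, hb3]; linarith) rfl
  have hE1 := e2_lower (g1 := -G1) (g2 := -G2) (g3 := -G3) (Λ := -G1 + -G2 + -G3)
    (by linarith) (by linarith) (by linarith) rfl hΛ0
    (by linarith) (by linarith) (by linarith)
  have he : G3 * G2 + G3 * G1 + G2 * G1 = -G1 * -G2 + -G1 * -G3 + -G2 * -G3 := by ring
  rw [he] at hdel
  generalize -G1 * -G2 + -G1 * -G3 + -G2 * -G3 = e at *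
  -- numerical value of the constant
  have hpi3 : (31006 : ℝ) / 1000 ≤ Real.pi ^ 3 := by
    have : (3.141592 : ℝ) ^ 3 ≤ Real.pi ^ 3 := by gcongr
    refine le_trans ?_ this
    norm_num
  have hdel' : 324 * (δ ^ 2 * e) < 6606 / 100 * s ^ 3 := by
    have h1 : 512 / (81 * Real.pi ^ 3) ≤ 512 / (81 * (31006 / 1000)) := by gcongr
    have h2 : 0 < s ^ 3 := by positivity
    have h3 : 512 / (81 * Real.pi ^ 3) * s ^ 3 ≤ 512 / (81 * (31006 / 1000)) * s ^ 3 :=
      mul_le_mul_of_nonneg_right h1 h2.le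
    have h4 : 324 * (512 / (81 * (31006 / 1000)) * s ^ 3) < 6606 / 100 * s ^ 3 := by
      rw [← mul_assoc]
      refine mul_lt_mul_of_pos_right ?_ h2
      norm_num
    linarith
  -- `δ` is small
  have hδ : δ ≤ 1 / 20 := by
    by_contra hcon
    push Not at hcon
    have h1 : (1 / 20 : ℝ) ^ 2 ≤ δ ^ 2 := by gcongr
    have h2 : (1 / 20 : ℝ) ^ 2 * (38 / 10000) ≤ δ ^ 2 * e :=
      mul_le_mul h1 hE1 (by norm_num) (by positivity)
    have h3 : s ^ 3 ≤ (1768 / 100000) ^ 3 := by gcongr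
    norm_num at h2 h3
    linarith
  -- upper bound for `12 s + x`
  have hup : 12 * s + ((l1 - l2) ^ 2 + (l2 - l3) ^ 2 + (l3 - l1) ^ 2) ≤ 18 * δ := by
    have h1 : (l3 + l1 + l2) ^ 2 = 3 * (l1 ^ 2 + l2 ^ 2 + l3 ^ 2) -
        ((l1 - l2) ^ 2 + (l2 - l3) ^ 2 + (l3 - l1) ^ 2) := by ring
    rw [h1] at hsub
    obtain ⟨S, hSdef⟩ : ∃ S, S = s + (sj + (sk + sl)) := ⟨_, rfl⟩
    rw [← hSdef] at hsub hbig
    have h2 : 12 * s + ((l1 - l2) ^ 2 + (l2 - l3) ^ 2 + (l3 - l1) ^ 2) =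
        9 * S - 8 * Real.pi * (S - δ) ^ 2 := by
      rw [hsub, hSdef]
      linarith
    rw [h2]
    have h3 : 9 * S - 8 * Real.pi * (S - δ) ^ 2 - 18 * δ =
        (9 - 8 * Real.pi * S) * (S - 2 * δ) - 8 * Real.pi * δ ^ 2 := by ring
    have h4 : (9 - 8 * Real.pi * S) * (S - 2 * δ) ≤ 0 := by
      apply mul_nonpos_of_nonpos_of_nonneg
      · linarith
      · have : (1 : ℝ) / 5 ≤ S := by
          by_contra hcon
          push Not at hcon
          have h5 := mul_le_mul_of_nonneg_right hcon.le hpi.le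
          linarith
        linarith
    have h5 : 0 ≤ 8 * Real.pi * δ ^ 2 := by positivity
    linarith
  have hx0 : 0 ≤ 12 * s + ((l1 - l2) ^ 2 + (l2 - l3) ^ 2 + (l3 - l1) ^ 2) := by positivity
  have hsq : (12 * s + ((l1 - l2) ^ 2 + (l2 - l3) ^ 2 + (l3 - l1) ^ 2)) ^ 2 ≤ (18 * δ) ^ 2 := by
    gcongr
  have he0 : 0 ≤ e := by linarith
  have h9 := mul_le_mul_of_nonneg_left hsq he0
  have h10 : e * (18 * δ) ^ 2 = 324 * (δ ^ 2 * e) := by ring
  linarith

/-- **There is no critical configuration with four cells.** -/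
theorem no_crit4 (hz : Crit z) (h4 : Fintype.card ι = 4) : False := by
  have hne : Nonempty ι := Fintype.card_pos_iff.1 (by omega)
  obtain ⟨i0, -, hi0⟩ := Finset.exists_min_image Finset.univ (fun i => ‖z i‖ ^ 2)
    Finset.univ_nonempty
  obtain ⟨q, hq⟩ := hz.exists_small h4
  have hs : ‖z i0‖ ^ 2 ≤ 1768 / 100000 := (hi0 q (Finset.mem_univ q)).trans hq
  obtain ⟨j, k, l, hj, hk, hl, hjk, hjl, hkl, hall⟩ := exists_others h4 i0
  have hne' : Nonempty {i // i ≠ i0} := ⟨⟨j, hj⟩⟩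
  have z0 : z i0 ≠ 0 := hz.ne_zero hj
  have oj := hz.other_ge h4 hj hk hl hjk hjl hkl hall hs
  have ok := hz.other_ge h4 hk hj hl hjk.symm hkl hjl
    (fun i => by rcases hall i with h | h | h | h <;> simp [h]) hs
  have ol := hz.other_ge h4 hl hj hk hjl.symm hkl.symm hjk
    (fun i => by rcases hall i with h | h | h | h <;> simp [h]) hs
  have hdel := hz.del_sq_le hj hk hl hjk hjl hkl hall
  have hsub := hz.sub_del hj hk hl hall
  have hS : nsq z = ‖z i0‖ ^ 2 + (‖z j‖ ^ 2 + (‖z k‖ ^ 2 + ‖z l‖ ^ 2)) := by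
    unfold nsq
    rw [sum_four hj hk hl hjk hjl hkl hall]
  have hsum : z i0 + (z j + (z k + z l)) = 0 := by
    rw [← sum_four hj hk hl hjk hjl hkl hall, hz.sum_zero]
  -- inner products with the sum
  have ij : ⟪z j, z i0⟫ + (‖z j‖ ^ 2 + (⟪z j, z k⟫ + ⟪z j, z l⟫)) = 0 := by
    have := congrArg (fun u => ⟪z j, u⟫) hsum
    simpa only [inner_add_right, inner_zero_right, real_inner_self_eq_norm_sq] using this
  have ik : ⟪z k, z i0⟫ + (⟪z j, z k⟫ + (‖z k‖ ^ 2 + ⟪z k, z l⟫)) = 0 := by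
    have := congrArg (fun u => ⟪z k, u⟫) hsum
    simp only [inner_add_right, inner_zero_right, real_inner_self_eq_norm_sq] at this
    rw [real_inner_comm (z j) (z k)] at this
    exact this
  have il : ⟪z l, z i0⟫ + (⟪z j, z l⟫ + (⟪z k, z l⟫ + ‖z l‖ ^ 2)) = 0 := by
    have := congrArg (fun u => ⟪z l, u⟫) hsum
    simp only [inner_add_right, inner_zero_right, real_inner_self_eq_norm_sq] at this
    rw [real_inner_comm (z j) (z l), real_inner_comm (z k) (z l)] at this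
    exact this
  have i0' : ‖z i0‖ ^ 2 + (⟪z j, z i0⟫ + (⟪z k, z i0⟫ + ⟪z l, z i0⟫)) = 0 := by
    have := congrArg (fun u => ⟪z i0, u⟫) hsum
    simp only [inner_add_right, inner_zero_right, real_inner_self_eq_norm_sq] at this
    rw [real_inner_comm (z j) (z i0), real_inner_comm (z k) (z i0),
      real_inner_comm (z l) (z i0)] at this
    exact this
  have n1 := hz.inner_neg k l hkl
  have n2 := hz.inner_neg j l hjl
  have n3 := hz.inner_neg j k hjk
  have m1 := hz.inner_neg j i0 hj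
  have m2 := hz.inner_neg k i0 hk
  have m3 := hz.inner_neg l i0 hl
  have L3 : ‖z j - z k‖ ^ 2 = ‖z j‖ ^ 2 - 2 * ⟪z j, z k⟫ + ‖z k‖ ^ 2 := norm_sub_sq_real _ _
  have L1 : ‖z k - z l‖ ^ 2 = ‖z k‖ ^ 2 - 2 * ⟪z k, z l⟫ + ‖z l‖ ^ 2 := norm_sub_sq_real _ _
  have L2 : ‖z l - z j‖ ^ 2 = ‖z l‖ ^ 2 - 2 * ⟪z j, z l⟫ + ‖z j‖ ^ 2 := by
    rw [norm_sub_sq_real, real_inner_comm]
  have hbig := hz.big
  unfold C0 at hbig
  have hs0 : 0 < ‖z i0‖ ^ 2 := by positivity
  have h6 : ‖z i0‖ ^ 6 = (‖z i0‖ ^ 2) ^ 3 := by ring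
  rw [h6] at hdel
  rw [hS] at hsub hbig
  have hdel0 : 0 ≤ del z i0 := by
    rw [del_eq hz i0 (by omega) hne']
    have : 0 ≤ ∫ t in Set.Ioi 0, ∫ r in Set.Ioi 0,
        phi (t + r) * Gam (vv z i0) (bb z i0) t r :=
      integral_nonneg (fun t => integral_nonneg (fun r =>
        mul_nonneg (phi_pos _).le (Gam_nonneg _ _ _ _)))
    positivity
  exact k4_arith hs0 hs oj ok ol hdel hsub ij ik il i0' n1 n2 n3 m1 m2 m3 L3 L1 L2 hbig hdel0

end Vale.Agent.P226
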