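import Vale.Agent.P226.Cond

/-!
# P226: the joint law of `⟪z i, x⟫` depends only on the Gram matrix
-/

open MeasureTheory ProbabilityTheory Finset
open scoped RealInnerProductSpace ENNReal BigOperators

namespace Vale.Agent.P226

set_option linter.unusedSectionVars false

variable {E : Type*} [NormedAddCommGroup E] [InnerProductSpace ℝ E] [FiniteDimensional ℝ E]
  [MeasurableSpace E] [BorelSpace E]
variable {F : Type*} [NormedAddCommGroup F] [InnerProductSpace ℝ F] [FiniteDimensional ℝ F]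
  [MeasurableSpace F] [BorelSpace F]
variable {ι : Type*} [Fintype ι]

/-- the vector of inner products -/
noncomputable def ipv (z : ι → E) (x : E) : EuclideanSpace ℝ ι :=
  WithLp.toLp 2 (fun i => ⟪z i, x⟫)

lemma continuous_ipv (z : ι → E) : Continuous (ipv z) := by
  unfold ipv
  exact (PiLp.continuous_toLp 2 _).comp (continuous_pi (fun i => by fun_prop))

lemma charFun_ipv (z : ι → E) (s : EuclideanSpace ℝ ι) :
    charFun ((stdGaussian E).map (ipv z)) s =
      Complex.exp (-((∑ i, ∑ j, s i * s j * ⟪z i, z j⟫ : ℝ) : ℂ) / 2) := by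
  rw [charFun_apply, integral_map (continuous_ipv z).measurable.aemeasurable (by fun_prop)]
  have h1 : ∀ x : E, ⟪ipv z x, s⟫ = ⟪x, ∑ i, s i • z i⟫ := by
    intro x
    rw [inner_sum, PiLp.inner_apply]
    refine Finset.sum_congr rfl (fun i _ => ?_)
    rw [real_inner_smul_right, real_inner_comm (z i) x]
    simp [ipv]
  simp_rw [h1]
  rw [← charFun_apply, charFun_stdGaussian]
  congr 1
  have h2 : ‖∑ i, s i • z i‖ ^ 2 = ∑ i, ∑ j, s i * s j * ⟪z i, z j⟫ := by
    rw [← real_inner_self_eq_norm_sq, sum_inner]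
    refine Finset.sum_congr rfl (fun i _ => ?_)
    rw [inner_sum]
    refine Finset.sum_congr rfl (fun j _ => ?_)
    rw [real_inner_smul_left, real_inner_smul_right]
    ring
  rw [← h2]
  push_cast
  ring

theorem map_ipv_eq (z : ι → E) (w : ι → F) (h : ∀ i j, ⟪z i, z j⟫ = ⟪w i, w j⟫) :
    (stdGaussian E).map (ipv z) = (stdGaussian F).map (ipv w) := by
  have h1 : IsProbabilityMeasure ((stdGaussian E).map (ipv z)) :=
    Measure.isProbabilityMeasure_map (continuous_ipv z).measurable.aemeasurable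
  have h2 : IsProbabilityMeasure ((stdGaussian F).map (ipv w)) :=
    Measure.isProbabilityMeasure_map (continuous_ipv w).measurable.aemeasurable
  apply Measure.ext_of_charFun
  ext s
  rw [charFun_ipv, charFun_ipv]
  simp_rw [h]

/-- transfer of integrals -/
theorem integral_ipv_eq (z : ι → E) (w : ι → F) (h : ∀ i j, ⟪z i, z j⟫ = ⟪w i, w j⟫)
    (Φ : (ι → ℝ) → ℝ) (hΦ : Measurable Φ) :
    ∫ x, Φ (fun i => ⟪z i, x⟫) ∂(stdGaussian E) = ∫ y, Φ (fun i => ⟪w i, y⟫) ∂(stdGaussian F) := by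
  have hm : Measurable (fun p : EuclideanSpace ℝ ι => Φ (fun i => p i)) :=
    hΦ.comp (measurable_pi_lambda _ (fun i => by fun_prop))
  have h1 : ∀ x : E, Φ (fun i => ⟪z i, x⟫) = (fun p : EuclideanSpace ℝ ι => Φ (fun i => p i))
      (ipv z x) := fun x => by simp [ipv]
  have h2 : ∀ y : F, Φ (fun i => ⟪w i, y⟫) = (fun p : EuclideanSpace ℝ ι => Φ (fun i => p i))
      (ipv w y) := fun x => by simp [ipv]
  simp_rw [h1, h2]
  rw [← integral_map (f := fun p : EuclideanSpace ℝ ι => Φ (fun i => p i))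
      (continuous_ipv z).measurable.aemeasurable hm.aestronglyMeasurable,
    ← integral_map (f := fun p : EuclideanSpace ℝ ι => Φ (fun i => p i))
      (continuous_ipv w).measurable.aemeasurable hm.aestronglyMeasurable,
    map_ipv_eq z w h]

/-- realisation of a Gram matrix in `ℝⁿ` -/
theorem exists_gram (z : ι → E) {n : ℕ}
    (hn : Module.finrank ℝ (Submodule.span ℝ (Set.range z)) ≤ n) :
    ∃ w : ι → EuclideanSpace ℝ (Fin n), ∀ i j, ⟪z i, z j⟫ = ⟪w i, w j⟫ := by
  set W := Submodule.span ℝ (Set.range z) with hW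
  set m := Module.finrank ℝ W with hm
  let b := stdOrthonormalBasis ℝ W
  let zz : ι → W := fun i => ⟨z i, Submodule.subset_span ⟨i, rfl⟩⟩
  refine ⟨fun i => WithLp.toLp 2 (fun k : Fin n => if h : (k : ℕ) < m then ⟪b ⟨k, h⟩, zz i⟫ else 0),
    fun i j => ?_⟩
  have h1 : ⟪z i, z j⟫ = ⟪zz i, zz j⟫ := rfl
  rw [h1, ← b.sum_inner_mul_inner, PiLp.inner_apply]
  simp only [RCLike.inner_apply, conj_trivial]
  have h2 : ∀ k : Fin n, (if h : (k : ℕ) < m then ⟪b ⟨k, h⟩, zz j⟫ else 0) *
      (if h : (k : ℕ) < m then ⟪b ⟨k, h⟩, zz i⟫ else 0) =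
      if h : (k : ℕ) < m then ⟪b ⟨k, h⟩, zz j⟫ * ⟪b ⟨k, h⟩, zz i⟫ else 0 := by
    intro k
    split_ifs <;> simp
  simp_rw [h2]
  have h3 : ∑ l : Fin m, ⟪zz i, b l⟫ * ⟪b l, zz j⟫ =
      ∑ k : Fin n, if h : (k : ℕ) < m then ⟪b ⟨k, h⟩, zz j⟫ * ⟪b ⟨k, h⟩, zz i⟫ else 0 := by
    symm
    rw [← Finset.sum_subset (Finset.subset_univ
      (Finset.univ.map (Fin.castLEEmb hn)))]
    · rw [Finset.sum_map]
      refine Finset.sum_congr rfl (fun l _ => ?_)
      simp only [Fin.castLEEmb_apply, Fin.val_castLE, l.2, dif_pos]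
      rw [real_inner_comm (b l) (zz i)]
      ring
    · intro k _ hk
      rw [dif_neg]
      intro hlt
      apply hk
      simp only [Finset.mem_map, Finset.mem_univ, true_and]
      exact ⟨⟨k, hlt⟩, by ext; simp⟩
  exact h3

end Vale.Agent.P226
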