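import Mathlib

/-!
# P226: the one-dimensional estimate behind the mean-sum lemma
-/

open MeasureTheory intervalIntegral

namespace Vale.Agent.P226

/-- `HH y = (2Φ(y)-1)/(2 y φ(y))`, written as an integral. -/
noncomputable def HH (y : ℝ) : ℝ := ∫ τ in (0 : ℝ)..1, Real.exp (y ^ 2 * (1 - τ ^ 2) / 2)

lemma HH_zero : HH 0 = 1 := by simp [HH]

lemma HH_mono_sq {y z : ℝ} (h : y ^ 2 ≤ z ^ 2) : HH y ≤ HH z := by
  unfold HH
  refine intervalIntegral.integral_mono_on zero_le_one (Continuous.intervalIntegrable (by fun_prop) _ _)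
    (Continuous.intervalIntegrable (by fun_prop) _ _) ?_
  intro τ hτ
  apply Real.exp_le_exp.2
  have : 0 ≤ 1 - τ ^ 2 := by nlinarith [hτ.1, hτ.2]
  have := mul_le_mul_of_nonneg_right h this
  linarith

lemma HH_mono {y z : ℝ} (hy : 0 ≤ y) (h : y ≤ z) : HH y ≤ HH z :=
  HH_mono_sq (by nlinarith)

lemma one_le_HH (y : ℝ) : 1 ≤ HH y := by
  have := HH_mono_sq (y := 0) (z := y) (by nlinarith [sq_nonneg y])
  rwa [HH_zero] at this

lemma HH_pos (y : ℝ) : 0 < HH y := lt_of_lt_of_le one_pos (one_le_HH y)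

section
variable (x : ℝ)

/-- the kernel `exp (x v - v²/2)` -/
noncomputable def Ek (v : ℝ) : ℝ := Real.exp (x * v - v ^ 2 / 2)

lemma continuous_Ek : Continuous (Ek x) := by unfold Ek; fun_prop

lemma Ek_ii (a b : ℝ) : IntervalIntegrable (Ek x) volume a b :=
  (continuous_Ek x).intervalIntegrable _ _

lemma Ek_symm (v : ℝ) : Ek x (2 * x - v) = Ek x v := by
  unfold Ek; congr 1; ring

/-- the primitive -/
noncomputable def Ik (v : ℝ) : ℝ := ∫ s in (0 : ℝ)..v, Ek x s

lemma hasDerivAt_Ik (v : ℝ) : HasDerivAt (Ik x) (Ek x v) v := by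
  unfold Ik
  exact intervalIntegral.integral_hasDerivAt_right (Ek_ii x _ _)
    ((continuous_Ek x).stronglyMeasurableAtFilter _ _) (continuous_Ek x).continuousAt

lemma continuous_Ik : Continuous (Ik x) :=
  continuous_iff_continuousAt.2 (fun v => (hasDerivAt_Ik x v).continuousAt)

lemma Ik_scale (v : ℝ) : Ik x v = v * ∫ τ in (0 : ℝ)..1, Ek x (v * τ) := by
  unfold Ik
  rcases eq_or_ne v 0 with h | h
  · simp [h]
  · rw [intervalIntegral.integral_comp_mul_left (fun s => Ek x s) h]
    simp only [mul_zero, mul_one, smul_eq_mul]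
    rw [← mul_assoc, mul_inv_cancel₀ h, one_mul]

lemma HH_eq : HH x = ∫ τ in (0 : ℝ)..1, Ek x (x * τ) := by
  have h := intervalIntegral.integral_comp_sub_left (a := 0) (b := 1)
    (fun τ : ℝ => Ek x (x * τ)) 1
  simp only [sub_zero, sub_self] at h
  rw [← h]
  unfold HH Ek
  congr 1
  ext τ
  congr 1
  ring

lemma Ik_self : Ik x x = x * HH x := by rw [Ik_scale, HH_eq]

lemma Ik_two : Ik x (2 * x) = 2 * x * HH x := by
  have h1 : Ik x (2 * x) = (∫ s in (0 : ℝ)..x, Ek x s) + ∫ s in x..(2 * x), Ek x s := by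
    unfold Ik
    rw [intervalIntegral.integral_add_adjacent_intervals (Ek_ii x _ _) (Ek_ii x _ _)]
  have h2 : ∫ s in x..(2 * x), Ek x s = ∫ s in (0 : ℝ)..x, Ek x s := by
    have h := intervalIntegral.integral_comp_sub_left (a := x) (b := 2 * x)
      (fun s : ℝ => Ek x s) (2 * x)
    simp_rw [Ek_symm] at h
    rw [h]
    congr 1 <;> ring
  rw [h1, h2]
  have := Ik_self x
  unfold Ik at this
  rw [this]; ring

lemma Ik_symm (v : ℝ) : Ik x (2 * x - v) = 2 * x * HH x - Ik x v := by
  have h1 : Ik x (2 * x) = (∫ s in (0 : ℝ)..v, Ek x s) + ∫ s in v..(2 * x), Ek x s := by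
    unfold Ik
    rw [intervalIntegral.integral_add_adjacent_intervals (Ek_ii x _ _) (Ek_ii x _ _)]
  have h2 : ∫ s in v..(2 * x), Ek x s = ∫ s in (0 : ℝ)..(2 * x - v), Ek x s := by
    have h := intervalIntegral.integral_comp_sub_left (a := v) (b := 2 * x)
      (fun s : ℝ => Ek x s) (2 * x)
    simp_rw [Ek_symm] at h
    rw [h]
    congr 1; ring
  rw [h2] at h1
  rw [Ik_two] at h1
  unfold Ik at *
  linarith

lemma Ik_le {v : ℝ} (hv : 0 ≤ v) (hvx : v ≤ x) : Ik x v ≤ v * HH x := by
  rw [Ik_scale, HH_eq]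
  refine mul_le_mul_of_nonneg_left ?_ hv
  refine intervalIntegral.integral_mono_on zero_le_one
    (Continuous.intervalIntegrable (by unfold Ek; fun_prop) _ _)
    (Continuous.intervalIntegrable (by unfold Ek; fun_prop) _ _) ?_
  intro τ hτ
  unfold Ek
  apply Real.exp_le_exp.2
  have h1 : v * τ ≤ x * τ := mul_le_mul_of_nonneg_right hvx hτ.1
  have h2 : x * τ ≤ x := by nlinarith [hτ.2]
  have h3 : 0 ≤ v * τ := mul_nonneg hv hτ.1
  nlinarith

lemma Ik_ge {v : ℝ} (hv : x ≤ v) (hvx : v ≤ 2 * x) : v * HH x ≤ Ik x v := by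
  have h1 := Ik_symm x v
  have h2 := Ik_le x (v := 2 * x - v) (by linarith) (by linarith)
  rw [h1] at h2
  nlinarith

lemma Ik_le' {v : ℝ} (hx : 0 ≤ x) (hv : 2 * x ≤ v) : Ik x v ≤ v * HH x := by
  have h1 : Ik x v = Ik x (2 * x) + ∫ s in (2 * x)..v, Ek x s := by
    unfold Ik
    rw [intervalIntegral.integral_add_adjacent_intervals (Ek_ii x _ _) (Ek_ii x _ _)]
  have h2 : ∫ s in (2 * x)..v, Ek x s ≤ ∫ s in (2 * x)..v, (1 : ℝ) := by
    refine intervalIntegral.integral_mono_on hv (Ek_ii x _ _)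
      (continuous_const.intervalIntegrable _ _) ?_
    intro s hs
    unfold Ek
    rw [Real.exp_le_one_iff]
    nlinarith [hs.1]
  rw [intervalIntegral.integral_const, smul_eq_mul, mul_one] at h2
  rw [h1, Ik_two]
  nlinarith [one_le_HH x]

lemma rho_eq (a : ℝ) : ∫ v in (0 : ℝ)..a, (a - v) * Ek x v = ∫ v in (0 : ℝ)..a, Ik x v := by
  have h := intervalIntegral.integral_mul_deriv_eq_deriv_mul (a := 0) (b := a)
    (u := fun v => a - v) (v := Ik x) (u' := fun _ => -1) (v' := Ek x)
    (fun v _ => by simpa using (hasDerivAt_id v).const_sub a)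
    (fun v _ => hasDerivAt_Ik x v) (continuous_const.intervalIntegrable _ _) (Ek_ii x _ _)
  rw [h]
  simp [Ik]

lemma int_Ik_two : ∫ v in (0 : ℝ)..(2 * x), Ik x v = (2 * x) ^ 2 / 2 * HH x := by
  have h1 : ∫ v in (0 : ℝ)..(2 * x), Ik x (2 * x - v) = ∫ v in (0 : ℝ)..(2 * x), Ik x v := by
    have h := intervalIntegral.integral_comp_sub_left (a := 0) (b := 2 * x)
      (fun s : ℝ => Ik x s) (2 * x)
    simp only [sub_zero, sub_self] at h
    exact h
  simp_rw [Ik_symm] at h1
  rw [intervalIntegral.integral_sub (continuous_const.intervalIntegrable _ _)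
    ((continuous_Ik x).intervalIntegrable _ _), intervalIntegral.integral_const, smul_eq_mul] at h1
  linarith

end

/-- The key one-dimensional estimate. -/
theorem rho_le {a : ℝ} (ha : 0 ≤ a) (x : ℝ) :
    ∫ v in (0 : ℝ)..a, (a - v) * Ek x v ≤ a ^ 2 / 2 * HH (max x 0) := by
  have hlin : ∀ (c p q : ℝ), ∫ v in p..q, v * c = (q ^ 2 - p ^ 2) / 2 * c := by
    intro c p q
    rw [intervalIntegral.integral_mul_const, integral_id]
  have hii : ∀ (c p q : ℝ), IntervalIntegrable (fun v : ℝ => v * c) volume p q := fun c p q =>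
    Continuous.intervalIntegrable (by fun_prop) _ _
  have hI : ∀ p q : ℝ, IntervalIntegrable (Ik x) volume p q := fun p q =>
    (continuous_Ik x).intervalIntegrable _ _
  rcases le_total x 0 with hx | hx
  · rw [max_eq_right hx, HH_zero, mul_one]
    have h1 : ∫ v in (0 : ℝ)..a, (a - v) * Ek x v ≤ ∫ v in (0 : ℝ)..a, (a - v) := by
      refine intervalIntegral.integral_mono_on ha
        (Continuous.intervalIntegrable (by unfold Ek; fun_prop) _ _)
        (Continuous.intervalIntegrable (by fun_prop) _ _) ?_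
      intro v hv
      have : Ek x v ≤ 1 := by
        unfold Ek
        rw [Real.exp_le_one_iff]
        nlinarith [hv.1]
      nlinarith [hv.2]
    refine h1.trans (le_of_eq ?_)
    rw [intervalIntegral.integral_sub (by simp) (by simp), intervalIntegral.integral_const,
      integral_id]
    simp; ring
  · rw [max_eq_left hx, rho_eq]
    rcases le_total a x with h1 | h1
    · have : ∫ v in (0 : ℝ)..a, Ik x v ≤ ∫ v in (0 : ℝ)..a, v * HH x := by
        refine intervalIntegral.integral_mono_on ha (hI _ _) (hii _ _ _) ?_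
        intro v hv
        exact Ik_le x hv.1 (hv.2.trans h1)
      rw [hlin] at this
      simpa using this
    · rcases le_total a (2 * x) with h2 | h2
      · have h3 : ∫ v in (0 : ℝ)..a, Ik x v =
            (∫ v in (0 : ℝ)..(2 * x), Ik x v) - ∫ v in a..(2 * x), Ik x v := by
          rw [← intervalIntegral.integral_add_adjacent_intervals (hI 0 a) (hI a (2 * x))]
          ring
        have h4 : ∫ v in a..(2 * x), v * HH x ≤ ∫ v in a..(2 * x), Ik x v := by
          refine intervalIntegral.integral_mono_on h2 (hii _ _ _) (hI _ _) ?_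
          intro v hv
          exact Ik_ge x (h1.trans hv.1) hv.2
        rw [hlin] at h4
        rw [h3, int_Ik_two]
        linarith
      · have h3 : ∫ v in (0 : ℝ)..a, Ik x v =
            (∫ v in (0 : ℝ)..(2 * x), Ik x v) + ∫ v in (2 * x)..a, Ik x v := by
          rw [← intervalIntegral.integral_add_adjacent_intervals (hI 0 (2 * x)) (hI (2 * x) a)]
        have h4 : ∫ v in (2 * x)..a, Ik x v ≤ ∫ v in (2 * x)..a, v * HH x := by
          refine intervalIntegral.integral_mono_on h2 (hI _ _) (hii _ _ _) ?_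
          intro v hv
          exact Ik_le' x hx hv.1
        rw [hlin] at h4
        rw [h3, int_Ik_two]
        linarith

end Vale.Agent.P226
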