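import Vale.Agent.P226.Cond
import Vale.Agent.P226.Rho

/-!
# P226: the mean-sum lemma
-/

open MeasureTheory ProbabilityTheory Finset
open scoped RealInnerProductSpace ENNReal BigOperators

namespace Vale.Agent.P226

set_option linter.unusedSectionVars false

variable {E : Type*} [NormedAddCommGroup E] [InnerProductSpace ℝ E] [FiniteDimensional ℝ E]
  [MeasurableSpace E] [BorelSpace E]
variable {κ : Type*} [Fintype κ]

/-- standard Gaussian density on `ℝ` -/
noncomputable def phi (t : ℝ) : ℝ := (Real.sqrt (2 * Real.pi))⁻¹ * Real.exp (-t ^ 2 / 2)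

lemma phi_pos (t : ℝ) : 0 < phi t := by unfold phi; positivity

lemma continuous_phi : Continuous phi := by unfold phi; fun_prop

lemma pdf_eq_phi (t : ℝ) : gaussianPDFReal 0 1 t = phi t := by
  unfold gaussianPDFReal phi; simp

lemma phi_sub (x v : ℝ) : phi (x - v) = phi x * Ek x v := by
  unfold phi Ek
  rw [mul_assoc, ← Real.exp_add]
  congr 2; ring

/-- `P(u ≤ x)` for the Gaussian vector `u i = ⟪v i, y⟫` -/
noncomputable def PiG (v : κ → E) (x : κ → ℝ) : ℝ :=
  (stdGaussian E).real {y | ∀ i, ⟪v i, y⟫ ≤ x i}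

/-- a negatively correlated frame with zero sum -/
structure Frame (v : κ → E) : Prop where
  sum_zero : ∑ i, v i = 0
  neg : ∀ i l, i ≠ l → ⟪v i, v l⟫ ≤ 0
  pos : ∀ i, v i ≠ 0

/-- unit vector in the direction of `w` -/
noncomputable def un (w : E) : E := ‖w‖⁻¹ • w

lemma norm_un {w : E} (hw : w ≠ 0) : ‖un w‖ = 1 := by
  unfold un
  rw [norm_smul, norm_inv, norm_norm, inv_mul_cancel₀ (norm_ne_zero_iff.2 hw)]

lemma inner_un (w y : E) (hw : w ≠ 0) : ⟪w, y⟫ = ‖w‖ * ⟪un w, y⟫ := by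
  unfold un
  rw [real_inner_smul_left, ← mul_assoc, mul_inv_cancel₀ (norm_ne_zero_iff.2 hw), one_mul]

/-- `P(u_l ≤ x_l for l ≠ i | u_i = ‖v i‖ t)` -/
noncomputable def psi (v : κ → E) (x : κ → ℝ) (i : κ) (t : ℝ) : ℝ :=
  (stdGaussian E).real {y | ∀ l, l ≠ i → ⟪v l, t • un (v i) + pj (un (v i)) y⟫ ≤ x l}

lemma psi_nonneg (v : κ → E) (x : κ → ℝ) (i : κ) (t : ℝ) : 0 ≤ psi v x i t :=
  measureReal_nonneg

lemma psi_le_one (v : κ → E) (x : κ → ℝ) (i : κ) (t : ℝ) : psi v x i t ≤ 1 :=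
  measureReal_le_one

lemma Frame.psi_mono {v : κ → E} (hv : Frame v) (x : κ → ℝ) (i : κ) : Monotone (psi v x i) := by
  intro s t hst
  unfold psi
  refine measureReal_mono ?_ (measure_ne_top _ _)
  intro y hy l hl
  have h1 := hy l hl
  rw [inner_add_right, real_inner_smul_right] at h1 ⊢
  have h2 : ⟪v l, un (v i)⟫ ≤ 0 := by
    unfold un
    rw [real_inner_smul_right]
    exact mul_nonpos_of_nonneg_of_nonpos (by positivity) (hv.neg l i hl)
  nlinarith

lemma PiG_nonneg (v : κ → E) (x : κ → ℝ) : 0 ≤ PiG v x := measureReal_nonneg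

lemma PiG_le_one (v : κ → E) (x : κ → ℝ) : PiG v x ≤ 1 := measureReal_le_one

lemma measurableSet_others (v : κ → E) (x : κ → ℝ) (i : κ) :
    MeasurableSet {y : E | ∀ l, l ≠ i → ⟪v l, y⟫ ≤ x l} := by
  have : {y : E | ∀ l, l ≠ i → ⟪v l, y⟫ ≤ x l} = ⋂ l, ⋂ (_ : l ≠ i), {y | ⟪v l, y⟫ ≤ x l} := by
    ext y; simp
  rw [this]
  exact MeasurableSet.iInter fun l => MeasurableSet.iInter fun _ =>
    measurableSet_le (by fun_prop) measurable_const

/-- disintegration along the `i`-th coordinate -/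
lemma disint (v : κ → E) (hvi : ∀ i, v i ≠ 0) (x : κ → ℝ) (i : κ) {S : Set ℝ}
    (hS : MeasurableSet S) {g : ℝ → ℝ}
    (hint : Integrable (fun y => g ⟪un (v i), y⟫) (stdGaussian E)) :
    ∫ y in {y | ⟪un (v i), y⟫ ∈ S ∧ ∀ l, l ≠ i → ⟪v l, y⟫ ≤ x l}, g ⟪un (v i), y⟫ ∂(stdGaussian E)
      = ∫ t in S, g t * psi v x i t ∂(gaussianReal 0 1) := by
  set e := un (v i) with he
  have hne : ‖e‖ = 1 := norm_un (hvi i)
  have hD1 : MeasurableSet {y : E | ⟪e, y⟫ ∈ S} := by
    have : Measurable (fun y : E => ⟪e, y⟫) := by fun_prop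
    exact this hS
  have hD : MeasurableSet {y : E | ⟪e, y⟫ ∈ S ∧ ∀ l, l ≠ i → ⟪v l, y⟫ ≤ x l} :=
    hD1.inter (measurableSet_others v x i)
  rw [← integral_indicator hD, integral_rec' hne (hint.indicator hD), ← integral_indicator hS]
  congr 1
  ext t
  have h1 : ∀ y, ⟪e, t • e + pj e y⟫ = t := by
    intro y
    rw [inner_add_right, real_inner_smul_right, inner_pj_self hne, real_inner_self_eq_norm_sq, hne]
    ring
  by_cases ht : t ∈ S
  · rw [Set.indicator_of_mem ht]
    have h2 : ∀ y, ({y : E | ⟪e, y⟫ ∈ S ∧ ∀ l, l ≠ i → ⟪v l, y⟫ ≤ x l}.indicator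
        (fun y => g ⟪e, y⟫) (t • e + pj e y)) =
        {y | ∀ l, l ≠ i → ⟪v l, t • e + pj e y⟫ ≤ x l}.indicator (fun _ => g t) y := by
      intro y
      by_cases hy : ∀ l, l ≠ i → ⟪v l, t • e + pj e y⟫ ≤ x l
      · rw [Set.indicator_of_mem (show t • e + pj e y ∈ {y : E | ⟪e, y⟫ ∈ S ∧
          ∀ l, l ≠ i → ⟪v l, y⟫ ≤ x l} from ⟨by rw [h1]; exact ht, hy⟩),
          Set.indicator_of_mem (show y ∈ {y | ∀ l, l ≠ i → ⟪v l, t • e + pj e y⟫ ≤ x l} from hy), h1]
      · rw [Set.indicator_of_notMem (show t • e + pj e y ∉ {y : E | ⟪e, y⟫ ∈ S ∧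
          ∀ l, l ≠ i → ⟪v l, y⟫ ≤ x l} from fun h => hy h.2),
          Set.indicator_of_notMem
          (show y ∉ {y | ∀ l, l ≠ i → ⟪v l, t • e + pj e y⟫ ≤ x l} from hy)]
    simp_rw [h2]
    have hm : MeasurableSet {y | ∀ l, l ≠ i → ⟪v l, t • e + pj e y⟫ ≤ x l} := by
      have := measurableSet_others v x i
      exact (measurable_const.add (measurable_pj e)) this
    rw [integral_indicator hm, setIntegral_const, smul_eq_mul, mul_comm]
    rfl
  · rw [Set.indicator_of_notMem ht]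
    have h2 : ∀ y, ({y : E | ⟪e, y⟫ ∈ S ∧ ∀ l, l ≠ i → ⟪v l, y⟫ ≤ x l}.indicator
        (fun y => g ⟪e, y⟫) (t • e + pj e y)) = 0 := by
      intro y
      rw [Set.indicator_of_notMem]
      intro h
      have := h.1
      rw [h1] at this
      exact ht this
    simp_rw [h2]
    simp

lemma set_eq (v : κ → E) (hvi : ∀ i, v i ≠ 0) (x : κ → ℝ) (i : κ) :
    {y : E | ∀ l, ⟪v l, y⟫ ≤ x l} =
      {y | ⟪un (v i), y⟫ ∈ Set.Iic (x i / ‖v i‖) ∧ ∀ l, l ≠ i → ⟪v l, y⟫ ≤ x l} := by
  ext y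
  have hpos : 0 < ‖v i‖ := norm_pos_iff.2 (hvi i)
  have h1 : ⟪un (v i), y⟫ ≤ x i / ‖v i‖ ↔ ⟪v i, y⟫ ≤ x i := by
    rw [inner_un (v i) y (hvi i), le_div_iff₀ hpos, mul_comm]
  constructor
  · intro h
    exact ⟨h1.2 (h i), fun l _ => h l⟩
  · intro h l
    by_cases hl : l = i
    · rw [hl]; exact h1.1 h.1
    · exact h.2 l hl

lemma integrable_inner_pos (w : E) (c d : ℝ) :
    Integrable (fun y => max (c + d * ⟪w, y⟫) 0) (stdGaussian E) :=
  ((integrable_const c).add ((integrable_inner w).const_mul d)).pos_part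

/-- the one-dimensional integral -/
lemma int_pos_part {a σ : ℝ} (ha : 0 ≤ a) (hσ : 0 < σ) (x : ℝ) :
    ∫ t in Set.Iic (x / σ), max (a - x + σ * t) 0 ∂(gaussianReal 0 1) ≤
      a ^ 2 / 2 * HH (max x 0 / σ) * (phi (x / σ) / σ) := by
  set x' := x / σ with hx'
  set a' := a / σ with ha'
  have ha'0 : 0 ≤ a' := by positivity
  have hxx : x = σ * x' := by rw [hx']; field_simp
  have haa : a = σ * a' := by rw [ha']; field_simp
  rw [← integral_indicator measurableSet_Iic, integral_gaussianReal_eq_integral_smul one_ne_zero]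
  have h1 : ∫ t, gaussianPDFReal 0 1 t • (Set.Iic x').indicator
      (fun t => max (a - x + σ * t) 0) t =
      ∫ w, gaussianPDFReal 0 1 (x' - w) • (Set.Iic x').indicator
      (fun t => max (a - x + σ * t) 0) (x' - w) := by
    rw [integral_sub_left_eq_self (fun t => gaussianPDFReal 0 1 t • (Set.Iic x').indicator
      (fun t => max (a - x + σ * t) 0) t)]
  have h2 : ∀ w, gaussianPDFReal 0 1 (x' - w) • (Set.Iic x').indicator
      (fun t => max (a - x + σ * t) 0) (x' - w) =
      (Set.Icc 0 a').indicator (fun w => σ * phi x' * ((a' - w) * Ek x' w)) w := by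
    intro w
    rw [pdf_eq_phi, phi_sub]
    by_cases hw0 : 0 ≤ w
    · rw [Set.indicator_of_mem (show x' - w ∈ Set.Iic x' by simpa using hw0)]
      by_cases hw1 : w ≤ a'
      · rw [Set.indicator_of_mem (show w ∈ Set.Icc 0 a' from ⟨hw0, hw1⟩)]
        have : max (a - x + σ * (x' - w)) 0 = σ * (a' - w) := by
          rw [max_eq_left]
          · rw [haa, hxx]; ring
          · have : a - x + σ * (x' - w) = σ * (a' - w) := by rw [haa, hxx]; ring
            rw [this]
            exact mul_nonneg hσ.le (by linarith)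
        simp only [this, smul_eq_mul]
        ring
      · rw [Set.indicator_of_notMem (show w ∉ Set.Icc 0 a' from fun h => hw1 h.2)]
        have : max (a - x + σ * (x' - w)) 0 = 0 := by
          apply max_eq_right
          have : a - x + σ * (x' - w) = σ * (a' - w) := by rw [haa, hxx]; ring
          rw [this]
          push Not at hw1
          exact mul_nonpos_of_nonneg_of_nonpos hσ.le (by linarith)
        simp only [this, smul_zero]
    · rw [Set.indicator_of_notMem (show x' - w ∉ Set.Iic x' by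
        simp only [Set.mem_Iic, not_le]; push Not at hw0; linarith),
        Set.indicator_of_notMem (show w ∉ Set.Icc 0 a' from fun h => hw0 h.1)]
      simp
  rw [h1]
  simp_rw [h2]
  rw [integral_indicator measurableSet_Icc, integral_const_mul, integral_Icc_eq_integral_Ioc,
    ← intervalIntegral.integral_of_le ha'0]
  have h3 := rho_le ha'0 x'
  have h4 : max x 0 / σ = max x' 0 := by
    rw [hx', max_div_div_right hσ.le x 0 |>.symm, zero_div]
  rw [h4]
  have h5 : a ^ 2 / 2 * HH (max x' 0) * (phi x' / σ) =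
      σ * phi x' * (a' ^ 2 / 2 * HH (max x' 0)) := by
    rw [haa]; field_simp
  rw [h5]
  exact mul_le_mul_of_nonneg_left h3 (mul_nonneg hσ.le (phi_pos _).le)

/-- **Mean-sum lemma.** -/
theorem Frame.ms {v : κ → E} (hv : Frame v) (x a : κ → ℝ) (ha : ∀ i, 0 ≤ a i) :
    (∑ i, a i - ∑ i, x i) * PiG v x ≤
      ∑ i, (a i) ^ 2 / 2 * HH (max (x i) 0 / ‖v i‖) * (phi (x i / ‖v i‖) / ‖v i‖)
        * psi v x i (x i / ‖v i‖) := by
  set K : Set E := {y | ∀ i, ⟪v i, y⟫ ≤ x i} with hK
  have hKm : MeasurableSet K := by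
    have : K = ⋂ i, {y | ⟪v i, y⟫ ≤ x i} := by ext y; simp [hK]
    rw [this]
    exact MeasurableSet.iInter fun i => measurableSet_le (by fun_prop) measurable_const
  have h1 : (∑ i, a i - ∑ i, x i) * PiG v x =
      ∑ i, ∫ y in K, (a i - x i + ⟪v i, y⟫) ∂(stdGaussian E) := by
    have hint0 : ∀ i, Integrable (fun y => a i - x i + ⟪v i, y⟫) ((stdGaussian E).restrict K) :=
      fun i => ((integrable_const (a i - x i)).add (integrable_inner (v i))).integrableOn
    rw [← integral_finsetSum _ (fun i _ => hint0 i)]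
    have : ∀ y : E, ∑ i, (a i - x i + ⟪v i, y⟫) = ∑ i, a i - ∑ i, x i := by
      intro y
      rw [Finset.sum_add_distrib, ← sum_inner, hv.sum_zero, inner_zero_left,
        Finset.sum_sub_distrib]
      ring
    simp_rw [this]
    rw [setIntegral_const, smul_eq_mul, mul_comm]
    rfl
  rw [h1]
  refine Finset.sum_le_sum (fun i _ => ?_)
  have hσ : 0 < ‖v i‖ := norm_pos_iff.2 (hv.pos i)
  have h2 : ∫ y in K, (a i - x i + ⟪v i, y⟫) ∂(stdGaussian E) ≤
      ∫ y in K, max (a i - x i + ‖v i‖ * ⟪un (v i), y⟫) 0 ∂(stdGaussian E) := by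
    refine setIntegral_mono
      (((integrable_const (a i - x i)).add (integrable_inner (v i))).integrableOn)
      ((integrable_inner_pos (un (v i)) (a i - x i) ‖v i‖).integrableOn) ?_
    intro y
    simp only
    rw [inner_un (v i) y (hv.pos i)]
    exact le_max_left _ _
  refine h2.trans ?_
  rw [hK, set_eq v hv.pos x i, disint v hv.pos x i measurableSet_Iic
    (g := fun t => max (a i - x i + ‖v i‖ * t) 0)
    (integrable_inner_pos (un (v i)) (a i - x i) ‖v i‖)]
  have hint1 : Integrable (fun t : ℝ => max (a i - x i + ‖v i‖ * t) 0) (gaussianReal 0 1) := by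
    have h : Integrable (fun t : ℝ => a i - x i + ‖v i‖ * t) (gaussianReal 0 1) :=
      (integrable_const _).add ((IsGaussian.integrable_id (μ := gaussianReal 0 1)).const_mul _)
    exact h.pos_part
  have hmono := hv.psi_mono x i
  have h3 : ∫ t in Set.Iic (x i / ‖v i‖), max (a i - x i + ‖v i‖ * t) 0 * psi v x i t
        ∂(gaussianReal 0 1) ≤
      ∫ t in Set.Iic (x i / ‖v i‖), max (a i - x i + ‖v i‖ * t) 0 * psi v x i (x i / ‖v i‖)
        ∂(gaussianReal 0 1) := by
    refine setIntegral_mono_on ?_ ?_ measurableSet_Iic ?_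
    · refine Integrable.integrableOn ?_
      refine hint1.mul_bdd (c := 1) hmono.measurable.aestronglyMeasurable ?_
      refine Filter.Eventually.of_forall (fun t => ?_)
      rw [Real.norm_eq_abs, abs_of_nonneg (psi_nonneg _ _ _ _)]
      exact psi_le_one _ _ _ _
    · exact (hint1.mul_const _).integrableOn
    · intro t ht
      exact mul_le_mul_of_nonneg_left (hmono ht) (le_max_right _ _)
  refine h3.trans ?_
  rw [integral_mul_const]
  exact mul_le_mul_of_nonneg_right (int_pos_part (ha i) hσ (x i)) (psi_nonneg _ _ _ _)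

end Vale.Agent.P226
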