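import Vale.Agent.P226.Stmt
import Vale.Agent.P226.Reduce
import Vale.Agent.P226.Three
import Vale.Agent.P226.Density

/-!
# P226: from labellings to partitions; the lower bound
-/

open MeasureTheory ProbabilityTheory Finset
open scoped RealInnerProductSpace ENNReal BigOperators

namespace Vale.Agent.P226

set_option linter.unusedSectionVars false

variable {E : Type*} [NormedAddCommGroup E] [InnerProductSpace ℝ E] [FiniteDimensional ℝ E]
  [MeasurableSpace E] [BorelSpace E]

lemma gaussianMeasure_eq (d : ℕ) :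
    gaussianMeasure d = stdGaussian (EuclideanSpace ℝ (Fin d)) := by
  rw [stdGaussian_eq_withDensity]
  unfold gaussianMeasure gdens
  simp only [finrank_euclideanSpace, Fintype.card_fin]

section lab
variable {ι : Type*} [Fintype ι]

/-- the set of labels of the cells containing a point -/
noncomputable def labSet (A : ι → Set E) (x : E) : Finset ι :=
  by classical exact Finset.univ.filter (fun i => x ∈ A i)

lemma mem_labSet {A : ι → Set E} {x : E} {i : ι} : i ∈ labSet A x ↔ x ∈ A i := by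
  unfold labSet; simp

lemma isLab_labSet {A : ι → Set E} (hA : ∀ i, MeasurableSet (A i)) : IsLab (labSet A) := by
  classical
  intro S
  have : labSet A ⁻¹' {S} = ⋂ i, (if i ∈ S then A i else (A i)ᶜ) := by
    ext x
    simp only [Set.mem_preimage, Set.mem_singleton_iff, Set.mem_iInter]
    constructor
    · intro h i
      by_cases hi : i ∈ S
      · rw [if_pos hi]
        rw [← h] at hi
        exact mem_labSet.1 hi
      · rw [if_neg hi]
        intro hx
        exact hi (h ▸ mem_labSet.2 hx)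
    · intro h
      ext i
      have hi := h i
      by_cases hS : i ∈ S
      · rw [if_pos hS] at hi
        exact ⟨fun _ => hS, fun _ => mem_labSet.2 hi⟩
      · rw [if_neg hS] at hi
        exact ⟨fun h' => absurd (mem_labSet.1 h') hi, fun h' => absurd h' hS⟩
  rw [this]
  refine MeasurableSet.iInter (fun i => ?_)
  split_ifs
  · exact hA i
  · exact (hA i).compl

/-- every partition up to null sets comes from a labelling -/
lemma exists_lab [Nonempty ι] {A : ι → Set E} (hA : ∀ i, MeasurableSet (A i))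
    (hd : ∀ i j, i ≠ j → stdGaussian E (A i ∩ A j) = 0)
    (hc : stdGaussian E (⋃ i, A i)ᶜ = 0) :
    ∃ f : E → ι, IsLab f ∧ ∀ i, mom (f ⁻¹' {i}) = mom (A i) := by
  classical
  refine ⟨fun x => pick (labSet A x), (isLab_labSet hA).comp pick, fun i => mom_congr ?_⟩
  have h1 : ∀ᵐ x ∂(stdGaussian E), ∀ i j, i ≠ j → ¬ (x ∈ A i ∧ x ∈ A j) := by
    rw [ae_all_iff]
    intro i
    rw [ae_all_iff]
    intro j
    by_cases hij : i = j
    · simp [hij]
    · have := hd i j hij
      rw [ae_iff]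
      refine measure_mono_null ?_ this
      intro x hx
      simp only [Set.mem_ofPred_eq] at hx
      by_contra h
      exact hx (fun _ h' => h ⟨h'.1, h'.2⟩)
  have h2 : ∀ᵐ x ∂(stdGaussian E), x ∈ ⋃ i, A i := by
    rw [ae_iff]
    exact hc
  filter_upwards [h1, h2] with x hx1 hx2
  obtain ⟨l, hl⟩ := Set.mem_iUnion.1 hx2
  have hne : (labSet A x).Nonempty := ⟨l, mem_labSet.2 hl⟩
  have hp : x ∈ A (pick (labSet A x)) := mem_labSet.1 (pick_mem hne)
  show (pick (labSet A x) = i) = (x ∈ A i)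
  apply propext
  constructor
  · intro h; rw [← h]; exact hp
  · intro h
    by_contra hne'
    exact hx1 _ _ hne' ⟨hp, h⟩

/-- the fibres of a labelling form a partition -/
lemma isPartition_of_lab {d k : ℕ} {f : EuclideanSpace ℝ (Fin d) → Fin k} (hf : IsLab f) :
    IsPartition d k (fun i => f ⁻¹' {i}) := by
  refine ⟨fun i => hf i, fun i j hij => ?_, ?_⟩
  · have : f ⁻¹' {i} ∩ f ⁻¹' {j} = ∅ := by
      ext x
      simp only [Set.mem_inter_iff, Set.mem_preimage, Set.mem_singleton_iff,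
        Set.mem_empty_iff_false, iff_false, not_and]
      intro h1 h2
      exact hij (h1.symm.trans h2)
    rw [this]
    exact measure_empty
  · have : (⋃ i, f ⁻¹' {i}) = Set.univ := by
      ext x; simp
    rw [this, Set.compl_univ]
    exact measure_empty

lemma momentSum_of_lab {d k : ℕ} (f : EuclideanSpace ℝ (Fin d) → Fin k) :
    momentSum d k (fun i => f ⁻¹' {i}) = Fval f := by
  unfold momentSum Fval mom
  rw [gaussianMeasure_eq]

end lab

/-- The upper bound, given that there is no critical configuration. -/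
theorem upper_of (hT : ∀ (d : ℕ) (ι : Type) [Fintype ι] [DecidableEq ι], 4 ≤ Fintype.card ι →
      ∀ z : ι → EuclideanSpace ℝ (Fin d), ¬ Crit z)
    (d k : ℕ) (A : Fin k → Set (EuclideanSpace ℝ (Fin d))) (hA : IsPartition d k A) :
    momentSum d k A ≤ 9 / (8 * Real.pi) := by
  rcases Nat.eq_zero_or_pos k with hk | hk
  · subst hk
    unfold momentSum
    simp only [Finset.univ_eq_empty, Finset.sum_empty]
    positivity
  · have : Nonempty (Fin k) := ⟨⟨0, hk⟩⟩
    have hd := hA.disjoint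
    have hc := hA.cover
    rw [gaussianMeasure_eq] at hd hc
    obtain ⟨f, hf, hfm⟩ := exists_lab hA.measurable hd hc
    have h := reduce three (hT d) k (Fin k) (Fintype.card_fin k) f hf
    have h2 : momentSum d k A = Fval f := by
      unfold momentSum Fval
      rw [gaussianMeasure_eq]
      refine Finset.sum_congr rfl (fun i _ => ?_)
      rw [hfm i]
      rfl
    rw [h2]
    exact h

/-- three unit vectors of a plane with sum zero -/
noncomputable def tri (e f : E) : Fin 3 → E :=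
  ![e, -(1 / 2 : ℝ) • e + (Real.sqrt 3 / 2) • f, -(1 / 2 : ℝ) • e - (Real.sqrt 3 / 2) • f]

lemma G_tri {e f : E} (he : ‖e‖ = 1) (hf : ‖f‖ = 1) (hef : ⟪e, f⟫ = 0) :
    G (tri e f) = Real.sqrt (2 / Real.pi) / 4 * (3 * Real.sqrt 3) := by
  have h3 : Real.sqrt 3 ^ 2 = 3 := Real.sq_sqrt (by norm_num)
  have key : ∀ a b : ℝ, a ^ 2 + b ^ 2 = 3 → ‖a • e + b • f‖ = Real.sqrt 3 := by
    intro a b hab
    have h1 : ‖a • e + b • f‖ ^ 2 = 3 := by
      rw [norm_add_sq_real, norm_smul, norm_smul, he, hf, real_inner_smul_left,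
        real_inner_smul_right, hef, Real.norm_eq_abs, Real.norm_eq_abs, mul_one, mul_one, sq_abs,
        sq_abs]
      linarith
    rw [← h1, Real.sqrt_sq (norm_nonneg _)]
  have h01 : tri e f 0 - tri e f 1 = (3 / 2 : ℝ) • e + (-(Real.sqrt 3 / 2)) • f := by
    simp only [tri, Matrix.cons_val_zero, Matrix.cons_val_one]
    module
  have h12 : tri e f 1 - tri e f 2 = (0 : ℝ) • e + (Real.sqrt 3) • f := by
    simp only [tri, Matrix.cons_val_one, Matrix.cons_val]
    module
  have h20 : tri e f 2 - tri e f 0 = (-(3 / 2) : ℝ) • e + (-(Real.sqrt 3 / 2)) • f := by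
    simp only [tri, Matrix.cons_val_zero, Matrix.cons_val]
    module
  rw [G_three, h01, h12, h20, key _ _ (by nlinarith), key _ _ (by nlinarith),
    key _ _ (by nlinarith)]
  ring

lemma nsq_tri {e f : E} (he : ‖e‖ = 1) (hf : ‖f‖ = 1) (hef : ⟪e, f⟫ = 0) :
    ∑ i, ‖tri e f i‖ ^ 2 = 3 := by
  have h3 : Real.sqrt 3 ^ 2 = 3 := Real.sq_sqrt (by norm_num)
  have key : ∀ a b : ℝ, ‖a • e + b • f‖ ^ 2 = a ^ 2 + b ^ 2 := by
    intro a b
    rw [norm_add_sq_real, norm_smul, norm_smul, he, hf, real_inner_smul_left,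
      real_inner_smul_right, hef, Real.norm_eq_abs, Real.norm_eq_abs, mul_one, mul_one, sq_abs,
      sq_abs]
    ring
  rw [Fin.sum_univ_three]
  have h0 : tri e f 0 = (1 : ℝ) • e + (0 : ℝ) • f := by
    simp [tri]
  have h1 : tri e f 1 = (-(1 / 2) : ℝ) • e + (Real.sqrt 3 / 2) • f := by
    simp [tri]
  have h2 : tri e f 2 = (-(1 / 2) : ℝ) • e + (-(Real.sqrt 3 / 2)) • f := by
    simp only [tri, Matrix.cons_val]
    module
  rw [h0, h1, h2, key, key, key]
  nlinarith

/-- the propeller value is a lower bound -/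
lemma lower_lab {e f : E} (he : ‖e‖ = 1) (hf : ‖f‖ = 1) (hef : ⟪e, f⟫ = 0) :
    9 / (8 * Real.pi) ≤ Fval (am (tri e f)) := by
  have h1 := sum_inner_am (tri e f)
  rw [G_tri he hf hef] at h1
  have h2 : (∑ i, ⟪tri e f i, mom (am (tri e f) ⁻¹' {i})⟫) ^ 2 ≤
      (∑ i, ‖tri e f i‖ ^ 2) * Fval (am (tri e f)) := by
    have h3 : |∑ i, ⟪tri e f i, mom (am (tri e f) ⁻¹' {i})⟫| ≤
        ∑ i, ‖tri e f i‖ * ‖mom (am (tri e f) ⁻¹' {i})‖ :=
      (Finset.abs_sum_le_sum_abs _ _).trans
        (Finset.sum_le_sum (fun i _ => abs_real_inner_le_norm _ _))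
    have h4 := Finset.sum_mul_sq_le_sq_mul_sq Finset.univ (fun i => ‖tri e f i‖)
      (fun i => ‖mom (am (tri e f) ⁻¹' {i})‖)
    have h5 : (∑ i, ⟪tri e f i, mom (am (tri e f) ⁻¹' {i})⟫) ^ 2 ≤
        (∑ i, ‖tri e f i‖ * ‖mom (am (tri e f) ⁻¹' {i})‖) ^ 2 := by
      rw [← sq_abs]
      gcongr
    exact h5.trans h4
  rw [h1, nsq_tri he hf hef] at h2
  have h3 : Real.sqrt 3 ^ 2 = 3 := Real.sq_sqrt (by norm_num)
  have h4 : (Real.sqrt (2 / Real.pi) / 4 * (3 * Real.sqrt 3)) ^ 2 = 3 * (9 / (8 * Real.pi)) := by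
    rw [mul_pow, div_pow, mul_pow, h3, Real.sq_sqrt (by positivity)]
    have : Real.pi ≠ 0 := Real.pi_ne_zero
    field_simp
    norm_num
  rw [h4] at h2
  linarith

/-- the lower bound `M(d,k) ≥ 9/(8π)` -/
lemma exists_lower {d k : ℕ} (hd : 2 ≤ d) (hk : 3 ≤ k) :
    ∃ A : Fin k → Set (EuclideanSpace ℝ (Fin d)), IsPartition d k A ∧
      9 / (8 * Real.pi) ≤ momentSum d k A := by
  let b := EuclideanSpace.basisFun (Fin d) ℝ
  have hb := orthonormal_iff_ite.1 b.orthonormal
  let e := b ⟨0, by omega⟩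
  let f := b ⟨1, by omega⟩
  have he : ‖e‖ = 1 := b.orthonormal.1 _
  have hf : ‖f‖ = 1 := b.orthonormal.1 _
  have hef : ⟪e, f⟫ = 0 := by
    have := hb ⟨0, by omega⟩ ⟨1, by omega⟩
    rw [if_neg (by simp)] at this
    exact this
  let g : Fin 3 → Fin k := Fin.castLE hk
  have hg : Function.Injective g := Fin.castLE_injective hk
  have hlab : IsLab (g ∘ am (tri e f)) := (isLab_am _).comp g
  refine ⟨fun i => (g ∘ am (tri e f)) ⁻¹' {i}, isPartition_of_lab hlab, ?_⟩
  rw [momentSum_of_lab, Fval_comp_of_injective _ hg]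
  exact lower_lab he hf hef

/-- **The propeller theorem**, given that there is no critical configuration. -/
theorem propeller_of (hT : ∀ (d : ℕ) (ι : Type) [Fintype ι] [DecidableEq ι],
      4 ≤ Fintype.card ι → ∀ z : ι → EuclideanSpace ℝ (Fin d), ¬ Crit z) :
    (∀ (d k : ℕ) (A : Fin k → Set (EuclideanSpace ℝ (Fin d))), IsPartition d k A →
      momentSum d k A ≤ 9 / (8 * Real.pi)) ∧
    (∀ d k : ℕ, 2 ≤ d → 3 ≤ k → maxMomentSum d k = 9 / (8 * Real.pi)) := by
  refine ⟨upper_of hT, fun d k hd hk => ?_⟩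
  unfold maxMomentSum
  apply le_antisymm
  · obtain ⟨A, hA, hv⟩ := exists_lower hd hk
    refine csSup_le ⟨_, A, hA, rfl⟩ ?_
    rintro v ⟨A, hA, rfl⟩
    exact upper_of hT d k A hA
  · obtain ⟨A, hA, hv⟩ := exists_lower hd hk
    refine hv.trans (le_csSup ⟨9 / (8 * Real.pi), ?_⟩ ⟨A, hA, rfl⟩)
    rintro v ⟨A, hA, rfl⟩
    exact upper_of hT d k A hA

end Vale.Agent.P226
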