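import Vale.Agent.P226.Grow

open MeasureTheory ProbabilityTheory Finset Filter Topology
open scoped RealInnerProductSpace ENNReal BigOperators

namespace Vale.Agent.P226

set_option linter.unusedSectionVars false

variable {E : Type*} [NormedAddCommGroup E] [InnerProductSpace ℝ E] [FiniteDimensional ℝ E]
  [MeasurableSpace E] [BorelSpace E]
variable {κ : Type*} [Fintype κ]

noncomputable def mn [Nonempty κ] (v : κ → E) (x : κ → ℝ) (y : E) : ℝ :=
  Finset.univ.inf' Finset.univ_nonempty (fun i => x i - ⟪v i, y⟫)

section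
variable [Nonempty κ]

lemma le_mn (v : κ → E) (x : κ → ℝ) (y : E) (w : ℝ) :
    w ≤ mn v x y ↔ ∀ i, ⟪v i, y⟫ ≤ x i - w := by
  unfold mn
  rw [Finset.le_inf'_iff]
  constructor
  · intro h i
    have := h i (Finset.mem_univ _)
    linarith
  · intro h i _
    have := h i
    linarith

lemma continuous_mn (v : κ → E) (x : κ → ℝ) : Continuous (mn v x) := by
  unfold mn
  exact Continuous.finset_inf'_apply _ (fun i _ => by fun_prop)

lemma integrable_mn (v : κ → E) (x : κ → ℝ) : Integrable (mn v x) (stdGaussian E) := by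
  have hdom : Integrable (fun y : E => ∑ i, (|x i| + |⟪v i, y⟫|)) (stdGaussian E) :=
    integrable_finsetSum _ (fun i _ => (integrable_const _).add ((integrable_inner _).abs))
  refine hdom.mono' (continuous_mn v x).aestronglyMeasurable
    (Filter.Eventually.of_forall (fun y => ?_))
  obtain ⟨i, -, hi⟩ := Finset.exists_mem_eq_inf' Finset.univ_nonempty
    (fun i : κ => x i - ⟪v i, y⟫)
  unfold mn
  rw [hi, Real.norm_eq_abs]
  have h7 : |x i| + |⟪v i, y⟫| ≤ ∑ i, (|x i| + |⟪v i, y⟫|) :=
    Finset.single_le_sum (f := fun i => |x i| + |⟪v i, y⟫|)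
      (fun _ _ => by positivity) (Finset.mem_univ i)
  have h8 := abs_sub (x i) (⟪v i, y⟫)
  linarith

theorem layer (v : κ → E) (x : κ → ℝ) : ∫ y, max (mn v x y) 0 ∂(stdGaussian E) =
    ∫ w in Set.Ioi 0, PiG v (fun i => x i - w) := by
  have hi : Integrable (fun y => max (mn v x y) 0) (stdGaussian E) := (integrable_mn v x).pos_part
  rw [hi.integral_eq_integral_meas_le (Filter.Eventually.of_forall (fun y => le_max_right _ _))]
  refine setIntegral_congr_fun measurableSet_Ioi (fun w hw => ?_)
  have hw0 : (0 : ℝ) < w := hw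
  unfold PiG
  congr 1
  ext y
  simp only [Set.mem_ofPred_eq]
  rw [le_max_iff, le_mn]
  constructor
  · rintro (h | h)
    · exact h
    · exact absurd h (not_le.2 hw0)
  · intro h; exact Or.inl h

theorem Frame.min_le {v : κ → E} (hv : Frame v) (x h : κ → ℝ)
    (hh : ∀ i, HH (max (x i) 0 / ‖v i‖) ≤ h i) :
    ∫ y, max (mn v x y) 0 ∂(stdGaussian E) ≤
      PiG v x * (max (∑ i, x i) 0 / (Fintype.card κ *
        ((∑ i, Real.sqrt (1 / h i)) ^ 2 / (2 * Fintype.card κ) + 1))) := by
  set m : ℝ := (Fintype.card κ : ℝ) with hm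
  have hm0 : 0 < m := by
    rw [hm]; exact_mod_cast Fintype.card_pos
  set e : ℝ := (∑ i, Real.sqrt (1 / h i)) ^ 2 / (2 * m) with he
  have he0 : 0 ≤ e := by positivity
  set X : ℝ := ∑ i, x i with hX
  have hsum : ∀ w : ℝ, ∑ i, (x i - w) = X - m * w := by
    intro w
    rw [Finset.sum_sub_distrib, Finset.sum_const, Finset.card_univ, nsmul_eq_mul]
  have hzero : ∀ w : ℝ, X - m * w < 0 → PiG v (fun i => x i - w) = 0 := by
    intro w hw
    apply hv.PiG_eq_zero
    rw [hsum]; exact hw
  rw [layer]
  rcases le_or_gt X 0 with hX0 | hX0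
  · rw [max_eq_right hX0, zero_div, mul_zero]
    refine le_of_eq ?_
    refine setIntegral_eq_zero_of_forall_eq_zero (fun w hw => ?_)
    have hw0 : (0 : ℝ) < w := hw
    apply hzero
    nlinarith
  · rw [max_eq_left hX0.le]
    have hgrow : ∀ w : ℝ, 0 < w → w < X / m → PiG v (fun i => x i - w) ≤
        PiG v x * (1 - m / X * w) ^ e := by
      intro w hw hwX
      have h1 : 0 < X - m * w := by
        rw [lt_div_iff₀ hm0] at hwX; linarith
      have hg := hv.grow (fun i => x i - w) (fun _ => 1) h (fun _ => zero_le_one) (τ := w) hw.le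
        (by rw [hsum]; exact h1) (by simp [Finset.sum_const]; exact Fintype.card_pos)
        (by intro i; simpa using hh i)
      have h2 : (fun i => x i - w + w * 1) = x := by ext i; ring
      have h3 : ∑ i : κ, (x i - w + w * 1) = X := by
        rw [hX]; exact Finset.sum_congr rfl (fun i _ => by ring)
      have h3' : univ.sum x = X := rfl
      rw [h2, hsum] at hg
      rw [h3'] at hg
      simp only [Finset.sum_const, Finset.card_univ, nsmul_eq_mul, mul_one] at hg
      rw [← hm, ← he] at hg
      have h4 : (1 - m / X * w) = (X - m * w) / X := by field_simp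
      rw [h4, Real.div_rpow h1.le hX0.le, ← mul_div_assoc,
        le_div_iff₀ (Real.rpow_pos_of_pos hX0 _)]
      exact hg
    have hint : IntervalIntegrable (fun w : ℝ => PiG v x * (1 - m / X * w) ^ e) volume 0 (X / m) := by
      refine Continuous.intervalIntegrable ?_ _ _
      refine continuous_const.mul ?_
      exact Continuous.rpow_const (by fun_prop) (fun w => Or.inr he0)
    have hval : ∫ w in (0 : ℝ)..(X / m), PiG v x * (1 - m / X * w) ^ e =
        PiG v x * (X / (m * (e + 1))) := by
      rw [intervalIntegral.integral_const_mul,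
        intervalIntegral.integral_comp_sub_mul (fun u : ℝ => u ^ e) (by positivity) 1]
      have h5 : (1 : ℝ) - m / X * (X / m) = 0 := by field_simp; ring
      rw [h5, mul_zero, sub_zero, integral_rpow (Or.inl (by linarith)), Real.one_rpow,
        Real.zero_rpow (by positivity), sub_zero, smul_eq_mul]
      congr 1
      field_simp
    rw [← hval, intervalIntegral.integral_of_le (by positivity),
      ← integral_indicator measurableSet_Ioi, ← integral_indicator measurableSet_Ioc]
    refine integral_mono_of_nonneg (Filter.Eventually.of_forall (fun w => ?_)) ?_ ?_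
    · exact Set.indicator_nonneg (fun w _ => PiG_nonneg _ _) w
    · rw [integrable_indicator_iff measurableSet_Ioc,
        ← intervalIntegrable_iff_integrableOn_Ioc_of_le (by positivity)]
      exact hint
    · have hne : ∀ᵐ w : ℝ, w ≠ X / m := by
        rw [ae_iff]; simp
      filter_upwards [hne] with w hw
      by_cases hw0 : w ∈ Set.Ioi (0 : ℝ)
      · rw [Set.indicator_of_mem hw0]
        rcases lt_or_gt_of_ne hw with h6 | h6
        · rw [Set.indicator_of_mem (show w ∈ Set.Ioc 0 (X / m) from ⟨hw0, h6.le⟩)]
          exact hgrow w hw0 h6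
        · rw [Set.indicator_of_notMem (fun h7 => absurd h7.2 (not_le.2 h6)), hzero]
          rw [div_lt_iff₀ hm0] at h6
          linarith
      · rw [Set.indicator_of_notMem hw0, Set.indicator_of_notMem (fun h7 => hw0 h7.1)]

end

end Vale.Agent.P226
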