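import Vale.Agent.P226.Cap5
import Vale.Agent.P226.FinCells5
import Vale.Agent.P226.Big

/-!
# P226: no critical configuration with six cells
-/

open MeasureTheory ProbabilityTheory Finset
open scoped RealInnerProductSpace ENNReal BigOperators

namespace Vale.Agent.P226

set_option linter.unusedSectionVars false
set_option linter.unusedSimpArgs false

lemma cap6_poly1 {s : ℝ} (h0 : (2749/5000) ≤ s) (h1 : s ≤ 1) :
    (1 - s) ^ 2 * (1 + s) ^ 4 ≤ (1838/1000) / 4 * (2 + s) := by
  obtain ⟨X, hX⟩ : ∃ X, X = s - (2749/5000) := ⟨_, rfl⟩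
  obtain ⟨Y, hY⟩ : ∃ Y, Y = 1 - s := ⟨_, rfl⟩
  have hX0 : 0 ≤ X := by rw [hX]; linarith
  have hY0 : 0 ≤ Y := by rw [hY]; linarith
  have key : 0 ≤ (36973900338367838999/130092712786482201001)*Y^6 +
        (18765022390724250040000/130092712786482201001)*X*Y^5 +
        (108208055906599400000000/130092712786482201001)*X^2*Y^4 +
        (241401533879000000000000/130092712786482201001)*X^3*Y^3 +
        (256254450937500000000000/130092712786482201001)*X^4*Y^2 +
        (126002079687500000000000/130092712786482201001)*X^5*Y +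
        (21539062500000000000000/130092712786482201001)*X^6 := by positivity
  refine sub_nonneg.1 (key.trans (le_of_eq ?_))
  simp only [hX, hY]; ring

lemma cap6_poly2 {s : ℝ} (h0 : 0 ≤ s) (h1 : s ≤ 1) :
    (1 - s ^ 2) ^ 4 ≤ (1838/1000) / 4 * ((1 - s) ^ 2 * (2 + s)) + 204/1000 := by
  rcases le_total s (7/40) with g0' | g0
  · obtain ⟨X, hX⟩ : ∃ X, X = s - 0 := ⟨_, rfl⟩
    obtain ⟨Y, hY⟩ : ∃ Y, Y = (7/40) - s := ⟨_, rfl⟩
    have hX0 : 0 ≤ X := by rw [hX]; linarith
    have hY0 : 0 ≤ Y := by rw [hY]; linarith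
    have key : 0 ≤ (806092800000/5764801)*Y^8 + (4867768320000/5764801)*X*Y^7 +
        (1758085120000/823543)*X^2*Y^6 + (2396253747200/823543)*X^3*Y^5 +
        (1882637056000/823543)*X^4*Y^4 + (839613952000/823543)*X^5*Y^3 +
        (193321516800/823543)*X^6*Y^2 + (133503859200/5764801)*X^7*Y + (7941659199/5764801)*X^8 := by positivity
    refine sub_nonneg.1 (key.trans (le_of_eq ?_))
    simp only [hX, hY]; ring
  rcases le_total s (13/40) with g1' | g1
  · obtain ⟨X, hX⟩ : ∃ X, X = s - (7/40) := ⟨_, rfl⟩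
    obtain ⟨Y, hY⟩ : ∃ Y, Y = (13/40) - s := ⟨_, rfl⟩
    have hX0 : 0 ≤ X := by rw [hX]; linarith
    have hY0 : 0 ≤ Y := by rw [hY]; linarith
    have key : 0 ≤ (2647219733/559872)*Y^8 + (148270247/69984)*X*Y^7 + (22795657211/139968)*X^2*Y^6 +
        (80743255049/69984)*X^3*Y^5 + (856762529455/279936)*X^4*Y^4 +
        (290708498369/69984)*X^5*Y^3 + (434610005771/139968)*X^6*Y^2 + (85526411327/69984)*X^7*Y +
        (111215989493/559872)*X^8 := by positivity
    refine sub_nonneg.1 (key.trans (le_of_eq ?_))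
    simp only [hX, hY]; ring
  obtain ⟨X, hX⟩ : ∃ X, X = s - (13/40) := ⟨_, rfl⟩
  obtain ⟨Y, hY⟩ : ∃ Y, Y = 1 - s := ⟨_, rfl⟩
  have hX0 : 0 ≤ X := by rw [hX]; linarith
  have hY0 : 0 ≤ Y := by rw [hY]; linarith
  have key : 0 ≤ (111215989493/94143178827)*Y^8 + (1814552729920/94143178827)*X*Y^7 +
        (10863747468800/94143178827)*X^2*Y^6 + (30081923584000/94143178827)*X^3*Y^5 +
        (42976522496000/94143178827)*X^4*Y^4 + (32879753267200/94143178827)*X^5*Y^3 +
        (13850114048000/94143178827)*X^6*Y^2 + (3565158400000/94143178827)*X^7*Y +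
        (445644800000/94143178827)*X^8 := by positivity
  refine sub_nonneg.1 (key.trans (le_of_eq ?_))
  simp only [hX, hY]; ring

variable {E : Type*} [NormedAddCommGroup E] [InnerProductSpace ℝ E] [FiniteDimensional ℝ E]
  [MeasurableSpace E] [BorelSpace E]
variable {ι : Type*} [Fintype ι] [DecidableEq ι]
variable {z : ι → E}

/-- exact parametric form of the cap bound -/
lemma Crit.param5 (hz : Crit z) (h6 : Fintype.card ι = 6) (i : ι) :
    ∃ s : ℝ, 0 ≤ s ∧ s ≤ 1 ∧ 2 * Real.pi * ‖z i‖ ^ 2 = (1 - s ^ 2) ^ 4 ∧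
      (1 - s) ^ 2 * (2 + s) / 4 ≤ pc z i := by
  have hpi : 0 < 2 * Real.pi := by positivity
  set c := Real.sqrt (2 * Real.pi) with hc
  have hc0 : 0 < c := Real.sqrt_pos.2 hpi
  have hc2 : c ^ 2 = 2 * Real.pi := Real.sq_sqrt hpi.le
  set x := c * ‖z i‖ with hx
  have hx0 : 0 ≤ x := by positivity
  have hcap : ∀ s : ℝ, 0 ≤ s → s ≤ 1 →
      x ≤ 16 / 3 * s * pc z i + (1 - 8 / 3 * s + 2 * s ^ 2 - s ^ 4 / 3) := by
    intro s hs hs1
    have h := hz.cap5 h6 i hs hs1
    have h2 := mul_le_mul_of_nonneg_left h hc0.le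
    rw [← mul_assoc, mul_inv_cancel₀ hc0.ne', one_mul] at h2
    exact h2
  have hx1 : x ≤ 1 := by
    have := hcap 0 le_rfl zero_le_one
    norm_num at this
    exact this
  set u := Real.sqrt x with hu
  have hu0 : 0 ≤ u := Real.sqrt_nonneg _
  have hux : u ^ 2 = x := Real.sq_sqrt hx0
  have hu1 : u ≤ 1 := by rw [hu]; exact Real.sqrt_le_one.2 hx1
  set s := Real.sqrt (1 - u) with hs
  have hs0 : 0 ≤ s := Real.sqrt_nonneg _
  have hs2 : s ^ 2 = 1 - u := Real.sq_sqrt (by linarith)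
  have hs1 : s ≤ 1 := by rw [hs]; exact Real.sqrt_le_one.2 (by linarith)
  refine ⟨s, hs0, hs1, ?_, ?_⟩
  · have e1 : (1 - s ^ 2) ^ 4 = x ^ 2 := by
      rw [hs2, ← hux]; ring
    rw [e1, hx, mul_pow, hc2]
  · have hxs : x = (1 - s ^ 2) ^ 2 := by rw [hs2, ← hux]; ring
    rcases eq_or_lt_of_le hs0 with h0 | hpos
    · -- s = 0
      rw [← h0]
      rw [← h0] at hxs
      have hx1' : x = 1 := by rw [hxs]; norm_num
      have hge : ∀ ε : ℝ, 0 < ε → (1 - 0) ^ 2 * (2 + 0) / 4 ≤ pc z i + ε := by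
        intro ε hε
        set s' := min ε 1 with hs'
        have hs'0 : 0 < s' := lt_min hε one_pos
        have hs'1 : s' ≤ 1 := min_le_right _ _
        have hs'ε : s' ≤ ε := min_le_left _ _
        have h := hcap s' hs'0.le hs'1
        rw [hx1'] at h
        have h2 : s' * (8 / 3) ≤ s' * (16 / 3 * pc z i + 2 * s') := by
          have : 0 ≤ s' ^ 4 / 3 := by positivity
          nlinarith
        have h3 := le_of_mul_le_mul_left h2 hs'0
        linarith
      exact le_of_forall_pos_le_add hge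
    · have h := hcap s hs0 hs1
      have h2 : s * ((1 - s) ^ 2 * (2 + s) / 4) ≤ s * pc z i := by
        rw [hxs] at h
        nlinarith
      exact le_of_mul_le_mul_left h2 hpos

lemma Crit.cap6_all (hz : Crit z) (h6 : Fintype.card ι = 6) (i : ι) :
    2 * Real.pi * ‖z i‖ ^ 2 ≤ (1838/1000) * pc z i + 204/1000 := by
  obtain ⟨s, hs0, hs1, hx, hp⟩ := hz.param5 h6 i
  rw [hx]
  have := cap6_poly2 (s := s) hs0 hs1
  linarith

lemma Crit.cap6_small (hz : Crit z) (h6 : Fintype.card ι = 6) (i : ι)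
    (hi : ‖z i‖ ^ 2 < 377 / 10000) :
    2 * Real.pi * ‖z i‖ ^ 2 ≤ (1838/1000) * pc z i := by
  obtain ⟨s, hs0, hs1, hx, hp⟩ := hz.param5 h6 i
  have hpi := Real.pi_lt_d4
  have hpi0 := Real.pi_pos
  have hx2 : (1 - s ^ 2) ^ 4 < 2369 / 10000 := by
    rw [← hx]; nlinarith [sq_nonneg ‖z i‖]
  have hs : 2749 / 5000 ≤ s := by
    by_contra hcon
    push Not at hcon
    have h1 : s ^ 2 ≤ (2749 / 5000) ^ 2 := by gcongr
    have h2 : (1 - (2749 / 5000) ^ 2 : ℝ) ≤ 1 - s ^ 2 := by linarith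
    have h3 : (1 - (2749 / 5000) ^ 2 : ℝ) ^ 4 ≤ (1 - s ^ 2) ^ 4 := by
      have : (0 : ℝ) ≤ 1 - (2749 / 5000) ^ 2 := by norm_num
      gcongr
    norm_num at h3
    linarith
  rw [hx]
  have h1 := cap6_poly1 (s := s) hs hs1
  have h2 : (1 - s ^ 2) ^ 4 = (1 - s) ^ 2 * ((1 - s) ^ 2 * (1 + s) ^ 4) := by ring
  rw [h2]
  have h3 := mul_le_mul_of_nonneg_left h1 (sq_nonneg (1 - s))
  linarith

/-- at least three cells are large -/
lemma Crit.three_large (hz : Crit z) (h6 : Fintype.card ι = 6) :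
    3 ≤ (Finset.univ.filter (fun i => 377 / 10000 ≤ ‖z i‖ ^ 2)).card := by
  have hne : Nonempty ι := Fintype.card_pos_iff.1 (by omega)
  set F := Finset.univ.filter (fun i => 377 / 10000 ≤ ‖z i‖ ^ 2) with hF
  by_contra hcon
  push Not at hcon
  have hcard : (F.card : ℝ) ≤ 2 := by
    have : F.card ≤ 2 := by omega
    exact_mod_cast this
  have hsum : ∑ i, 2 * Real.pi * ‖z i‖ ^ 2 ≤
      ∑ i, ((1838/1000) * pc z i + (if i ∈ F then (204/1000 : ℝ) else 0)) := by
    refine Finset.sum_le_sum (fun i _ => ?_)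
    split_ifs with hi
    · exact hz.cap6_all h6 i
    · have : ‖z i‖ ^ 2 < 377 / 10000 := by
        by_contra h
        push Not at h
        exact hi (by rw [hF]; simp [h])
      have := hz.cap6_small h6 i this
      linarith
  rw [Finset.sum_add_distrib, ← Finset.mul_sum, ← Finset.mul_sum, hz.sum_pc,
    Finset.sum_ite_mem, Finset.univ_inter, Finset.sum_const, nsmul_eq_mul] at hsum
  have hbig := hz.big
  unfold C0 nsq at hbig
  have hpi := Real.pi_pos
  rw [div_lt_iff₀ (by positivity)] at hbig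
  linarith

/-- **No critical configuration with six cells.** -/
theorem no_crit6 (hz : Crit z) (h6 : Fintype.card ι = 6) : False := by
  classical
  have hne0 : Nonempty ι := Fintype.card_pos_iff.1 (by omega)
  obtain ⟨i0, hmin⟩ := exists_min z
  have h3 : 3 ≤ Fintype.card ι := by omega
  have hne : Nonempty {i // i ≠ i0} := by
    have hcard : 0 < Fintype.card {i // i ≠ i0} := by
      rw [Fintype.card_subtype_compl, Fintype.card_subtype_eq]
      omega
    exact Fintype.card_pos_iff.1 hcard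
  have hT := hz.T0 i0 h3 hne
  have hF := hz.frame i0 h3
  have hb0 : ∀ i, 0 ≤ bb z i0 i := fun i => (bb_pos hz i).le
  have hb1 := bb_lt_one hz i0 h3
  have hb := bb_sum hz i0 hne
  have hσ := one_sub_le_vv hz hmin
  have hn := card_ne i0
  rw [h6] at hn
  have h5 : (Fintype.card {i // i ≠ i0} : ℝ) = 5 := by rw [hn]; norm_num
  rw [h5] at hT
  obtain ⟨q, -, hq⟩ := hz.small6 h6
  have hi0 : ‖z i0‖ ^ 2 ≤ 65 / 10000 := by
    refine le_trans ?_ hq
    have := hmin q
    gcongr
  set F : Finset {i // i ≠ i0} := Finset.univ.filter (fun i => 377 / 10000 ≤ ‖z (i : ι)‖ ^ 2)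
    with hFd
  have hFc : 3 ≤ F.card := by
    have h1 := hz.three_large h6
    have h2 : (Finset.univ.filter (fun i => 377 / 10000 ≤ ‖z i‖ ^ 2)) ⊆
        F.map (Function.Embedding.subtype _) := by
      intro i hi
      simp only [Finset.mem_filter, Finset.mem_univ, true_and] at hi
      rw [Finset.mem_map]
      have hne' : i ≠ i0 := by
        rintro rfl
        linarith
      exact ⟨⟨i, hne'⟩, by rw [hFd]; simp [hi], rfl⟩
    have h3' := Finset.card_le_card h2
    rw [Finset.card_map] at h3'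
    exact h1.trans h3'
  have hFR : ∀ i ∈ F, (29 / 5 : ℝ) - bb z i0 i ^ 2 ≤ ‖vv z i0 i‖ ^ 2 := by
    intro i hi
    have h0 : z i0 ≠ 0 := hz.ne_zero i.2
    have hp : 0 < ‖z i0‖ := norm_pos_iff.2 h0
    rw [norm_vv_sq h0]
    have hi' : 377 / 10000 ≤ ‖z (i : ι)‖ ^ 2 := by
      rw [hFd] at hi
      simpa using hi
    have h1 : 29 / 5 ≤ ‖z (i : ι)‖ ^ 2 / ‖z i0‖ ^ 2 := by
      rw [le_div_iff₀ (by positivity)]
      linarith
    linarith
  have := fin_flat hF (bb z i0) hb0 hb1 hb hσ F (R := 29 / 5) (m := 3) (n := 5) (by norm_num) hFR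
    (by exact_mod_cast hFc) h5 (by norm_num) (by norm_num) (by norm_num) (by norm_num)
    (by norm_num) (by norm_num) (by norm_num) (by norm_num) (by norm_num) (by norm_num)
    continuous_lam5 lam5_mono cells5
  linarith

end Vale.Agent.P226
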