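import Mathlib

/-!
# P226: definitions for the statement
-/

open MeasureTheory

namespace Vale.Agent.P226

/-- The standard Gaussian measure of `ℝ^d`: density `(2π)^(-d/2) exp(-|x|²/2)` with respect to
Lebesgue measure. -/
noncomputable def gaussianMeasure (d : ℕ) : Measure (EuclideanSpace ℝ (Fin d)) :=
  (volume : Measure (EuclideanSpace ℝ (Fin d))).withDensity
    (fun x => ENNReal.ofReal ((2 * Real.pi) ^ (-(d : ℝ) / 2) * Real.exp (-‖x‖ ^ 2 / 2)))

/-- `A` is a measurable partition of `ℝ^d` into `k` cells, up to Gaussian null sets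
(cells may be empty). -/
structure IsPartition (d k : ℕ) (A : Fin k → Set (EuclideanSpace ℝ (Fin d))) : Prop where
  measurable : ∀ i, MeasurableSet (A i)
  disjoint : ∀ i j, i ≠ j → gaussianMeasure d (A i ∩ A j) = 0
  cover : gaussianMeasure d (⋃ i, A i)ᶜ = 0

/-- The sum of the squared norms of the Gaussian first moments of the cells. -/
noncomputable def momentSum (d k : ℕ) (A : Fin k → Set (EuclideanSpace ℝ (Fin d))) : ℝ :=
  ∑ i, ‖∫ x in A i, x ∂(gaussianMeasure d)‖ ^ 2

/-- The supremum of `momentSum` over all partitions of `ℝ^d` into `k` cells. -/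
noncomputable def maxMomentSum (d k : ℕ) : ℝ :=
  sSup {v : ℝ | ∃ A : Fin k → Set (EuclideanSpace ℝ (Fin d)), IsPartition d k A ∧
    v = momentSum d k A}

end Vale.Agent.P226
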