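import Vale.Agent.P226.Frm
import Vale.Agent.P226.CondK
import Vale.Agent.P226.PiMin

open MeasureTheory ProbabilityTheory Finset Filter Topology
open scoped RealInnerProductSpace ENNReal BigOperators

namespace Vale.Agent.P226

set_option linter.unusedSectionVars false

variable {E : Type*} [NormedAddCommGroup E] [InnerProductSpace ℝ E] [FiniteDimensional ℝ E]
  [MeasurableSpace E] [BorelSpace E]
variable {ι : Type*} [Fintype ι] [DecidableEq ι]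

noncomputable def dt2 (z : ι → E) (i0 i1 : ι) : ℝ :=
  ‖z i0‖ ^ 2 * ‖z i1‖ ^ 2 - ⟪z i0, z i1⟫ ^ 2

noncomputable def al (z : ι → E) (i0 i1 i : ι) : ℝ :=
  (-⟪z i, z i0⟫ * ‖z i1‖ ^ 2 + ⟪z i0, z i1⟫ * ⟪z i, z i1⟫) / dt2 z i0 i1

noncomputable def be (z : ι → E) (i0 i1 i : ι) : ℝ :=
  (-⟪z i, z i1⟫ * ‖z i0‖ ^ 2 + ⟪z i0, z i1⟫ * ⟪z i, z i0⟫) / dt2 z i0 i1

noncomputable def vq (z : ι → E) (i0 i1 i : ι) : E :=
  z i + al z i0 i1 i • z i0 + be z i0 i1 i • z i1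

variable {z : ι → E} {i0 i1 : ι}

lemma dt2_pos (hz : Crit z) (h01 : i0 ≠ i1) {i : ι} (hi0 : i ≠ i0) (hi1 : i ≠ i1) :
    0 < dt2 z i0 i1 := by
  unfold dt2
  have h0 : 0 < ‖z i0‖ := norm_pos_iff.2 (hz.ne_zero hi0)
  have h1 : 0 < ‖z i1‖ := norm_pos_iff.2 (hz.ne_zero hi1)
  have hg := hz.inner_neg i0 i1 h01
  have hp := hz.inner_neg i i0 hi0
  have hq := hz.inner_neg i i1 hi1
  -- use the vector `z i1 - (g/s0) z i0`
  set w : E := z i1 - (⟪z i0, z i1⟫ / ‖z i0‖ ^ 2) • z i0 with hw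
  have hw0 : ⟪z i, w⟫ < 0 := by
    rw [hw, inner_sub_right, real_inner_smul_right]
    have : 0 < ⟪z i0, z i1⟫ / ‖z i0‖ ^ 2 * ⟪z i, z i0⟫ :=
      mul_pos_of_neg_of_neg (div_neg_of_neg_of_pos hg (by positivity)) hp
    linarith
  have hwne : w ≠ 0 := by
    intro h
    rw [h, inner_zero_right] at hw0
    exact lt_irrefl _ hw0
  have h2 : 0 < ‖w‖ ^ 2 := by
    have := norm_pos_iff.2 hwne
    positivity
  have h3 : ‖w‖ ^ 2 = ‖z i1‖ ^ 2 - ⟪z i0, z i1⟫ ^ 2 / ‖z i0‖ ^ 2 := by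
    rw [hw, norm_sub_sq_real, real_inner_smul_right, norm_smul, mul_pow, Real.norm_eq_abs, sq_abs,
      real_inner_comm (z i0) (z i1)]
    field_simp
    ring
  rw [h3] at h2
  have h4 : 0 < ‖z i0‖ ^ 2 * (‖z i1‖ ^ 2 - ⟪z i0, z i1⟫ ^ 2 / ‖z i0‖ ^ 2) := by positivity
  have h5 : ‖z i0‖ ^ 2 * (‖z i1‖ ^ 2 - ⟪z i0, z i1⟫ ^ 2 / ‖z i0‖ ^ 2) =
      ‖z i0‖ ^ 2 * ‖z i1‖ ^ 2 - ⟪z i0, z i1⟫ ^ 2 := by
    field_simp
  linarith

section
variable (hz : Crit z) (h01 : i0 ≠ i1) {i : ι} (hi0 : i ≠ i0) (hi1 : i ≠ i1)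
include hz h01 hi0 hi1

lemma al_pos : 0 < al z i0 i1 i := by
  unfold al
  apply div_pos _ (dt2_pos hz h01 hi0 hi1)
  have hg := hz.inner_neg i0 i1 h01
  have hp := hz.inner_neg i i0 hi0
  have hq := hz.inner_neg i i1 hi1
  have h1 : 0 < ‖z i1‖ := norm_pos_iff.2 (hz.ne_zero hi1)
  have h2 : 0 < -⟪z i, z i0⟫ * ‖z i1‖ ^ 2 := mul_pos (by linarith) (by positivity)
  have h3 : 0 < ⟪z i0, z i1⟫ * ⟪z i, z i1⟫ := mul_pos_of_neg_of_neg hg hq
  linarith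

lemma be_pos : 0 < be z i0 i1 i := by
  unfold be
  apply div_pos _ (dt2_pos hz h01 hi0 hi1)
  have hg := hz.inner_neg i0 i1 h01
  have hp := hz.inner_neg i i0 hi0
  have hq := hz.inner_neg i i1 hi1
  have h1 : 0 < ‖z i0‖ := norm_pos_iff.2 (hz.ne_zero hi0)
  have h2 : 0 < -⟪z i, z i1⟫ * ‖z i0‖ ^ 2 := mul_pos (by linarith) (by positivity)
  have h3 : 0 < ⟪z i0, z i1⟫ * ⟪z i, z i0⟫ := mul_pos_of_neg_of_neg hg hp
  linarith

lemma vq_eq0 : al z i0 i1 i * ‖z i0‖ ^ 2 + be z i0 i1 i * ⟪z i0, z i1⟫ = -⟪z i, z i0⟫ := by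
  have hd := (dt2_pos hz h01 hi0 hi1).ne'
  unfold al be
  field_simp
  unfold dt2
  ring

lemma vq_eq1 : al z i0 i1 i * ⟪z i0, z i1⟫ + be z i0 i1 i * ‖z i1‖ ^ 2 = -⟪z i, z i1⟫ := by
  have hd := (dt2_pos hz h01 hi0 hi1).ne'
  unfold al be
  field_simp
  unfold dt2
  ring

lemma inner_vq0 : ⟪vq z i0 i1 i, z i0⟫ = 0 := by
  unfold vq
  rw [inner_add_left, inner_add_left, real_inner_smul_left, real_inner_smul_left,
    real_inner_self_eq_norm_sq, real_inner_comm (z i0) (z i1)]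
  have := vq_eq0 hz h01 hi0 hi1
  linarith

lemma inner_vq1 : ⟪vq z i0 i1 i, z i1⟫ = 0 := by
  unfold vq
  rw [inner_add_left, inner_add_left, real_inner_smul_left, real_inner_smul_left,
    real_inner_self_eq_norm_sq]
  have := vq_eq1 hz h01 hi0 hi1
  linarith

lemma inner_vq (l : ι) : ⟪vq z i0 i1 i, vq z i0 i1 l⟫ =
    ⟪z i, z l⟫ + al z i0 i1 i * ⟪z i0, z l⟫ + be z i0 i1 i * ⟪z i1, z l⟫ := by
  have h1 : ⟪vq z i0 i1 i, vq z i0 i1 l⟫ = ⟪vq z i0 i1 i, z l⟫ := by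
    conv_lhs => rw [show vq z i0 i1 l = z l + al z i0 i1 l • z i0 + be z i0 i1 l • z i1 from rfl]
    rw [inner_add_right, inner_add_right, real_inner_smul_right, real_inner_smul_right,
      inner_vq0 hz h01 hi0 hi1, inner_vq1 hz h01 hi0 hi1]
    ring
  rw [h1]
  unfold vq
  rw [inner_add_left, inner_add_left, real_inner_smul_left, real_inner_smul_left]

lemma norm_comb_eq : ‖al z i0 i1 i • z i0 + be z i0 i1 i • z i1‖ ^ 2 =
    -(al z i0 i1 i * ⟪z i, z i0⟫) - be z i0 i1 i * ⟪z i, z i1⟫ := by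
  rw [norm_add_sq_real, norm_smul, norm_smul, real_inner_smul_left, real_inner_smul_right,
    mul_pow, mul_pow, Real.norm_eq_abs, Real.norm_eq_abs, sq_abs, sq_abs]
  have h1 := vq_eq0 hz h01 hi0 hi1
  have h2 := vq_eq1 hz h01 hi0 hi1
  linear_combination al z i0 i1 i * h1 + be z i0 i1 i * h2

lemma norm_vq_sq : ‖vq z i0 i1 i‖ ^ 2 =
    ‖z i‖ ^ 2 - ‖al z i0 i1 i • z i0 + be z i0 i1 i • z i1‖ ^ 2 := by
  rw [← real_inner_self_eq_norm_sq, inner_vq hz h01 hi0 hi1, norm_comb_eq hz h01 hi0 hi1,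
    real_inner_self_eq_norm_sq, real_inner_comm (z i) (z i0), real_inner_comm (z i) (z i1)]
  ring

end

lemma inner_vq_neg (hz : Crit z) (h01 : i0 ≠ i1) {i l : ι} (hi0 : i ≠ i0) (hi1 : i ≠ i1)
    (hl0 : l ≠ i0) (hl1 : l ≠ i1) (hil : i ≠ l) : ⟪vq z i0 i1 i, vq z i0 i1 l⟫ < 0 := by
  rw [inner_vq hz h01 hi0 hi1]
  have h1 := hz.inner_neg i l hil
  have h2 := mul_neg_of_pos_of_neg (al_pos hz h01 hi0 hi1) (hz.inner_neg i0 l hl0.symm)
  have h3 := mul_neg_of_pos_of_neg (be_pos hz h01 hi0 hi1) (hz.inner_neg i1 l hl1.symm)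
  linarith

/-- the other labels -/
abbrev Qt (i0 i1 : ι) := {i : ι // i ≠ i0 ∧ i ≠ i1}

lemma sum_Qt {M : Type*} [AddCommGroup M] (h01 : i0 ≠ i1) (f : ι → M) :
    ∑ i : Qt i0 i1, f i = ∑ i, f i - f i0 - f i1 := by
  rw [← Finset.sum_subtype ((Finset.univ.erase i0).erase i1) (p := fun i => i ≠ i0 ∧ i ≠ i1)
    (f := f) (by intro x; simp [and_comm])]
  rw [← Finset.add_sum_erase Finset.univ f (Finset.mem_univ i0),
    ← Finset.add_sum_erase (Finset.univ.erase i0) f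
      (Finset.mem_erase.2 ⟨h01.symm, Finset.mem_univ i1⟩)]
  abel

lemma card_Qt (h01 : i0 ≠ i1) (h5 : Fintype.card ι = 5) : Fintype.card (Qt i0 i1) = 3 := by
  have h := sum_Qt (M := ℤ) h01 (fun _ => 1)
  simp only [Finset.sum_const, Finset.card_univ, nsmul_eq_mul, mul_one] at h
  rw [h5] at h
  push_cast at h
  have : ((Fintype.card (Qt i0 i1) : ℕ) : ℤ) = 3 := by linarith
  exact_mod_cast this

lemma sum_al (hz : Crit z) (h01 : i0 ≠ i1) [hne : Nonempty (Qt i0 i1)] :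
    ∑ i : Qt i0 i1, al z i0 i1 i = 1 := by
  obtain ⟨j⟩ := hne
  have hd := (dt2_pos hz h01 j.2.1 j.2.2).ne'
  have hs := hz.sum_zero
  have h1 : ∑ i, ⟪z i, z i0⟫ = 0 := by rw [← sum_inner, hs, inner_zero_left]
  have h2 : ∑ i, ⟪z i, z i1⟫ = 0 := by rw [← sum_inner, hs, inner_zero_left]
  have h3 := sum_Qt h01 (fun i => ⟪z i, z i0⟫)
  have h4 := sum_Qt h01 (fun i => ⟪z i, z i1⟫)
  simp only [h1, h2] at h3 h4
  unfold al
  rw [← Finset.sum_div, Finset.sum_add_distrib, ← Finset.sum_mul, ← Finset.mul_sum,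
    Finset.sum_neg_distrib, h3, h4, div_eq_one_iff_eq hd, real_inner_comm (z i0) (z i1),
    real_inner_self_eq_norm_sq, real_inner_self_eq_norm_sq]
  unfold dt2
  ring

lemma sum_be (hz : Crit z) (h01 : i0 ≠ i1) [hne : Nonempty (Qt i0 i1)] :
    ∑ i : Qt i0 i1, be z i0 i1 i = 1 := by
  obtain ⟨j⟩ := hne
  have hd := (dt2_pos hz h01 j.2.1 j.2.2).ne'
  have hs := hz.sum_zero
  have h1 : ∑ i, ⟪z i, z i0⟫ = 0 := by rw [← sum_inner, hs, inner_zero_left]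
  have h2 : ∑ i, ⟪z i, z i1⟫ = 0 := by rw [← sum_inner, hs, inner_zero_left]
  have h3 := sum_Qt h01 (fun i => ⟪z i, z i0⟫)
  have h4 := sum_Qt h01 (fun i => ⟪z i, z i1⟫)
  simp only [h1, h2] at h3 h4
  unfold be
  rw [← Finset.sum_div, Finset.sum_add_distrib, ← Finset.sum_mul, ← Finset.mul_sum,
    Finset.sum_neg_distrib, h3, h4, div_eq_one_iff_eq hd, real_inner_comm (z i0) (z i1),
    real_inner_self_eq_norm_sq, real_inner_self_eq_norm_sq]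
  unfold dt2
  ring

lemma sum_vq (hz : Crit z) (h01 : i0 ≠ i1) [hne : Nonempty (Qt i0 i1)] :
    ∑ i : Qt i0 i1, vq z i0 i1 i = 0 := by
  unfold vq
  rw [Finset.sum_add_distrib, Finset.sum_add_distrib, ← Finset.sum_smul, ← Finset.sum_smul,
    sum_al hz h01, sum_be hz h01, sum_Qt h01 z, hz.sum_zero, one_smul, one_smul]
  abel

lemma frame_vq (hz : Crit z) (h01 : i0 ≠ i1) (h2 : 1 < Fintype.card (Qt i0 i1)) :
    Frame (fun i : Qt i0 i1 => vq z i0 i1 i) := by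
  have hne : Nonempty (Qt i0 i1) := Fintype.card_pos_iff.1 (by omega)
  have hnt : Nontrivial (Qt i0 i1) := Fintype.one_lt_card_iff_nontrivial.1 h2
  refine ⟨sum_vq hz h01, ?_, ?_⟩
  · intro i l hil
    exact (inner_vq_neg hz h01 i.2.1 i.2.2 l.2.1 l.2.2 (fun h => hil (Subtype.ext h))).le
  · intro i hi
    obtain ⟨l, hl⟩ := exists_ne i
    have h3 := inner_vq_neg hz h01 i.2.1 i.2.2 l.2.1 l.2.2 (fun h => hl (Subtype.ext h).symm)
    rw [hi, inner_zero_left] at h3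
    exact lt_irrefl _ h3

/-- the span of `z i0, z i1` -/
noncomputable def Ks (z : ι → E) (i0 i1 : ι) : Submodule ℝ E := Submodule.span ℝ {z i0, z i1}

lemma mem_Ks0 (z : ι → E) (i0 i1 : ι) : z i0 ∈ Ks z i0 i1 :=
  Submodule.subset_span (by simp)

lemma mem_Ks1 (z : ι → E) (i0 i1 : ι) : z i1 ∈ Ks z i0 i1 :=
  Submodule.subset_span (by simp)

lemma inner_recK_mem {K : Submodule ℝ E} {u : E} (hu : u ∈ K) (x y : E) :
    ⟪u, K.starProjection x + (y - K.starProjection y)⟫ = ⟪u, x⟫ := by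
  have h1 : K.starProjection u = u := Submodule.starProjection_eq_self_iff.2 hu
  have h2 : ∀ w, ⟪u, K.starProjection w⟫ = ⟪u, w⟫ := by
    intro w
    rw [← Submodule.inner_starProjection_left_eq_right, h1]
  rw [inner_add_right, inner_sub_right, h2, h2]
  ring

lemma inner_recK_perp {K : Submodule ℝ E} {u : E} (hu : u ∈ Kᗮ) (x y : E) :
    ⟪u, K.starProjection x + (y - K.starProjection y)⟫ = ⟪u, y⟫ := by
  have h2 : ∀ w, ⟪u, K.starProjection w⟫ = 0 := by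
    intro w
    rw [real_inner_comm]
    exact hu _ (Submodule.starProjection_apply_mem K w)
  rw [inner_add_right, inner_sub_right, h2, h2]
  ring

lemma vq_mem_perp (hz : Crit z) (h01 : i0 ≠ i1) {i : ι} (hi0 : i ≠ i0) (hi1 : i ≠ i1) :
    vq z i0 i1 i ∈ (Ks z i0 i1)ᗮ := by
  intro u hu
  unfold Ks at hu
  rw [Submodule.mem_span_pair] at hu
  obtain ⟨a, b, rfl⟩ := hu
  rw [inner_add_left, real_inner_smul_left, real_inner_smul_left, real_inner_comm,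
    inner_vq0 hz h01 hi0 hi1, real_inner_comm, inner_vq1 hz h01 hi0 hi1]
  ring

/-- thresholds -/
noncomputable def thr (z : ι → E) (i0 i1 : ι) (x : E) (i : ι) : ℝ :=
  (1 + al z i0 i1 i) * ⟪z i0, x⟫ + be z i0 i1 i * ⟪z i1, x⟫

lemma inner_rec_i (hz : Crit z) (h01 : i0 ≠ i1) {i : ι} (hi0 : i ≠ i0) (hi1 : i ≠ i1) (x y : E) :
    ⟪z i0, x⟫ - ⟪z i, (Ks z i0 i1).starProjection x + (y - (Ks z i0 i1).starProjection y)⟫ =
      thr z i0 i1 x i - ⟪vq z i0 i1 i, y⟫ := by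
  have h1 : z i = vq z i0 i1 i - al z i0 i1 i • z i0 - be z i0 i1 i • z i1 := by
    unfold vq; abel
  have h2 : ⟪z i, (Ks z i0 i1).starProjection x + (y - (Ks z i0 i1).starProjection y)⟫ =
      ⟪vq z i0 i1 i, y⟫ - al z i0 i1 i * ⟪z i0, x⟫ - be z i0 i1 i * ⟪z i1, x⟫ := by
    conv_lhs => rw [h1]
    rw [inner_sub_left, inner_sub_left, real_inner_smul_left, real_inner_smul_left,
      inner_recK_perp (vq_mem_perp hz h01 hi0 hi1), inner_recK_mem (mem_Ks0 z i0 i1),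
      inner_recK_mem (mem_Ks1 z i0 i1)]
  rw [h2]
  unfold thr
  ring

lemma sum_thr (hz : Crit z) (h01 : i0 ≠ i1) [hne : Nonempty (Qt i0 i1)] (x : E) :
    ∑ i : Qt i0 i1, thr z i0 i1 x i =
      (Fintype.card (Qt i0 i1) + 1) * ⟪z i0, x⟫ + ⟪z i1, x⟫ := by
  unfold thr
  rw [Finset.sum_add_distrib, ← Finset.sum_mul, ← Finset.sum_mul, Finset.sum_add_distrib,
    sum_al hz h01, sum_be hz h01]
  simp only [Finset.sum_const, Finset.card_univ, nsmul_eq_mul, mul_one]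
  ring

end Vale.Agent.P226
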