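import Vale.Agent.P226.T2a
import Vale.Agent.P226.HHb
import Vale.Agent.P226.ConeMom

open MeasureTheory ProbabilityTheory Finset Filter Topology
open scoped RealInnerProductSpace ENNReal BigOperators

namespace Vale.Agent.P226

set_option linter.unusedSectionVars false

variable {E : Type*} [NormedAddCommGroup E] [InnerProductSpace ℝ E] [FiniteDimensional ℝ E]
  [MeasurableSpace E] [BorelSpace E]

lemma sum_inner_mom_inter {κ : Type*} [Fintype κ] {A : Set E} (hA : MeasurableSet A) {g : E → κ}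
    (hg : IsLab g) (w : κ → E) :
    ∑ i, ⟪w i, mom (A ∩ g ⁻¹' {i})⟫ = ∫ x in A, ⟪w (g x), x⟫ ∂(stdGaussian E) := by
  classical
  have h1 : ∀ i, ⟪w i, mom (A ∩ g ⁻¹' {i})⟫ =
      ∫ x, (A ∩ g ⁻¹' {i}).indicator (fun x => ⟪w i, x⟫) x ∂(stdGaussian E) := by
    intro i
    rw [inner_mom, integral_indicator (hA.inter (hg i))]
  simp_rw [h1]
  rw [← integral_finsetSum _ (fun i _ => (integrable_inner (w i)).indicator
      (hA.inter (hg i))), ← integral_indicator hA]
  congr 1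
  ext x
  by_cases hx : x ∈ A
  · rw [Set.indicator_of_mem hx]
    have : ∀ i, (A ∩ g ⁻¹' {i}).indicator (fun x => ⟪w i, x⟫) x
        = if g x = i then ⟪w i, x⟫ else 0 := by
      intro i
      by_cases h : g x = i
      · rw [if_pos h, Set.indicator_of_mem (Set.mem_inter hx h)]
      · rw [if_neg h, Set.indicator_of_notMem (fun h' => h h'.2)]
    simp_rw [this]
    rw [Finset.sum_ite_eq]
    simp
  · rw [Set.indicator_of_notMem hx]
    refine Finset.sum_eq_zero (fun i _ => ?_)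
    rw [Set.indicator_of_notMem (fun h' => hx h'.1)]

variable {ι : Type*} [Fintype ι] [DecidableEq ι]

/-- the margin over the labels in `Qt` -/
noncomputable def Dm (z : ι → E) (i0 i1 : ι) [Nonempty (Qt i0 i1)] (x : E) : ℝ :=
  ⟪z i0, x⟫ - Mx (fun i : Qt i0 i1 => z i) x

variable {z : ι → E} {i0 i1 : ι}

lemma le_Dm [Nonempty (Qt i0 i1)] (w : ℝ) (x : E) :
    w ≤ Dm z i0 i1 x ↔ ∀ i : Qt i0 i1, w ≤ ⟪z i0, x⟫ - ⟪z i, x⟫ := by
  unfold Dm
  constructor
  · intro h i
    have := le_Mx (fun i : Qt i0 i1 => z i) x i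
    linarith
  · intro h
    have : Mx (fun i : Qt i0 i1 => z i) x ≤ ⟪z i0, x⟫ - w :=
      Mx_le (fun i => by have := h i; linarith)
    linarith

lemma integrable_Dm [Nonempty (Qt i0 i1)] : Integrable (Dm z i0 i1) (stdGaussian E) :=
  (integrable_inner _).sub (integrable_Mx _)

theorem Crit.removalQ (hz : Crit z) (h01 : i0 ≠ i1) [hne : Nonempty (Qt i0 i1)] :
    (1 + 1 / (Fintype.card (Qt i0 i1) : ℝ)) * ‖z i0‖ ^ 2 <
      2 * ∫ x in cell z i0, Dm z i0 i1 x ∂(stdGaussian E) := by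
  have hNe : Nonempty ι := ⟨i0⟩
  set zQ : Qt i0 i1 → E := fun i => z i with hzQ
  set j1 : {i // i ≠ i0} := ⟨i1, h01.symm⟩ with hj1
  let inc : Qt i0 i1 → {i // i ≠ i0} := fun j => ⟨j.1, j.2.1⟩
  set g : E → {i // i ≠ i0} := inc ∘ am zQ with hg
  have hglab : IsLab g := (isLab_am zQ).comp inc
  have hr := hz.removal i0 g hglab
  have hA := measurableSet_cell z i0
  rw [Finset.sum_add_distrib, ← Finset.mul_sum,
    sum_inner_mom_inter hA hglab (fun i : {i // i ≠ i0} => z i)] at hr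
  have h1 : ∀ x, ⟪z (g x), x⟫ = ⟪z i0, x⟫ - Dm z i0 i1 x := by
    intro x
    have h2 : ⟪z (g x), x⟫ = ⟪zQ (am zQ x), x⟫ := rfl
    rw [h2, inner_am]
    unfold Dm
    ring
  simp_rw [h1] at hr
  rw [integral_sub (integrable_inner _).integrableOn integrable_Dm.integrableOn,
    ← inner_mom, hz.mom_eq, real_inner_self_eq_norm_sq] at hr
  -- Cauchy-Schwarz
  have h2 : ∑ i, mom (cell z i0 ∩ g ⁻¹' {i}) = z i0 := by
    rw [sum_mom_inter hA hglab, hz.mom_eq]
  have h3 : mom (cell z i0 ∩ g ⁻¹' {j1}) = 0 := by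
    have : cell z i0 ∩ g ⁻¹' {j1} = ∅ := by
      ext x
      simp only [Set.mem_inter_iff, Set.mem_preimage, Set.mem_singleton_iff,
        Set.mem_empty_iff_false, iff_false, not_and]
      intro _ hx
      have h4 : ((am zQ x).1 : ι) = i1 := congrArg Subtype.val hx
      exact (am zQ x).2.2 h4
    rw [this]
    simp [mom]
  have h5 : ∑ i ∈ Finset.univ.erase j1, mom (cell z i0 ∩ g ⁻¹' {i}) = z i0 := by
    rw [← h2, ← Finset.add_sum_erase Finset.univ _ (Finset.mem_univ j1), h3, zero_add]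
  have hcard : (Finset.univ.erase j1 : Finset {i // i ≠ i0}).card = Fintype.card (Qt i0 i1) := by
    rw [Finset.card_erase_of_mem (Finset.mem_univ j1), Finset.card_univ]
    have hc1 : Fintype.card {i // i ≠ i0} = Fintype.card ι - 1 := by
      rw [Fintype.card_subtype_compl, Fintype.card_subtype_eq]
    have hc2 := sum_Qt (M := ℤ) h01 (fun _ => 1)
    simp only [Finset.sum_const, Finset.card_univ, nsmul_eq_mul, mul_one] at hc2
    have : 0 < Fintype.card ι := Fintype.card_pos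
    omega
  have hN : (0 : ℝ) < Fintype.card (Qt i0 i1) := by exact_mod_cast Fintype.card_pos
  have h6 : ‖z i0‖ ^ 2 ≤ (Fintype.card (Qt i0 i1) : ℝ) *
      ∑ i : {i // i ≠ i0}, ‖mom (cell z i0 ∩ g ⁻¹' {i})‖ ^ 2 := by
    have h4 : ‖z i0‖ ≤ ∑ i ∈ Finset.univ.erase j1, ‖mom (cell z i0 ∩ g ⁻¹' {i})‖ := by
      conv_lhs => rw [← h5]
      exact norm_sum_le _ _
    have h7 : ‖z i0‖ ^ 2 ≤ (∑ i ∈ Finset.univ.erase j1, ‖mom (cell z i0 ∩ g ⁻¹' {i})‖) ^ 2 := by
      gcongr
    refine h7.trans ?_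
    have h8 := sq_sum_le_card_mul_sum_sq (s := (Finset.univ.erase j1 : Finset {i // i ≠ i0}))
      (f := fun i => ‖mom (cell z i0 ∩ g ⁻¹' {i})‖)
    rw [hcard] at h8
    refine h8.trans ?_
    apply mul_le_mul_of_nonneg_left _ hN.le
    exact Finset.sum_le_sum_of_subset_of_nonneg (Finset.subset_univ _) (fun _ _ _ => by positivity)
  have h9 : ‖z i0‖ ^ 2 / (Fintype.card (Qt i0 i1) : ℝ) ≤
      ∑ i : {i // i ≠ i0}, ‖mom (cell z i0 ∩ g ⁻¹' {i})‖ ^ 2 := by
    rw [div_le_iff₀ hN]; linarith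
  have h10 : (1 + 1 / (Fintype.card (Qt i0 i1) : ℝ)) * ‖z i0‖ ^ 2 =
      ‖z i0‖ ^ 2 + ‖z i0‖ ^ 2 / (Fintype.card (Qt i0 i1) : ℝ) := by ring
  rw [h10]
  linarith

noncomputable def tv (z : ι → E) (i0 i1 i : ι) : E :=
  (1 + al z i0 i1 i) • z i0 + be z i0 i1 i • z i1

lemma thr_eq (z : ι → E) (i0 i1 : ι) (x : E) (i : ι) : thr z i0 i1 x i = ⟪tv z i0 i1 i, x⟫ := by
  unfold thr tv
  rw [inner_add_left, real_inner_smul_left, real_inner_smul_left]

lemma integrable_lin_mul_sq (c a : E) :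
    Integrable (fun x : E => ⟪c, x⟫ * ⟪a, x⟫ ^ 2) (stdGaussian E) := by
  refine ((integrable_lin_sq c).norm.const_mul (‖a‖ ^ 2)).mono' (by fun_prop) ?_
  refine Filter.Eventually.of_forall (fun x => ?_)
  rw [norm_mul, norm_pow, Real.norm_eq_abs, Real.norm_eq_abs, norm_mul, Real.norm_eq_abs,
    norm_pow, norm_norm]
  have h2 : |⟪a, x⟫| ^ 2 ≤ ‖a‖ ^ 2 * ‖x‖ ^ 2 := by
    rw [← mul_pow]
    have := abs_real_inner_le_norm a x
    gcongr
  have := mul_le_mul_of_nonneg_left h2 (abs_nonneg ⟪c, x⟫)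
  linarith

noncomputable def Wf (z : ι → E) (i0 i1 : ι) (x : E) : ℝ :=
  (∑ i : Qt i0 i1, thr z i0 i1 x i) / 3 *
    (2 / 5 + 23 / 600 * ∑ i : Qt i0 i1, (thr z i0 i1 x i / ‖vq z i0 i1 i‖) ^ 2)

lemma Wf_eq (z : ι → E) (i0 i1 : ι) (x : E) : Wf z i0 i1 x =
    2 / 15 * ⟪∑ i : Qt i0 i1, tv z i0 i1 i, x⟫ + ∑ i : Qt i0 i1,
      23 / 1800 / ‖vq z i0 i1 i‖ ^ 2 *
        (⟪∑ i : Qt i0 i1, tv z i0 i1 i, x⟫ * ⟪tv z i0 i1 i, x⟫ ^ 2) := by
  unfold Wf
  simp_rw [thr_eq]
  rw [sum_inner]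
  set X := ∑ i : Qt i0 i1, ⟪tv z i0 i1 i, x⟫
  have : ∑ i : Qt i0 i1, 23 / 1800 / ‖vq z i0 i1 i‖ ^ 2 * (X * ⟪tv z i0 i1 i, x⟫ ^ 2) =
      X / 3 * (23 / 600 * ∑ i : Qt i0 i1, (⟪tv z i0 i1 i, x⟫ / ‖vq z i0 i1 i‖) ^ 2) := by
    rw [Finset.mul_sum, Finset.mul_sum]
    refine Finset.sum_congr rfl (fun i _ => ?_)
    rw [div_pow]
    ring
  rw [this]
  ring

lemma integrable_Wf (z : ι → E) (i0 i1 : ι) : Integrable (Wf z i0 i1) (stdGaussian E) := by
  have : Wf z i0 i1 = fun x => 2 / 15 * ⟪∑ i : Qt i0 i1, tv z i0 i1 i, x⟫ + ∑ i : Qt i0 i1,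
      23 / 1800 / ‖vq z i0 i1 i‖ ^ 2 *
        (⟪∑ i : Qt i0 i1, tv z i0 i1 i, x⟫ * ⟪tv z i0 i1 i, x⟫ ^ 2) := by
    ext x; exact Wf_eq z i0 i1 x
  rw [this]
  exact ((integrable_inner _).const_mul _).add
    (integrable_finsetSum _ (fun i _ => (integrable_lin_mul_sq _ _).const_mul _))

lemma mem_cell_recK (hz : Crit z) (h01 : i0 ≠ i1) (x y : E) :
    (Ks z i0 i1).starProjection x + (y - (Ks z i0 i1).starProjection y) ∈ cell z i0 ↔
      ⟪z i1, x⟫ ≤ ⟪z i0, x⟫ ∧ ∀ i : Qt i0 i1, ⟪vq z i0 i1 i, y⟫ ≤ thr z i0 i1 x i := by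
  have h0 := inner_recK_mem (mem_Ks0 z i0 i1) x y
  have h1 := inner_recK_mem (mem_Ks1 z i0 i1) x y
  have hi : ∀ i : Qt i0 i1, ⟪z i, (Ks z i0 i1).starProjection x +
      (y - (Ks z i0 i1).starProjection y)⟫ ≤ ⟪z i0, x⟫ ↔
      ⟪vq z i0 i1 i, y⟫ ≤ thr z i0 i1 x i := by
    intro i
    have := inner_rec_i hz h01 i.2.1 i.2.2 x y
    constructor <;> intro h <;> linarith
  unfold cell
  simp only [Set.mem_ofPred_eq]
  rw [h0]
  constructor
  · intro h
    refine ⟨by rw [← h1]; exact h i1, fun i => (hi i).1 (h i)⟩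
  · rintro ⟨h2, h3⟩ j
    by_cases hj0 : j = i0
    · rw [hj0, h0]
    · by_cases hj1 : j = i1
      · rw [hj1, h1]; exact h2
      · exact (hi ⟨j, hj0, hj1⟩).2 (h3 ⟨j, hj0, hj1⟩)

theorem int_Dm_le (hz : Crit z) (h01 : i0 ≠ i1) (h5 : Fintype.card ι = 5)
    [hne : Nonempty (Qt i0 i1)] :
    ∫ x in cell z i0, Dm z i0 i1 x ∂(stdGaussian E) ≤
      ∫ x in cell z i0, Wf z i0 i1 x ∂(stdGaussian E) := by
  have hNe : Nonempty ι := ⟨i0⟩
  have hA := measurableSet_cell z i0
  have hc3 := card_Qt h01 h5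
  have hF := frame_vq hz h01 (by omega)
  rw [← integral_indicator hA, ← integral_indicator hA,
    integral_recK (Ks z i0 i1) (integrable_Dm.indicator hA),
    integral_recK (Ks z i0 i1) ((integrable_Wf z i0 i1).indicator hA)]
  refine integral_mono (integrable_recK _ (integrable_Dm.indicator hA))
    (integrable_recK _ ((integrable_Wf z i0 i1).indicator hA)) ?_
  intro x
  simp only
  by_cases hx : ⟪z i1, x⟫ ≤ ⟪z i0, x⟫
  · -- left
    have hL : ∀ y, (cell z i0).indicator (Dm z i0 i1)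
        ((Ks z i0 i1).starProjection x + (y - (Ks z i0 i1).starProjection y)) =
        max (mn (fun i : Qt i0 i1 => vq z i0 i1 i) (fun i : Qt i0 i1 => thr z i0 i1 x i) y) 0 := by
      intro y
      set x' := (Ks z i0 i1).starProjection x + (y - (Ks z i0 i1).starProjection y) with hx'
      have hD : Dm z i0 i1 x' =
          mn (fun i : Qt i0 i1 => vq z i0 i1 i) (fun i : Qt i0 i1 => thr z i0 i1 x i) y := by
        apply eq_of_forall_le_iff
        intro w
        rw [le_Dm, le_mn]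
        refine forall_congr' (fun i => ?_)
        have h1 := inner_rec_i hz h01 i.2.1 i.2.2 x y
        have h0 := inner_recK_mem (mem_Ks0 z i0 i1) x y
        rw [← hx'] at h1 h0
        rw [h0]
        constructor <;> intro h <;> linarith
      by_cases hm : x' ∈ cell z i0
      · rw [Set.indicator_of_mem hm, hD, max_eq_left]
        rw [le_mn]
        intro i
        have := ((mem_cell_recK hz h01 x y).1 hm).2 i
        linarith
      · rw [Set.indicator_of_notMem hm, max_eq_right]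
        by_contra hcon
        push Not at hcon
        apply hm
        rw [hx', mem_cell_recK hz h01]
        refine ⟨hx, fun i => ?_⟩
        have := (le_mn _ _ _ _).1 hcon.le i
        linarith
    have hR : ∀ y, (cell z i0).indicator (Wf z i0 i1)
        ((Ks z i0 i1).starProjection x + (y - (Ks z i0 i1).starProjection y)) =
        {y : E | ∀ i : Qt i0 i1, ⟪vq z i0 i1 i, y⟫ ≤ thr z i0 i1 x i}.indicator
          (fun _ => Wf z i0 i1 x) y := by
      intro y
      have hth : ∀ i, thr z i0 i1 ((Ks z i0 i1).starProjection x +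
          (y - (Ks z i0 i1).starProjection y)) i = thr z i0 i1 x i := by
        intro i
        unfold thr
        rw [inner_recK_mem (mem_Ks0 z i0 i1) x y, inner_recK_mem (mem_Ks1 z i0 i1) x y]
      have hW : Wf z i0 i1 ((Ks z i0 i1).starProjection x +
          (y - (Ks z i0 i1).starProjection y)) = Wf z i0 i1 x := by
        unfold Wf
        simp_rw [hth]
      by_cases hm : (Ks z i0 i1).starProjection x + (y - (Ks z i0 i1).starProjection y) ∈ cell z i0
      · rw [Set.indicator_of_mem hm, hW, Set.indicator_of_mem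
          (show y ∈ {y : E | ∀ i : Qt i0 i1, ⟪vq z i0 i1 i, y⟫ ≤ thr z i0 i1 x i} from
            ((mem_cell_recK hz h01 x y).1 hm).2)]
      · rw [Set.indicator_of_notMem hm, Set.indicator_of_notMem]
        intro h
        exact hm ((mem_cell_recK hz h01 x y).2 ⟨hx, h⟩)
    simp_rw [hL, hR]
    have hmeas : MeasurableSet {y : E | ∀ i : Qt i0 i1, ⟪vq z i0 i1 i, y⟫ ≤ thr z i0 i1 x i} :=
      measurableSet_all (fun i : Qt i0 i1 => vq z i0 i1 i) (fun i : Qt i0 i1 => thr z i0 i1 x i)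
    rw [integral_indicator hmeas, setIntegral_const, smul_eq_mul]
    set xx : Qt i0 i1 → ℝ := fun i => thr z i0 i1 x i with hxx
    set vv' : Qt i0 i1 → E := fun i => vq z i0 i1 i with hvv
    have h1 := hF.min_le xx (fun i => HH (max (xx i) 0 / ‖vv' i‖)) (fun i => le_rfl)
    refine h1.trans ?_
    have hPi : (stdGaussian E).real {y : E | ∀ i : Qt i0 i1, ⟪vv' i, y⟫ ≤ xx i} = PiG vv' xx := rfl
    show _ ≤ (stdGaussian E).real {y : E | ∀ i : Qt i0 i1, ⟪vv' i, y⟫ ≤ xx i} * Wf z i0 i1 x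
    rw [hPi]
    rcases lt_or_ge (∑ i, xx i) 0 with hX | hX
    · rw [hF.PiG_eq_zero hX]
      simp
    · apply mul_le_mul_of_nonneg_left _ (PiG_nonneg _ _)
      rw [max_eq_left hX]
      rw [hc3]
      set S := ∑ i, Real.sqrt (1 / HH (max (xx i) 0 / ‖vv' i‖)) with hS
      set Y := ∑ i, (max (xx i) 0 / ‖vv' i‖) ^ 2 with hY
      have hS0 : 0 ≤ S := Finset.sum_nonneg (fun i _ => Real.sqrt_nonneg _)
      have hY0 : 0 ≤ Y := Finset.sum_nonneg (fun i _ => sq_nonneg _)
      have hSY : 3 - Y / 6 ≤ S := by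
        have h2 : ∑ i : Qt i0 i1, (1 - (max (xx i) 0 / ‖vv' i‖) ^ 2 / 6) ≤ S :=
          Finset.sum_le_sum (fun i _ => sqrt_HH_ge (by positivity))
        rw [Finset.sum_sub_distrib, Finset.sum_const, Finset.card_univ, hc3, nsmul_eq_mul,
          ← Finset.sum_div] at h2
        push_cast at h2
        linarith
      have h3 := frac_bound3 hS0 hY0 hSY
      have h4 : Y ≤ ∑ i : Qt i0 i1, (xx i / ‖vv' i‖) ^ 2 := by
        refine Finset.sum_le_sum (fun i _ => ?_)
        rw [div_pow, div_pow]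
        apply div_le_div_of_nonneg_right _ (by positivity)
        rcases le_total (xx i) 0 with h5 | h5
        · rw [max_eq_right h5]; nlinarith [sq_nonneg (xx i)]
        · rw [max_eq_left h5]
      have h6 : Wf z i0 i1 x = (∑ i, xx i) / 3 *
        (2 / 5 + 23 / 600 * ∑ i : Qt i0 i1, (xx i / ‖vv' i‖) ^ 2) := rfl
      rw [h6]
      push_cast
      have h7 : (∑ i, xx i) / (3 * (S ^ 2 / (2 * 3) + 1)) =
          (∑ i, xx i) / 3 * (1 / (S ^ 2 / (2 * 3) + 1)) := by
        field_simp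
      rw [h7]
      apply mul_le_mul_of_nonneg_left _ (by positivity)
      linarith
  · -- empty
    have hnot : ∀ y, (Ks z i0 i1).starProjection x + (y - (Ks z i0 i1).starProjection y) ∉
        cell z i0 := by
      intro y h
      exact hx ((mem_cell_recK hz h01 x y).1 h).1
    have hL : ∀ (f : E → ℝ) y, (cell z i0).indicator f
        ((Ks z i0 i1).starProjection x + (y - (Ks z i0 i1).starProjection y)) = 0 := by
      intro f y
      rw [Set.indicator_of_notMem (hnot y)]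
    simp_rw [hL]
    exact le_rfl

lemma sum_tv (hz : Crit z) (h01 : i0 ≠ i1) (h5 : Fintype.card ι = 5) [hne : Nonempty (Qt i0 i1)] :
    ∑ i : Qt i0 i1, tv z i0 i1 i = (4 : ℝ) • z i0 + z i1 := by
  unfold tv
  rw [Finset.sum_add_distrib, ← Finset.sum_smul, ← Finset.sum_smul, Finset.sum_add_distrib,
    sum_al hz h01, sum_be hz h01, Finset.sum_const, Finset.card_univ, card_Qt h01 h5, one_smul]
  norm_num

lemma Xhat_eq (hz : Crit z) (h01 : i0 ≠ i1) (h5 : Fintype.card ι = 5)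
    [hne : Nonempty (Qt i0 i1)] :
    ∑ i : Qt i0 i1, tv z i0 i1 i =
      ∑ j, (if j = i0 then (3 : ℝ) else if j = i1 then 0 else -1) • z j := by
  rw [sum_tv hz h01 h5]
  have h1 : ∀ j, (if j = i0 then (3 : ℝ) else if j = i1 then 0 else -1) • z j =
      (if j = i0 then (4 : ℝ) • z i0 else 0) + (if j = i1 then z i1 else 0) - z j := by
    intro j
    by_cases h0 : j = i0
    · have hj1 : j ≠ i1 := fun h => h01 (h0.symm.trans h)
      rw [if_pos h0, if_pos h0, if_neg hj1, h0, add_zero]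
      module
    · by_cases h1 : j = i1
      · rw [if_neg h0, if_pos h1, if_neg h0, if_pos h1, h1]
        module
      · rw [if_neg h0, if_neg h1, if_neg h0, if_neg h1]
        module
  simp_rw [h1]
  rw [Finset.sum_sub_distrib, Finset.sum_add_distrib, Finset.sum_ite_eq', Finset.sum_ite_eq',
    hz.sum_zero]
  simp

lemma tv_eq (h01 : i0 ≠ i1) (i : ι) :
    tv z i0 i1 i = ∑ j, (if j = i0 then (1 + al z i0 i1 i) else if j = i1 then be z i0 i1 i
      else 0) • z j := by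
  have h1 : ∀ j, (if j = i0 then (1 + al z i0 i1 i) else if j = i1 then be z i0 i1 i
      else 0) • z j = (if j = i0 then (1 + al z i0 i1 i) • z i0 else 0) +
        (if j = i1 then be z i0 i1 i • z i1 else 0) := by
    intro j
    by_cases h0 : j = i0
    · have hj1 : j ≠ i1 := fun h => h01 (h0.symm.trans h)
      rw [if_pos h0, if_pos h0, if_neg hj1, h0, add_zero]
    · by_cases h1 : j = i1
      · rw [if_neg h0, if_pos h1, if_neg h0, if_pos h1, h1, zero_add]
      · rw [if_neg h0, if_neg h1, if_neg h0, if_neg h1, zero_smul, zero_add]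
  simp_rw [h1]
  rw [Finset.sum_add_distrib, Finset.sum_ite_eq', Finset.sum_ite_eq']
  simp [tv]

/-- **T2**: removal of `i0`, distributed among the three labels other than `i0, i1`. -/
theorem Crit.T2 (hz : Crit z) (h01 : i0 ≠ i1) (h5 : Fintype.card ι = 5) :
    2 * ‖z i0‖ ^ 2 < (4 * ‖z i0‖ ^ 2 + ⟪z i0, z i1⟫) *
      (2 / 5 + 23 / 120 * ∑ i : Qt i0 i1, ‖tv z i0 i1 i‖ ^ 2 / ‖vq z i0 i1 i‖ ^ 2) := by
  have hNe : Nonempty ι := ⟨i0⟩
  have hc3 := card_Qt h01 h5
  have hne : Nonempty (Qt i0 i1) := Fintype.card_pos_iff.1 (by omega)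
  have hA := measurableSet_cell z i0
  have h1 := hz.removalQ h01
  rw [hc3] at h1
  have h2 := int_Dm_le hz h01 h5
  -- evaluate the integral of `Wf`
  have hX : ∫ x in cell z i0, ⟪∑ i : Qt i0 i1, tv z i0 i1 i, x⟫ ∂(stdGaussian E) =
      4 * ‖z i0‖ ^ 2 + ⟪z i0, z i1⟫ := by
    rw [← inner_mom, hz.mom_eq, sum_tv hz h01 h5, inner_add_left, real_inner_smul_left,
      real_inner_self_eq_norm_sq, real_inner_comm]
  have hW : ∫ x in cell z i0, Wf z i0 i1 x ∂(stdGaussian E) =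
      2 / 15 * (∫ x in cell z i0, ⟪∑ i : Qt i0 i1, tv z i0 i1 i, x⟫ ∂(stdGaussian E)) +
      ∑ i : Qt i0 i1, 23 / 1800 / ‖vq z i0 i1 i‖ ^ 2 *
        ∫ x in cell z i0, ⟪∑ i : Qt i0 i1, tv z i0 i1 i, x⟫ * ⟪tv z i0 i1 i, x⟫ ^ 2
          ∂(stdGaussian E) := by
    simp_rw [Wf_eq]
    rw [integral_add ((integrable_inner _).const_mul _).integrableOn
      (integrable_finsetSum _ (fun i _ => (integrable_lin_mul_sq _ _).const_mul _)).integrableOn,
      integral_const_mul, integral_finsetSum _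
        (fun i _ => ((integrable_lin_mul_sq _ _).const_mul _).integrableOn)]
    simp_rw [integral_const_mul]
  have hmom : ∀ i : Qt i0 i1,
      ∫ x in cell z i0, ⟪∑ i : Qt i0 i1, tv z i0 i1 i, x⟫ * ⟪tv z i0 i1 i, x⟫ ^ 2
        ∂(stdGaussian E) ≤ 5 * ‖tv z i0 i1 i‖ ^ 2 *
        ∫ x in cell z i0, ⟪∑ i : Qt i0 i1, tv z i0 i1 i, x⟫ ∂(stdGaussian E) := by
    intro i
    have h3 := cell_moment z (n := 4) (hz.finrank_span (by omega)) i0
      (fun j => if j = i0 then (3 : ℝ) else if j = i1 then 0 else -1)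
      (fun j => if j = i0 then (1 + al z i0 i1 i) else if j = i1 then be z i0 i1 i else 0) (by
        intro t ht
        have h4 : ∑ j, (if j = i0 then (3 : ℝ) else if j = i1 then 0 else -1) * t j =
            ∑ i : Qt i0 i1, (t i0 - t i) := by
          rw [sum_Qt h01 (fun i => t i0 - t i), Finset.sum_sub_distrib, Finset.sum_const,
            Finset.card_univ, h5, nsmul_eq_mul]
          have h6 : ∀ j, (if j = i0 then (3 : ℝ) else if j = i1 then 0 else -1) * t j =
              (if j = i0 then 4 * t i0 else 0) + (if j = i1 then t i1 else 0) - t j := by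
            intro j
            by_cases h0 : j = i0
            · have hj1 : j ≠ i1 := fun h => h01 (h0.symm.trans h)
              rw [if_pos h0, if_pos h0, if_neg hj1, h0]; ring
            · by_cases h1 : j = i1
              · rw [if_neg h0, if_pos h1, if_neg h0, if_pos h1, h1]; ring
              · rw [if_neg h0, if_neg h1, if_neg h0, if_neg h1]; ring
          simp_rw [h6]
          rw [Finset.sum_sub_distrib, Finset.sum_add_distrib, Finset.sum_ite_eq',
            Finset.sum_ite_eq']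
          simp only [Finset.mem_univ, if_true]
          push_cast
          ring
        rw [h4]
        exact Finset.sum_nonneg (fun i _ => by have := ht i; linarith))
    simp_rw [sum_inner_lin] at h3
    rw [← Xhat_eq hz h01 h5, ← tv_eq h01 i] at h3
    push_cast at h3
    norm_num at h3 ⊢
    exact h3
  rw [hW] at h2
  rw [hX] at h2 hmom
  set X := 4 * ‖z i0‖ ^ 2 + ⟪z i0, z i1⟫ with hXd
  have h6 : ∑ i : Qt i0 i1, 23 / 1800 / ‖vq z i0 i1 i‖ ^ 2 *
        (∫ x in cell z i0, ⟪∑ i : Qt i0 i1, tv z i0 i1 i, x⟫ * ⟪tv z i0 i1 i, x⟫ ^ 2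
          ∂(stdGaussian E)) ≤ X / 3 * (23 / 120 * ∑ i : Qt i0 i1,
            ‖tv z i0 i1 i‖ ^ 2 / ‖vq z i0 i1 i‖ ^ 2) := by
    rw [Finset.mul_sum, Finset.mul_sum]
    refine Finset.sum_le_sum (fun i _ => ?_)
    have h7 := mul_le_mul_of_nonneg_left (hmom i)
      (show (0 : ℝ) ≤ 23 / 1800 / ‖vq z i0 i1 i‖ ^ 2 by positivity)
    refine h7.trans (le_of_eq ?_)
    ring
  norm_num at h1
  have h8 : 2 / 15 * X + X / 3 * (23 / 120 * ∑ i : Qt i0 i1,
            ‖tv z i0 i1 i‖ ^ 2 / ‖vq z i0 i1 i‖ ^ 2) =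
            X / 3 * (2 / 5 + 23 / 120 * ∑ i : Qt i0 i1,
            ‖tv z i0 i1 i‖ ^ 2 / ‖vq z i0 i1 i‖ ^ 2) := by ring
  linarith

end Vale.Agent.P226
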