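import Vale.Agent.P226.T2b

open MeasureTheory ProbabilityTheory Finset Filter Topology
open scoped RealInnerProductSpace ENNReal BigOperators

namespace Vale.Agent.P226

set_option linter.unusedSectionVars false

variable {E : Type*} [NormedAddCommGroup E] [InnerProductSpace ℝ E] [FiniteDimensional ℝ E]
  [MeasurableSpace E] [BorelSpace E]
variable {ι : Type*} [Fintype ι] [DecidableEq ι] {z : ι → E} {i0 i1 : ι}

theorem Crit.T2' (hz : Crit z) (h01 : i0 ≠ i1) (h5 : Fintype.card ι = 5) {m : ℝ}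
    (hm : ∀ i, i ≠ i0 → i ≠ i1 → m ≤ ‖z i‖ ^ 2) (hbig : ‖z i0‖ ^ 2 + ‖z i1‖ ^ 2 < m) :
    2 * ‖z i0‖ ^ 2 * (m - ‖z i0‖ ^ 2 - ‖z i1‖ ^ 2) <
      (4 * ‖z i0‖ ^ 2 + ⟪z i0, z i1⟫) * (2 / 5 * (m - ‖z i0‖ ^ 2 - ‖z i1‖ ^ 2) +
        23 / 120 * (6 * ‖z i0‖ ^ 2 + ‖z i1‖ ^ 2 + 2 * ⟪z i0, z i1⟫)) := by
  have hc3 := card_Qt h01 h5
  have hne : Nonempty (Qt i0 i1) := Fintype.card_pos_iff.1 (by omega)
  have hT := hz.T2 h01 h5
  set s0 := ‖z i0‖ ^ 2 with hs0
  set s1 := ‖z i1‖ ^ 2 with hs1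
  set g := ⟪z i0, z i1⟫ with hg
  have hg0 : g < 0 := hz.inner_neg i0 i1 h01
  have hs0' : 0 ≤ s0 := by positivity
  have hs1' : 0 ≤ s1 := by positivity
  set d := m - s0 - s1 with hd
  have hd0 : 0 < d := by linarith
  have hal : ∀ i : Qt i0 i1, 0 < al z i0 i1 i := fun i => al_pos hz h01 i.2.1 i.2.2
  have hbe : ∀ i : Qt i0 i1, 0 < be z i0 i1 i := fun i => be_pos hz h01 i.2.1 i.2.2
  have hals := sum_al hz h01
  have hbes := sum_be hz h01
  have hal1 : ∀ i : Qt i0 i1, al z i0 i1 i ≤ 1 := by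
    intro i
    rw [← hals]
    exact Finset.single_le_sum (f := fun i : Qt i0 i1 => al z i0 i1 i)
      (fun j _ => (hal j).le) (Finset.mem_univ i)
  have hbe1 : ∀ i : Qt i0 i1, be z i0 i1 i ≤ 1 := by
    intro i
    rw [← hbes]
    exact Finset.single_le_sum (f := fun i : Qt i0 i1 => be z i0 i1 i)
      (fun j _ => (hbe j).le) (Finset.mem_univ i)
  have hden : ∀ i : Qt i0 i1, d ≤ ‖vq z i0 i1 i‖ ^ 2 := by
    intro i
    rw [norm_vq_sq hz h01 i.2.1 i.2.2, norm_add_sq_real, norm_smul, norm_smul,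
      real_inner_smul_left, real_inner_smul_right, mul_pow, mul_pow, Real.norm_eq_abs,
      Real.norm_eq_abs, sq_abs, sq_abs, ← hs0, ← hs1, ← hg]
    have h1 := hm i i.2.1 i.2.2
    have h2 : al z i0 i1 i ^ 2 * s0 ≤ 1 * s0 := by
      apply mul_le_mul_of_nonneg_right _ hs0'
      have := hal i; have := hal1 i; nlinarith
    have h3 : be z i0 i1 i ^ 2 * s1 ≤ 1 * s1 := by
      apply mul_le_mul_of_nonneg_right _ hs1'
      have := hbe i; have := hbe1 i; nlinarith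
    have h4 : al z i0 i1 i * (be z i0 i1 i * g) ≤ 0 :=
      mul_nonpos_of_nonneg_of_nonpos (hal i).le
        (mul_nonpos_of_nonneg_of_nonpos (hbe i).le hg0.le)
    linarith
  have hnum : ∑ i : Qt i0 i1, ‖tv z i0 i1 i‖ ^ 2 ≤ 6 * s0 + s1 + 2 * g := by
    have h1 : ∀ i : Qt i0 i1, ‖tv z i0 i1 i‖ ^ 2 ≤ (1 + 3 * al z i0 i1 i) * s0 +
        be z i0 i1 i * s1 + 2 * be z i0 i1 i * g := by
      intro i
      unfold tv
      rw [norm_add_sq_real, norm_smul, norm_smul, real_inner_smul_left, real_inner_smul_right,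
        mul_pow, mul_pow, Real.norm_eq_abs, Real.norm_eq_abs, sq_abs, sq_abs, ← hs0, ← hs1, ← hg]
      have ha := hal i
      have ha1 := hal1 i
      have hb := hbe i
      have hb1 := hbe1 i
      have h2 : (1 + al z i0 i1 i) ^ 2 * s0 ≤ (1 + 3 * al z i0 i1 i) * s0 := by
        apply mul_le_mul_of_nonneg_right _ hs0'
        nlinarith
      have h3 : be z i0 i1 i ^ 2 * s1 ≤ be z i0 i1 i * s1 := by
        apply mul_le_mul_of_nonneg_right _ hs1'
        nlinarith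
      have h4 : al z i0 i1 i * (be z i0 i1 i * g) ≤ 0 :=
        mul_nonpos_of_nonneg_of_nonpos ha.le (mul_nonpos_of_nonneg_of_nonpos hb.le hg0.le)
      nlinarith
    refine (Finset.sum_le_sum (fun i _ => h1 i)).trans (le_of_eq ?_)
    rw [Finset.sum_add_distrib, Finset.sum_add_distrib, ← Finset.sum_mul, ← Finset.sum_mul,
      ← Finset.sum_mul, Finset.sum_add_distrib, ← Finset.mul_sum, ← Finset.mul_sum, hals, hbes,
      Finset.sum_const, Finset.card_univ, hc3]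
    norm_num
  have hR : ∑ i : Qt i0 i1, ‖tv z i0 i1 i‖ ^ 2 / ‖vq z i0 i1 i‖ ^ 2 ≤
      (6 * s0 + s1 + 2 * g) / d := by
    have h1 : ∀ i : Qt i0 i1, ‖tv z i0 i1 i‖ ^ 2 / ‖vq z i0 i1 i‖ ^ 2 ≤
        ‖tv z i0 i1 i‖ ^ 2 / d := fun i =>
      div_le_div_of_nonneg_left (by positivity) hd0 (hden i)
    refine (Finset.sum_le_sum (fun i _ => h1 i)).trans ?_
    rw [← Finset.sum_div]
    exact div_le_div_of_nonneg_right hnum hd0.le
  have hX : 0 ≤ 4 * s0 + g := by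
    by_contra hcon
    push Not at hcon
    have h1 : 0 ≤ 2 / 5 + 23 / 120 * ∑ i : Qt i0 i1, ‖tv z i0 i1 i‖ ^ 2 / ‖vq z i0 i1 i‖ ^ 2 := by
      positivity
    have h2 := mul_nonpos_of_nonpos_of_nonneg hcon.le h1
    linarith
  have h1 : (4 * s0 + g) *
      (2 / 5 + 23 / 120 * ∑ i : Qt i0 i1, ‖tv z i0 i1 i‖ ^ 2 / ‖vq z i0 i1 i‖ ^ 2) ≤
      (4 * s0 + g) * (2 / 5 + 23 / 120 * ((6 * s0 + s1 + 2 * g) / d)) := by
    apply mul_le_mul_of_nonneg_left _ hX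
    linarith
  have h2 := hT.trans_le h1
  have h3 := mul_lt_mul_of_pos_right h2 hd0
  refine h3.trans_le (le_of_eq ?_)
  field_simp

end Vale.Agent.P226
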