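import Vale.Agent.P226.T0

/-!
# P226: the volume bound for a Gaussian triangle
-/

open MeasureTheory ProbabilityTheory Finset Filter Topology
open scoped RealInnerProductSpace ENNReal BigOperators

namespace Vale.Agent.P226

set_option linter.unusedSectionVars false

variable {E : Type*} [NormedAddCommGroup E] [InnerProductSpace ℝ E] [FiniteDimensional ℝ E]
  [MeasurableSpace E] [BorelSpace E]

lemma phi_zero : phi 0 = (Real.sqrt (2 * Real.pi))⁻¹ := by
  unfold phi; simp

lemma phi_le_zero (t : ℝ) : phi t ≤ phi 0 := by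
  rw [phi_zero]
  unfold phi
  have h1 : Real.exp (-t ^ 2 / 2) ≤ 1 := by
    rw [Real.exp_le_one_iff]; nlinarith [sq_nonneg t]
  have h2 : 0 ≤ (Real.sqrt (2 * Real.pi))⁻¹ := by positivity
  calc _ ≤ (Real.sqrt (2 * Real.pi))⁻¹ * 1 := by gcongr
    _ = _ := mul_one _

lemma phi_zero_sq : phi 0 ^ 2 = (2 * Real.pi)⁻¹ := by
  rw [phi_zero, inv_pow, Real.sq_sqrt (by positivity)]

/-- Gaussian measure of a slab -/
lemma slab_le {w : E} (hw : w ≠ 0) {p q : ℝ} (hpq : p ≤ q) :
    (stdGaussian E).real {y | p ≤ ⟪w, y⟫ ∧ ⟪w, y⟫ ≤ q} ≤ phi 0 * (q - p) / ‖w‖ := by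
  have hn : 0 < ‖w‖ := norm_pos_iff.2 hw
  have h1 : (stdGaussian E).real {y | p ≤ ⟪w, y⟫ ∧ ⟪w, y⟫ ≤ q} =
      (gaussianReal 0 1).real (Set.Icc (p / ‖w‖) (q / ‖w‖)) := by
    have e1 : {y : E | p ≤ ⟪w, y⟫ ∧ ⟪w, y⟫ ≤ q} = (fun x => ⟪w, x⟫) ⁻¹' (Set.Icc p q) := by
      ext y; simp
    have e2 : Set.Icc (p / ‖w‖) (q / ‖w‖) = (fun t => ‖w‖ * t) ⁻¹' (Set.Icc p q) := by
      ext t
      simp only [Set.mem_Icc, Set.mem_preimage]
      rw [div_le_iff₀ hn, le_div_iff₀ hn, mul_comm t]
    unfold Measure.real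
    rw [e1, e2, ← Measure.map_apply (by fun_prop) measurableSet_Icc,
      ← Measure.map_apply (by fun_prop) measurableSet_Icc, law_inner]
  rw [h1]
  unfold Measure.real
  rw [gaussianReal_apply_eq_integral _ one_ne_zero, ENNReal.toReal_ofReal
    (integral_nonneg (fun t => gaussianPDFReal_nonneg _ _ _))]
  simp_rw [pdf_eq_phi]
  have hle : p / ‖w‖ ≤ q / ‖w‖ := by gcongr
  calc ∫ t in Set.Icc (p / ‖w‖) (q / ‖w‖), phi t ≤
      ∫ t in Set.Icc (p / ‖w‖) (q / ‖w‖), phi 0 :=
        setIntegral_mono integrable_phi.integrableOn (by simp) (fun t => phi_le_zero t)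
    _ = phi 0 * (q - p) / ‖w‖ := by
        rw [setIntegral_const, smul_eq_mul, Real.volume_real_Icc_of_le hle]
        ring

/-- **Gaussian measure of a triangle.** -/
theorem tri_le {u1 u2 u3 : E} (hsum : u1 + u2 + u3 = 0) (h1 : u1 ≠ 0)
    (hw : pj (un u1) u2 ≠ 0) (x1 x2 x3 : ℝ) (hx : 0 ≤ x1 + x2 + x3) :
    (stdGaussian E).real {y | ⟪u1, y⟫ ≤ x1 ∧ ⟪u2, y⟫ ≤ x2 ∧ ⟪u3, y⟫ ≤ x3} ≤
      (x1 + x2 + x3) ^ 2 / (4 * Real.pi * (‖u1‖ * ‖pj (un u1) u2‖)) := by
  set e := un u1 with he
  set w := pj e u2 with hwd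
  set α := ‖u1‖ with hα
  have hα0 : 0 < α := norm_pos_iff.2 h1
  have hw0 : 0 < ‖w‖ := norm_pos_iff.2 hw
  have hne : ‖e‖ = 1 := norm_un h1
  set β := ⟪u2, e⟫ with hβ
  have hu1 : ∀ y, ⟪u1, y⟫ = α * ⟪e, y⟫ := fun y => inner_un u1 y h1
  have c1 : ∀ (t : ℝ) (y : E), ⟪u1, t • e + pj e y⟫ = α * t := by
    intro t y
    rw [hu1, inner_add_right, real_inner_smul_right, inner_pj_self hne,
      real_inner_self_eq_norm_sq, hne]
    ring
  have c2 : ∀ (t : ℝ) (y : E), ⟪u2, t • e + pj e y⟫ = β * t + ⟪w, y⟫ := by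
    intro t y
    rw [inner_add_right, real_inner_smul_right, inner_pj]
    ring
  have c3 : ∀ (t : ℝ) (y : E), ⟪u3, t • e + pj e y⟫ = -(α + β) * t - ⟪w, y⟫ := by
    intro t y
    have : u3 = -u1 - u2 := by
      have := eq_neg_of_add_eq_zero_right hsum
      rw [this]; abel
    rw [this, inner_sub_left, inner_neg_left, c1, c2]
    ring
  set S : Set E := {y | ⟪u1, y⟫ ≤ x1 ∧ ⟪u2, y⟫ ≤ x2 ∧ ⟪u3, y⟫ ≤ x3} with hS
  have hmle : ∀ (u : E) (c : ℝ), MeasurableSet {y : E | ⟪u, y⟫ ≤ c} := fun u c =>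
    measurableSet_le (by fun_prop) measurable_const
  have hmge : ∀ (u : E) (c : ℝ), MeasurableSet {y : E | c ≤ ⟪u, y⟫} := fun u c =>
    measurableSet_le measurable_const (by fun_prop)
  have hSm : MeasurableSet S := (hmle u1 x1).inter ((hmle u2 x2).inter (hmle u3 x3))
  have hint : Integrable (S.indicator (fun _ => (1 : ℝ))) (stdGaussian E) :=
    (integrable_const _).indicator hSm
  have e1 : (stdGaussian E).real S = ∫ x, S.indicator (fun _ => (1 : ℝ)) x ∂(stdGaussian E) := by
    rw [integral_indicator hSm, setIntegral_const, smul_eq_mul, mul_one]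
  rw [e1, integral_rec' hne hint, integral_gaussian_phi]
  set a := -(x2 + x3) / α with ha
  set b := x1 / α with hb
  have hab : a ≤ b := by
    rw [ha, hb]
    gcongr
    linarith
  have key : ∀ t, ∫ y, S.indicator (fun _ => (1 : ℝ)) (t • e + pj e y) ∂(stdGaussian E) ≤
      (Set.Icc a b).indicator (fun t => phi 0 * (x2 + x3 + α * t) / ‖w‖) t := by
    intro t
    by_cases ht : t ∈ Set.Icc a b
    · rw [Set.indicator_of_mem ht]
      have h2 : ∀ y, S.indicator (fun _ => (1 : ℝ)) (t • e + pj e y) ≤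
          {y | -x3 - (α + β) * t ≤ ⟪w, y⟫ ∧ ⟪w, y⟫ ≤ x2 - β * t}.indicator
          (fun _ => (1 : ℝ)) y := by
        intro y
        by_cases hy : t • e + pj e y ∈ S
        · rw [Set.indicator_of_mem hy]
          obtain ⟨g1, g2, g3⟩ := hy
          rw [c2] at g2
          rw [c3] at g3
          rw [Set.indicator_of_mem]
          exact ⟨by linarith, by linarith⟩
        · rw [Set.indicator_of_notMem hy]
          exact Set.indicator_nonneg (fun _ _ => zero_le_one) _
      have hm2 : MeasurableSet {y | -x3 - (α + β) * t ≤ ⟪w, y⟫ ∧ ⟪w, y⟫ ≤ x2 - β * t} :=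
        (hmge w _).inter (hmle w _)
      have h3 : ∫ y, S.indicator (fun _ => (1 : ℝ)) (t • e + pj e y) ∂(stdGaussian E) ≤
          (stdGaussian E).real {y | -x3 - (α + β) * t ≤ ⟪w, y⟫ ∧ ⟪w, y⟫ ≤ x2 - β * t} := by
        have : (stdGaussian E).real {y | -x3 - (α + β) * t ≤ ⟪w, y⟫ ∧ ⟪w, y⟫ ≤ x2 - β * t} =
            ∫ y, {y | -x3 - (α + β) * t ≤ ⟪w, y⟫ ∧ ⟪w, y⟫ ≤ x2 - β * t}.indicator
              (fun _ => (1 : ℝ)) y ∂(stdGaussian E) := by
          rw [integral_indicator hm2, setIntegral_const, smul_eq_mul, mul_one]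
        rw [this]
        refine integral_mono_of_nonneg (Filter.Eventually.of_forall (fun y =>
          Set.indicator_nonneg (fun _ _ => zero_le_one) _))
          ((integrable_const _).indicator hm2) (Filter.Eventually.of_forall h2)
      refine h3.trans ?_
      have hle : -x3 - (α + β) * t ≤ x2 - β * t := by
        have := ht.1
        rw [ha, div_le_iff₀ hα0] at this
        linarith
      refine (slab_le hw hle).trans (le_of_eq ?_)
      congr 2
      ring
    · rw [Set.indicator_of_notMem ht]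
      refine le_of_eq ?_
      have h2 : ∀ y, S.indicator (fun _ => (1 : ℝ)) (t • e + pj e y) = 0 := by
        intro y
        apply Set.indicator_of_notMem
        rintro ⟨g1, g2, g3⟩
        apply ht
        rw [c1] at g1
        rw [c2] at g2
        rw [c3] at g3
        constructor
        · rw [ha, div_le_iff₀ hα0]
          linarith
        · rw [hb, le_div_iff₀ hα0]
          linarith
      simp_rw [h2]
      simp
  have hcont : Continuous (fun t : ℝ => phi 0 * (phi 0 * (x2 + x3 + α * t) / ‖w‖)) := by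
    fun_prop
  calc ∫ t, phi t * ∫ y, S.indicator (fun _ => (1 : ℝ)) (t • e + pj e y) ∂(stdGaussian E)
      ≤ ∫ t, (Set.Icc a b).indicator
          (fun t => phi 0 * (phi 0 * (x2 + x3 + α * t) / ‖w‖)) t := by
        refine integral_mono_of_nonneg (Filter.Eventually.of_forall (fun t => ?_)) ?_
          (Filter.Eventually.of_forall (fun t => ?_))
        · refine mul_nonneg (phi_pos t).le (integral_nonneg (fun y => ?_))
          exact Set.indicator_nonneg (fun _ _ => zero_le_one) _
        · rw [integrable_indicator_iff measurableSet_Icc]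
          exact hcont.continuousOn.integrableOn_Icc
        · have h2 := key t
          have h0 : 0 ≤ ∫ y, S.indicator (fun _ => (1 : ℝ)) (t • e + pj e y) ∂(stdGaussian E) :=
            integral_nonneg (fun y => Set.indicator_nonneg (fun _ _ => zero_le_one) _)
          have h3 : phi t * ∫ y, S.indicator (fun _ => (1 : ℝ)) (t • e + pj e y) ∂(stdGaussian E)
              ≤ phi 0 * (Set.Icc a b).indicator (fun t => phi 0 * (x2 + x3 + α * t) / ‖w‖) t := by
            calc _ ≤ phi 0 * ∫ y, S.indicator (fun _ => (1 : ℝ)) (t • e + pj e y)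
                  ∂(stdGaussian E) := mul_le_mul_of_nonneg_right (phi_le_zero t) h0
              _ ≤ _ := mul_le_mul_of_nonneg_left h2 (phi_pos 0).le
          refine h3.trans (le_of_eq ?_)
          by_cases ht : t ∈ Set.Icc a b
          · rw [Set.indicator_of_mem ht, Set.indicator_of_mem ht]
          · rw [Set.indicator_of_notMem ht, Set.indicator_of_notMem ht, mul_zero]
    _ = (x1 + x2 + x3) ^ 2 / (4 * Real.pi * (α * ‖w‖)) := by
        rw [integral_indicator measurableSet_Icc, integral_Icc_eq_integral_Ioc,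
          ← intervalIntegral.integral_of_le hab]
        have hd : ∀ t ∈ Set.uIcc a b, HasDerivAt (fun t : ℝ => phi 0 ^ 2 / ‖w‖ *
            ((x2 + x3 + α * t) ^ 2 / (2 * α))) (phi 0 * (phi 0 * (x2 + x3 + α * t) / ‖w‖)) t := by
          intro t _
          have g1 : HasDerivAt (fun t : ℝ => x2 + x3 + α * t) α t := by
            have := ((hasDerivAt_id t).const_mul α).const_add (x2 + x3)
            simpa using this
          have g2 := ((g1.pow 2).div_const (2 * α)).const_mul (phi 0 ^ 2 / ‖w‖)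
          refine g2.congr_deriv ?_
          field_simp
          ring
        rw [intervalIntegral.integral_eq_sub_of_hasDerivAt hd (hcont.intervalIntegrable _ _)]
        have e2 : x2 + x3 + α * b = x1 + x2 + x3 := by
          rw [hb]; field_simp; ring
        have e3 : x2 + x3 + α * a = 0 := by
          rw [ha]; field_simp; ring
        rw [e2, e3, phi_zero_sq]
        field_simp
        ring

end Vale.Agent.P226
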