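import Vale.Agent.P226.Vol
import Vale.Agent.P226.Cap3

/-!
# P226: the volume bound for the removal loss, four cells
-/

open MeasureTheory ProbabilityTheory Finset Filter Topology
open scoped RealInnerProductSpace ENNReal BigOperators

namespace Vale.Agent.P226

set_option linter.unusedSectionVars false

variable {E : Type*} [NormedAddCommGroup E] [InnerProductSpace ℝ E] [FiniteDimensional ℝ E]
  [MeasurableSpace E] [BorelSpace E]

section tri
variable {κ : Type*} [Fintype κ] {v : κ → E} (hv : Frame v) (b : κ → ℝ) {j k l : κ}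
include hv

lemma sum_three (hjk : j ≠ k) (hjl : j ≠ l) (hkl : k ≠ l) (hall : ∀ i, i = j ∨ i = k ∨ i = l)
    {M : Type*} [AddCommMonoid M] (f : κ → M) : ∑ i, f i = f j + f k + f l := by
  classical
  have : (Finset.univ : Finset κ) = {j, k, l} := by
    ext i
    simp only [Finset.mem_univ, Finset.mem_insert, Finset.mem_singleton, true_iff]
    exact hall i
  rw [this, Finset.sum_insert (by simp [hjk, hjl]), Finset.sum_pair hkl, add_assoc]

lemma tri_v (hjk : j ≠ k) (hjl : j ≠ l) (hkl : k ≠ l) (hall : ∀ i, i = j ∨ i = k ∨ i = l) :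
    v j + v k + v l = 0 := by
  rw [← sum_three hv hjk hjl hkl hall, hv.sum_zero]

/-- the Gram determinant -/
lemma tri_D (hjk : j ≠ k) (hjl : j ≠ l) (hkl : k ≠ l) (hall : ∀ i, i = j ∨ i = k ∨ i = l) :
    (‖v j‖ * ‖pj (un (v j)) (v k)‖) ^ 2 =
      ⟪v j, v k⟫ * ⟪v j, v l⟫ + ⟪v j, v k⟫ * ⟪v k, v l⟫ + ⟪v j, v l⟫ * ⟪v k, v l⟫ := by
  have h0 : v l = -v j - v k := by
    have := eq_neg_of_add_eq_zero_right (tri_v hv hjk hjl hkl hall)
    rw [this]; abel
  have h1 : 0 < ‖v j‖ := norm_pos_iff.2 (hv.pos j)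
  rw [mul_pow, norm_sq_pj (norm_un (hv.pos j))]
  have h2 : ⟪un (v j), v k⟫ = ⟪v j, v k⟫ / ‖v j‖ := by
    unfold un
    rw [real_inner_smul_left]
    field_simp
  rw [h2, h0]
  simp only [inner_sub_right, inner_neg_right, real_inner_self_eq_norm_sq]
  rw [real_inner_comm (v j) (v k)]
  field_simp
  ring

lemma P2_le (hjk : j ≠ k) (hjl : j ≠ l) (hkl : k ≠ l) (hall : ∀ i, i = j ∨ i = k ∨ i = l)
    (hb : ∑ i, b i = 1) (hD : 0 < ‖v j‖ * ‖pj (un (v j)) (v k)‖) (t r : ℝ) :
    P2 v b t r ≤ (max (4 * t - 6 * r) 0) ^ 2 /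
      (4 * Real.pi * (‖v j‖ * ‖pj (un (v j)) (v k)‖)) := by
  have hs : ∑ i, ((1 + b i) * t - 2 * r) = 4 * t - 6 * r := by
    have hb' := hb
    rw [sum_three hv hjk hjl hkl hall] at hb' ⊢
    linear_combination t * hb'
  rcases lt_or_ge (4 * t - 6 * r) 0 with h | h
  · have : P2 v b t r = 0 := by
      unfold P2
      exact hv.PiG_eq_zero (by rw [hs]; exact h)
    rw [this]
    positivity
  · rw [max_eq_left h]
    rw [sum_three hv hjk hjl hkl hall] at hs
    have h2 := tri_le (tri_v hv hjk hjl hkl hall) (hv.pos j)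
      (fun h0 => by rw [h0, norm_zero, mul_zero] at hD; exact lt_irrefl _ hD)
      ((1 + b j) * t - 2 * r) ((1 + b k) * t - 2 * r) ((1 + b l) * t - 2 * r)
      (by rw [hs]; exact h)
    rw [hs] at h2
    refine le_trans (le_of_eq ?_) h2
    unfold P2 PiG
    congr 1
    ext y
    simp only [Set.mem_ofPred_eq]
    constructor
    · intro h; exact ⟨h j, h k, h l⟩
    · rintro ⟨g1, g2, g3⟩ i
      rcases hall i with rfl | rfl | rfl
      · exact g1
      · exact g2
      · exact g3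

lemma int_P2_le (hjk : j ≠ k) (hjl : j ≠ l) (hkl : k ≠ l) (hall : ∀ i, i = j ∨ i = k ∨ i = l)
    (hb : ∑ i, b i = 1) (hD : 0 < ‖v j‖ * ‖pj (un (v j)) (v k)‖) {t : ℝ} (ht : 0 < t) :
    ∫ r in Set.Ioi 0, P2 v b t r ≤ 8 / 9 * t ^ 3 /
      (Real.pi * (‖v j‖ * ‖pj (un (v j)) (v k)‖)) := by
  set D := ‖v j‖ * ‖pj (un (v j)) (v k)‖ with hDd
  have hcont : Continuous (fun r : ℝ => (4 * t - 6 * r) ^ 2 / (4 * Real.pi * D)) := by fun_prop
  have h1 : ∫ r in Set.Ioi 0, P2 v b t r ≤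
      ∫ r in Set.Ioi 0, (Set.Ioc 0 (2 / 3 * t)).indicator
        (fun r : ℝ => (4 * t - 6 * r) ^ 2 / (4 * Real.pi * D)) r := by
    refine integral_mono_of_nonneg (Filter.Eventually.of_forall (fun r => P2_nonneg _ _ _ _)) ?_ ?_
    · refine Integrable.integrableOn ?_
      rw [integrable_indicator_iff measurableSet_Ioc]
      exact hcont.integrableOn_Ioc
    · filter_upwards [ae_restrict_mem measurableSet_Ioi] with r hr
      have hr0 : (0 : ℝ) < r := hr
      refine (P2_le hv b hjk hjl hkl hall hb hD t r).trans ?_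
      by_cases hrt : r ≤ 2 / 3 * t
      · rw [Set.indicator_of_mem (show r ∈ Set.Ioc 0 (2 / 3 * t) from ⟨hr0, hrt⟩),
          max_eq_left (by linarith)]
      · rw [Set.indicator_of_notMem (fun h => hrt h.2), max_eq_right (by linarith)]
        simp
  refine h1.trans (le_of_eq ?_)
  rw [setIntegral_indicator measurableSet_Ioc]
  have h2 : Set.Ioi (0 : ℝ) ∩ Set.Ioc 0 (2 / 3 * t) = Set.Ioc 0 (2 / 3 * t) := by
    ext r
    simp only [Set.mem_inter_iff, Set.mem_Ioi, Set.mem_Ioc]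
    tauto
  rw [h2, ← intervalIntegral.integral_of_le (by positivity)]
  have hd : ∀ r ∈ Set.uIcc (0 : ℝ) (2 / 3 * t), HasDerivAt
      (fun r : ℝ => -((4 * t - 6 * r) ^ 3 / (72 * Real.pi * D)))
      ((4 * t - 6 * r) ^ 2 / (4 * Real.pi * D)) r := by
    intro r _
    have g1 : HasDerivAt (fun r : ℝ => 4 * t - 6 * r) (-6) r := by
      have := ((hasDerivAt_id r).const_mul 6).const_sub (4 * t)
      simpa using this
    have g2 := ((g1.pow 3).div_const (72 * Real.pi * D)).neg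
    refine g2.congr_deriv ?_
    field_simp
    ring
  rw [intervalIntegral.integral_eq_sub_of_hasDerivAt hd (hcont.intervalIntegrable _ _)]
  field_simp
  ring

lemma int_Gam_le4 (hjk : j ≠ k) (hjl : j ≠ l) (hkl : k ≠ l) (hall : ∀ i, i = j ∨ i = k ∨ i = l)
    (hb : ∑ i, b i = 1) (hcard : 2 ≤ Fintype.card κ)
    (hD : 0 < ‖v j‖ * ‖pj (un (v j)) (v k)‖) :
    ∫ t in Set.Ioi 0, ∫ r in Set.Ioi 0, phi (t + r) * Gam v b t r ≤
      16 / 9 * phi 0 / (Real.pi * (‖v j‖ * ‖pj (un (v j)) (v k)‖)) := by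
  set D := ‖v j‖ * ‖pj (un (v j)) (v k)‖ with hDd
  rw [← fub hv b hb hcard]
  have hi3 : IntegrableOn (fun y : ℝ => y ^ 3 * Real.exp (-y ^ 2 / 2)) (Set.Ioi 0) := by
    by_contra h
    have := integral_undef h
    rw [int_gauss3] at this
    norm_num at this
  have hint : Integrable ((Set.Ioi (0 : ℝ)).indicator
      (fun t : ℝ => 8 / 9 * phi 0 / (Real.pi * D) * (t ^ 3 * Real.exp (-t ^ 2 / 2)))) := by
    rw [integrable_indicator_iff measurableSet_Ioi]
    exact hi3.const_mul _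
  calc ∫ t, phi t * ∫ r in Set.Ioi 0, P2 v b t r ≤
      ∫ t, (Set.Ioi (0 : ℝ)).indicator
        (fun t : ℝ => 8 / 9 * phi 0 / (Real.pi * D) * (t ^ 3 * Real.exp (-t ^ 2 / 2))) t := by
        refine integral_mono_of_nonneg (Filter.Eventually.of_forall (fun t => ?_)) hint
          (Filter.Eventually.of_forall (fun t => ?_))
        · exact mul_nonneg (phi_pos t).le (integral_nonneg (fun r => P2_nonneg _ _ _ _))
        · rcases lt_or_ge 0 t with ht | ht
          · rw [Set.indicator_of_mem (show t ∈ Set.Ioi (0 : ℝ) from ht)]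
            have h1 := int_P2_le hv b hjk hjl hkl hall hb hD ht
            calc phi t * ∫ r in Set.Ioi 0, P2 v b t r ≤
                phi t * (8 / 9 * t ^ 3 / (Real.pi * D)) :=
                  mul_le_mul_of_nonneg_left h1 (phi_pos t).le
              _ = _ := by
                  rw [phi_zero]
                  unfold phi
                  ring
          · rw [Set.indicator_of_notMem (by simpa using ht)]
            refine le_of_eq ?_
            have : ∫ r in Set.Ioi 0, P2 v b t r = 0 := by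
              refine setIntegral_eq_zero_of_forall_eq_zero (fun r hr => ?_)
              have hr0 : (0 : ℝ) < r := hr
              exact P2_zero hv b hb hcard (lt_of_le_of_lt ht hr0) hr0
            simp only [this, mul_zero]
    _ = _ := by
        rw [integral_indicator measurableSet_Ioi, integral_const_mul, int_gauss3]
        ring

end tri

section crit
variable {ι : Type*} [Fintype ι] [DecidableEq ι] {z : ι → E}

/-- **Volume bound for the removal loss (four cells).** -/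
theorem Crit.del_sq_le (hz : Crit z) {i0 j k l : ι} (hj : j ≠ i0) (hk : k ≠ i0) (hl : l ≠ i0)
    (hjk : j ≠ k) (hjl : j ≠ l) (hkl : k ≠ l) (hall : ∀ i, i = i0 ∨ i = j ∨ i = k ∨ i = l)
    [hne : Nonempty {i // i ≠ i0}] :
    del z i0 ^ 2 * (⟪z j, z k⟫ * ⟪z j, z l⟫ + ⟪z j, z k⟫ * ⟪z k, z l⟫ + ⟪z j, z l⟫ * ⟪z k, z l⟫)
      ≤ 512 / (81 * Real.pi ^ 3) * ‖z i0‖ ^ 6 := by
  have h0 : z i0 ≠ 0 := hz.ne_zero hj
  have hp : 0 < ‖z i0‖ := norm_pos_iff.2 h0
  have hcard4 : 3 ≤ Fintype.card ι := by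
    have : ({j, k, l} : Finset ι) ⊆ Finset.univ := Finset.subset_univ _
    have h2 := Finset.card_le_card this
    rw [Finset.card_insert_of_notMem (by simp [hjk, hjl]), Finset.card_pair hkl,
      Finset.card_univ] at h2
    exact h2
  have hF := hz.frame i0 hcard4
  set v := vv z i0 with hvd
  set b := bb z i0 with hbd
  let J : {i // i ≠ i0} := ⟨j, hj⟩
  let K : {i // i ≠ i0} := ⟨k, hk⟩
  let L : {i // i ≠ i0} := ⟨l, hl⟩
  have hJK : J ≠ K := fun h => hjk (congrArg Subtype.val h)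
  have hJL : J ≠ L := fun h => hjl (congrArg Subtype.val h)
  have hKL : K ≠ L := fun h => hkl (congrArg Subtype.val h)
  have hall' : ∀ i : {i // i ≠ i0}, i = J ∨ i = K ∨ i = L := by
    intro i
    rcases hall i with h | h | h | h
    · exact absurd h i.2
    · exact Or.inl (Subtype.ext h)
    · exact Or.inr (Or.inl (Subtype.ext h))
    · exact Or.inr (Or.inr (Subtype.ext h))
  have hcard : 2 ≤ Fintype.card {i // i ≠ i0} := by
    rw [Fintype.card_subtype_compl, Fintype.card_subtype_eq]; omega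
  have hb := bb_sum hz i0 hne
  have hbJ := bb_pos hz J
  have hbK := bb_pos hz K
  have hbL := bb_pos hz L
  have gJK := hz.inner_neg j k hjk
  have gJL := hz.inner_neg j l hjl
  have gKL := hz.inner_neg k l hkl
  have iJK := inner_vv h0 J K
  have iJL := inner_vv h0 J L
  have iKL := inner_vv h0 K L
  have hDsq := tri_D hF hJK hJL hKL hall'
  set D := ‖v J‖ * ‖pj (un (v J)) (v K)‖ with hDd
  rw [iJK, iJL, iKL] at hDsq
  have e1 : ⟪z J, z K⟫ = ⟪z j, z k⟫ := rfl
  have e2 : ⟪z J, z L⟫ = ⟪z j, z l⟫ := rfl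
  have e3 : ⟪z K, z L⟫ = ⟪z k, z l⟫ := rfl
  rw [e1, e2, e3] at hDsq
  set s := ‖z i0‖ ^ 2 with hs
  have hs0 : 0 < s := by positivity
  obtain ⟨p, hp1⟩ : ∃ p, p = -⟪z j, z k⟫ := ⟨_, rfl⟩
  obtain ⟨q, hq1⟩ : ∃ q, q = -⟪z j, z l⟫ := ⟨_, rfl⟩
  obtain ⟨r, hr1⟩ : ∃ r, r = -⟪z k, z l⟫ := ⟨_, rfl⟩
  have hp2 : ⟪z j, z k⟫ = -p := by rw [hp1]; ring
  have hq2 : ⟪z j, z l⟫ = -q := by rw [hq1]; ring
  have hr2 : ⟪z k, z l⟫ = -r := by rw [hr1]; ring
  rw [hp2] at gJK hDsq ⊢
  rw [hq2] at gJL hDsq ⊢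
  rw [hr2] at gKL hDsq ⊢
  have hp0 : 0 < p := by linarith
  have hq0 : 0 < q := by linarith
  have hr0 : 0 < r := by linarith
  have hbJK : 0 < bb z i0 J * bb z i0 K := mul_pos hbJ hbK
  have hbJL : 0 < bb z i0 J * bb z i0 L := mul_pos hbJ hbL
  have hbKL : 0 < bb z i0 K * bb z i0 L := mul_pos hbK hbL
  have hDge : (p * q + p * r + q * r) / s ^ 2 ≤ D ^ 2 := by
    rw [hDsq]
    have t1 : 0 < p / s := by positivity
    have t2 : 0 < q / s := by positivity
    have t3 : 0 < r / s := by positivity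
    have e : (p * q + p * r + q * r) / s ^ 2 =
        (p / s) * (q / s) + (p / s) * (r / s) + (q / s) * (r / s) := by
      field_simp
    rw [e]
    simp only [neg_div]
    nlinarith [mul_pos t1 hbJL, mul_pos t1 hbKL, mul_pos t2 hbJK, mul_pos t2 hbKL,
      mul_pos t3 hbJK, mul_pos t3 hbJL, mul_pos hbJK hbJL, mul_pos hbJK hbKL, mul_pos hbJL hbKL]
  have hDpos : 0 < D := by
    have h1 : 0 < D ^ 2 := lt_of_lt_of_le (by positivity) hDge
    have h2 : 0 ≤ D := by positivity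
    exact lt_of_le_of_ne h2 (fun h => by rw [← h] at h1; norm_num at h1)
  have hI := int_Gam_le4 hF b hJK hJL hKL hall' hb hcard hDpos
  have hdel := del_eq hz i0 hcard4 hne
  set I := ∫ t in Set.Ioi 0, ∫ r in Set.Ioi 0, phi (t + r) * Gam v b t r with hId
  have hI0 : 0 ≤ I := by
    refine integral_nonneg (fun t => integral_nonneg (fun r => ?_))
    exact mul_nonneg (phi_pos _).le (Gam_nonneg _ _ _ _)
  have hID : I * D ≤ 16 / 9 * phi 0 / Real.pi := by
    calc I * D ≤ (16 / 9 * phi 0 / (Real.pi * D)) * D :=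
          mul_le_mul_of_nonneg_right hI hDpos.le
      _ = _ := by field_simp
  have hID2 : (I * D) ^ 2 ≤ 128 / (81 * Real.pi ^ 3) := by
    calc (I * D) ^ 2 ≤ (16 / 9 * phi 0 / Real.pi) ^ 2 := by
          gcongr
      _ = 256 / 81 * phi 0 ^ 2 / Real.pi ^ 2 := by ring
      _ = _ := by rw [phi_zero_sq]; field_simp; norm_num
  have h6 : ‖z i0‖ ^ 6 = s ^ 3 := by rw [hs]; ring
  rw [h6]
  have hdel2 : del z i0 ^ 2 = 4 * s * I ^ 2 := by
    rw [hdel, hs]; ring
  have e : -p * -q + -p * -r + -q * -r = p * q + p * r + q * r := by ring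
  rw [e, hdel2]
  have h7 : (p * q + p * r + q * r) ≤ s ^ 2 * D ^ 2 := by
    rw [div_le_iff₀ (by positivity)] at hDge
    linarith
  calc 4 * s * I ^ 2 * (p * q + p * r + q * r) ≤ 4 * s * I ^ 2 * (s ^ 2 * D ^ 2) := by
        apply mul_le_mul_of_nonneg_left h7 (by positivity)
    _ = 4 * s ^ 3 * (I * D) ^ 2 := by ring
    _ ≤ 4 * s ^ 3 * (128 / (81 * Real.pi ^ 3)) := by
        apply mul_le_mul_of_nonneg_left hID2 (by positivity)
    _ = _ := by ring

end crit

end Vale.Agent.P226
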